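import Vale.Agent.P236B.Typ
import Mathlib.NumberTheory.Basic

/-!
# P236 / B : coordinates on isomorphisms, ghost equations, criteria

* `existsUnique_fT` : over a `p`-local ring every strict isomorphism between Hazewinkel laws is
  `fT p v t` for exactly one `t`;
* `IsLog p v m` : `m_0 = 1`, `p m_{n+1} = ∑ m_i v_{n+1-i}^{p^i}`; `IsLog.eta`, `IsLog.del` : the
  ghost equations in rings without `p`-torsion;
* `MM p v n = p^n m_n`, `MM_eta`, `MM_del` : the ghost equations in every ring;
* `eta_crit`, `del_crit` : criteria for explicit formulas modulo `p^e`;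
* `fT_v0`, `eta_v0`, `del_v0` : `v = 0`; `eta_sub_mem`, `HI_eta` : the invariant ideals.
-/

noncomputable section

namespace Vale.Agent.P236B

open MvPowerSeries Vale.Agent.P217 Vale.Agent.P251.F Vale.Agent.P257.H80
open Vale.Agent.P257.H93 (addMk IsAdd tc FpA)
open Vale.Agent.P257.H134 (comp)

variable {A B : Type} [CommRing A] [CommRing B] (p : ℕ) [hp : Fact p.Prime]

/-! ### coordinates -/

omit hp in
theorem coeff_mul_sub {g f f' : InvSeries B} (hg : g ∈ strict B) {N : ℕ} {c : PowerSeries B}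
    (hc : c ∈ ordI Unit B (N + 1)) (h : f.val - f'.val - c ∈ ordI Unit B (N + 2)) :
    (g * f).val - (g * f').val - c ∈ ordI Unit B (N + 2) := by
  have h5 : g.val - PowerSeries.X ∈ ordI Unit B 2 := by
    have := val_sub_mem (f := g) (g := 1) (n := 1) fun k hk => by
      obtain rfl : k = 0 := by omega
      rw [mem_strict.1 hg, InvSeries.c_zero_one]
    exact this
  have h1 : f.val - f'.val ∈ ordI Unit B (N + 1) := by
    have := Ideal.add_mem _ (ordI_anti (by omega) h) hc
    rwa [sub_add_cancel] at this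
  have h2 := psubst_sub_mem_ordI f.val_mem f'.val_mem h1 h5
  rw [PowerSeries.subst_sub f.hs, PowerSeries.subst_sub f'.hs, PowerSeries.subst_X f.hs,
    PowerSeries.subst_X f'.hs] at h2
  have h3 := Ideal.add_mem _ h2 h
  rw [InvSeries.mul_val, InvSeries.mul_val]
  convert h3 using 1
  ring

/-- a strict isomorphism between Hazewinkel laws without terms `x^(p^k)` is the identity -/
theorem eq_one_of_coeff (hB : PLoc p B) {b : InvSeries B} (hb : b ∈ strict B) {v v' : ℕ → B}
    (h : b • hz p v = hz p v') (h0 : ∀ k, PowerSeries.coeff (p ^ (k + 1)) b.val = 0) : b = 1 := by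
  classical
  set c : ℕ → B := fun n => if ∃ k, n + 2 = p ^ k then seqV p (vH v') n else b.c (n + 1) with hc
  have h1 : bS p c = fun n => b.c (n + 1) := by
    funext n
    unfold bS
    split_ifs with hn
    · obtain ⟨k, hk⟩ := hn
      rcases k with _ | k
      · rw [pow_zero] at hk
        omega
      · rw [InvSeries.c, show n + 1 + 1 = p ^ (k + 1) from hk, h0]
    · rw [hc]
      exact if_neg hn
  have h2 : vS p c = vH v' := by
    rw [← vS_seqV p (vH v')]
    apply MvPolynomial.ringHom_ext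
    · intro r
      simp
    · intro k
      rw [vS_X, vS_X, hc]
      exact if_pos ⟨k + 1, Nat.sub_add_cancel (two_le_pow hp.out (Nat.succ_ne_zero k))⟩
  have h3 : IsTyp p (hz p v) c := by
    unfold IsTyp
    rw [h1, h2, strictMk_c hb, h]
    rfl
  have h4 := eq_typ p hB h3
  rw [hz, typ_haz p hB] at h4
  rw [h4, bS_seqV] at h1
  rw [← strictMk_c hb, ← h1, strictMk_zero]

/-- **Coordinates on the isomorphisms between Hazewinkel laws.** -/
theorem exists_fT (hB : PLoc p B) {g : InvSeries B} (hg : g ∈ strict B) {v v' : ℕ → B}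
    (h : g • hz p v' = hz p v) : ∃ t, g = fT p v t := by
  obtain ⟨t, ht, -⟩ := exists_unique_triangular (B := B)
    (fun t k => PowerSeries.coeff (p ^ (k + 1)) (g⁻¹ * fT p v t).val) (fun _ => 1)
    (fun _ => isUnit_one) (by
      intro k t t' htt
      obtain ⟨N, hN⟩ : ∃ N, p ^ (k + 1) = N + 1 :=
        ⟨p ^ (k + 1) - 1, by have := one_le_pp p (k + 1); omega⟩
      have h1 := fS_compare p (hz p v) htt
      have h2 := tm_mem p (t k - t' k) k
      rw [hN] at h1 h2
      have h3 := mem_ordI_unit.1 (coeff_mul_sub ((strict B).inv_mem hg) h2 h1) (N + 1) (by omega)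
      rw [map_sub, map_sub, coeff_tm, if_pos hN.symm, sub_eq_zero, ← hN] at h3
      rw [one_mul]
      exact h3)
  have h1 := eq_one_of_coeff p hB (mul_mem ((strict B).inv_mem hg) (fT_mem p v t))
    (v := eta p v t) (v' := v') (by rw [mul_smul, fT_smul, ← h, inv_smul_smul]) ht
  exact ⟨t, inv_mul_eq_one.1 h1⟩

theorem existsUnique_fT (hB : PLoc p B) {g : InvSeries B} (hg : g ∈ strict B) {v v' : ℕ → B}
    (h : g • hz p v' = hz p v) : ∃! t, g = fT p v t := by
  obtain ⟨t, ht⟩ := exists_fT p hB hg h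
  exact ⟨t, ht, fun t' ht' => fT_injective p v (ht'.symm.trans ht)⟩

theorem existsUnique_fT_inv (hB : PLoc p B) {g : InvSeries B} (hg : g ∈ strict B) {v v' : ℕ → B}
    (h : g • hz p v = hz p v') : ∃! t, (fT p v t)⁻¹ = g := by
  obtain ⟨t, ht, hu⟩ := existsUnique_fT p hB ((strict B).inv_mem hg) (v := v) (v' := v')
    (by rw [← h, inv_smul_smul])
  exact ⟨t, by beta_reduce; rw [← ht, inv_inv], fun t' ht' => hu t' (by rw [← ht', inv_inv])⟩

theorem pLoc_of_cast (hB : (p : B) = 0) : PLoc p B := by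
  intro m hm
  have h1 : IsUnit ((m : ℕ) : ZMod p) := by
    rw [ZMod.isUnit_iff_coprime]
    exact ((Nat.Prime.coprime_iff_not_dvd hp.out).2 hm).symm
  have h2 := h1.map (ZMod.castHom (show ringChar B ∣ p from (ringChar.spec B p).1 hB) B)
  rwa [map_natCast] at h2

/-! ### division free ghost equations -/

/-- `p^n m_n` -/
def MM (v : ℕ → B) : ℕ → B
  | 0 => 1
  | n + 1 => ∑ i : Fin (n + 1), (p : B) ^ (n - i) * MM v i * v (n - i) ^ p ^ (i : ℕ)

omit hp in
theorem MM_zero (v : ℕ → B) : MM p v 0 = 1 := by rw [MM]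

omit hp in
theorem MM_succ (v : ℕ → B) (n : ℕ) : MM p v (n + 1) =
    ∑ i ∈ Finset.range (n + 1), (p : B) ^ (n - i) * MM p v i * v (n - i) ^ p ^ i := by
  rw [MM, Finset.sum_range]

omit hp in
theorem map_MM (φ : A →+* B) (v : ℕ → A) (n : ℕ) : φ (MM p v n) = MM p (fun i => φ (v i)) n := by
  induction n using Nat.strong_induction_on with
  | _ n ih =>
    rcases n with _ | n
    · rw [MM_zero, MM_zero, map_one]
    · rw [MM_succ, MM_succ, map_sum]
      refine Finset.sum_congr rfl fun i hi => ?_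
      rw [Finset.mem_range] at hi
      rw [map_mul, map_mul, map_pow, map_pow, map_natCast, ih i hi]

/-- `m` is the sequence of coefficients of the logarithm of `hz p v` -/
def IsLog (v m : ℕ → B) : Prop :=
  m 0 = 1 ∧ ∀ n, (p : B) * m (n + 1) = ∑ i ∈ Finset.range (n + 1), m i * v (n - i) ^ p ^ i

omit hp in
theorem IsLog.map {v m : ℕ → A} (h : IsLog p v m) (φ : A →+* B) :
    IsLog p (fun i => φ (v i)) fun i => φ (m i) := by
  refine ⟨by beta_reduce; rw [h.1, map_one], fun n => ?_⟩
  have h1 := congrArg φ (h.2 n)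
  simpa only [map_mul, map_natCast, map_sum, map_pow] using h1

theorem isLog_lq {K : Type} [CommRing K] [Algebra ℚ K] (v : ℕ → K) : IsLog p v (lq p v) :=
  ⟨lq_zero p v, lq_succ p v⟩

omit hp in
theorem IsLog.MM_eq {v m : ℕ → B} (h : IsLog p v m) (n : ℕ) : MM p v n = (p : B) ^ n * m n := by
  induction n using Nat.strong_induction_on with
  | _ n ih =>
    rcases n with _ | n
    · rw [MM_zero, h.1, pow_zero, mul_one]
    · rw [MM_succ, pow_succ, mul_assoc, h.2, Finset.mul_sum]
      refine Finset.sum_congr rfl fun i hi => ?_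
      rw [Finset.mem_range] at hi
      rw [ih i hi, ← mul_assoc, ← pow_add, show n - i + i = n by omega, mul_assoc]

/-- `∑_{a+b=n} p^b g_a h_b^{p^a}` -/
def pcomp (g h : ℕ → B) (n : ℕ) : B :=
  ∑ i ∈ Finset.range (n + 1), (p : B) ^ (n - i) * g i * h (n - i) ^ p ^ i

omit hp in
theorem map_pcomp (φ : A →+* B) (g h : ℕ → A) (n : ℕ) :
    φ (pcomp p g h n) = pcomp p (fun i => φ (g i)) (fun i => φ (h i)) n := by
  simp only [pcomp, map_sum, map_mul, map_pow, map_natCast]

omit hp in
theorem pcomp_eq {g m : ℕ → B} (hg : ∀ i, g i = (p : B) ^ i * m i) (h : ℕ → B) (n : ℕ) :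
    pcomp p g h n = (p : B) ^ n * comp p m h n := by
  rw [pcomp, comp_range, Finset.mul_sum]
  refine Finset.sum_congr rfl fun i hi => ?_
  rw [Finset.mem_range] at hi
  rw [hg, ← mul_assoc, ← pow_add, show n - i + i = n by omega, mul_assoc]

/-- **ghost equation for the right unit** -/
theorem MM_eta (v t : ℕ → B) (n : ℕ) : MM p (eta p v t) n = pcomp p (MM p v) (hat t) n := by
  have h : ∀ v t : ℕ → MvPolynomial (ℕ ⊕ ℕ) ℤ,
      MM p (eta p v t) n = pcomp p (MM p v) (hat t) n := by
    intro v t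
    apply toQ_injective
    rw [map_MM, map_pcomp]
    simp only [map_eta, map_MM, map_hat]
    rw [(isLog_lq p _).MM_eq, pcomp_eq p (isLog_lq p _).MM_eq, lq_of_smul p (eta_spec p _ _)]
  have h1 := congrArg (ev2 v t) (h (fun i => MvPolynomial.X (Sum.inl i))
    fun i => MvPolynomial.X (Sum.inr i))
  rw [map_MM, map_pcomp] at h1
  simpa only [map_eta, map_MM, map_hat, ev2_inl, ev2_inr] using h1

/-- **ghost equation for the coproduct** -/
theorem MM_del (v t t' : ℕ → B) (n : ℕ) :
    pcomp p (MM p v) (hat (del p v t t')) n = pcomp p (MM p (eta p v t)) (hat t') n := by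
  rw [← MM_eta, ← MM_eta, eta_del]

omit hp in
theorem pow_cancel (hB : ∀ x : B, (p : B) * x = 0 → x = 0) {n : ℕ} {a b : B}
    (h : (p : B) ^ n * a = (p : B) ^ n * b) : a = b := by
  induction n with
  | zero => simpa using h
  | succ n ih =>
    apply ih
    rw [← sub_eq_zero]
    apply hB
    rw [pow_succ'] at h
    linear_combination h

omit hp in
theorem isLog_of_MM (hB : ∀ x : B, (p : B) * x = 0 → x = 0) {v m : ℕ → B}
    (h : ∀ n, MM p v n = (p : B) ^ n * m n) : IsLog p v m := by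
  refine ⟨by have := h 0; rw [MM_zero, pow_zero, one_mul] at this; exact this.symm, fun n => ?_⟩
  apply pow_cancel p hB (n := n)
  rw [← mul_assoc, ← pow_succ, ← h, MM_succ, Finset.mul_sum]
  refine Finset.sum_congr rfl fun i hi => ?_
  rw [Finset.mem_range] at hi
  rw [h i, ← mul_assoc, ← pow_add, show n - i + i = n by omega, mul_assoc]

/-- `η(m_n) = ∑ m_i t_{n-i}^{p^i}` -/
theorem IsLog.eta (hB : ∀ x : B, (p : B) * x = 0 → x = 0) {v m : ℕ → B} (h : IsLog p v m)
    (t : ℕ → B) : IsLog p (eta p v t) (comp p m (hat t)) :=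
  isLog_of_MM p hB fun n => by rw [MM_eta, pcomp_eq p h.MM_eq]

theorem IsLog.del (hB : ∀ x : B, (p : B) * x = 0 → x = 0) {v m : ℕ → B} (h : IsLog p v m)
    (t t' : ℕ → B) (n : ℕ) :
    comp p m (hat (del p v t t')) n = comp p (comp p m (hat t)) (hat t') n := by
  apply pow_cancel p hB (n := n)
  rw [← pcomp_eq p h.MM_eq, MM_del, pcomp_eq p (h.eta p hB t).MM_eq]

omit hp in
/-- the logarithm determines the parameters -/
theorem IsLog.unique {v v' m : ℕ → B} (h : IsLog p v m) (h' : IsLog p v' m) : v = v' := by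
  funext n
  induction n using Nat.strong_induction_on with
  | _ n ih =>
    have h1 := (h.2 n).symm.trans (h'.2 n)
    rw [Finset.sum_range_succ', Finset.sum_range_succ' _ n, Finset.sum_congr rfl
      (g := fun i => m (i + 1) * v' (n - (i + 1)) ^ p ^ (i + 1)) fun i hi => by
        rw [Finset.mem_range] at hi
        rw [ih _ (by omega)]] at h1
    simpa [h.1] using h1

omit hp in
theorem comp_hat_injective {m : ℕ → B} (hm : m 0 = 1) {T T' : ℕ → B}
    (h : ∀ n, comp p m (hat T) n = comp p m (hat T') n) : T = T' := by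
  funext n
  induction n using Nat.strong_induction_on with
  | _ n ih =>
    have h1 := comp_hat_sub p hm ih
    rw [h, sub_self] at h1
    exact sub_eq_zero.1 h1.symm

/-! ### criteria -/

omit hp in
theorem dvd_pow_sub {a b : B} {e : ℕ} (h : (p : B) ^ (e + 1) ∣ a - b) (k : ℕ) :
    (p : B) ^ (e + 1 + k) ∣ a ^ p ^ k - b ^ p ^ k := by
  induction k with
  | zero => simpa using h
  | succ k ih =>
    rw [pow_succ p k, pow_mul, pow_mul, ← geom_sum₂_mul, ← add_assoc, pow_succ']
    refine mul_dvd_mul ?_ ih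
    have h1 : (p : B) ∣ a ^ p ^ k - b ^ p ^ k :=
      (dvd_pow_self (p : B) (by omega)).trans ih
    let f : B →+* B ⧸ Ideal.span {(p : B)} := Ideal.Quotient.mk _
    have hf : ∀ r : B, (p : B) ∣ r ↔ f r = 0 := fun r => by
      rw [Ideal.Quotient.eq_zero_iff_mem, Ideal.mem_span_singleton]
    rw [hf, map_sub, sub_eq_zero] at h1
    have h2 := (hf p).1 dvd_rfl
    rw [map_natCast] at h2
    rw [hf, RingHom.map_geom_sum₂, h1, geom_sum₂_self, h2, zero_mul]

omit hp in
theorem dvd_of_pow_mul (hB : ∀ x : B, (p : B) * x = 0 → x = 0) {n e : ℕ} {a : B}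
    (h : (p : B) ^ (n + e) ∣ (p : B) ^ n * a) : (p : B) ^ e ∣ a := by
  obtain ⟨c, hc⟩ := h
  exact ⟨c, pow_cancel p hB (n := n) (by rw [hc, pow_add, mul_assoc])⟩

/-- **criterion for the coproduct**: `T k = Δ(t_{k+1})` modulo `p^(e+1)` -/
theorem del_crit (hB : ∀ x : B, (p : B) * x = 0 → x = 0) {v t t' T : ℕ → B} {e n : ℕ}
    (h : ∀ k < n, (p : B) ^ (k + 1 + (e + 1)) ∣ pcomp p (MM p v) (hat T) (k + 1) -
      pcomp p (pcomp p (MM p v) (hat t)) (hat t') (k + 1)) :
    ∀ k < n, (p : B) ^ (e + 1) ∣ T k - del p v t t' k := by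
  intro k
  induction k using Nat.strong_induction_on with
  | _ k ih =>
    intro hk
    have h1 := h k hk
    rw [← funext (MM_eta p v t), ← MM_del, pcomp, pcomp, ← Finset.sum_sub_distrib,
      Finset.sum_range_succ'] at h1
    have h2 : (p : B) ^ (k + 1 + (e + 1)) ∣ ∑ i ∈ Finset.range (k + 1),
        ((p : B) ^ (k + 1 - (i + 1)) * MM p v (i + 1) * hat T (k + 1 - (i + 1)) ^ p ^ (i + 1) -
        (p : B) ^ (k + 1 - (i + 1)) * MM p v (i + 1) *
          hat (del p v t t') (k + 1 - (i + 1)) ^ p ^ (i + 1)) := by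
      refine Finset.dvd_sum fun i hi => ?_
      rw [Finset.mem_range] at hi
      rw [← mul_sub, mul_comm _ (MM p v (i + 1)), mul_assoc]
      refine Dvd.dvd.mul_left ?_ _
      rw [show k + 1 + (e + 1) = k + 1 - (i + 1) + (e + 1 + (i + 1)) by omega, pow_add]
      refine mul_dvd_mul_left _ (dvd_pow_sub p ?_ _)
      rcases hj : k + 1 - (i + 1) with _ | j
      · rw [hat_zero, hat_zero, sub_self]
        exact dvd_zero _
      · exact ih j (by omega) (by omega)
    have h3 := (dvd_add_right h2).1 h1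
    apply dvd_of_pow_mul p hB (n := k + 1)
    convert h3 using 1
    simp only [Nat.sub_zero, MM_zero, pow_zero, pow_one, hat_succ]
    ring

/-- **criterion for the right unit**: `w k = η(v_{k+1})` modulo `p^(e+1)` -/
theorem eta_crit (hB : ∀ x : B, (p : B) * x = 0 → x = 0) {v t w : ℕ → B} {e n : ℕ}
    (h : ∀ k < n, (p : B) ^ (k + (e + 1)) ∣ pcomp p (pcomp p (MM p v) (hat t)) w k -
      pcomp p (MM p v) (hat t) (k + 1)) :
    ∀ k < n, (p : B) ^ (e + 1) ∣ w k - eta p v t k := by
  intro k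
  induction k using Nat.strong_induction_on with
  | _ k ih =>
    intro hk
    have h1 := h k hk
    rw [← funext (MM_eta p v t), MM_succ, pcomp, ← Finset.sum_sub_distrib,
      Finset.sum_range_succ'] at h1
    have h2 : (p : B) ^ (k + (e + 1)) ∣ ∑ i ∈ Finset.range k,
        ((p : B) ^ (k - (i + 1)) * MM p (eta p v t) (i + 1) * w (k - (i + 1)) ^ p ^ (i + 1) -
        (p : B) ^ (k - (i + 1)) * MM p (eta p v t) (i + 1) *
          eta p v t (k - (i + 1)) ^ p ^ (i + 1)) := by
      refine Finset.dvd_sum fun i hi => ?_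
      rw [Finset.mem_range] at hi
      rw [← mul_sub, mul_comm _ (MM p (eta p v t) (i + 1)), mul_assoc]
      refine Dvd.dvd.mul_left ?_ _
      rw [show k + (e + 1) = k - (i + 1) + (e + 1 + (i + 1)) by omega, pow_add]
      exact mul_dvd_mul_left _ (dvd_pow_sub p (ih _ (by omega) (by omega)) _)
    have h3 := (dvd_add_right h2).1 h1
    apply dvd_of_pow_mul p hB (n := k)
    convert h3 using 1
    simp only [Nat.sub_zero, MM_zero, pow_zero, pow_one]
    ring

/-! ### `v = 0` and the invariant ideals -/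

theorem tc_addMk_hat (t : ℕ → B) (i : ℕ) : tc p i (addMk p t) = hat t i := by
  rcases i with _ | i
  · exact Vale.Agent.P257.H93.tc_zero (Vale.Agent.P257.H93.addMk_mem p t)
  · exact Vale.Agent.P257.H93.tc_addMk t i

omit hp in
theorem isAdd_one : IsAdd p (1 : InvSeries B) := by
  intro n hn
  rcases n with _ | n
  · exact absurd ⟨0, by simp⟩ hn
  · exact InvSeries.c_one_succ n

theorem fS_addLaw (t : ℕ → B) : fS p (addLaw B) t = addMk p t := by
  have h1 := isAdd_log_fS p (one_smul _ (addLaw B)) (isAdd_one p) t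
  have h2 := tc_log_fS p (one_smul _ (addLaw B)) t
  rw [one_mul] at h1 h2
  refine IsAdd.ext h1 (Vale.Agent.P257.H93.isAdd_addMk p t) fun n => ?_
  rw [h2, tc_addMk_hat, comp_range, Finset.sum_range_succ', Finset.sum_eq_zero, zero_add,
    Vale.Agent.P257.H93.tc_one_zero, pow_zero, pow_one, one_mul, Nat.sub_zero]
  intro i _
  rw [Vale.Agent.P257.H93.tc_one_succ, zero_mul]

theorem fT_v0 (t : ℕ → B) : fT p (fun _ => 0) t = addMk p t := by rw [fT, hz_zero, fS_addLaw]

theorem eta_v0 (hB : (p : B) = 0) (t : ℕ → B) : eta p (fun _ => 0) t = fun _ => 0 := by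
  have : FpA p B := ⟨hB⟩
  refine (eq_eta p ?_).symm
  rw [fT_v0, hz_zero, inv_smul_eq_iff]
  exact ((Vale.Agent.P257.H93.isAdd_iff (Vale.Agent.P257.H93.addMk_mem p t)).1
    (Vale.Agent.P257.H93.isAdd_addMk p t)).symm

theorem del_v0 (hB : (p : B) = 0) (t t' : ℕ → B) (i : ℕ) :
    del p (fun _ => 0) t t' i = comp p (hat t) (hat t') (i + 1) := by
  have : FpA p B := ⟨hB⟩
  have h := del_spec p (fun _ => (0 : B)) t t'
  rw [eta_v0 p hB, fT_v0, fT_v0, fT_v0] at h
  rw [← hat_succ (del p (fun _ => 0) t t'), ← tc_addMk_hat p, ← h,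
    Vale.Agent.P257.H93.tc_mul (Vale.Agent.P257.H93.isAdd_addMk p t), comp_range]
  simp only [tc_addMk_hat]

theorem Ih_hz (v : ℕ → B) (k : ℕ) : Ih p (k + 1) (hz p v) = HI p (vH v) k := Ih_haz p _ k

theorem vv_hz_sub_mem (v : ℕ → B) (k : ℕ) : vv p (k + 1) (hz p v) - v k ∈ HI p (vH v) k := by
  have h := vv_haz_sub_mem p (vH v) k
  rwa [vH_X] at h

/-- the ideal `(p, v_1, …, v_k)` is invariant -/
theorem HI_eta (v t : ℕ → B) (k : ℕ) : HI p (vH (eta p v t)) k = HI p (vH v) k := by
  rw [← Ih_hz, ← Ih_hz, ← eta_spec, Ih_smul]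

/-- `η(v_{k+1}) = v_{k+1}` modulo `(p, v_1, …, v_k)` -/
theorem eta_sub_mem (v t : ℕ → B) (k : ℕ) : eta p v t k - v k ∈ HI p (vH v) k := by
  have h1 := vv_smul_sub_mem p (k + 1) (hz p v) (fT p v t)⁻¹
  rw [mem_strict.1 ((strict B).inv_mem (fT_mem p v t)), one_pow, mul_one, one_mul, eta_spec,
    Ih_hz] at h1
  have h2 := vv_hz_sub_mem p (eta p v t) k
  rw [HI_eta] at h2
  have h3 := Ideal.add_mem _ (Ideal.sub_mem _ h1 h2) (vv_hz_sub_mem p v k)
  convert h3 using 1
  ring

/-- the first right unit -/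
theorem eta_one (v t : ℕ → B) : eta p v t 0 = v 0 + p * t 0 := by
  have h := MM_eta p v t 1
  rw [MM_succ, pcomp, Finset.sum_range_one, Finset.sum_range_succ, Finset.sum_range_one, MM_succ,
    Finset.sum_range_one] at h
  simp only [MM_zero, Nat.sub_zero, pow_zero, pow_one, mul_one, one_mul, Nat.sub_self, hat_zero,
    one_pow, hat_succ] at h
  rw [h, add_comm]

theorem del_one (v t t' : ℕ → B) : del p v t t' 0 = t 0 + t' 0 := by
  have h : ∀ v t t' : ℕ → MvPolynomial ((ℕ ⊕ ℕ) ⊕ ℕ) ℤ, del p v t t' 0 = t 0 + t' 0 := by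
    intro v t t'
    have h := MM_del p v t t' 1
    rw [pcomp, pcomp, Finset.sum_range_succ, Finset.sum_range_one, Finset.sum_range_succ,
      Finset.sum_range_one, MM_succ, MM_succ, Finset.sum_range_one, Finset.sum_range_one,
      eta_one] at h
    simp only [MM_zero, Nat.sub_zero, pow_zero, pow_one, mul_one, one_mul, Nat.sub_self, hat_zero,
      one_pow, hat_succ] at h
    refine mul_left_cancel₀ (a := (p : MvPolynomial ((ℕ ⊕ ℕ) ⊕ ℕ) ℤ))
      (Nat.cast_ne_zero.2 hp.out.ne_zero) ?_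
    linear_combination h
  have h1 := congrArg (ev3 v t t') (h (fun i => MvPolynomial.X (Sum.inl (Sum.inl i)))
    (fun i => MvPolynomial.X (Sum.inl (Sum.inr i))) fun i => MvPolynomial.X (Sum.inr i))
  simpa only [map_del, map_add, ev3_v, ev3_t, ev3_t'] using h1

end Vale.Agent.P236B

end
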