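import Vale.Agent.P257.H80.HazWt
import Vale.Agent.P257.H93.Add

/-!
# P236 / B : the formal sums `x +_F t_1 x^p +_F t_2 x^{p^2} +_F …`

`fS p F t` is the strict series `∑^F t_i x^{p^i}` (`t_0 = 1`, `t i = t_{i+1}`), for any law `F`
over any ring.
-/

noncomputable section

namespace Vale.Agent.P236B

open MvPowerSeries Vale.Agent.P217 Vale.Agent.P251.F Vale.Agent.P257.H80

variable {A B : Type*} [CommRing A] [CommRing B] (p : ℕ)

/-- the term `c x^(p^(j+1))` -/
def tm (c : B) (j : ℕ) : PowerSeries B := PowerSeries.C c * PowerSeries.X ^ (p ^ (j + 1))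

theorem tm_mem (c : B) (j : ℕ) : tm p c j ∈ ordI Unit B (p ^ (j + 1)) :=
  Ideal.mul_mem_left _ _ (ordI_pow (psX_mem (R := B)) _)

theorem tm_sub (c c' : B) (j : ℕ) : tm p c j - tm p c' j = tm p (c - c') j := by
  rw [tm, tm, tm, map_sub, sub_mul]

theorem tm_zero (j : ℕ) : tm p (0 : B) j = 0 := by rw [tm, map_zero, zero_mul]

theorem map_tm (φ : A →+* B) (c : A) (j : ℕ) :
    PowerSeries.map φ (tm p c j) = tm p (φ c) j := by
  rw [tm, tm, map_mul, map_pow, PowerSeries.map_C, PowerSeries.map_X]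

theorem coeff_tm (c : B) (j k : ℕ) :
    PowerSeries.coeff k (tm p c j) = if k = p ^ (j + 1) then c else 0 := by
  rw [tm, PowerSeries.coeff_C_mul, PowerSeries.coeff_X_pow]
  split_ifs <;> simp

/-- the finite sums -/
def sN (F : Law B) (t : ℕ → B) : ℕ → PowerSeries B
  | 0 => PowerSeries.X
  | N + 1 => MvPowerSeries.subst ![(sN F t N : MvPowerSeries Unit B), tm p (t N) N] F.ps

theorem sN_succ (F : Law B) (t : ℕ → B) (N : ℕ) : sN p F t (N + 1) =
    MvPowerSeries.subst ![(sN p F t N : MvPowerSeries Unit B), tm p (t N) N] F.ps := rfl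

theorem sN_congr (F : Law B) {t t' : ℕ → B} {N : ℕ} (h : ∀ j < N, t j = t' j) :
    sN p F t N = sN p F t' N := by
  induction N with
  | zero => rfl
  | succ N ih => rw [sN_succ, sN_succ, ih fun j hj => h j (by omega), h N (by omega)]

variable [hp : Fact p.Prime]

theorem one_le_pp (j : ℕ) : 1 ≤ p ^ j := Nat.one_le_pow _ _ hp.out.pos

theorem lt_pp (j : ℕ) : j + 1 < p ^ (j + 1) := Nat.lt_pow_self hp.out.one_lt

theorem pp_lt (j : ℕ) : p ^ j < p ^ (j + 1) := Nat.pow_lt_pow_right hp.out.one_lt (by omega)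

theorem tm_mem_one (c : B) (j : ℕ) : tm p c j ∈ ordI Unit B 1 :=
  ordI_anti (one_le_pp p _) (tm_mem p c j)

theorem sN_mem (F : Law B) (t : ℕ → B) (N : ℕ) : sN p F t N ∈ ordI Unit B 1 := by
  induction N with
  | zero => exact psX_mem
  | succ N ih => exact (isLaw_formalGroup F.toFG).subst_mem le_rfl ih (tm_mem_one p _ _)

theorem sN_succ_sub (F : Law B) (t : ℕ → B) (N : ℕ) :
    sN p F t (N + 1) - (sN p F t N + tm p (t N) N) ∈ ordI Unit B (p ^ (N + 1) + 1) := by
  have h := (isLaw_formalGroup F.toFG).perturb (a := sN p F t N) (b := tm p (t N) N)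
    (a' := sN p F t N) (b' := 0) (sN_mem p F t N) (tm_mem_one p _ _) (sN_mem p F t N)
    (Ideal.zero_mem _) (N := p ^ (N + 1)) (by rw [sub_self]; exact Ideal.zero_mem _)
    (by rw [sub_zero]; exact tm_mem p _ _)
  rw [F.toFG.add_zero (hasSubst_of_mem (sN_mem p F t N)), sub_self, zero_add, sub_zero,
    sub_sub] at h
  exact h

theorem sN_sub (F : Law B) (t : ℕ → B) {M N : ℕ} (h : M ≤ N) :
    sN p F t N - sN p F t M ∈ ordI Unit B (p ^ (M + 1)) := by
  induction N, h using Nat.le_induction with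
  | base => rw [sub_self]; exact Ideal.zero_mem _
  | succ N hN ih =>
    have h1 : p ^ (M + 1) ≤ p ^ (N + 1) := Nat.pow_le_pow_right hp.out.pos (by omega)
    have h2 := Ideal.add_mem _ (Ideal.add_mem _ (ordI_anti (by omega) (sN_succ_sub p F t N))
      (ordI_anti h1 (tm_mem p (t N) N))) ih
    convert h2 using 1
    ring

theorem coeff_sN (F : Law B) (t : ℕ → B) {k N : ℕ} (h : k < p ^ (N + 1)) :
    PowerSeries.coeff k (sN p F t k) = PowerSeries.coeff k (sN p F t N) := by
  rcases le_total k N with hk | hk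
  · have h1 := mem_ordI_unit.1 (sN_sub p F t hk) k (by have := lt_pp p k; omega)
    rw [map_sub, sub_eq_zero] at h1
    exact h1.symm
  · have h1 := mem_ordI_unit.1 (sN_sub p F t hk) k h
    rw [map_sub, sub_eq_zero] at h1
    exact h1

/-- `∑^F t_i x^{p^i}` -/
def fS (F : Law B) (t : ℕ → B) : InvSeries B where
  val := PowerSeries.mk fun k => PowerSeries.coeff k (sN p F t k)
  cc := by
    rw [← PowerSeries.coeff_zero_eq_constantCoeff_apply, PowerSeries.coeff_mk]
    exact mem_ordI_unit.1 (sN_mem p F t 0) 0 one_pos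
  isUnit := by
    rw [PowerSeries.coeff_mk, coeff_sN p F t (N := 0) (by simpa using hp.out.one_lt)]
    change IsUnit (PowerSeries.coeff 1 (PowerSeries.X : PowerSeries B))
    rw [PowerSeries.coeff_one_X]
    exact isUnit_one

theorem coeff_fS (F : Law B) (t : ℕ → B) (k : ℕ) :
    PowerSeries.coeff k (fS p F t).val = PowerSeries.coeff k (sN p F t k) :=
  PowerSeries.coeff_mk k fun k => PowerSeries.coeff k (sN p F t k)

theorem fS_sub (F : Law B) (t : ℕ → B) (N : ℕ) :
    (fS p F t).val - sN p F t N ∈ ordI Unit B (p ^ (N + 1)) := by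
  rw [mem_ordI_unit]
  intro k hk
  rw [map_sub, sub_eq_zero, coeff_fS]
  exact coeff_sN p F t hk

theorem fS_mem (F : Law B) (t : ℕ → B) : fS p F t ∈ strict B := by
  have h := mem_ordI_unit.1 (fS_sub p F t 0) 1 (by simpa using hp.out.one_lt)
  rw [map_sub, sub_eq_zero] at h
  rw [mem_strict, InvSeries.c, zero_add, h]
  exact PowerSeries.coeff_one_X

theorem eq_of_sub_pp {a b : PowerSeries B} (s : ℕ → PowerSeries B)
    (ha : ∀ N, a - s N ∈ ordI Unit B (p ^ (N + 1)))
    (hb : ∀ N, b - s N ∈ ordI Unit B (p ^ (N + 1))) : a = b := by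
  refine eq_of_forall_ordI (τ := Unit) fun N => ?_
  have h := Ideal.sub_mem _ (ha N) (hb N)
  have h2 : N ≤ p ^ (N + 1) := by have := lt_pp p N; omega
  refine ordI_anti h2 ?_
  convert h using 1
  ring

theorem map_sN (φ : A →+* B) (F : Law A) (t : ℕ → A) (N : ℕ) :
    PowerSeries.map φ (sN p F t N) = sN p (F.map φ) (fun j => φ (t j)) N := by
  induction N with
  | zero => exact PowerSeries.map_X φ
  | succ N ih =>
    rw [sN_succ, sN_succ, ← ih, ← map_tm]
    exact map_cons_subst φ F.toFG (mem_ordI_one.1 (sN_mem p F t N))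
      (mem_ordI_one.1 (tm_mem_one p _ _))

theorem map_fS (φ : A →+* B) (F : Law A) (t : ℕ → A) :
    InvSeries.map φ (fS p F t) = fS p (F.map φ) fun j => φ (t j) := by
  ext1
  refine eq_of_sub_pp p (sN p (F.map φ) fun j => φ (t j)) (fun N => ?_) (fS_sub p _ _)
  rw [← map_sN, InvSeries.map_val, ← map_sub]
  exact ordI_map φ (fS_sub p F t N)

/-- two sums which agree in the first `k` terms -/
theorem fS_compare (F : Law B) {t t' : ℕ → B} {k : ℕ} (h : ∀ j < k, t j = t' j) :
    (fS p F t).val - (fS p F t').val - tm p (t k - t' k) k ∈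
      ordI Unit B (p ^ (k + 1) + 1) := by
  have h1 : p ^ (k + 1) + 1 ≤ p ^ (k + 1 + 1) := pp_lt p _
  have h2 := Ideal.sub_mem _
    (Ideal.add_mem _ (ordI_anti h1 (fS_sub p F t (k + 1))) (sN_succ_sub p F t k))
    (Ideal.add_mem _ (ordI_anti h1 (fS_sub p F t' (k + 1))) (sN_succ_sub p F t' k))
  rw [sN_congr p F h] at h2
  rw [← tm_sub]
  convert h2 using 1
  ring

theorem fS_coeff_sub (F : Law B) {t t' : ℕ → B} {k : ℕ} (h : ∀ j < k, t j = t' j) :
    PowerSeries.coeff (p ^ (k + 1)) (fS p F t).val -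
      PowerSeries.coeff (p ^ (k + 1)) (fS p F t').val = t k - t' k := by
  have h1 := mem_ordI_unit.1 (fS_compare p F h) (p ^ (k + 1)) (by omega)
  rw [map_sub, map_sub, coeff_tm, if_pos rfl, sub_eq_zero] at h1
  exact h1

theorem fS_injective (F : Law B) : Function.Injective (fS p F) := by
  intro t t' h
  funext k
  induction k using Nat.strong_induction_on with
  | _ k ih =>
    have h1 := fS_coeff_sub p F ih
    rw [h, sub_self] at h1
    exact (sub_eq_zero.1 h1.symm)

omit hp in
theorem sN_zero (F : Law B) (N : ℕ) : sN p F (fun _ => 0) N = PowerSeries.X := by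
  induction N with
  | zero => rfl
  | succ N ih =>
    rw [sN_succ, ih, tm_zero]
    exact F.toFG.add_zero (hasSubst_of_mem psX_mem)

theorem fS_zero (F : Law B) : fS p F (fun _ => 0) = 1 := by
  ext1
  refine eq_of_sub_pp p (sN p F fun _ => 0) (fS_sub p _ _) fun N => ?_
  rw [sN_zero, InvSeries.one_val, sub_self]
  exact Ideal.zero_mem _

/-! ### logarithms -/

theorem subst_addLaw' {τ : Type*} {a b : MvPowerSeries τ B}
    (ha : constantCoeff a = 0) (hb : constantCoeff b = 0) :
    MvPowerSeries.subst ![a, b] (addLaw B).ps = a + b := by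
  have hs := hasSubst_cons ha hb
  rw [addLaw_ps, subst_add hs, subst_X hs, subst_X hs]
  rfl

theorem log_sN {F : Law B} {L : InvSeries B} (hL : L • F = addLaw B) (t : ℕ → B) (N : ℕ) :
    (PowerSeries.subst (sN p F t N) L.val : PowerSeries B) =
      L.val + ∑ j ∈ Finset.range N, (PowerSeries.subst (tm p (t j) j) L.val : PowerSeries B) := by
  have hh : IsHom F.toFG (addLaw B).toFG L.val := (InvSeries.smul_eq_iff_isHom _ _ _).1 hL
  induction N with
  | zero =>
    rw [Finset.sum_range_zero, add_zero]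
    exact PowerSeries.X_subst _
  | succ N ih =>
    have h0 := mem_ordI_one.1 (sN_mem p F t N)
    have h1 := mem_ordI_one.1 (tm_mem_one p (t N) N)
    rw [Finset.sum_range_succ, ← add_assoc, ← ih, sN_succ]
    refine (IsHom_subst_add hh h0 h1).trans ?_
    exact subst_addLaw' (PowerSeries.constantCoeff_subst_eq_zero h0 _ L.cc)
      (PowerSeries.constantCoeff_subst_eq_zero h1 _ L.cc)

theorem log_fS_sub {F : Law B} {L : InvSeries B} (hL : L • F = addLaw B) (t : ℕ → B) (N : ℕ) :
    (L * fS p F t).val - (L.val + ∑ j ∈ Finset.range N,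
      (PowerSeries.subst (tm p (t j) j) L.val : PowerSeries B)) ∈ ordI Unit B (p ^ (N + 1)) := by
  rw [← log_sN p hL, InvSeries.mul_val]
  obtain ⟨M, hM⟩ : ∃ M, p ^ (N + 1) = M + 1 := ⟨p ^ (N + 1) - 1, by have := one_le_pp p (N + 1); omega⟩
  have h := psubst_sub_mem_ordI (fS p F t).val_mem (sN_mem p F t N) (N := M)
    (by rw [← hM]; exact fS_sub p F t N) L.val_mem
  rw [hM]
  exact h

omit hp in
theorem coeff_subst_tm (L : PowerSeries B) (c : B) (j k : ℕ) (hq : p ^ (j + 1) ≠ 0) :
    PowerSeries.coeff k (PowerSeries.subst (tm p c j) L : PowerSeries B) =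
      if p ^ (j + 1) ∣ k then c ^ (k / p ^ (j + 1)) * PowerSeries.coeff (k / p ^ (j + 1)) L
      else 0 := by
  have hX : PowerSeries.HasSubst (PowerSeries.X ^ (p ^ (j + 1)) : PowerSeries B) :=
    PowerSeries.HasSubst.X_pow hq
  have hc : PowerSeries.HasSubst (PowerSeries.C c * PowerSeries.X : PowerSeries B) :=
    PowerSeries.HasSubst.of_constantCoeff_zero' (by simp)
  have h1 : (PowerSeries.subst (tm p c j) L : PowerSeries B) =
      PowerSeries.subst (PowerSeries.X ^ (p ^ (j + 1)) : PowerSeries B)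
        (PowerSeries.rescale c L) := by
    rw [PowerSeries.rescale_eq_subst, PowerSeries.smul_eq_C_mul,
      PowerSeries.subst_comp_subst_apply hc hX, PowerSeries.subst_mul hX, PowerSeries.subst_X hX,
      PowerSeries.subst_C]
    rfl
  rw [h1, PowerSeries.coeff_subst_X_pow hq]
  split_ifs
  · rw [PowerSeries.coeff_rescale]
    rfl
  · rfl

/-! ### scaling -/

theorem scale_sN (u : Bˣ) (F : Law B) (t : ℕ → B) (N : ℕ) :
    PowerSeries.C ((u⁻¹ : Bˣ) : B) * PowerSeries.rescale (u : B) (sN p F t N) =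
      sN p ((InvSeries.lin u)⁻¹ • F) (fun j => (u : B) ^ (p ^ (j + 1) - 1) * t j) N := by
  have hc : PowerSeries.HasSubst (PowerSeries.C (u : B) * PowerSeries.X : PowerSeries B) :=
    PowerSeries.HasSubst.of_constantCoeff_zero' (by simp)
  have hlin : ∀ a : PowerSeries B, a ∈ ordI Unit B 1 →
      (PowerSeries.subst a ((InvSeries.lin u)⁻¹).val : PowerSeries B) =
        PowerSeries.C ((u⁻¹ : Bˣ) : B) * a := by
    intro a ha
    have hs := hasSubst_of_mem ha
    rw [← map_inv, InvSeries.lin_val, PowerSeries.subst_mul hs, PowerSeries.subst_X hs,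
      PowerSeries.subst_C]
    rfl
  have hres : ∀ a : PowerSeries B, a ∈ ordI Unit B 1 →
      PowerSeries.rescale (u : B) a ∈ ordI Unit B 1 := by
    intro a ha
    rw [mem_ordI_unit] at ha ⊢
    intro n hn
    rw [PowerSeries.coeff_rescale, ha n hn, mul_zero]
  induction N with
  | zero =>
    change _ * PowerSeries.rescale (u : B) PowerSeries.X = PowerSeries.X
    rw [PowerSeries.rescale_X, ← mul_assoc, ← map_mul, Units.inv_mul, map_one, one_mul]
  | succ N ih =>
    have h0 := sN_mem p F t N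
    have h1 := tm_mem_one p (t N) N
    have h2 : PowerSeries.rescale (u : B) (sN p F t (N + 1)) =
        MvPowerSeries.subst ![(PowerSeries.rescale (u : B) (sN p F t N) : MvPowerSeries Unit B),
          PowerSeries.rescale (u : B) (tm p (t N) N)] F.ps := by
      rw [sN_succ, PowerSeries.rescale_eq_subst, PowerSeries.rescale_eq_subst,
        PowerSeries.rescale_eq_subst, PowerSeries.smul_eq_C_mul, PowerSeries.subst_def,
        subst_comp_subst_apply (hasSubst_cons (mem_ordI_one.1 h0) (mem_ordI_one.1 h1)) hc.const]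
      congr 1
      funext i
      fin_cases i <;> rfl
    have h3 : PowerSeries.C ((u⁻¹ : Bˣ) : B) * PowerSeries.rescale (u : B) (tm p (t N) N) =
        tm p ((u : B) ^ (p ^ (N + 1) - 1) * t N) N := by
      ext k
      rw [PowerSeries.coeff_C_mul, PowerSeries.coeff_rescale, coeff_tm, coeff_tm]
      split_ifs with hk
      · obtain ⟨M, hM⟩ : ∃ M, p ^ (N + 1) = M + 1 :=
          ⟨p ^ (N + 1) - 1, by have := one_le_pp p (N + 1); omega⟩
        rw [hk, hM, Nat.add_sub_cancel, pow_succ', mul_assoc, ← mul_assoc, Units.inv_mul, one_mul]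
      · rw [mul_zero, mul_zero]
    rw [sN_succ p ((InvSeries.lin u)⁻¹ • F), ← ih, ← h3, ← hlin _ (hres _ h0), ← hlin _ (hres _ h1),
      ← hlin _ (hres _ (sN_mem p F t (N + 1))), h2]
    exact IsHom_subst_add (InvSeries.isHom_smul _ F) (mem_ordI_one.1 (hres _ h0))
      (mem_ordI_one.1 (hres _ h1))

theorem fS_scale (u : Bˣ) (F : Law B) (t : ℕ → B) :
    (InvSeries.lin u)⁻¹ * fS p F t * InvSeries.lin u =
      fS p ((InvSeries.lin u)⁻¹ • F) fun j => (u : B) ^ (p ^ (j + 1) - 1) * t j := by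
  apply InvSeries.ext_c
  intro k
  rw [c_conj_lin, InvSeries.c, InvSeries.c, coeff_fS, coeff_fS, ← scale_sN,
    PowerSeries.coeff_C_mul, PowerSeries.coeff_rescale,
    pow_succ', mul_assoc, ← mul_assoc, Units.inv_mul, one_mul]

end Vale.Agent.P236B

end
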