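import Vale.Agent.P236B.FamC

/-!
# P236 / B : explicit formulas modulo `9`

`del_R`, `del_L`, `eta_X`, `eta_F` : the coproduct and the right unit along the one parameter
families, and the full right unit, in every ring with `9 = 0`.
-/

namespace Vale.Agent.P236B

open MvPolynomial

variable {R : Type} [CommRing R]

/-- the values of the variables -/
def pt (v t : ℕ → R) (x : R) : ℕ → R
  | 0 => t 0
  | 1 => x
  | 2 => v 0
  | 3 => v 1
  | 4 => t 1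
  | 5 => v 2
  | 6 => t 2
  | 7 => t 3
  | 8 => v 3
  | i + 9 => if i % 2 = 0 then v (i / 2 + 4) else t (i / 2 + 4)

theorem ev_vE (v t : ℕ → R) (x : R) (i : ℕ) : (vE i).ev (pt v t x) = v i := by
  match i with
  | 0 | 1 | 2 | 3 => exact ev_varE _ _
  | i + 4 =>
    rw [vE, ev_varE, add_comm 9, pt, if_pos (by omega)]
    congr 1
    omega

theorem ev_tE (v t : ℕ → R) (x : R) (i : ℕ) : (tE i).ev (pt v t x) = t i := by
  match i with
  | 0 | 1 | 2 | 3 => exact ev_varE _ _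
  | i + 4 =>
    rw [tE, ev_varE, show 10 + 2 * i = 2 * i + 1 + 9 by omega, pt, if_neg (by omega)]
    congr 1
    omega

theorem ev_xE (v t : ℕ → R) (x : R) (n i : ℕ) :
    (xE n i).ev (pt v t x) = (Pi.single n x : ℕ → R) i := by
  rw [xE]
  by_cases h : i = n
  · subst h
    rw [Nat.beq_refl, cond_true, ev_varE, Pi.single_eq_same]
    rfl
  · have h1 : Nat.beq i n = false := by
      rw [← Bool.not_eq_true, Nat.beq_eq]
      exact h
    rw [h1, cond_false, ev_nil, Pi.single_eq_of_ne h]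

theorem eq_of_nine (h9 : (9 : R) = 0) {a b : R} (h : ((3 : ℕ) : R) ^ (1 + 1) ∣ a - b) : b = a := by
  obtain ⟨c, hc⟩ := h
  push_cast at hc
  linear_combination -hc - c * h9

instance fact3 : Fact (Nat.Prime 3) := ⟨Nat.prime_three⟩

theorem dvd_R {n : ℕ} (hn : n < 4) : ∀ k < 4, ((3 ^ (k + 1 + (1 + 1)) : ℕ) : MvPolynomial ℕ ℤ) ∣
    (delP 3 vE (tlE (dR n)) k).ev X - (delN 3 vE tE (xE n) k).ev X := by
  intro k hk
  interval_cases n <;> interval_cases k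
  exacts [dvd_of_chk c_dR0_0 X, dvd_of_chk c_dR0_1 X, dvd_of_chk c_dR0_2 X, dvd_of_chk c_dR0_3 X,
    dvd_of_chk c_dR1_0 X, dvd_of_chk c_dR1_1 X, dvd_of_chk c_dR1_2 X, dvd_of_chk c_dR1_3 X,
    dvd_of_chk c_dR2_0 X, dvd_of_chk c_dR2_1 X, dvd_of_chk c_dR2_2 X, dvd_of_chk c_dR2_3 X,
    dvd_of_chk c_dR3_0 X, dvd_of_chk c_dR3_1 X, dvd_of_chk c_dR3_2 X, dvd_of_chk c_dR3_3 X]

theorem dvd_L {n : ℕ} (hn : n < 4) : ∀ k < 4, ((3 ^ (k + 1 + (1 + 1)) : ℕ) : MvPolynomial ℕ ℤ) ∣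
    (delP 3 vE (tlE (dL n)) k).ev X - (delN 3 vE (xE n) tE k).ev X := by
  intro k hk
  interval_cases n <;> interval_cases k
  exacts [dvd_of_chk c_dL0_0 X, dvd_of_chk c_dL0_1 X, dvd_of_chk c_dL0_2 X, dvd_of_chk c_dL0_3 X,
    dvd_of_chk c_dL1_0 X, dvd_of_chk c_dL1_1 X, dvd_of_chk c_dL1_2 X, dvd_of_chk c_dL1_3 X,
    dvd_of_chk c_dL2_0 X, dvd_of_chk c_dL2_1 X, dvd_of_chk c_dL2_2 X, dvd_of_chk c_dL2_3 X,
    dvd_of_chk c_dL3_0 X, dvd_of_chk c_dL3_1 X, dvd_of_chk c_dL3_2 X, dvd_of_chk c_dL3_3 X]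

theorem dvd_X {n : ℕ} (hn : n < 4) : ∀ k < 4, ((3 ^ (k + (1 + 1)) : ℕ) : MvPolynomial ℕ ℤ) ∣
    (etaP 3 vE (xE n) (tlE (eX n)) k).ev X - (etaN 3 vE (xE n) k).ev X := by
  intro k hk
  interval_cases n <;> interval_cases k
  exacts [dvd_of_chk c_eX0_0 X, dvd_of_chk c_eX0_1 X, dvd_of_chk c_eX0_2 X, dvd_of_chk c_eX0_3 X,
    dvd_of_chk c_eX1_0 X, dvd_of_chk c_eX1_1 X, dvd_of_chk c_eX1_2 X, dvd_of_chk c_eX1_3 X,
    dvd_of_chk c_eX2_0 X, dvd_of_chk c_eX2_1 X, dvd_of_chk c_eX2_2 X, dvd_of_chk c_eX2_3 X,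
    dvd_of_chk c_eX3_0 X, dvd_of_chk c_eX3_1 X, dvd_of_chk c_eX3_2 X, dvd_of_chk c_eX3_3 X]

theorem dvd_F : ∀ k < 4, ((3 ^ (k + (1 + 1)) : ℕ) : MvPolynomial ℕ ℤ) ∣
    (etaP 3 vE tE (tlE eF) k).ev X - (etaN 3 vE tE k).ev X := by
  intro k hk
  interval_cases k
  exacts [dvd_of_chk c_eF_0 X, dvd_of_chk c_eF_1 X, dvd_of_chk c_eF_2 X, dvd_of_chk c_eF_3 X]

/-- `Δ t_{k+1}` at `(t, x e_n)` -/
theorem del_R (h9 : (9 : R) = 0) (v t : ℕ → R) (x : R) {n k : ℕ} (hn : n < 4) (hk : k < 4) :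
    del 3 v t (Pi.single n x) k = evL (pt v t x) (dR n k) := by
  have h := del_of_dvd (pt v t x) 3 (dvd_R hn) hk
  simp only [ev_vE, ev_tE, ev_xE] at h
  exact eq_of_nine h9 h

/-- `Δ t_{k+1}` at `(x e_n, t)` -/
theorem del_L (h9 : (9 : R) = 0) (v t : ℕ → R) (x : R) {n k : ℕ} (hn : n < 4) (hk : k < 4) :
    del 3 v (Pi.single n x) t k = evL (pt v t x) (dL n k) := by
  have h := del_of_dvd (pt v t x) 3 (dvd_L hn) hk
  simp only [ev_vE, ev_tE, ev_xE] at h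
  exact eq_of_nine h9 h

/-- `η v_{k+1}` at `x e_n` -/
theorem eta_X (h9 : (9 : R) = 0) (v t : ℕ → R) (x : R) {n k : ℕ} (hn : n < 4) (hk : k < 4) :
    eta 3 v (Pi.single n x) k = evL (pt v t x) (eX n k) := by
  have h := eta_of_dvd (pt v t x) 3 (dvd_X hn) hk
  simp only [ev_vE, ev_xE] at h
  exact eq_of_nine h9 h

/-- `η v_{k+1}` -/
theorem eta_F (h9 : (9 : R) = 0) (v t : ℕ → R) (x : R) {k : ℕ} (hk : k < 4) :
    eta 3 v t k = evL (pt v t x) (eF k) := by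
  have h := eta_of_dvd (pt v t x) 3 dvd_F hk
  simp only [ev_vE, ev_tE] at h
  exact eq_of_nine h9 h

/-- the terms outside of `(3 v_1 ^ a, v_1 ^ N)` -/
def keep (a N : ℕ) (s : Tm) : Bool :=
  Nat.blt (s.2.getD 2 0) N && (Nat.blt (s.2.getD 2 0) a || !Nat.beq (s.1 % 3) 0)

theorem pow_dvd_mon (y : ℕ → R) (i : ℕ) (l : List ℕ) (j : ℕ) :
    y (i + j) ^ l.getD j 0 ∣ mon y i l := by
  induction l generalizing i j with
  | nil => simp
  | cons a l ih =>
    cases j with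
    | zero => exact dvd_mul_right _ _
    | succ j =>
      rw [List.getD_cons_succ, ← add_assoc, add_right_comm]
      exact (ih (i + 1) j).mul_left _

/-- dropping the terms in an ideal which contains `3 v_1 ^ a` and `v_1 ^ N` -/
theorem evL_filter (y : ℕ → R) {I : Ideal R} {a N : ℕ} (ha : 3 * y 2 ^ a ∈ I) (hN : y 2 ^ N ∈ I)
    (l : List Tm) : evL y l - evL y (l.filter (keep a N)) ∈ I := by
  induction l with
  | nil => simp [evL]
  | cons s l ih =>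
    rw [List.filter_cons]
    split_ifs with h
    · rw [evL, evL, add_sub_add_left_eq_sub]
      exact ih
    · rw [evL, add_sub_assoc]
      refine I.add_mem ?_ ih
      obtain ⟨c, hc⟩ := pow_dvd_mon y 0 s.2 2
      rw [zero_add] at hc
      simp only [keep, Bool.and_eq_true, Nat.blt_eq, Bool.or_eq_true, Bool.not_eq_eq_eq_not,
        Bool.not_true, not_and_or, not_or, not_lt, Bool.not_eq_false, Nat.beq_eq] at h
      rcases h with h | ⟨h, h3⟩
      · obtain ⟨e, he⟩ := Nat.exists_eq_add_of_le h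
        rw [hc, he, pow_add]
        exact I.mul_mem_left _ (I.mul_mem_right _ (I.mul_mem_right _ hN))
      · obtain ⟨e, he⟩ := Nat.exists_eq_add_of_le h
        obtain ⟨d, hd⟩ := Nat.dvd_of_mod_eq_zero h3
        rw [hc, he, pow_add, hd]
        convert I.mul_mem_left ((d : R) * y 2 ^ e * c) ha using 1
        push_cast
        ring

end Vale.Agent.P236B
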