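import Vale.Agent.P236B.Kr

/-!
# P236 / B : explicit formulas modulo `9` (data)

Variables: `0 : t_1`, `1 : x`, `2 : v_1`, `3 : v_2`, `4 : t_2`, `5 : v_3`, `6 : t_3`, `7 : t_4`,
`8 : v_4`.  `dR n k` : `Δ t_{k+1}` at `(t, x e_n)`; `dL n k` : at `(x e_n, t)`;
`eX n k` : `η v_{k+1}` at `x e_n`; `eF k` : `η v_{k+1}` at `t`.
-/

namespace Vale.Agent.P236B

/-- data -/
def dR0_0 : List Tm :=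
  [(1, [0, 1]), (1, [1])]

/-- data -/
def dR0_1 : List Tm :=
  [(1, [0, 0, 0, 0, 1]), (8, [1, 2, 1]), (8, [2, 1, 1]), (1, [1, 3])]

/-- data -/
def dR0_2 : List Tm :=
  [(1, [0, 0, 0, 0, 0, 0, 1]), (1, [1, 2, 2, 0, 2]), (1, [2, 1, 2, 0, 2]), (8, [1, 3, 1, 0, 2]),
   (8, [2, 4, 3, 0, 1]), (7, [3, 3, 3, 0, 1]), (8, [4, 2, 3, 0, 1]), (2, [2, 5, 2, 0, 1]),
   (2, [3, 4, 2, 0, 1]), (8, [2, 6, 1, 0, 1]), (1, [0, 9, 0, 0, 1]), (6, [1, 8, 0, 1]),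
   (6, [2, 7, 0, 1]), (8, [3, 6, 0, 1]), (3, [4, 5, 0, 1]), (3, [5, 4, 0, 1]), (8, [6, 3, 0, 1]),
   (6, [7, 2, 0, 1]), (6, [8, 1, 0, 1]), (8, [1, 8, 4]), (5, [2, 7, 4]), (5, [4, 5, 4]),
   (5, [5, 4, 4]), (5, [7, 2, 4]), (8, [8, 1, 4]), (8, [3, 7, 3]), (7, [4, 6, 3]), (8, [5, 5, 3]),
   (1, [3, 8, 2]), (1, [4, 7, 2])]

/-- data -/
def dR0_3 : List Tm :=
  [(1, [0, 0, 0, 0, 0, 0, 0, 1]), (8, [1, 2, 3, 0, 2, 0, 2]), (8, [2, 1, 3, 0, 2, 0, 2]),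
   (1, [1, 3, 2, 0, 2, 0, 2]), (1, [2, 4, 4, 0, 1, 0, 2]), (2, [3, 3, 4, 0, 1, 0, 2]),
   (1, [4, 2, 4, 0, 1, 0, 2]), (7, [2, 5, 3, 0, 1, 0, 2]), (7, [3, 4, 3, 0, 1, 0, 2]),
   (1, [2, 6, 2, 0, 1, 0, 2]), (8, [0, 9, 1, 0, 1, 0, 2]), (3, [1, 8, 1, 1, 0, 0, 2]),
   (3, [2, 7, 1, 1, 0, 0, 2]), (1, [3, 6, 1, 1, 0, 0, 2]), (6, [4, 5, 1, 1, 0, 0, 2]),
   (6, [5, 4, 1, 1, 0, 0, 2]), (1, [6, 3, 1, 1, 0, 0, 2]), (3, [7, 2, 1, 1, 0, 0, 2]),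
   (3, [8, 1, 1, 1, 0, 0, 2]), (1, [1, 8, 5, 0, 0, 0, 2]), (4, [2, 7, 5, 0, 0, 0, 2]),
   (4, [4, 5, 5, 0, 0, 0, 2]), (4, [5, 4, 5, 0, 0, 0, 2]), (4, [7, 2, 5, 0, 0, 0, 2]),
   (1, [8, 1, 5, 0, 0, 0, 2]), (1, [3, 7, 4, 0, 0, 0, 2]), (2, [4, 6, 4, 0, 0, 0, 2]),
   (1, [5, 5, 4, 0, 0, 0, 2]), (8, [3, 8, 3, 0, 0, 0, 2]), (8, [4, 7, 3, 0, 0, 0, 2]),
   (8, [2, 4, 5, 0, 4, 0, 1]), (7, [3, 3, 5, 0, 4, 0, 1]), (8, [4, 2, 5, 0, 4, 0, 1]),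
   (2, [2, 5, 4, 0, 4, 0, 1]), (2, [3, 4, 4, 0, 4, 0, 1]), (8, [2, 6, 3, 0, 4, 0, 1]),
   (2, [3, 6, 6, 0, 3, 0, 1]), (6, [4, 5, 6, 0, 3, 0, 1]), (6, [5, 4, 6, 0, 3, 0, 1]),
   (2, [6, 3, 6, 0, 3, 0, 1]), (3, [3, 7, 5, 0, 3, 0, 1]), (6, [4, 6, 5, 0, 3, 0, 1]),
   (3, [5, 5, 5, 0, 3, 0, 1]), (6, [3, 8, 4, 0, 3, 0, 1]), (6, [4, 7, 4, 0, 3, 0, 1]),
   (7, [1, 11, 3, 0, 3, 0, 1]), (7, [2, 10, 3, 0, 3, 0, 1]), (7, [3, 9, 3, 0, 3, 0, 1]),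
   (2, [1, 12, 2, 0, 3, 0, 1]), (6, [2, 10, 3, 1, 2, 0, 1]), (3, [3, 9, 3, 1, 2, 0, 1]),
   (8, [4, 8, 3, 1, 2, 0, 1]), (5, [5, 7, 3, 1, 2, 0, 1]), (6, [6, 6, 3, 1, 2, 0, 1]),
   (5, [7, 5, 3, 1, 2, 0, 1]), (8, [8, 4, 3, 1, 2, 0, 1]), (3, [9, 3, 3, 1, 2, 0, 1]),
   (6, [10, 2, 3, 1, 2, 0, 1]), (3, [2, 11, 2, 1, 2, 0, 1]), (3, [3, 10, 2, 1, 2, 0, 1]),
   (7, [4, 9, 2, 1, 2, 0, 1]), (6, [5, 8, 2, 1, 2, 0, 1]), (6, [6, 7, 2, 1, 2, 0, 1]),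
   (7, [7, 6, 2, 1, 2, 0, 1]), (3, [8, 5, 2, 1, 2, 0, 1]), (3, [9, 4, 2, 1, 2, 0, 1]),
   (2, [2, 10, 7, 0, 2, 0, 1]), (1, [3, 9, 7, 0, 2, 0, 1]), (7, [4, 8, 7, 0, 2, 0, 1]),
   (4, [5, 7, 7, 0, 2, 0, 1]), (1, [6, 6, 7, 0, 2, 0, 1]), (4, [7, 5, 7, 0, 2, 0, 1]),
   (7, [8, 4, 7, 0, 2, 0, 1]), (1, [9, 3, 7, 0, 2, 0, 1]), (2, [10, 2, 7, 0, 2, 0, 1]),
   (7, [2, 11, 6, 0, 2, 0, 1]), (1, [3, 10, 6, 0, 2, 0, 1]), (6, [4, 9, 6, 0, 2, 0, 1]),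
   (1, [5, 8, 6, 0, 2, 0, 1]), (1, [6, 7, 6, 0, 2, 0, 1]), (6, [7, 6, 6, 0, 2, 0, 1]),
   (1, [8, 5, 6, 0, 2, 0, 1]), (7, [9, 4, 6, 0, 2, 0, 1]), (8, [4, 10, 5, 0, 2, 0, 1]),
   (7, [5, 9, 5, 0, 2, 0, 1]), (8, [6, 8, 5, 0, 2, 0, 1]), (2, [2, 13, 4, 0, 2, 0, 1]),
   (4, [3, 12, 4, 0, 2, 0, 1]), (8, [4, 11, 4, 0, 2, 0, 1]), (6, [5, 10, 4, 0, 2, 0, 1]),
   (5, [2, 14, 3, 0, 2, 0, 1]), (5, [3, 13, 3, 0, 2, 0, 1]), (8, [4, 12, 3, 0, 2, 0, 1]),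
   (2, [2, 15, 2, 0, 2, 0, 1]), (8, [0, 18, 1, 0, 2, 0, 1]), (3, [3, 12, 4, 1, 1, 0, 1]),
   (7, [5, 10, 4, 1, 1, 0, 1]), (5, [6, 9, 4, 1, 1, 0, 1]), (7, [7, 8, 4, 1, 1, 0, 1]),
   (7, [8, 7, 4, 1, 1, 0, 1]), (5, [9, 6, 4, 1, 1, 0, 1]), (7, [10, 5, 4, 1, 1, 0, 1]),
   (3, [12, 3, 4, 1, 1, 0, 1]), (3, [3, 13, 3, 1, 1, 0, 1]), (6, [4, 12, 3, 1, 1, 0, 1]),
   (7, [5, 11, 3, 1, 1, 0, 1]), (1, [6, 10, 3, 1, 1, 0, 1]), (3, [7, 9, 3, 1, 1, 0, 1]),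
   (1, [8, 8, 3, 1, 1, 0, 1]), (7, [9, 7, 3, 1, 1, 0, 1]), (6, [10, 6, 3, 1, 1, 0, 1]),
   (3, [11, 5, 3, 1, 1, 0, 1]), (3, [3, 14, 2, 1, 1, 0, 1]), (3, [4, 13, 2, 1, 1, 0, 1]),
   (7, [5, 12, 2, 1, 1, 0, 1]), (6, [6, 11, 2, 1, 1, 0, 1]), (6, [7, 10, 2, 1, 1, 0, 1]),
   (7, [8, 9, 2, 1, 1, 0, 1]), (3, [9, 8, 2, 1, 1, 0, 1]), (3, [10, 7, 2, 1, 1, 0, 1]),
   (6, [1, 17, 1, 1, 1, 0, 1]), (6, [2, 16, 1, 1, 1, 0, 1]), (2, [3, 15, 1, 1, 1, 0, 1]),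
   (3, [4, 14, 1, 1, 1, 0, 1]), (3, [5, 13, 1, 1, 1, 0, 1]), (2, [6, 12, 1, 1, 1, 0, 1]),
   (6, [7, 11, 1, 1, 1, 0, 1]), (6, [8, 10, 1, 1, 1, 0, 1]), (7, [3, 12, 8, 0, 1, 0, 1]),
   (6, [4, 11, 8, 0, 1, 0, 1]), (2, [6, 9, 8, 0, 1, 0, 1]), (3, [7, 8, 8, 0, 1, 0, 1]),
   (3, [8, 7, 8, 0, 1, 0, 1]), (2, [9, 6, 8, 0, 1, 0, 1]), (6, [11, 4, 8, 0, 1, 0, 1]),
   (7, [12, 3, 8, 0, 1, 0, 1]), (4, [3, 13, 7, 0, 1, 0, 1]), (2, [4, 12, 7, 0, 1, 0, 1]),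
   (5, [5, 11, 7, 0, 1, 0, 1]), (8, [6, 10, 7, 0, 1, 0, 1]), (2, [7, 9, 7, 0, 1, 0, 1]),
   (8, [8, 8, 7, 0, 1, 0, 1]), (5, [9, 7, 7, 0, 1, 0, 1]), (2, [10, 6, 7, 0, 1, 0, 1]),
   (4, [11, 5, 7, 0, 1, 0, 1]), (7, [3, 14, 6, 0, 1, 0, 1]), (1, [4, 13, 6, 0, 1, 0, 1]),
   (6, [5, 12, 6, 0, 1, 0, 1]), (1, [6, 11, 6, 0, 1, 0, 1]), (1, [7, 10, 6, 0, 1, 0, 1]),
   (6, [8, 9, 6, 0, 1, 0, 1]), (1, [9, 8, 6, 0, 1, 0, 1]), (7, [10, 7, 6, 0, 1, 0, 1]),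
   (2, [1, 17, 5, 0, 1, 0, 1]), (8, [2, 16, 5, 0, 1, 0, 1]), (8, [4, 14, 5, 0, 1, 0, 1]),
   (2, [5, 13, 5, 0, 1, 0, 1]), (6, [6, 12, 5, 0, 1, 0, 1]), (2, [7, 11, 5, 0, 1, 0, 1]),
   (2, [8, 10, 5, 0, 1, 0, 1]), (2, [3, 16, 4, 0, 1, 0, 1]), (4, [4, 15, 4, 0, 1, 0, 1]),
   (4, [5, 14, 4, 0, 1, 0, 1]), (2, [6, 13, 4, 0, 1, 0, 1]), (7, [3, 17, 3, 0, 1, 0, 1]),
   (7, [4, 16, 3, 0, 1, 0, 1]), (3, [4, 14, 1, 2, 0, 0, 1]), (3, [5, 13, 1, 2, 0, 0, 1]),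
   (8, [6, 12, 1, 2, 0, 0, 1]), (7, [9, 9, 1, 2, 0, 0, 1]), (8, [12, 6, 1, 2, 0, 0, 1]),
   (3, [13, 5, 1, 2, 0, 0, 1]), (3, [14, 4, 1, 2, 0, 0, 1]), (3, [2, 16, 5, 1, 0, 0, 1]),
   (6, [3, 15, 5, 1, 0, 0, 1]), (1, [4, 14, 5, 1, 0, 0, 1]), (1, [5, 13, 5, 1, 0, 0, 1]),
   (8, [7, 11, 5, 1, 0, 0, 1]), (5, [8, 10, 5, 1, 0, 0, 1]), (6, [9, 9, 5, 1, 0, 0, 1]),
   (5, [10, 8, 5, 1, 0, 0, 1]), (8, [11, 7, 5, 1, 0, 0, 1]), (1, [13, 5, 5, 1, 0, 0, 1]),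
   (1, [14, 4, 5, 1, 0, 0, 1]), (6, [15, 3, 5, 1, 0, 0, 1]), (3, [16, 2, 5, 1, 0, 0, 1]),
   (3, [4, 15, 4, 1, 0, 0, 1]), (7, [6, 13, 4, 1, 0, 0, 1]), (5, [7, 12, 4, 1, 0, 0, 1]),
   (7, [8, 11, 4, 1, 0, 0, 1]), (7, [9, 10, 4, 1, 0, 0, 1]), (5, [10, 9, 4, 1, 0, 0, 1]),
   (7, [11, 8, 4, 1, 0, 0, 1]), (3, [13, 6, 4, 1, 0, 0, 1]), (6, [4, 16, 3, 1, 0, 0, 1]),
   (3, [5, 15, 3, 1, 0, 0, 1]), (8, [6, 14, 3, 1, 0, 0, 1]), (5, [7, 13, 3, 1, 0, 0, 1]),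
   (6, [8, 12, 3, 1, 0, 0, 1]), (5, [9, 11, 3, 1, 0, 0, 1]), (8, [10, 10, 3, 1, 0, 0, 1]),
   (3, [11, 9, 3, 1, 0, 0, 1]), (6, [12, 8, 3, 1, 0, 0, 1]), (8, [2, 16, 9, 0, 0, 0, 1]),
   (1, [3, 15, 9, 0, 0, 0, 1]), (2, [4, 14, 9, 0, 0, 0, 1]), (1, [5, 13, 9, 0, 0, 0, 1]),
   (5, [6, 12, 9, 0, 0, 0, 1]), (4, [7, 11, 9, 0, 0, 0, 1]), (3, [8, 10, 9, 0, 0, 0, 1]),
   (6, [9, 9, 9, 0, 0, 0, 1]), (3, [10, 8, 9, 0, 0, 0, 1]), (4, [11, 7, 9, 0, 0, 0, 1]),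
   (5, [12, 6, 9, 0, 0, 0, 1]), (1, [13, 5, 9, 0, 0, 0, 1]), (2, [14, 4, 9, 0, 0, 0, 1]),
   (1, [15, 3, 9, 0, 0, 0, 1]), (8, [16, 2, 9, 0, 0, 0, 1]), (7, [4, 15, 8, 0, 0, 0, 1]),
   (6, [5, 14, 8, 0, 0, 0, 1]), (2, [7, 12, 8, 0, 0, 0, 1]), (3, [8, 11, 8, 0, 0, 0, 1]),
   (3, [9, 10, 8, 0, 0, 0, 1]), (2, [10, 9, 8, 0, 0, 0, 1]), (6, [12, 7, 8, 0, 0, 0, 1]),
   (7, [13, 6, 8, 0, 0, 0, 1]), (2, [4, 16, 7, 0, 0, 0, 1]), (1, [5, 15, 7, 0, 0, 0, 1]),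
   (7, [6, 14, 7, 0, 0, 0, 1]), (4, [7, 13, 7, 0, 0, 0, 1]), (1, [8, 12, 7, 0, 0, 0, 1]),
   (4, [9, 11, 7, 0, 0, 0, 1]), (7, [10, 10, 7, 0, 0, 0, 1]), (1, [11, 9, 7, 0, 0, 0, 1]),
   (2, [12, 8, 7, 0, 0, 0, 1]), (2, [6, 15, 6, 0, 0, 0, 1]), (6, [7, 14, 6, 0, 0, 0, 1]),
   (6, [8, 13, 6, 0, 0, 0, 1]), (2, [9, 12, 6, 0, 0, 0, 1]), (8, [6, 16, 5, 0, 0, 0, 1]),
   (7, [7, 15, 5, 0, 0, 0, 1]), (8, [8, 14, 5, 0, 0, 0, 1]), (1, [0, 27, 0, 0, 0, 0, 1]),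
   (6, [3, 24, 0, 0, 0, 1]), (6, [6, 21, 0, 0, 0, 1]), (8, [9, 18, 0, 0, 0, 1]),
   (3, [12, 15, 0, 0, 0, 1]), (3, [15, 12, 0, 0, 0, 1]), (8, [18, 9, 0, 0, 0, 1]),
   (6, [21, 6, 0, 0, 0, 1]), (6, [24, 3, 0, 0, 0, 1]), (3, [1, 2, 1, 1, 8]), (3, [2, 1, 1, 1, 8]),
   (6, [1, 3, 0, 1, 8]), (1, [1, 2, 5, 0, 8]), (1, [2, 1, 5, 0, 8]), (8, [1, 3, 4, 0, 8]),
   (6, [2, 4, 2, 1, 7]), (3, [3, 3, 2, 1, 7]), (6, [4, 2, 2, 1, 7]), (6, [2, 5, 1, 1, 7]),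
   (6, [3, 4, 1, 1, 7]), (6, [2, 6, 0, 1, 7]), (5, [2, 4, 6, 0, 7]), (1, [3, 3, 6, 0, 7]),
   (5, [4, 2, 6, 0, 7]), (8, [2, 5, 5, 0, 7]), (8, [3, 4, 5, 0, 7]), (5, [2, 6, 4, 0, 7]),
   (1, [3, 6, 3, 1, 6]), (3, [4, 5, 3, 1, 6]), (3, [5, 4, 3, 1, 6]), (1, [6, 3, 3, 1, 6]),
   (6, [3, 7, 2, 1, 6]), (3, [4, 6, 2, 1, 6]), (6, [5, 5, 2, 1, 6]), (3, [3, 8, 1, 1, 6]),
   (3, [4, 7, 1, 1, 6]), (8, [3, 9, 0, 1, 6]), (3, [4, 8, 4, 1, 5]), (3, [5, 7, 4, 1, 5]),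
   (3, [7, 5, 4, 1, 5]), (3, [8, 4, 4, 1, 5]), (6, [4, 9, 3, 1, 5]), (6, [7, 6, 3, 1, 5]),
   (6, [4, 11, 1, 1, 5]), (6, [5, 10, 1, 1, 5]), (3, [4, 12, 0, 1, 5]), (5, [4, 8, 8, 0, 5]),
   (2, [5, 7, 8, 0, 5]), (3, [6, 6, 8, 0, 5]), (2, [7, 5, 8, 0, 5]), (5, [8, 4, 8, 0, 5]),
   (7, [4, 9, 7, 0, 5]), (3, [5, 8, 7, 0, 5]), (3, [6, 7, 7, 0, 5]), (7, [7, 6, 7, 0, 5]),
   (3, [4, 10, 6, 0, 5]), (6, [5, 9, 6, 0, 5]), (3, [6, 8, 6, 0, 5]), (8, [2, 13, 5, 0, 5]),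
   (7, [3, 12, 5, 0, 5]), (6, [4, 11, 5, 0, 5]), (7, [5, 10, 5, 0, 5]), (2, [2, 14, 4, 0, 5]),
   (2, [3, 13, 4, 0, 5]), (5, [4, 12, 4, 0, 5]), (8, [2, 15, 3, 0, 5]), (3, [3, 12, 5, 1, 4]),
   (7, [5, 10, 5, 1, 4]), (5, [6, 9, 5, 1, 4]), (7, [7, 8, 5, 1, 4]), (7, [8, 7, 5, 1, 4]),
   (5, [9, 6, 5, 1, 4]), (7, [10, 5, 5, 1, 4]), (3, [12, 3, 5, 1, 4]), (3, [3, 13, 4, 1, 4]),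
   (6, [4, 12, 4, 1, 4]), (7, [5, 11, 4, 1, 4]), (1, [6, 10, 4, 1, 4]), (3, [7, 9, 4, 1, 4]),
   (1, [8, 8, 4, 1, 4]), (7, [9, 7, 4, 1, 4]), (6, [10, 6, 4, 1, 4]), (3, [11, 5, 4, 1, 4]),
   (3, [3, 14, 3, 1, 4]), (3, [4, 13, 3, 1, 4]), (7, [5, 12, 3, 1, 4]), (6, [6, 11, 3, 1, 4]),
   (6, [7, 10, 3, 1, 4]), (7, [8, 9, 3, 1, 4]), (3, [9, 8, 3, 1, 4]), (3, [10, 7, 3, 1, 4]),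
   (3, [5, 13, 2, 1, 4]), (6, [6, 12, 2, 1, 4]), (3, [7, 11, 2, 1, 4]), (3, [5, 14, 1, 1, 4]),
   (3, [6, 13, 1, 1, 4]), (3, [5, 15, 0, 1, 4]), (1, [3, 12, 9, 0, 4]), (6, [4, 11, 9, 0, 4]),
   (4, [5, 10, 9, 0, 4]), (1, [6, 9, 9, 0, 4]), (7, [7, 8, 9, 0, 4]), (7, [8, 7, 9, 0, 4]),
   (1, [9, 6, 9, 0, 4]), (4, [10, 5, 9, 0, 4]), (6, [11, 4, 9, 0, 4]), (1, [12, 3, 9, 0, 4]),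
   (7, [3, 13, 8, 0, 4]), (8, [4, 12, 8, 0, 4]), (6, [6, 10, 8, 0, 4]), (5, [7, 9, 8, 0, 4]),
   (6, [8, 8, 8, 0, 4]), (8, [10, 6, 8, 0, 4]), (7, [11, 5, 8, 0, 4]), (1, [3, 14, 7, 0, 4]),
   (4, [4, 13, 7, 0, 4]), (1, [5, 12, 7, 0, 4]), (7, [6, 11, 7, 0, 4]), (7, [7, 10, 7, 0, 4]),
   (1, [8, 9, 7, 0, 4]), (4, [9, 8, 7, 0, 4]), (1, [10, 7, 7, 0, 4]), (2, [3, 15, 6, 0, 4]),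
   (6, [4, 14, 6, 0, 4]), (5, [5, 13, 6, 0, 4]), (8, [7, 11, 6, 0, 4]), (3, [3, 16, 5, 0, 4]),
   (6, [4, 15, 5, 0, 4]), (4, [5, 14, 5, 0, 4]), (1, [6, 13, 5, 0, 4]), (6, [3, 17, 4, 0, 4]),
   (6, [4, 16, 4, 0, 4]), (5, [5, 15, 4, 0, 4]), (8, [1, 20, 3, 0, 4]), (8, [2, 19, 3, 0, 4]),
   (7, [3, 18, 3, 0, 4]), (1, [1, 21, 2, 0, 4]), (3, [4, 14, 6, 1, 3]), (3, [5, 13, 6, 1, 3]),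
   (6, [6, 12, 6, 1, 3]), (6, [7, 11, 6, 1, 3]), (6, [8, 10, 6, 1, 3]), (3, [9, 9, 6, 1, 3]),
   (6, [10, 8, 6, 1, 3]), (6, [11, 7, 6, 1, 3]), (6, [12, 6, 6, 1, 3]), (3, [13, 5, 6, 1, 3]),
   (3, [14, 4, 6, 1, 3]), (3, [6, 13, 5, 1, 3]), (6, [7, 12, 5, 1, 3]), (3, [8, 11, 5, 1, 3]),
   (3, [9, 10, 5, 1, 3]), (6, [10, 9, 5, 1, 3]), (3, [11, 8, 5, 1, 3]), (6, [6, 14, 4, 1, 3]),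
   (6, [7, 13, 4, 1, 3]), (6, [9, 11, 4, 1, 3]), (6, [10, 10, 4, 1, 3]), (6, [2, 19, 3, 1, 3]),
   (3, [3, 18, 3, 1, 3]), (5, [4, 17, 3, 1, 3]), (2, [5, 16, 3, 1, 3]), (1, [6, 15, 3, 1, 3]),
   (5, [7, 14, 3, 1, 3]), (8, [8, 13, 3, 1, 3]), (7, [9, 12, 3, 1, 3]), (3, [10, 11, 3, 1, 3]),
   (6, [11, 10, 3, 1, 3]), (3, [2, 20, 2, 1, 3]), (3, [3, 19, 2, 1, 3]), (7, [4, 18, 2, 1, 3]),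
   (6, [5, 17, 2, 1, 3]), (4, [7, 15, 2, 1, 3]), (6, [8, 14, 2, 1, 3]), (3, [9, 13, 2, 1, 3]),
   (6, [6, 17, 1, 1, 3]), (6, [7, 16, 1, 1, 3]), (8, [6, 18, 0, 1, 3]), (7, [4, 14, 10, 0, 3]),
   (4, [5, 13, 10, 0, 3]), (6, [6, 12, 10, 0, 3]), (2, [7, 11, 10, 0, 3]), (5, [8, 10, 10, 0, 3]),
   (6, [9, 9, 10, 0, 3]), (5, [10, 8, 10, 0, 3]), (2, [11, 7, 10, 0, 3]), (6, [12, 6, 10, 0, 3]),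
   (4, [13, 5, 10, 0, 3]), (7, [14, 4, 10, 0, 3]), (6, [4, 15, 9, 0, 3]), (7, [6, 13, 9, 0, 3]),
   (2, [7, 12, 9, 0, 3]), (7, [8, 11, 9, 0, 3]), (7, [9, 10, 9, 0, 3]), (2, [10, 9, 9, 0, 3]),
   (7, [11, 8, 9, 0, 3]), (6, [13, 6, 9, 0, 3]), (3, [4, 16, 8, 0, 3]), (6, [5, 15, 8, 0, 3]),
   (2, [6, 14, 8, 0, 3]), (8, [7, 13, 8, 0, 3]), (8, [9, 11, 8, 0, 3]), (2, [10, 10, 8, 0, 3]),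
   (6, [11, 9, 8, 0, 3]), (3, [12, 8, 8, 0, 3]), (2, [2, 19, 7, 0, 3]), (1, [3, 18, 7, 0, 3]),
   (3, [5, 16, 7, 0, 3]), (7, [6, 15, 7, 0, 3]), (3, [7, 14, 7, 0, 3]), (6, [8, 13, 7, 0, 3]),
   (7, [9, 12, 7, 0, 3]), (1, [10, 11, 7, 0, 3]), (2, [11, 10, 7, 0, 3]), (7, [2, 20, 6, 0, 3]),
   (1, [3, 19, 6, 0, 3]), (6, [4, 18, 6, 0, 3]), (1, [5, 17, 6, 0, 3]), (4, [7, 15, 6, 0, 3]),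
   (7, [9, 13, 6, 0, 3]), (8, [4, 19, 5, 0, 3]), (7, [5, 18, 5, 0, 3]), (6, [6, 17, 5, 0, 3]),
   (7, [7, 16, 5, 0, 3]), (1, [2, 22, 4, 0, 3]), (2, [3, 21, 4, 0, 3]), (7, [4, 20, 4, 0, 3]),
   (6, [5, 19, 4, 0, 3]), (7, [2, 23, 3, 0, 3]), (7, [3, 22, 3, 0, 3]), (8, [4, 21, 3, 0, 3]),
   (1, [2, 24, 2, 0, 3]), (3, [5, 16, 3, 2, 2]), (6, [6, 15, 3, 2, 2]), (2, [7, 14, 3, 2, 2]),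
   (8, [8, 13, 3, 2, 2]), (7, [10, 11, 3, 2, 2]), (7, [11, 10, 3, 2, 2]), (8, [13, 8, 3, 2, 2]),
   (2, [14, 7, 3, 2, 2]), (6, [15, 6, 3, 2, 2]), (3, [16, 5, 3, 2, 2]), (6, [5, 17, 2, 2, 2]),
   (6, [6, 16, 2, 2, 2]), (1, [7, 15, 2, 2, 2]), (2, [10, 12, 2, 2, 2]), (1, [13, 9, 2, 2, 2]),
   (6, [14, 8, 2, 2, 2]), (6, [15, 7, 2, 2, 2]), (3, [3, 18, 7, 1, 2]), (1, [5, 16, 7, 1, 2]),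
   (8, [6, 15, 7, 1, 2]), (8, [7, 14, 7, 1, 2]), (6, [8, 13, 7, 1, 2]), (1, [9, 12, 7, 1, 2]),
   (4, [10, 11, 7, 1, 2]), (4, [11, 10, 7, 1, 2]), (1, [12, 9, 7, 1, 2]), (6, [13, 8, 7, 1, 2]),
   (8, [14, 7, 7, 1, 2]), (8, [15, 6, 7, 1, 2]), (1, [16, 5, 7, 1, 2]), (3, [18, 3, 7, 1, 2]),
   (6, [3, 19, 6, 1, 2]), (3, [4, 18, 6, 1, 2]), (8, [5, 17, 6, 1, 2]), (8, [6, 16, 6, 1, 2]),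
   (1, [8, 14, 6, 1, 2]), (4, [9, 13, 6, 1, 2]), (3, [10, 12, 6, 1, 2]), (4, [11, 11, 6, 1, 2]),
   (1, [12, 10, 6, 1, 2]), (8, [14, 8, 6, 1, 2]), (8, [15, 7, 6, 1, 2]), (3, [16, 6, 6, 1, 2]),
   (6, [17, 5, 6, 1, 2]), (3, [5, 18, 5, 1, 2]), (1, [7, 16, 5, 1, 2]), (2, [8, 15, 5, 1, 2]),
   (1, [9, 14, 5, 1, 2]), (1, [10, 13, 5, 1, 2]), (2, [11, 12, 5, 1, 2]), (1, [12, 11, 5, 1, 2]),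
   (3, [14, 9, 5, 1, 2]), (3, [3, 21, 4, 1, 2]), (7, [5, 19, 4, 1, 2]), (5, [6, 18, 4, 1, 2]),
   (4, [7, 17, 4, 1, 2]), (4, [8, 16, 4, 1, 2]), (5, [9, 15, 4, 1, 2]), (4, [10, 14, 4, 1, 2]),
   (6, [11, 13, 4, 1, 2]), (3, [12, 12, 4, 1, 2]), (3, [3, 22, 3, 1, 2]), (6, [4, 21, 3, 1, 2]),
   (1, [5, 20, 3, 1, 2]), (4, [6, 19, 3, 1, 2]), (1, [7, 18, 3, 1, 2]), (7, [8, 17, 3, 1, 2]),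
   (4, [9, 16, 3, 1, 2]), (4, [10, 15, 3, 1, 2]), (6, [11, 14, 3, 1, 2]), (3, [12, 13, 3, 1, 2]),
   (3, [3, 23, 2, 1, 2]), (3, [4, 22, 2, 1, 2]), (7, [5, 21, 2, 1, 2]), (6, [6, 20, 2, 1, 2]),
   (6, [7, 19, 2, 1, 2]), (7, [8, 18, 2, 1, 2]), (3, [9, 17, 2, 1, 2]), (3, [10, 16, 2, 1, 2]),
   (3, [1, 26, 1, 1, 2]), (3, [2, 25, 1, 1, 2]), (1, [3, 24, 1, 1, 2]), (6, [4, 23, 1, 1, 2]),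
   (6, [5, 22, 1, 1, 2]), (1, [6, 21, 1, 1, 2]), (6, [7, 20, 1, 1, 2]), (6, [8, 19, 1, 1, 2]),
   (6, [7, 21, 0, 1, 2]), (8, [3, 18, 11, 0, 2]), (4, [5, 16, 11, 0, 2]), (2, [6, 15, 11, 0, 2]),
   (5, [7, 14, 11, 0, 2]), (6, [8, 13, 11, 0, 2]), (2, [9, 12, 11, 0, 2]),
   (4, [10, 11, 11, 0, 2]), (4, [11, 10, 11, 0, 2]), (2, [12, 9, 11, 0, 2]),
   (6, [13, 8, 11, 0, 2]), (5, [14, 7, 11, 0, 2]), (2, [15, 6, 11, 0, 2]), (4, [16, 5, 11, 0, 2]),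
   (8, [18, 3, 11, 0, 2]), (1, [3, 19, 10, 0, 2]), (8, [4, 18, 10, 0, 2]), (1, [5, 17, 10, 0, 2]),
   (2, [6, 16, 10, 0, 2]), (4, [7, 15, 10, 0, 2]), (2, [8, 14, 10, 0, 2]), (3, [9, 13, 10, 0, 2]),
   (3, [10, 12, 10, 0, 2]), (3, [11, 11, 10, 0, 2]), (2, [12, 10, 10, 0, 2]),
   (4, [13, 9, 10, 0, 2]), (2, [14, 8, 10, 0, 2]), (1, [15, 7, 10, 0, 2]), (8, [16, 6, 10, 0, 2]),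
   (1, [17, 5, 10, 0, 2]), (1, [5, 18, 9, 0, 2]), (6, [6, 17, 9, 0, 2]), (6, [7, 16, 9, 0, 2]),
   (2, [8, 15, 9, 0, 2]), (2, [11, 12, 9, 0, 2]), (6, [12, 11, 9, 0, 2]), (6, [13, 10, 9, 0, 2]),
   (1, [14, 9, 9, 0, 2]), (7, [3, 21, 8, 0, 2]), (6, [4, 20, 8, 0, 2]), (3, [5, 19, 8, 0, 2]),
   (8, [6, 18, 8, 0, 2]), (5, [7, 17, 8, 0, 2]), (2, [8, 16, 8, 0, 2]), (2, [9, 15, 8, 0, 2]),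
   (8, [10, 14, 8, 0, 2]), (8, [11, 13, 8, 0, 2]), (4, [12, 12, 8, 0, 2]), (3, [13, 11, 8, 0, 2]),
   (4, [3, 22, 7, 0, 2]), (2, [4, 21, 7, 0, 2]), (6, [5, 20, 7, 0, 2]), (3, [6, 19, 7, 0, 2]),
   (3, [7, 18, 7, 0, 2]), (6, [8, 17, 7, 0, 2]), (3, [9, 16, 7, 0, 2]), (3, [10, 15, 7, 0, 2]),
   (8, [11, 14, 7, 0, 2]), (1, [12, 13, 7, 0, 2]), (7, [3, 23, 6, 0, 2]), (1, [4, 22, 6, 0, 2]),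
   (6, [5, 21, 6, 0, 2]), (1, [6, 20, 6, 0, 2]), (4, [7, 19, 6, 0, 2]), (3, [8, 18, 6, 0, 2]),
   (4, [9, 17, 6, 0, 2]), (7, [10, 16, 6, 0, 2]), (1, [1, 26, 5, 0, 2]), (4, [2, 25, 5, 0, 2]),
   (4, [4, 23, 5, 0, 2]), (7, [5, 22, 5, 0, 2]), (6, [6, 21, 5, 0, 2]), (7, [7, 20, 5, 0, 2]),
   (1, [8, 19, 5, 0, 2]), (1, [3, 25, 4, 0, 2]), (2, [4, 24, 4, 0, 2]), (3, [5, 23, 4, 0, 2]),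
   (2, [6, 22, 4, 0, 2]), (5, [7, 21, 4, 0, 2]), (8, [3, 26, 3, 0, 2]), (8, [4, 25, 3, 0, 2]),
   (6, [6, 18, 4, 2, 1]), (1, [8, 16, 4, 2, 1]), (8, [9, 15, 4, 2, 1]), (1, [10, 14, 4, 2, 1]),
   (2, [11, 13, 4, 2, 1]), (4, [12, 12, 4, 2, 1]), (2, [13, 11, 4, 2, 1]), (1, [14, 10, 4, 2, 1]),
   (8, [15, 9, 4, 2, 1]), (1, [16, 8, 4, 2, 1]), (6, [18, 6, 4, 2, 1]), (6, [6, 19, 3, 2, 1]),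
   (3, [7, 18, 3, 2, 1]), (4, [8, 17, 3, 2, 1]), (7, [9, 16, 3, 2, 1]), (5, [11, 14, 3, 2, 1]),
   (5, [12, 13, 3, 2, 1]), (7, [14, 11, 3, 2, 1]), (4, [15, 10, 3, 2, 1]), (3, [16, 9, 3, 2, 1]),
   (6, [17, 8, 3, 2, 1]), (6, [6, 20, 2, 2, 1]), (6, [7, 19, 2, 2, 1]), (1, [8, 18, 2, 2, 1]),
   (2, [11, 15, 2, 2, 1]), (1, [14, 12, 2, 2, 1]), (6, [15, 11, 2, 2, 1]), (6, [16, 10, 2, 2, 1]),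
   (3, [4, 23, 1, 2, 1]), (3, [5, 22, 1, 2, 1]), (8, [6, 21, 1, 2, 1]), (7, [9, 18, 1, 2, 1]),
   (8, [12, 15, 1, 2, 1]), (3, [13, 14, 1, 2, 1]), (3, [14, 13, 1, 2, 1]), (6, [4, 20, 8, 1, 1]),
   (6, [5, 19, 8, 1, 1]), (2, [6, 18, 8, 1, 1]), (3, [8, 16, 8, 1, 1]), (3, [9, 15, 8, 1, 1]),
   (3, [10, 14, 8, 1, 1]), (6, [11, 13, 8, 1, 1]), (2, [12, 12, 8, 1, 1]), (6, [13, 11, 8, 1, 1]),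
   (3, [14, 10, 8, 1, 1]), (3, [15, 9, 8, 1, 1]), (3, [16, 8, 8, 1, 1]), (2, [18, 6, 8, 1, 1]),
   (6, [19, 5, 8, 1, 1]), (6, [20, 4, 8, 1, 1]), (6, [4, 21, 7, 1, 1]), (2, [6, 19, 7, 1, 1]),
   (7, [7, 18, 7, 1, 1]), (7, [8, 17, 7, 1, 1]), (3, [9, 16, 7, 1, 1]), (2, [10, 15, 7, 1, 1]),
   (8, [11, 14, 7, 1, 1]), (8, [12, 13, 7, 1, 1]), (2, [13, 12, 7, 1, 1]), (3, [14, 11, 7, 1, 1]),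
   (7, [15, 10, 7, 1, 1]), (7, [16, 9, 7, 1, 1]), (2, [17, 8, 7, 1, 1]), (6, [19, 6, 7, 1, 1]),
   (6, [4, 22, 6, 1, 1]), (3, [5, 21, 6, 1, 1]), (8, [6, 20, 6, 1, 1]), (8, [7, 19, 6, 1, 1]),
   (1, [9, 17, 6, 1, 1]), (4, [10, 16, 6, 1, 1]), (3, [11, 15, 6, 1, 1]), (4, [12, 14, 6, 1, 1]),
   (1, [13, 13, 6, 1, 1]), (8, [15, 11, 6, 1, 1]), (8, [16, 10, 6, 1, 1]), (3, [17, 9, 6, 1, 1]),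
   (6, [18, 8, 6, 1, 1]), (3, [2, 25, 5, 1, 1]), (6, [3, 24, 5, 1, 1]), (1, [4, 23, 5, 1, 1]),
   (1, [5, 22, 5, 1, 1]), (8, [7, 20, 5, 1, 1]), (8, [8, 19, 5, 1, 1]), (3, [9, 18, 5, 1, 1]),
   (8, [10, 17, 5, 1, 1]), (2, [11, 16, 5, 1, 1]), (6, [12, 15, 5, 1, 1]), (4, [13, 14, 5, 1, 1]),
   (1, [14, 13, 5, 1, 1]), (6, [15, 12, 5, 1, 1]), (3, [16, 11, 5, 1, 1]), (3, [4, 24, 4, 1, 1]),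
   (1, [6, 22, 4, 1, 1]), (2, [7, 21, 4, 1, 1]), (5, [8, 20, 4, 1, 1]), (8, [9, 19, 4, 1, 1]),
   (8, [10, 18, 4, 1, 1]), (8, [11, 17, 4, 1, 1]), (7, [12, 16, 4, 1, 1]), (3, [14, 14, 4, 1, 1]),
   (6, [4, 25, 3, 1, 1]), (3, [5, 24, 3, 1, 1]), (8, [6, 23, 3, 1, 1]), (5, [7, 22, 3, 1, 1]),
   (3, [8, 21, 3, 1, 1]), (5, [9, 20, 3, 1, 1]), (8, [10, 19, 3, 1, 1]), (6, [12, 17, 3, 1, 1]),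
   (6, [8, 22, 2, 1, 1]), (3, [9, 21, 2, 1, 1]), (6, [10, 20, 2, 1, 1]), (6, [8, 23, 1, 1, 1]),
   (6, [9, 22, 1, 1, 1]), (6, [8, 24, 0, 1, 1]), (1, [4, 20, 12, 0, 1]), (1, [5, 19, 12, 0, 1]),
   (6, [6, 18, 12, 0, 1]), (3, [7, 17, 12, 0, 1]), (8, [8, 16, 12, 0, 1]), (4, [9, 15, 12, 0, 1]),
   (1, [10, 14, 12, 0, 1]), (2, [12, 12, 12, 0, 1]), (1, [14, 10, 12, 0, 1]),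
   (4, [15, 9, 12, 0, 1]), (8, [16, 8, 12, 0, 1]), (3, [17, 7, 12, 0, 1]), (6, [18, 6, 12, 0, 1]),
   (1, [19, 5, 12, 0, 1]), (1, [20, 4, 12, 0, 1]), (7, [4, 21, 11, 0, 1]), (8, [6, 19, 11, 0, 1]),
   (4, [7, 18, 11, 0, 1]), (1, [8, 17, 11, 0, 1]), (3, [9, 16, 11, 0, 1]),
   (4, [10, 15, 11, 0, 1]), (8, [11, 14, 11, 0, 1]), (8, [12, 13, 11, 0, 1]),
   (4, [13, 12, 11, 0, 1]), (3, [14, 11, 11, 0, 1]), (1, [15, 10, 11, 0, 1]),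
   (4, [16, 9, 11, 0, 1]), (8, [17, 8, 11, 0, 1]), (7, [19, 6, 11, 0, 1]), (1, [4, 22, 10, 0, 1]),
   (8, [5, 21, 10, 0, 1]), (1, [6, 20, 10, 0, 1]), (2, [7, 19, 10, 0, 1]), (4, [8, 18, 10, 0, 1]),
   (2, [9, 17, 10, 0, 1]), (3, [10, 16, 10, 0, 1]), (3, [11, 15, 10, 0, 1]),
   (3, [12, 14, 10, 0, 1]), (2, [13, 13, 10, 0, 1]), (4, [14, 12, 10, 0, 1]),
   (2, [15, 11, 10, 0, 1]), (1, [16, 10, 10, 0, 1]), (8, [17, 9, 10, 0, 1]),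
   (1, [18, 8, 10, 0, 1]), (8, [2, 25, 9, 0, 1]), (1, [3, 24, 9, 0, 1]), (2, [4, 23, 9, 0, 1]),
   (1, [5, 22, 9, 0, 1]), (2, [6, 21, 9, 0, 1]), (4, [7, 20, 9, 0, 1]), (1, [8, 19, 9, 0, 1]),
   (8, [9, 18, 9, 0, 1]), (1, [10, 17, 9, 0, 1]), (2, [11, 16, 9, 0, 1]), (7, [12, 15, 9, 0, 1]),
   (8, [13, 14, 9, 0, 1]), (2, [14, 13, 9, 0, 1]), (7, [15, 12, 9, 0, 1]), (8, [16, 11, 9, 0, 1]),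
   (7, [4, 24, 8, 0, 1]), (6, [5, 23, 8, 0, 1]), (7, [6, 22, 8, 0, 1]), (1, [7, 21, 8, 0, 1]),
   (3, [8, 20, 8, 0, 1]), (7, [10, 18, 8, 0, 1]), (6, [11, 17, 8, 0, 1]), (6, [12, 16, 8, 0, 1]),
   (6, [13, 15, 8, 0, 1]), (7, [14, 14, 8, 0, 1]), (2, [4, 25, 7, 0, 1]), (1, [5, 24, 7, 0, 1]),
   (7, [6, 23, 7, 0, 1]), (4, [7, 22, 7, 0, 1]), (8, [8, 21, 7, 0, 1]), (7, [9, 20, 7, 0, 1]),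
   (1, [10, 19, 7, 0, 1]), (8, [11, 18, 7, 0, 1]), (2, [12, 17, 7, 0, 1]), (2, [6, 24, 6, 0, 1]),
   (6, [7, 23, 6, 0, 1]), (6, [8, 22, 6, 0, 1]), (2, [9, 21, 6, 0, 1]), (8, [6, 25, 5, 0, 1]),
   (7, [7, 24, 5, 0, 1]), (7, [8, 23, 5, 0, 1]), (8, [9, 22, 5, 0, 1]), (8, [8, 24, 4, 0, 1]),
   (6, [1, 26, 1, 3]), (6, [2, 25, 1, 3]), (8, [3, 24, 1, 3]), (3, [4, 23, 1, 3]),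
   (3, [5, 22, 1, 3]), (5, [6, 21, 1, 3]), (6, [10, 17, 1, 3]), (6, [11, 16, 1, 3]),
   (5, [12, 15, 1, 3]), (6, [13, 14, 1, 3]), (6, [14, 13, 1, 3]), (5, [15, 12, 1, 3]),
   (6, [16, 11, 1, 3]), (6, [17, 10, 1, 3]), (5, [21, 6, 1, 3]), (3, [22, 5, 1, 3]),
   (3, [23, 4, 1, 3]), (8, [24, 3, 1, 3]), (6, [25, 2, 1, 3]), (6, [26, 1, 1, 3]),
   (6, [5, 22, 5, 2]), (3, [6, 21, 5, 2]), (7, [7, 20, 5, 2]), (1, [8, 19, 5, 2]),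
   (3, [9, 18, 5, 2]), (3, [10, 17, 5, 2]), (3, [12, 15, 5, 2]), (1, [13, 14, 5, 2]),
   (1, [14, 13, 5, 2]), (3, [15, 12, 5, 2]), (3, [17, 10, 5, 2]), (3, [18, 9, 5, 2]),
   (1, [19, 8, 5, 2]), (7, [20, 7, 5, 2]), (3, [21, 6, 5, 2]), (6, [22, 5, 5, 2]),
   (6, [7, 21, 4, 2]), (1, [9, 19, 4, 2]), (8, [10, 18, 4, 2]), (1, [11, 17, 4, 2]),
   (2, [12, 16, 4, 2]), (4, [13, 15, 4, 2]), (2, [14, 14, 4, 2]), (1, [15, 13, 4, 2]),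
   (8, [16, 12, 4, 2]), (1, [17, 11, 4, 2]), (6, [19, 9, 4, 2]), (3, [7, 22, 3, 2]),
   (6, [8, 21, 3, 2]), (2, [9, 20, 3, 2]), (8, [10, 19, 3, 2]), (7, [12, 17, 3, 2]),
   (7, [13, 16, 3, 2]), (8, [15, 14, 3, 2]), (2, [16, 13, 3, 2]), (6, [17, 12, 3, 2]),
   (3, [18, 11, 3, 2]), (6, [1, 26, 9, 1]), (6, [2, 25, 9, 1]), (2, [3, 24, 9, 1]),
   (3, [4, 23, 9, 1]), (4, [5, 22, 9, 1]), (1, [6, 21, 9, 1]), (4, [7, 20, 9, 1]),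
   (6, [8, 19, 9, 1]), (3, [9, 18, 9, 1]), (2, [11, 16, 9, 1]), (3, [12, 15, 9, 1]),
   (5, [13, 14, 9, 1]), (5, [14, 13, 9, 1]), (3, [15, 12, 9, 1]), (2, [16, 11, 9, 1]),
   (3, [18, 9, 9, 1]), (6, [19, 8, 9, 1]), (4, [20, 7, 9, 1]), (1, [21, 6, 9, 1]),
   (4, [22, 5, 9, 1]), (3, [23, 4, 9, 1]), (2, [24, 3, 9, 1]), (6, [25, 2, 9, 1]),
   (6, [26, 1, 9, 1]), (6, [5, 23, 8, 1]), (6, [6, 22, 8, 1]), (2, [7, 21, 8, 1]),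
   (3, [9, 19, 8, 1]), (3, [10, 18, 8, 1]), (3, [11, 17, 8, 1]), (6, [12, 16, 8, 1]),
   (2, [13, 15, 8, 1]), (6, [14, 14, 8, 1]), (3, [15, 13, 8, 1]), (3, [16, 12, 8, 1]),
   (3, [17, 11, 8, 1]), (2, [19, 9, 8, 1]), (6, [20, 8, 8, 1]), (6, [21, 7, 8, 1]),
   (3, [5, 24, 7, 1]), (1, [7, 22, 7, 1]), (8, [8, 21, 7, 1]), (8, [9, 20, 7, 1]),
   (6, [10, 19, 7, 1]), (1, [11, 18, 7, 1]), (4, [12, 17, 7, 1]), (4, [13, 16, 7, 1]),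
   (1, [14, 15, 7, 1]), (6, [15, 14, 7, 1]), (8, [16, 13, 7, 1]), (8, [17, 12, 7, 1]),
   (1, [18, 11, 7, 1]), (3, [20, 9, 7, 1]), (3, [7, 23, 6, 1]), (3, [8, 22, 6, 1]),
   (6, [9, 21, 6, 1]), (6, [10, 20, 6, 1]), (6, [11, 19, 6, 1]), (3, [12, 18, 6, 1]),
   (6, [13, 17, 6, 1]), (6, [14, 16, 6, 1]), (6, [15, 15, 6, 1]), (3, [16, 14, 6, 1]),
   (3, [17, 13, 6, 1]), (3, [7, 24, 5, 1]), (7, [9, 22, 5, 1]), (5, [10, 21, 5, 1]),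
   (7, [11, 20, 5, 1]), (7, [12, 19, 5, 1]), (5, [13, 18, 5, 1]), (7, [14, 17, 5, 1]),
   (3, [16, 15, 5, 1]), (3, [9, 23, 4, 1]), (3, [10, 22, 4, 1]), (3, [12, 20, 4, 1]),
   (3, [13, 19, 4, 1]), (1, [9, 24, 3, 1]), (3, [10, 23, 3, 1]), (3, [11, 22, 3, 1]),
   (1, [12, 21, 3, 1]), (6, [9, 25, 2, 1]), (3, [10, 24, 2, 1]), (6, [11, 23, 2, 1]),
   (3, [9, 26, 1, 1]), (3, [10, 25, 1, 1]), (8, [1, 26, 13]), (5, [2, 25, 13]), (2, [4, 23, 13]),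
   (5, [5, 22, 13]), (6, [6, 21, 13]), (5, [7, 20, 13]), (5, [8, 19, 13]), (2, [10, 17, 13]),
   (5, [11, 16, 13]), (3, [12, 15, 13]), (8, [13, 14, 13]), (8, [14, 13, 13]), (3, [15, 12, 13]),
   (5, [16, 11, 13]), (2, [17, 10, 13]), (5, [19, 8, 13]), (5, [20, 7, 13]), (6, [21, 6, 13]),
   (5, [22, 5, 13]), (2, [23, 4, 13]), (5, [25, 2, 13]), (8, [26, 1, 13]), (1, [5, 23, 12]),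
   (1, [6, 22, 12]), (6, [7, 21, 12]), (3, [8, 20, 12]), (8, [9, 19, 12]), (4, [10, 18, 12]),
   (1, [11, 17, 12]), (2, [13, 15, 12]), (1, [15, 13, 12]), (4, [16, 12, 12]), (8, [17, 11, 12]),
   (3, [18, 10, 12]), (6, [19, 9, 12]), (1, [20, 8, 12]), (1, [21, 7, 12]), (8, [5, 24, 11]),
   (4, [7, 22, 11]), (2, [8, 21, 11]), (5, [9, 20, 11]), (6, [10, 19, 11]), (2, [11, 18, 11]),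
   (4, [12, 17, 11]), (4, [13, 16, 11]), (2, [14, 15, 11]), (6, [15, 14, 11]), (5, [16, 13, 11]),
   (2, [17, 12, 11]), (4, [18, 11, 11]), (8, [20, 9, 11]), (7, [7, 23, 10]), (4, [8, 22, 10]),
   (6, [9, 21, 10]), (2, [10, 20, 10]), (5, [11, 19, 10]), (6, [12, 18, 10]), (5, [13, 17, 10]),
   (2, [14, 16, 10]), (6, [15, 15, 10]), (4, [16, 14, 10]), (7, [17, 13, 10]), (1, [7, 24, 9]),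
   (6, [8, 23, 9]), (4, [9, 22, 9]), (1, [10, 21, 9]), (7, [11, 20, 9]), (7, [12, 19, 9]),
   (1, [13, 18, 9]), (4, [14, 17, 9]), (6, [15, 16, 9]), (1, [16, 15, 9]), (5, [9, 23, 8]),
   (2, [10, 22, 8]), (3, [11, 21, 8]), (2, [12, 20, 8]), (5, [13, 19, 8]), (5, [9, 25, 6]),
   (1, [10, 24, 6]), (5, [11, 23, 6]), (1, [9, 26, 5]), (1, [10, 25, 5])]

/-- data -/
def dL0_0 : List Tm :=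
  [(1, [0, 1]), (1, [1])]

/-- data -/
def dL0_1 : List Tm :=
  [(1, [0, 0, 0, 0, 1]), (8, [1, 2, 1]), (8, [2, 1, 1]), (1, [3, 1])]

/-- data -/
def dL0_2 : List Tm :=
  [(1, [0, 0, 0, 0, 0, 0, 1]), (1, [0, 1, 0, 0, 3]), (1, [1, 2, 2, 0, 2]), (1, [2, 1, 2, 0, 2]),
   (8, [3, 1, 1, 0, 2]), (8, [2, 4, 3, 0, 1]), (7, [3, 3, 3, 0, 1]), (8, [4, 2, 3, 0, 1]),
   (2, [4, 3, 2, 0, 1]), (2, [5, 2, 2, 0, 1]), (8, [6, 2, 1, 0, 1]), (6, [1, 8, 0, 1]),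
   (6, [2, 7, 0, 1]), (8, [3, 6, 0, 1]), (3, [4, 5, 0, 1]), (3, [5, 4, 0, 1]), (8, [6, 3, 0, 1]),
   (6, [7, 2, 0, 1]), (6, [8, 1, 0, 1]), (8, [1, 8, 4]), (5, [2, 7, 4]), (5, [4, 5, 4]),
   (5, [5, 4, 4]), (5, [7, 2, 4]), (8, [8, 1, 4]), (8, [5, 5, 3]), (7, [6, 4, 3]), (8, [7, 3, 3]),
   (1, [7, 4, 2]), (1, [8, 3, 2])]

/-- data -/
def dL0_3 : List Tm :=
  [(1, [0, 0, 0, 0, 0, 0, 0, 1]), (1, [0, 1, 0, 0, 0, 0, 3]), (8, [0, 1, 1, 0, 3, 0, 2]),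
   (8, [1, 2, 3, 0, 2, 0, 2]), (8, [2, 1, 3, 0, 2, 0, 2]), (1, [3, 1, 2, 0, 2, 0, 2]),
   (1, [2, 4, 4, 0, 1, 0, 2]), (2, [3, 3, 4, 0, 1, 0, 2]), (1, [4, 2, 4, 0, 1, 0, 2]),
   (7, [4, 3, 3, 0, 1, 0, 2]), (7, [5, 2, 3, 0, 1, 0, 2]), (1, [6, 2, 2, 0, 1, 0, 2]),
   (3, [1, 8, 1, 1, 0, 0, 2]), (3, [2, 7, 1, 1, 0, 0, 2]), (1, [3, 6, 1, 1, 0, 0, 2]),
   (6, [4, 5, 1, 1, 0, 0, 2]), (6, [5, 4, 1, 1, 0, 0, 2]), (1, [6, 3, 1, 1, 0, 0, 2]),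
   (3, [7, 2, 1, 1, 0, 0, 2]), (3, [8, 1, 1, 1, 0, 0, 2]), (1, [1, 8, 5, 0, 0, 0, 2]),
   (4, [2, 7, 5, 0, 0, 0, 2]), (4, [4, 5, 5, 0, 0, 0, 2]), (4, [5, 4, 5, 0, 0, 0, 2]),
   (4, [7, 2, 5, 0, 0, 0, 2]), (1, [8, 1, 5, 0, 0, 0, 2]), (1, [5, 5, 4, 0, 0, 0, 2]),
   (2, [6, 4, 4, 0, 0, 0, 2]), (1, [7, 3, 4, 0, 0, 0, 2]), (8, [7, 4, 3, 0, 0, 0, 2]),
   (8, [8, 3, 3, 0, 0, 0, 2]), (8, [0, 2, 1, 0, 6, 0, 1]), (7, [1, 3, 3, 0, 5, 0, 1]),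
   (7, [2, 2, 3, 0, 5, 0, 1]), (2, [3, 2, 2, 0, 5, 0, 1]), (8, [2, 4, 5, 0, 4, 0, 1]),
   (7, [3, 3, 5, 0, 4, 0, 1]), (8, [4, 2, 5, 0, 4, 0, 1]), (2, [2, 5, 4, 0, 4, 0, 1]),
   (4, [3, 4, 4, 0, 4, 0, 1]), (4, [4, 3, 4, 0, 4, 0, 1]), (2, [5, 2, 4, 0, 4, 0, 1]),
   (5, [4, 4, 3, 0, 4, 0, 1]), (5, [5, 3, 3, 0, 4, 0, 1]), (8, [6, 2, 3, 0, 4, 0, 1]),
   (2, [6, 3, 2, 0, 4, 0, 1]), (6, [1, 9, 1, 1, 3, 0, 1]), (6, [2, 8, 1, 1, 3, 0, 1]),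
   (2, [3, 7, 1, 1, 3, 0, 1]), (3, [4, 6, 1, 1, 3, 0, 1]), (3, [5, 5, 1, 1, 3, 0, 1]),
   (2, [6, 4, 1, 1, 3, 0, 1]), (6, [7, 3, 1, 1, 3, 0, 1]), (6, [8, 2, 1, 1, 3, 0, 1]),
   (2, [3, 6, 6, 0, 3, 0, 1]), (6, [4, 5, 6, 0, 3, 0, 1]), (6, [5, 4, 6, 0, 3, 0, 1]),
   (2, [6, 3, 6, 0, 3, 0, 1]), (2, [1, 9, 5, 0, 3, 0, 1]), (8, [2, 8, 5, 0, 3, 0, 1]),
   (8, [4, 6, 5, 0, 3, 0, 1]), (2, [5, 5, 5, 0, 3, 0, 1]), (6, [6, 4, 5, 0, 3, 0, 1]),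
   (2, [7, 3, 5, 0, 3, 0, 1]), (2, [8, 2, 5, 0, 3, 0, 1]), (2, [5, 6, 4, 0, 3, 0, 1]),
   (4, [6, 5, 4, 0, 3, 0, 1]), (8, [7, 4, 4, 0, 3, 0, 1]), (6, [8, 3, 4, 0, 3, 0, 1]),
   (7, [7, 5, 3, 0, 3, 0, 1]), (7, [8, 4, 3, 0, 3, 0, 1]), (7, [9, 3, 3, 0, 3, 0, 1]),
   (6, [2, 10, 3, 1, 2, 0, 1]), (3, [3, 9, 3, 1, 2, 0, 1]), (8, [4, 8, 3, 1, 2, 0, 1]),
   (5, [5, 7, 3, 1, 2, 0, 1]), (6, [6, 6, 3, 1, 2, 0, 1]), (5, [7, 5, 3, 1, 2, 0, 1]),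
   (8, [8, 4, 3, 1, 2, 0, 1]), (3, [9, 3, 3, 1, 2, 0, 1]), (6, [10, 2, 3, 1, 2, 0, 1]),
   (3, [4, 9, 2, 1, 2, 0, 1]), (3, [5, 8, 2, 1, 2, 0, 1]), (7, [6, 7, 2, 1, 2, 0, 1]),
   (6, [7, 6, 2, 1, 2, 0, 1]), (6, [8, 5, 2, 1, 2, 0, 1]), (7, [9, 4, 2, 1, 2, 0, 1]),
   (3, [10, 3, 2, 1, 2, 0, 1]), (3, [11, 2, 2, 1, 2, 0, 1]), (2, [2, 10, 7, 0, 2, 0, 1]),
   (1, [3, 9, 7, 0, 2, 0, 1]), (7, [4, 8, 7, 0, 2, 0, 1]), (4, [5, 7, 7, 0, 2, 0, 1]),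
   (1, [6, 6, 7, 0, 2, 0, 1]), (4, [7, 5, 7, 0, 2, 0, 1]), (7, [8, 4, 7, 0, 2, 0, 1]),
   (1, [9, 3, 7, 0, 2, 0, 1]), (2, [10, 2, 7, 0, 2, 0, 1]), (7, [4, 9, 6, 0, 2, 0, 1]),
   (1, [5, 8, 6, 0, 2, 0, 1]), (6, [6, 7, 6, 0, 2, 0, 1]), (1, [7, 6, 6, 0, 2, 0, 1]),
   (1, [8, 5, 6, 0, 2, 0, 1]), (6, [9, 4, 6, 0, 2, 0, 1]), (1, [10, 3, 6, 0, 2, 0, 1]),
   (7, [11, 2, 6, 0, 2, 0, 1]), (8, [8, 6, 5, 0, 2, 0, 1]), (7, [9, 5, 5, 0, 2, 0, 1]),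
   (8, [10, 4, 5, 0, 2, 0, 1]), (6, [10, 5, 4, 0, 2, 0, 1]), (6, [11, 4, 4, 0, 2, 0, 1]),
   (8, [12, 4, 3, 0, 2, 0, 1]), (3, [3, 12, 4, 1, 1, 0, 1]), (7, [5, 10, 4, 1, 1, 0, 1]),
   (5, [6, 9, 4, 1, 1, 0, 1]), (7, [7, 8, 4, 1, 1, 0, 1]), (7, [8, 7, 4, 1, 1, 0, 1]),
   (5, [9, 6, 4, 1, 1, 0, 1]), (7, [10, 5, 4, 1, 1, 0, 1]), (3, [12, 3, 4, 1, 1, 0, 1]),
   (3, [5, 11, 3, 1, 1, 0, 1]), (6, [6, 10, 3, 1, 1, 0, 1]), (7, [7, 9, 3, 1, 1, 0, 1]),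
   (1, [8, 8, 3, 1, 1, 0, 1]), (3, [9, 7, 3, 1, 1, 0, 1]), (1, [10, 6, 3, 1, 1, 0, 1]),
   (7, [11, 5, 3, 1, 1, 0, 1]), (6, [12, 4, 3, 1, 1, 0, 1]), (3, [13, 3, 3, 1, 1, 0, 1]),
   (3, [7, 10, 2, 1, 1, 0, 1]), (3, [8, 9, 2, 1, 1, 0, 1]), (7, [9, 8, 2, 1, 1, 0, 1]),
   (6, [10, 7, 2, 1, 1, 0, 1]), (6, [11, 6, 2, 1, 1, 0, 1]), (7, [12, 5, 2, 1, 1, 0, 1]),
   (3, [13, 4, 2, 1, 1, 0, 1]), (3, [14, 3, 2, 1, 1, 0, 1]), (7, [3, 12, 8, 0, 1, 0, 1]),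
   (6, [4, 11, 8, 0, 1, 0, 1]), (2, [6, 9, 8, 0, 1, 0, 1]), (3, [7, 8, 8, 0, 1, 0, 1]),
   (3, [8, 7, 8, 0, 1, 0, 1]), (2, [9, 6, 8, 0, 1, 0, 1]), (6, [11, 4, 8, 0, 1, 0, 1]),
   (7, [12, 3, 8, 0, 1, 0, 1]), (4, [5, 11, 7, 0, 1, 0, 1]), (2, [6, 10, 7, 0, 1, 0, 1]),
   (5, [7, 9, 7, 0, 1, 0, 1]), (8, [8, 8, 7, 0, 1, 0, 1]), (2, [9, 7, 7, 0, 1, 0, 1]),
   (8, [10, 6, 7, 0, 1, 0, 1]), (5, [11, 5, 7, 0, 1, 0, 1]), (2, [12, 4, 7, 0, 1, 0, 1]),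
   (4, [13, 3, 7, 0, 1, 0, 1]), (7, [7, 10, 6, 0, 1, 0, 1]), (1, [8, 9, 6, 0, 1, 0, 1]),
   (6, [9, 8, 6, 0, 1, 0, 1]), (1, [10, 7, 6, 0, 1, 0, 1]), (1, [11, 6, 6, 0, 1, 0, 1]),
   (6, [12, 5, 6, 0, 1, 0, 1]), (1, [13, 4, 6, 0, 1, 0, 1]), (7, [14, 3, 6, 0, 1, 0, 1]),
   (3, [11, 7, 5, 0, 1, 0, 1]), (6, [12, 6, 5, 0, 1, 0, 1]), (3, [13, 5, 5, 0, 1, 0, 1]),
   (2, [13, 6, 4, 0, 1, 0, 1]), (2, [14, 5, 4, 0, 1, 0, 1]), (3, [4, 14, 1, 2, 0, 0, 1]),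
   (3, [5, 13, 1, 2, 0, 0, 1]), (8, [6, 12, 1, 2, 0, 0, 1]), (7, [9, 9, 1, 2, 0, 0, 1]),
   (8, [12, 6, 1, 2, 0, 0, 1]), (3, [13, 5, 1, 2, 0, 0, 1]), (3, [14, 4, 1, 2, 0, 0, 1]),
   (3, [2, 16, 5, 1, 0, 0, 1]), (6, [3, 15, 5, 1, 0, 0, 1]), (1, [4, 14, 5, 1, 0, 0, 1]),
   (1, [5, 13, 5, 1, 0, 0, 1]), (8, [7, 11, 5, 1, 0, 0, 1]), (5, [8, 10, 5, 1, 0, 0, 1]),
   (6, [9, 9, 5, 1, 0, 0, 1]), (5, [10, 8, 5, 1, 0, 0, 1]), (8, [11, 7, 5, 1, 0, 0, 1]),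
   (1, [13, 5, 5, 1, 0, 0, 1]), (1, [14, 4, 5, 1, 0, 0, 1]), (6, [15, 3, 5, 1, 0, 0, 1]),
   (3, [16, 2, 5, 1, 0, 0, 1]), (3, [6, 13, 4, 1, 0, 0, 1]), (7, [8, 11, 4, 1, 0, 0, 1]),
   (5, [9, 10, 4, 1, 0, 0, 1]), (7, [10, 9, 4, 1, 0, 0, 1]), (7, [11, 8, 4, 1, 0, 0, 1]),
   (5, [12, 7, 4, 1, 0, 0, 1]), (7, [13, 6, 4, 1, 0, 0, 1]), (3, [15, 4, 4, 1, 0, 0, 1]),
   (6, [8, 12, 3, 1, 0, 0, 1]), (3, [9, 11, 3, 1, 0, 0, 1]), (8, [10, 10, 3, 1, 0, 0, 1]),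
   (5, [11, 9, 3, 1, 0, 0, 1]), (6, [12, 8, 3, 1, 0, 0, 1]), (5, [13, 7, 3, 1, 0, 0, 1]),
   (8, [14, 6, 3, 1, 0, 0, 1]), (3, [15, 5, 3, 1, 0, 0, 1]), (6, [16, 4, 3, 1, 0, 0, 1]),
   (8, [2, 16, 9, 0, 0, 0, 1]), (1, [3, 15, 9, 0, 0, 0, 1]), (2, [4, 14, 9, 0, 0, 0, 1]),
   (1, [5, 13, 9, 0, 0, 0, 1]), (5, [6, 12, 9, 0, 0, 0, 1]), (4, [7, 11, 9, 0, 0, 0, 1]),
   (3, [8, 10, 9, 0, 0, 0, 1]), (6, [9, 9, 9, 0, 0, 0, 1]), (3, [10, 8, 9, 0, 0, 0, 1]),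
   (4, [11, 7, 9, 0, 0, 0, 1]), (5, [12, 6, 9, 0, 0, 0, 1]), (1, [13, 5, 9, 0, 0, 0, 1]),
   (2, [14, 4, 9, 0, 0, 0, 1]), (1, [15, 3, 9, 0, 0, 0, 1]), (8, [16, 2, 9, 0, 0, 0, 1]),
   (7, [6, 13, 8, 0, 0, 0, 1]), (6, [7, 12, 8, 0, 0, 0, 1]), (2, [9, 10, 8, 0, 0, 0, 1]),
   (3, [10, 9, 8, 0, 0, 0, 1]), (3, [11, 8, 8, 0, 0, 0, 1]), (2, [12, 7, 8, 0, 0, 0, 1]),
   (6, [14, 5, 8, 0, 0, 0, 1]), (7, [15, 4, 8, 0, 0, 0, 1]), (2, [8, 12, 7, 0, 0, 0, 1]),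
   (1, [9, 11, 7, 0, 0, 0, 1]), (7, [10, 10, 7, 0, 0, 0, 1]), (4, [11, 9, 7, 0, 0, 0, 1]),
   (1, [12, 8, 7, 0, 0, 0, 1]), (4, [13, 7, 7, 0, 0, 0, 1]), (7, [14, 6, 7, 0, 0, 0, 1]),
   (1, [15, 5, 7, 0, 0, 0, 1]), (2, [16, 4, 7, 0, 0, 0, 1]), (2, [12, 9, 6, 0, 0, 0, 1]),
   (6, [13, 8, 6, 0, 0, 0, 1]), (6, [14, 7, 6, 0, 0, 0, 1]), (2, [15, 6, 6, 0, 0, 0, 1]),
   (8, [14, 8, 5, 0, 0, 0, 1]), (7, [15, 7, 5, 0, 0, 0, 1]), (8, [16, 6, 5, 0, 0, 0, 1]),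
   (6, [3, 24, 0, 0, 0, 1]), (6, [6, 21, 0, 0, 0, 1]), (8, [9, 18, 0, 0, 0, 1]),
   (3, [12, 15, 0, 0, 0, 1]), (3, [15, 12, 0, 0, 0, 1]), (8, [18, 9, 0, 0, 0, 1]),
   (6, [21, 6, 0, 0, 0, 1]), (6, [24, 3, 0, 0, 0, 1]), (3, [1, 2, 1, 1, 8]), (3, [2, 1, 1, 1, 8]),
   (6, [3, 1, 0, 1, 8]), (1, [1, 2, 5, 0, 8]), (1, [2, 1, 5, 0, 8]), (8, [3, 1, 4, 0, 8]),
   (8, [1, 4, 3, 0, 8]), (8, [2, 3, 3, 0, 8]), (1, [3, 3, 2, 0, 8]), (6, [2, 4, 2, 1, 7]),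
   (3, [3, 3, 2, 1, 7]), (6, [4, 2, 2, 1, 7]), (6, [4, 3, 1, 1, 7]), (6, [5, 2, 1, 1, 7]),
   (6, [6, 2, 0, 1, 7]), (5, [2, 4, 6, 0, 7]), (1, [3, 3, 6, 0, 7]), (5, [4, 2, 6, 0, 7]),
   (8, [2, 5, 5, 0, 7]), (7, [3, 4, 5, 0, 7]), (7, [4, 3, 5, 0, 7]), (8, [5, 2, 5, 0, 7]),
   (1, [2, 6, 4, 0, 7]), (2, [3, 5, 4, 0, 7]), (3, [4, 4, 4, 0, 7]), (2, [5, 3, 4, 0, 7]),
   (5, [6, 2, 4, 0, 7]), (7, [4, 5, 3, 0, 7]), (7, [5, 4, 3, 0, 7]), (8, [6, 3, 3, 0, 7]),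
   (1, [6, 4, 2, 0, 7]), (1, [3, 6, 3, 1, 6]), (3, [4, 5, 3, 1, 6]), (3, [5, 4, 3, 1, 6]),
   (1, [6, 3, 3, 1, 6]), (6, [5, 5, 2, 1, 6]), (3, [6, 4, 2, 1, 6]), (6, [7, 3, 2, 1, 6]),
   (3, [1, 10, 1, 1, 6]), (3, [2, 9, 1, 1, 6]), (1, [3, 8, 1, 1, 6]), (6, [4, 7, 1, 1, 6]),
   (6, [5, 6, 1, 1, 6]), (1, [6, 5, 1, 1, 6]), (6, [7, 4, 1, 1, 6]), (6, [8, 3, 1, 1, 6]),
   (8, [9, 3, 0, 1, 6]), (2, [3, 7, 6, 0, 6]), (6, [4, 6, 6, 0, 6]), (6, [5, 5, 6, 0, 6]),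
   (2, [6, 4, 6, 0, 6]), (1, [1, 10, 5, 0, 6]), (4, [2, 9, 5, 0, 6]), (4, [4, 7, 5, 0, 6]),
   (7, [5, 6, 5, 0, 6]), (6, [6, 5, 5, 0, 6]), (7, [7, 4, 5, 0, 6]), (1, [8, 3, 5, 0, 6]),
   (1, [5, 7, 4, 0, 6]), (2, [6, 6, 4, 0, 6]), (7, [7, 5, 4, 0, 6]), (6, [8, 4, 4, 0, 6]),
   (8, [7, 6, 3, 0, 6]), (8, [8, 5, 3, 0, 6]), (7, [9, 4, 3, 0, 6]), (3, [4, 8, 4, 1, 5]),
   (3, [5, 7, 4, 1, 5]), (3, [7, 5, 4, 1, 5]), (3, [8, 4, 4, 1, 5]), (6, [2, 11, 3, 1, 5]),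
   (3, [3, 10, 3, 1, 5]), (8, [4, 9, 3, 1, 5]), (5, [5, 8, 3, 1, 5]), (3, [6, 7, 3, 1, 5]),
   (5, [7, 6, 3, 1, 5]), (8, [8, 5, 3, 1, 5]), (6, [10, 3, 3, 1, 5]), (3, [4, 10, 2, 1, 5]),
   (3, [5, 9, 2, 1, 5]), (7, [6, 8, 2, 1, 5]), (6, [7, 7, 2, 1, 5]), (6, [8, 6, 2, 1, 5]),
   (7, [9, 5, 2, 1, 5]), (3, [10, 4, 2, 1, 5]), (3, [11, 3, 2, 1, 5]), (6, [10, 5, 1, 1, 5]),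
   (6, [11, 4, 1, 1, 5]), (3, [12, 4, 0, 1, 5]), (5, [4, 8, 8, 0, 5]), (2, [5, 7, 8, 0, 5]),
   (3, [6, 6, 8, 0, 5]), (2, [7, 5, 8, 0, 5]), (5, [8, 4, 8, 0, 5]), (2, [2, 11, 7, 0, 5]),
   (1, [3, 10, 7, 0, 5]), (7, [4, 9, 7, 0, 5]), (4, [5, 8, 7, 0, 5]), (8, [6, 7, 7, 0, 5]),
   (7, [7, 6, 7, 0, 5]), (1, [8, 5, 7, 0, 5]), (8, [9, 4, 7, 0, 5]), (2, [10, 3, 7, 0, 5]),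
   (7, [4, 10, 6, 0, 5]), (1, [5, 9, 6, 0, 5]), (6, [6, 8, 6, 0, 5]), (1, [7, 7, 6, 0, 5]),
   (4, [8, 6, 6, 0, 5]), (3, [9, 5, 6, 0, 5]), (4, [10, 4, 6, 0, 5]), (7, [11, 3, 6, 0, 5]),
   (8, [8, 7, 5, 0, 5]), (7, [9, 6, 5, 0, 5]), (6, [10, 5, 5, 0, 5]), (7, [11, 4, 5, 0, 5]),
   (6, [10, 6, 4, 0, 5]), (6, [11, 5, 4, 0, 5]), (5, [12, 4, 4, 0, 5]), (8, [12, 5, 3, 0, 5]),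
   (3, [3, 12, 5, 1, 4]), (7, [5, 10, 5, 1, 4]), (5, [6, 9, 5, 1, 4]), (7, [7, 8, 5, 1, 4]),
   (7, [8, 7, 5, 1, 4]), (5, [9, 6, 5, 1, 4]), (7, [10, 5, 5, 1, 4]), (3, [12, 3, 5, 1, 4]),
   (3, [3, 13, 4, 1, 4]), (1, [5, 11, 4, 1, 4]), (2, [6, 10, 4, 1, 4]), (5, [7, 9, 4, 1, 4]),
   (8, [8, 8, 4, 1, 4]), (8, [9, 7, 4, 1, 4]), (8, [10, 6, 4, 1, 4]), (7, [11, 5, 4, 1, 4]),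
   (3, [13, 3, 4, 1, 4]), (3, [5, 12, 3, 1, 4]), (6, [6, 11, 3, 1, 4]), (1, [7, 10, 3, 1, 4]),
   (4, [8, 9, 3, 1, 4]), (1, [9, 8, 3, 1, 4]), (7, [10, 7, 3, 1, 4]), (4, [11, 6, 3, 1, 4]),
   (4, [12, 5, 3, 1, 4]), (6, [13, 4, 3, 1, 4]), (3, [14, 3, 3, 1, 4]), (3, [7, 11, 2, 1, 4]),
   (3, [8, 10, 2, 1, 4]), (7, [9, 9, 2, 1, 4]), (6, [10, 8, 2, 1, 4]), (4, [12, 6, 2, 1, 4]),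
   (6, [13, 5, 2, 1, 4]), (3, [14, 4, 2, 1, 4]), (3, [13, 6, 1, 1, 4]), (3, [14, 5, 1, 1, 4]),
   (3, [15, 5, 0, 1, 4]), (1, [3, 12, 9, 0, 4]), (6, [4, 11, 9, 0, 4]), (4, [5, 10, 9, 0, 4]),
   (1, [6, 9, 9, 0, 4]), (7, [7, 8, 9, 0, 4]), (7, [8, 7, 9, 0, 4]), (1, [9, 6, 9, 0, 4]),
   (4, [10, 5, 9, 0, 4]), (6, [11, 4, 9, 0, 4]), (1, [12, 3, 9, 0, 4]), (7, [3, 13, 8, 0, 4]),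
   (6, [4, 12, 8, 0, 4]), (7, [5, 11, 8, 0, 4]), (1, [6, 10, 8, 0, 4]), (3, [7, 9, 8, 0, 4]),
   (7, [9, 7, 8, 0, 4]), (6, [10, 6, 8, 0, 4]), (6, [11, 5, 8, 0, 4]), (6, [12, 4, 8, 0, 4]),
   (7, [13, 3, 8, 0, 4]), (4, [5, 12, 7, 0, 4]), (2, [6, 11, 7, 0, 4]), (6, [7, 10, 7, 0, 4]),
   (3, [8, 9, 7, 0, 4]), (3, [9, 8, 7, 0, 4]), (6, [10, 7, 7, 0, 4]), (3, [11, 6, 7, 0, 4]),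
   (3, [12, 5, 7, 0, 4]), (8, [13, 4, 7, 0, 4]), (1, [14, 3, 7, 0, 4]), (7, [7, 11, 6, 0, 4]),
   (1, [8, 10, 6, 0, 4]), (6, [9, 9, 6, 0, 4]), (1, [10, 8, 6, 0, 4]), (4, [12, 6, 6, 0, 4]),
   (7, [14, 4, 6, 0, 4]), (3, [11, 8, 5, 0, 4]), (6, [12, 7, 5, 0, 4]), (4, [13, 6, 5, 0, 4]),
   (1, [14, 5, 5, 0, 4]), (2, [13, 7, 4, 0, 4]), (2, [14, 6, 4, 0, 4]), (5, [15, 5, 4, 0, 4]),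
   (3, [4, 15, 1, 2, 3]), (3, [5, 14, 1, 2, 3]), (8, [6, 13, 1, 2, 3]), (7, [9, 10, 1, 2, 3]),
   (8, [12, 7, 1, 2, 3]), (3, [13, 6, 1, 2, 3]), (3, [14, 5, 1, 2, 3]), (3, [4, 14, 6, 1, 3]),
   (3, [5, 13, 6, 1, 3]), (6, [6, 12, 6, 1, 3]), (6, [7, 11, 6, 1, 3]), (6, [8, 10, 6, 1, 3]),
   (3, [9, 9, 6, 1, 3]), (6, [10, 8, 6, 1, 3]), (6, [11, 7, 6, 1, 3]), (6, [12, 6, 6, 1, 3]),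
   (3, [13, 5, 6, 1, 3]), (3, [14, 4, 6, 1, 3]), (3, [2, 17, 5, 1, 3]), (6, [3, 16, 5, 1, 3]),
   (1, [4, 15, 5, 1, 3]), (1, [5, 14, 5, 1, 3]), (8, [7, 12, 5, 1, 3]), (8, [8, 11, 5, 1, 3]),
   (3, [9, 10, 5, 1, 3]), (8, [10, 9, 5, 1, 3]), (2, [11, 8, 5, 1, 3]), (6, [12, 7, 5, 1, 3]),
   (4, [13, 6, 5, 1, 3]), (1, [14, 5, 5, 1, 3]), (6, [15, 4, 5, 1, 3]), (3, [16, 3, 5, 1, 3]),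
   (3, [6, 14, 4, 1, 3]), (7, [8, 12, 4, 1, 3]), (5, [9, 11, 4, 1, 3]), (4, [10, 10, 4, 1, 3]),
   (4, [11, 9, 4, 1, 3]), (5, [12, 8, 4, 1, 3]), (4, [13, 7, 4, 1, 3]), (6, [14, 6, 4, 1, 3]),
   (3, [15, 5, 4, 1, 3]), (6, [8, 13, 3, 1, 3]), (3, [9, 12, 3, 1, 3]), (5, [10, 11, 3, 1, 3]),
   (2, [11, 10, 3, 1, 3]), (1, [12, 9, 3, 1, 3]), (5, [13, 8, 3, 1, 3]), (8, [14, 7, 3, 1, 3]),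
   (7, [15, 6, 3, 1, 3]), (3, [16, 5, 3, 1, 3]), (6, [17, 4, 3, 1, 3]), (3, [14, 8, 2, 1, 3]),
   (6, [15, 7, 2, 1, 3]), (3, [16, 6, 2, 1, 3]), (6, [16, 7, 1, 1, 3]), (6, [17, 6, 1, 1, 3]),
   (8, [18, 6, 0, 1, 3]), (7, [4, 14, 10, 0, 3]), (4, [5, 13, 10, 0, 3]), (6, [6, 12, 10, 0, 3]),
   (2, [7, 11, 10, 0, 3]), (5, [8, 10, 10, 0, 3]), (6, [9, 9, 10, 0, 3]), (5, [10, 8, 10, 0, 3]),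
   (2, [11, 7, 10, 0, 3]), (6, [12, 6, 10, 0, 3]), (4, [13, 5, 10, 0, 3]), (7, [14, 4, 10, 0, 3]),
   (8, [2, 17, 9, 0, 3]), (1, [3, 16, 9, 0, 3]), (2, [4, 15, 9, 0, 3]), (1, [5, 14, 9, 0, 3]),
   (2, [6, 13, 9, 0, 3]), (4, [7, 12, 9, 0, 3]), (1, [8, 11, 9, 0, 3]), (8, [9, 10, 9, 0, 3]),
   (1, [10, 9, 9, 0, 3]), (2, [11, 8, 9, 0, 3]), (7, [12, 7, 9, 0, 3]), (8, [13, 6, 9, 0, 3]),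
   (2, [14, 5, 9, 0, 3]), (7, [15, 4, 9, 0, 3]), (8, [16, 3, 9, 0, 3]), (7, [6, 14, 8, 0, 3]),
   (6, [7, 13, 8, 0, 3]), (3, [8, 12, 8, 0, 3]), (8, [9, 11, 8, 0, 3]), (5, [10, 10, 8, 0, 3]),
   (2, [11, 9, 8, 0, 3]), (2, [12, 8, 8, 0, 3]), (8, [13, 7, 8, 0, 3]), (8, [14, 6, 8, 0, 3]),
   (4, [15, 5, 8, 0, 3]), (3, [16, 4, 8, 0, 3]), (2, [8, 13, 7, 0, 3]), (1, [9, 12, 7, 0, 3]),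
   (3, [11, 10, 7, 0, 3]), (7, [12, 9, 7, 0, 3]), (3, [13, 8, 7, 0, 3]), (6, [14, 7, 7, 0, 3]),
   (7, [15, 6, 7, 0, 3]), (1, [16, 5, 7, 0, 3]), (2, [17, 4, 7, 0, 3]), (2, [12, 10, 6, 0, 3]),
   (6, [13, 9, 6, 0, 3]), (5, [14, 8, 6, 0, 3]), (8, [16, 6, 6, 0, 3]), (8, [14, 9, 5, 0, 3]),
   (7, [15, 8, 5, 0, 3]), (6, [16, 7, 5, 0, 3]), (7, [17, 6, 5, 0, 3]), (3, [5, 16, 3, 2, 2]),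
   (6, [6, 15, 3, 2, 2]), (2, [7, 14, 3, 2, 2]), (8, [8, 13, 3, 2, 2]), (7, [10, 11, 3, 2, 2]),
   (7, [11, 10, 3, 2, 2]), (8, [13, 8, 3, 2, 2]), (2, [14, 7, 3, 2, 2]), (6, [15, 6, 3, 2, 2]),
   (3, [16, 5, 3, 2, 2]), (6, [7, 15, 2, 2, 2]), (6, [8, 14, 2, 2, 2]), (1, [9, 13, 2, 2, 2]),
   (2, [12, 10, 2, 2, 2]), (1, [15, 7, 2, 2, 2]), (6, [16, 6, 2, 2, 2]), (6, [17, 5, 2, 2, 2]),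
   (3, [3, 18, 7, 1, 2]), (1, [5, 16, 7, 1, 2]), (8, [6, 15, 7, 1, 2]), (8, [7, 14, 7, 1, 2]),
   (6, [8, 13, 7, 1, 2]), (1, [9, 12, 7, 1, 2]), (4, [10, 11, 7, 1, 2]), (4, [11, 10, 7, 1, 2]),
   (1, [12, 9, 7, 1, 2]), (6, [13, 8, 7, 1, 2]), (8, [14, 7, 7, 1, 2]), (8, [15, 6, 7, 1, 2]),
   (1, [16, 5, 7, 1, 2]), (3, [18, 3, 7, 1, 2]), (6, [5, 17, 6, 1, 2]), (3, [6, 16, 6, 1, 2]),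
   (8, [7, 15, 6, 1, 2]), (8, [8, 14, 6, 1, 2]), (1, [10, 12, 6, 1, 2]), (4, [11, 11, 6, 1, 2]),
   (3, [12, 10, 6, 1, 2]), (4, [13, 9, 6, 1, 2]), (1, [14, 8, 6, 1, 2]), (8, [16, 6, 6, 1, 2]),
   (8, [17, 5, 6, 1, 2]), (3, [18, 4, 6, 1, 2]), (6, [19, 3, 6, 1, 2]), (3, [9, 14, 5, 1, 2]),
   (1, [11, 12, 5, 1, 2]), (2, [12, 11, 5, 1, 2]), (1, [13, 10, 5, 1, 2]), (1, [14, 9, 5, 1, 2]),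
   (2, [15, 8, 5, 1, 2]), (1, [16, 7, 5, 1, 2]), (3, [18, 5, 5, 1, 2]), (6, [13, 11, 4, 1, 2]),
   (6, [14, 10, 4, 1, 2]), (6, [16, 8, 4, 1, 2]), (6, [17, 7, 4, 1, 2]), (3, [13, 12, 3, 1, 2]),
   (3, [14, 11, 3, 1, 2]), (7, [15, 10, 3, 1, 2]), (6, [16, 9, 3, 1, 2]), (6, [17, 8, 3, 1, 2]),
   (7, [18, 7, 3, 1, 2]), (3, [19, 6, 3, 1, 2]), (3, [20, 5, 3, 1, 2]), (3, [19, 8, 1, 1, 2]),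
   (3, [20, 7, 1, 1, 2]), (6, [21, 7, 0, 1, 2]), (8, [3, 18, 11, 0, 2]), (4, [5, 16, 11, 0, 2]),
   (2, [6, 15, 11, 0, 2]), (5, [7, 14, 11, 0, 2]), (6, [8, 13, 11, 0, 2]), (2, [9, 12, 11, 0, 2]),
   (4, [10, 11, 11, 0, 2]), (4, [11, 10, 11, 0, 2]), (2, [12, 9, 11, 0, 2]),
   (6, [13, 8, 11, 0, 2]), (5, [14, 7, 11, 0, 2]), (2, [15, 6, 11, 0, 2]), (4, [16, 5, 11, 0, 2]),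
   (8, [18, 3, 11, 0, 2]), (1, [5, 17, 10, 0, 2]), (8, [6, 16, 10, 0, 2]), (1, [7, 15, 10, 0, 2]),
   (2, [8, 14, 10, 0, 2]), (4, [9, 13, 10, 0, 2]), (2, [10, 12, 10, 0, 2]),
   (3, [11, 11, 10, 0, 2]), (3, [12, 10, 10, 0, 2]), (3, [13, 9, 10, 0, 2]),
   (2, [14, 8, 10, 0, 2]), (4, [15, 7, 10, 0, 2]), (2, [16, 6, 10, 0, 2]), (1, [17, 5, 10, 0, 2]),
   (8, [18, 4, 10, 0, 2]), (1, [19, 3, 10, 0, 2]), (1, [9, 14, 9, 0, 2]), (6, [10, 13, 9, 0, 2]),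
   (6, [11, 12, 9, 0, 2]), (2, [12, 11, 9, 0, 2]), (2, [15, 8, 9, 0, 2]), (6, [16, 7, 9, 0, 2]),
   (6, [17, 6, 9, 0, 2]), (1, [18, 5, 9, 0, 2]), (3, [11, 13, 8, 0, 2]), (6, [12, 12, 8, 0, 2]),
   (2, [13, 11, 8, 0, 2]), (8, [14, 10, 8, 0, 2]), (8, [16, 8, 8, 0, 2]), (2, [17, 7, 8, 0, 2]),
   (6, [18, 6, 8, 0, 2]), (3, [19, 5, 8, 0, 2]), (1, [13, 12, 7, 0, 2]), (4, [14, 11, 7, 0, 2]),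
   (1, [15, 10, 7, 0, 2]), (7, [16, 9, 7, 0, 2]), (7, [17, 8, 7, 0, 2]), (1, [18, 7, 7, 0, 2]),
   (4, [19, 6, 7, 0, 2]), (1, [20, 5, 7, 0, 2]), (3, [17, 9, 6, 0, 2]), (6, [18, 8, 6, 0, 2]),
   (3, [19, 7, 6, 0, 2]), (5, [21, 7, 4, 0, 2]), (6, [6, 18, 4, 2, 1]), (1, [8, 16, 4, 2, 1]),
   (8, [9, 15, 4, 2, 1]), (1, [10, 14, 4, 2, 1]), (2, [11, 13, 4, 2, 1]), (4, [12, 12, 4, 2, 1]),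
   (2, [13, 11, 4, 2, 1]), (1, [14, 10, 4, 2, 1]), (8, [15, 9, 4, 2, 1]), (1, [16, 8, 4, 2, 1]),
   (6, [18, 6, 4, 2, 1]), (6, [8, 17, 3, 2, 1]), (3, [9, 16, 3, 2, 1]), (4, [10, 15, 3, 2, 1]),
   (7, [11, 14, 3, 2, 1]), (5, [13, 12, 3, 2, 1]), (5, [14, 11, 3, 2, 1]), (7, [16, 9, 3, 2, 1]),
   (4, [17, 8, 3, 2, 1]), (3, [18, 7, 3, 2, 1]), (6, [19, 6, 3, 2, 1]), (6, [10, 16, 2, 2, 1]),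
   (6, [11, 15, 2, 2, 1]), (1, [12, 14, 2, 2, 1]), (2, [15, 11, 2, 2, 1]), (1, [18, 8, 2, 2, 1]),
   (6, [19, 7, 2, 2, 1]), (6, [20, 6, 2, 2, 1]), (6, [4, 20, 8, 1, 1]), (6, [5, 19, 8, 1, 1]),
   (2, [6, 18, 8, 1, 1]), (3, [8, 16, 8, 1, 1]), (3, [9, 15, 8, 1, 1]), (3, [10, 14, 8, 1, 1]),
   (6, [11, 13, 8, 1, 1]), (2, [12, 12, 8, 1, 1]), (6, [13, 11, 8, 1, 1]), (3, [14, 10, 8, 1, 1]),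
   (3, [15, 9, 8, 1, 1]), (3, [16, 8, 8, 1, 1]), (2, [18, 6, 8, 1, 1]), (6, [19, 5, 8, 1, 1]),
   (6, [20, 4, 8, 1, 1]), (6, [6, 19, 7, 1, 1]), (2, [8, 17, 7, 1, 1]), (7, [9, 16, 7, 1, 1]),
   (7, [10, 15, 7, 1, 1]), (3, [11, 14, 7, 1, 1]), (2, [12, 13, 7, 1, 1]), (8, [13, 12, 7, 1, 1]),
   (8, [14, 11, 7, 1, 1]), (2, [15, 10, 7, 1, 1]), (3, [16, 9, 7, 1, 1]), (7, [17, 8, 7, 1, 1]),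
   (7, [18, 7, 7, 1, 1]), (2, [19, 6, 7, 1, 1]), (6, [21, 4, 7, 1, 1]), (6, [8, 18, 6, 1, 1]),
   (3, [9, 17, 6, 1, 1]), (8, [10, 16, 6, 1, 1]), (8, [11, 15, 6, 1, 1]), (1, [13, 13, 6, 1, 1]),
   (4, [14, 12, 6, 1, 1]), (3, [15, 11, 6, 1, 1]), (4, [16, 10, 6, 1, 1]), (1, [17, 9, 6, 1, 1]),
   (8, [19, 7, 6, 1, 1]), (8, [20, 6, 6, 1, 1]), (3, [21, 5, 6, 1, 1]), (6, [22, 4, 6, 1, 1]),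
   (3, [14, 13, 5, 1, 1]), (6, [15, 12, 5, 1, 1]), (3, [16, 11, 5, 1, 1]), (3, [17, 10, 5, 1, 1]),
   (6, [18, 9, 5, 1, 1]), (3, [19, 8, 5, 1, 1]), (3, [14, 14, 4, 1, 1]), (6, [15, 13, 4, 1, 1]),
   (7, [16, 12, 4, 1, 1]), (1, [17, 11, 4, 1, 1]), (3, [18, 10, 4, 1, 1]), (1, [19, 9, 4, 1, 1]),
   (7, [20, 8, 4, 1, 1]), (6, [21, 7, 4, 1, 1]), (3, [22, 6, 4, 1, 1]), (6, [18, 11, 3, 1, 1]),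
   (6, [21, 8, 3, 1, 1]), (6, [20, 10, 2, 1, 1]), (3, [21, 9, 2, 1, 1]), (6, [22, 8, 2, 1, 1]),
   (6, [22, 9, 1, 1, 1]), (6, [23, 8, 1, 1, 1]), (6, [24, 8, 0, 1, 1]), (1, [4, 20, 12, 0, 1]),
   (1, [5, 19, 12, 0, 1]), (6, [6, 18, 12, 0, 1]), (3, [7, 17, 12, 0, 1]), (8, [8, 16, 12, 0, 1]),
   (4, [9, 15, 12, 0, 1]), (1, [10, 14, 12, 0, 1]), (2, [12, 12, 12, 0, 1]),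
   (1, [14, 10, 12, 0, 1]), (4, [15, 9, 12, 0, 1]), (8, [16, 8, 12, 0, 1]),
   (3, [17, 7, 12, 0, 1]), (6, [18, 6, 12, 0, 1]), (1, [19, 5, 12, 0, 1]), (1, [20, 4, 12, 0, 1]),
   (7, [6, 19, 11, 0, 1]), (8, [8, 17, 11, 0, 1]), (4, [9, 16, 11, 0, 1]),
   (1, [10, 15, 11, 0, 1]), (3, [11, 14, 11, 0, 1]), (4, [12, 13, 11, 0, 1]),
   (8, [13, 12, 11, 0, 1]), (8, [14, 11, 11, 0, 1]), (4, [15, 10, 11, 0, 1]),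
   (3, [16, 9, 11, 0, 1]), (1, [17, 8, 11, 0, 1]), (4, [18, 7, 11, 0, 1]), (8, [19, 6, 11, 0, 1]),
   (7, [21, 4, 11, 0, 1]), (1, [8, 18, 10, 0, 1]), (8, [9, 17, 10, 0, 1]),
   (1, [10, 16, 10, 0, 1]), (2, [11, 15, 10, 0, 1]), (4, [12, 14, 10, 0, 1]),
   (2, [13, 13, 10, 0, 1]), (3, [14, 12, 10, 0, 1]), (3, [15, 11, 10, 0, 1]),
   (3, [16, 10, 10, 0, 1]), (2, [17, 9, 10, 0, 1]), (4, [18, 8, 10, 0, 1]),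
   (2, [19, 7, 10, 0, 1]), (1, [20, 6, 10, 0, 1]), (8, [21, 5, 10, 0, 1]), (1, [22, 4, 10, 0, 1]),
   (6, [12, 15, 9, 0, 1]), (7, [14, 13, 9, 0, 1]), (2, [15, 12, 9, 0, 1]), (7, [16, 11, 9, 0, 1]),
   (7, [17, 10, 9, 0, 1]), (2, [18, 9, 9, 0, 1]), (7, [19, 8, 9, 0, 1]), (6, [21, 6, 9, 0, 1]),
   (7, [14, 14, 8, 0, 1]), (8, [15, 13, 8, 0, 1]), (6, [17, 11, 8, 0, 1]), (5, [18, 10, 8, 0, 1]),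
   (6, [19, 9, 8, 0, 1]), (8, [21, 7, 8, 0, 1]), (7, [22, 6, 8, 0, 1]), (7, [18, 11, 7, 0, 1]),
   (3, [19, 10, 7, 0, 1]), (3, [20, 9, 7, 0, 1]), (7, [21, 8, 7, 0, 1]), (8, [22, 9, 5, 0, 1]),
   (8, [23, 8, 5, 0, 1]), (8, [24, 8, 4, 0, 1]), (6, [1, 26, 1, 3]), (6, [2, 25, 1, 3]),
   (8, [3, 24, 1, 3]), (3, [4, 23, 1, 3]), (3, [5, 22, 1, 3]), (5, [6, 21, 1, 3]),
   (6, [10, 17, 1, 3]), (6, [11, 16, 1, 3]), (5, [12, 15, 1, 3]), (6, [13, 14, 1, 3]),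
   (6, [14, 13, 1, 3]), (5, [15, 12, 1, 3]), (6, [16, 11, 1, 3]), (6, [17, 10, 1, 3]),
   (5, [21, 6, 1, 3]), (3, [22, 5, 1, 3]), (3, [23, 4, 1, 3]), (8, [24, 3, 1, 3]),
   (6, [25, 2, 1, 3]), (6, [26, 1, 1, 3]), (6, [5, 22, 5, 2]), (3, [6, 21, 5, 2]),
   (7, [7, 20, 5, 2]), (1, [8, 19, 5, 2]), (3, [9, 18, 5, 2]), (3, [10, 17, 5, 2]),
   (3, [12, 15, 5, 2]), (1, [13, 14, 5, 2]), (1, [14, 13, 5, 2]), (3, [15, 12, 5, 2]),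
   (3, [17, 10, 5, 2]), (3, [18, 9, 5, 2]), (1, [19, 8, 5, 2]), (7, [20, 7, 5, 2]),
   (3, [21, 6, 5, 2]), (6, [22, 5, 5, 2]), (6, [9, 19, 4, 2]), (1, [11, 17, 4, 2]),
   (8, [12, 16, 4, 2]), (1, [13, 15, 4, 2]), (2, [14, 14, 4, 2]), (4, [15, 13, 4, 2]),
   (2, [16, 12, 4, 2]), (1, [17, 11, 4, 2]), (8, [18, 10, 4, 2]), (1, [19, 9, 4, 2]),
   (6, [21, 7, 4, 2]), (3, [11, 18, 3, 2]), (6, [12, 17, 3, 2]), (2, [13, 16, 3, 2]),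
   (8, [14, 15, 3, 2]), (7, [16, 13, 3, 2]), (7, [17, 12, 3, 2]), (8, [19, 10, 3, 2]),
   (2, [20, 9, 3, 2]), (6, [21, 8, 3, 2]), (3, [22, 7, 3, 2]), (6, [1, 26, 9, 1]),
   (6, [2, 25, 9, 1]), (2, [3, 24, 9, 1]), (3, [4, 23, 9, 1]), (4, [5, 22, 9, 1]),
   (1, [6, 21, 9, 1]), (4, [7, 20, 9, 1]), (6, [8, 19, 9, 1]), (3, [9, 18, 9, 1]),
   (2, [11, 16, 9, 1]), (3, [12, 15, 9, 1]), (5, [13, 14, 9, 1]), (5, [14, 13, 9, 1]),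
   (3, [15, 12, 9, 1]), (2, [16, 11, 9, 1]), (3, [18, 9, 9, 1]), (6, [19, 8, 9, 1]),
   (4, [20, 7, 9, 1]), (1, [21, 6, 9, 1]), (4, [22, 5, 9, 1]), (3, [23, 4, 9, 1]),
   (2, [24, 3, 9, 1]), (6, [25, 2, 9, 1]), (6, [26, 1, 9, 1]), (6, [7, 21, 8, 1]),
   (6, [8, 20, 8, 1]), (2, [9, 19, 8, 1]), (3, [11, 17, 8, 1]), (3, [12, 16, 8, 1]),
   (3, [13, 15, 8, 1]), (6, [14, 14, 8, 1]), (2, [15, 13, 8, 1]), (6, [16, 12, 8, 1]),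
   (3, [17, 11, 8, 1]), (3, [18, 10, 8, 1]), (3, [19, 9, 8, 1]), (2, [21, 7, 8, 1]),
   (6, [22, 6, 8, 1]), (6, [23, 5, 8, 1]), (3, [9, 20, 7, 1]), (1, [11, 18, 7, 1]),
   (8, [12, 17, 7, 1]), (8, [13, 16, 7, 1]), (6, [14, 15, 7, 1]), (1, [15, 14, 7, 1]),
   (4, [16, 13, 7, 1]), (4, [17, 12, 7, 1]), (1, [18, 11, 7, 1]), (6, [19, 10, 7, 1]),
   (8, [20, 9, 7, 1]), (8, [21, 8, 7, 1]), (1, [22, 7, 7, 1]), (3, [24, 5, 7, 1]),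
   (3, [13, 17, 6, 1]), (3, [14, 16, 6, 1]), (6, [15, 15, 6, 1]), (6, [16, 14, 6, 1]),
   (6, [17, 13, 6, 1]), (3, [18, 12, 6, 1]), (6, [19, 11, 6, 1]), (6, [20, 10, 6, 1]),
   (6, [21, 9, 6, 1]), (3, [22, 8, 6, 1]), (3, [23, 7, 6, 1]), (3, [15, 16, 5, 1]),
   (7, [17, 14, 5, 1]), (5, [18, 13, 5, 1]), (7, [19, 12, 5, 1]), (7, [20, 11, 5, 1]),
   (5, [21, 10, 5, 1]), (7, [22, 9, 5, 1]), (3, [24, 7, 5, 1]), (3, [19, 13, 4, 1]),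
   (3, [20, 12, 4, 1]), (3, [22, 10, 4, 1]), (3, [23, 9, 4, 1]), (1, [21, 12, 3, 1]),
   (3, [22, 11, 3, 1]), (3, [23, 10, 3, 1]), (1, [24, 9, 3, 1]), (6, [23, 11, 2, 1]),
   (3, [24, 10, 2, 1]), (6, [25, 9, 2, 1]), (3, [25, 10, 1, 1]), (3, [26, 9, 1, 1]),
   (8, [1, 26, 13]), (5, [2, 25, 13]), (2, [4, 23, 13]), (5, [5, 22, 13]), (6, [6, 21, 13]),
   (5, [7, 20, 13]), (5, [8, 19, 13]), (2, [10, 17, 13]), (5, [11, 16, 13]), (3, [12, 15, 13]),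
   (8, [13, 14, 13]), (8, [14, 13, 13]), (3, [15, 12, 13]), (5, [16, 11, 13]), (2, [17, 10, 13]),
   (5, [19, 8, 13]), (5, [20, 7, 13]), (6, [21, 6, 13]), (5, [22, 5, 13]), (2, [23, 4, 13]),
   (5, [25, 2, 13]), (8, [26, 1, 13]), (1, [7, 21, 12]), (1, [8, 20, 12]), (6, [9, 19, 12]),
   (3, [10, 18, 12]), (8, [11, 17, 12]), (4, [12, 16, 12]), (1, [13, 15, 12]), (2, [15, 13, 12]),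
   (1, [17, 11, 12]), (4, [18, 10, 12]), (8, [19, 9, 12]), (3, [20, 8, 12]), (6, [21, 7, 12]),
   (1, [22, 6, 12]), (1, [23, 5, 12]), (8, [9, 20, 11]), (4, [11, 18, 11]), (2, [12, 17, 11]),
   (5, [13, 16, 11]), (6, [14, 15, 11]), (2, [15, 14, 11]), (4, [16, 13, 11]), (4, [17, 12, 11]),
   (2, [18, 11, 11]), (6, [19, 10, 11]), (5, [20, 9, 11]), (2, [21, 8, 11]), (4, [22, 7, 11]),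
   (8, [24, 5, 11]), (7, [13, 17, 10]), (4, [14, 16, 10]), (6, [15, 15, 10]), (2, [16, 14, 10]),
   (5, [17, 13, 10]), (6, [18, 12, 10]), (5, [19, 11, 10]), (2, [20, 10, 10]), (6, [21, 9, 10]),
   (4, [22, 8, 10]), (7, [23, 7, 10]), (1, [15, 16, 9]), (6, [16, 15, 9]), (4, [17, 14, 9]),
   (1, [18, 13, 9]), (7, [19, 12, 9]), (7, [20, 11, 9]), (1, [21, 10, 9]), (4, [22, 9, 9]),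
   (6, [23, 8, 9]), (1, [24, 7, 9]), (5, [19, 13, 8]), (2, [20, 12, 8]), (3, [21, 11, 8]),
   (2, [22, 10, 8]), (5, [23, 9, 8]), (5, [23, 11, 6]), (1, [24, 10, 6]), (5, [25, 9, 6]),
   (1, [25, 10, 5]), (1, [26, 9, 5])]

/-- data -/
def eX0_0 : List Tm :=
  [(1, [0, 0, 1]), (3, [0, 1])]

/-- data -/
def eX0_1 : List Tm :=
  [(1, [0, 0, 0, 1]), (5, [0, 1, 3]), (1, [0, 3, 1])]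

/-- data -/
def eX0_2 : List Tm :=
  [(1, [0, 0, 0, 0, 0, 1]), (8, [0, 1, 0, 3]), (4, [0, 1, 4, 2]), (3, [0, 2, 3, 2]),
   (8, [0, 3, 2, 2]), (6, [0, 4, 1, 2]), (2, [0, 2, 7, 1]), (6, [0, 3, 6, 1]), (8, [0, 4, 5, 1]),
   (6, [0, 5, 4, 1]), (8, [0, 6, 3, 1]), (6, [0, 7, 2, 1]), (1, [0, 9, 0, 1]), (6, [0, 1, 12]),
   (3, [0, 3, 10]), (1, [0, 4, 9]), (2, [0, 5, 8]), (6, [0, 6, 7]), (4, [0, 7, 6]),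
   (3, [0, 8, 5]), (8, [0, 10, 3])]

/-- data -/
def eX0_3 : List Tm :=
  [(1, [0, 0, 0, 0, 0, 0, 0, 0, 1]), (8, [0, 1, 0, 0, 0, 3]), (1, [0, 1, 1, 3, 0, 2]),
   (3, [0, 2, 0, 3, 0, 2]), (5, [0, 1, 5, 2, 0, 2]), (3, [0, 2, 4, 2, 0, 2]),
   (1, [0, 3, 3, 2, 0, 2]), (6, [0, 4, 2, 2, 0, 2]), (7, [0, 2, 8, 1, 0, 2]),
   (6, [0, 3, 7, 1, 0, 2]), (1, [0, 4, 6, 1, 0, 2]), (6, [0, 5, 5, 1, 0, 2]),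
   (1, [0, 6, 4, 1, 0, 2]), (6, [0, 7, 3, 1, 0, 2]), (8, [0, 9, 1, 1, 0, 2]),
   (6, [0, 10, 0, 1, 0, 2]), (3, [0, 1, 13, 0, 0, 2]), (6, [0, 3, 11, 0, 0, 2]),
   (8, [0, 4, 10, 0, 0, 2]), (4, [0, 5, 9, 0, 0, 2]), (6, [0, 6, 8, 0, 0, 2]),
   (5, [0, 7, 7, 0, 0, 2]), (3, [0, 8, 6, 0, 0, 2]), (1, [0, 10, 4, 0, 0, 2]),
   (3, [0, 11, 3, 0, 0, 2]), (8, [0, 2, 1, 6, 0, 1]), (6, [0, 3, 0, 6, 0, 1]),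
   (8, [0, 2, 5, 5, 0, 1]), (3, [0, 3, 4, 5, 0, 1]), (7, [0, 4, 3, 5, 0, 1]),
   (6, [0, 5, 2, 5, 0, 1]), (2, [0, 2, 9, 4, 0, 1]), (4, [0, 3, 8, 4, 0, 1]),
   (5, [0, 4, 7, 4, 0, 1]), (7, [0, 5, 6, 4, 0, 1]), (5, [0, 6, 5, 4, 0, 1]),
   (7, [0, 7, 4, 4, 0, 1]), (6, [0, 8, 3, 4, 0, 1]), (2, [0, 10, 1, 4, 0, 1]),
   (6, [0, 11, 0, 4, 0, 1]), (3, [0, 2, 13, 3, 0, 1]), (2, [0, 3, 12, 3, 0, 1]),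
   (6, [0, 4, 11, 3, 0, 1]), (5, [0, 5, 10, 3, 0, 1]), (1, [0, 6, 9, 3, 0, 1]),
   (3, [0, 7, 8, 3, 0, 1]), (8, [0, 8, 7, 3, 0, 1]), (1, [0, 9, 6, 3, 0, 1]),
   (1, [0, 10, 5, 3, 0, 1]), (4, [0, 11, 4, 3, 0, 1]), (5, [0, 12, 3, 3, 0, 1]),
   (3, [0, 13, 2, 3, 0, 1]), (6, [0, 2, 17, 2, 0, 1]), (2, [0, 4, 15, 2, 0, 1]),
   (1, [0, 5, 14, 2, 0, 1]), (2, [0, 7, 12, 2, 0, 1]), (5, [0, 8, 11, 2, 0, 1]),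
   (6, [0, 10, 9, 2, 0, 1]), (4, [0, 11, 8, 2, 0, 1]), (5, [0, 12, 7, 2, 0, 1]),
   (2, [0, 15, 4, 2, 0, 1]), (3, [0, 16, 3, 2, 0, 1]), (8, [0, 18, 1, 2, 0, 1]),
   (6, [0, 19, 0, 2, 0, 1]), (3, [0, 3, 20, 1, 0, 1]), (5, [0, 6, 17, 1, 0, 1]),
   (4, [0, 7, 16, 1, 0, 1]), (2, [0, 8, 15, 1, 0, 1]), (6, [0, 9, 14, 1, 0, 1]),
   (8, [0, 10, 13, 1, 0, 1]), (6, [0, 11, 12, 1, 0, 1]), (7, [0, 12, 11, 1, 0, 1]),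
   (3, [0, 13, 10, 1, 0, 1]), (6, [0, 14, 9, 1, 0, 1]), (8, [0, 16, 7, 1, 0, 1]),
   (3, [0, 17, 6, 1, 0, 1]), (2, [0, 19, 4, 1, 0, 1]), (6, [0, 20, 3, 1, 0, 1]),
   (6, [0, 5, 22, 0, 0, 1]), (3, [0, 6, 21, 0, 0, 1]), (3, [0, 7, 20, 0, 0, 1]),
   (2, [0, 8, 19, 0, 0, 1]), (2, [0, 9, 18, 0, 0, 1]), (2, [0, 10, 17, 0, 0, 1]),
   (4, [0, 11, 16, 0, 0, 1]), (8, [0, 12, 15, 0, 0, 1]), (6, [0, 13, 14, 0, 0, 1]),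
   (4, [0, 14, 13, 0, 0, 1]), (1, [0, 15, 12, 0, 0, 1]), (6, [0, 16, 11, 0, 0, 1]),
   (8, [0, 17, 10, 0, 0, 1]), (3, [0, 18, 9, 0, 0, 1]), (8, [0, 20, 7, 0, 0, 1]),
   (6, [0, 21, 6, 0, 0, 1]), (1, [0, 27, 0, 0, 0, 1]), (3, [0, 1, 3, 9]), (6, [0, 3, 1, 9]),
   (1, [0, 4, 0, 9]), (4, [0, 1, 7, 8]), (6, [0, 2, 6, 8]), (4, [0, 3, 5, 8]), (3, [0, 4, 4, 8]),
   (1, [0, 5, 3, 8]), (8, [0, 2, 10, 7]), (8, [0, 3, 9, 7]), (3, [0, 4, 8, 7]), (1, [0, 5, 7, 7]),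
   (6, [0, 6, 6, 7]), (7, [0, 7, 5, 7]), (1, [0, 8, 4, 7]), (2, [0, 9, 3, 7]), (8, [0, 11, 1, 7]),
   (6, [0, 12, 0, 7]), (3, [0, 3, 13, 6]), (6, [0, 4, 12, 6]), (6, [0, 5, 11, 6]),
   (6, [0, 6, 10, 6]), (4, [0, 7, 9, 6]), (3, [0, 8, 8, 6]), (5, [0, 9, 7, 6]),
   (8, [0, 11, 5, 6]), (6, [0, 12, 4, 6]), (1, [0, 13, 3, 6]), (6, [0, 14, 2, 6]),
   (3, [0, 3, 17, 5]), (2, [0, 4, 16, 5]), (7, [0, 5, 15, 5]), (6, [0, 6, 14, 5]),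
   (6, [0, 7, 13, 5]), (1, [0, 8, 12, 5]), (7, [0, 9, 11, 5]), (1, [0, 10, 10, 5]),
   (5, [0, 11, 9, 5]), (1, [0, 12, 8, 5]), (6, [0, 13, 7, 5]), (5, [0, 15, 5, 5]),
   (7, [0, 16, 4, 5]), (6, [0, 17, 3, 5]), (1, [0, 19, 1, 5]), (3, [0, 20, 0, 5]),
   (3, [0, 3, 21, 4]), (6, [0, 4, 20, 4]), (1, [0, 5, 19, 4]), (7, [0, 6, 18, 4]),
   (7, [0, 8, 16, 4]), (5, [0, 9, 15, 4]), (8, [0, 10, 14, 4]), (3, [0, 11, 13, 4]),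
   (5, [0, 12, 12, 4]), (6, [0, 13, 11, 4]), (7, [0, 14, 10, 4]), (8, [0, 15, 9, 4]),
   (1, [0, 16, 8, 4]), (1, [0, 17, 7, 4]), (6, [0, 18, 6, 4]), (5, [0, 19, 5, 4]),
   (1, [0, 20, 4, 4]), (4, [0, 21, 3, 4]), (6, [0, 22, 2, 4]), (3, [0, 4, 24, 3]),
   (6, [0, 7, 21, 3]), (1, [0, 8, 20, 3]), (3, [0, 9, 19, 3]), (1, [0, 11, 17, 3]),
   (5, [0, 12, 16, 3]), (6, [0, 13, 15, 3]), (6, [0, 14, 14, 3]), (4, [0, 15, 13, 3]),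
   (2, [0, 16, 12, 3]), (2, [0, 17, 11, 3]), (1, [0, 18, 10, 3]), (6, [0, 20, 8, 3]),
   (5, [0, 21, 7, 3]), (2, [0, 22, 6, 3]), (3, [0, 23, 5, 3]), (1, [0, 24, 4, 3]),
   (6, [0, 25, 3, 3]), (8, [0, 28, 0, 3]), (3, [0, 5, 27, 2]), (6, [0, 6, 26, 2]),
   (4, [0, 7, 25, 2]), (8, [0, 8, 24, 2]), (8, [0, 9, 23, 2]), (4, [0, 11, 21, 2]),
   (8, [0, 12, 20, 2]), (8, [0, 13, 19, 2]), (4, [0, 14, 18, 2]), (2, [0, 15, 17, 2]),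
   (3, [0, 17, 15, 2]), (4, [0, 18, 14, 2]), (5, [0, 19, 13, 2]), (3, [0, 20, 12, 2]),
   (2, [0, 21, 11, 2]), (8, [0, 22, 10, 2]), (3, [0, 23, 9, 2]), (3, [0, 24, 8, 2]),
   (3, [0, 25, 7, 2]), (1, [0, 28, 4, 2]), (3, [0, 29, 3, 2]), (3, [0, 7, 29, 1]),
   (8, [0, 8, 28, 1]), (6, [0, 10, 26, 1]), (1, [0, 11, 25, 1]), (1, [0, 12, 24, 1]),
   (5, [0, 14, 22, 1]), (5, [0, 15, 21, 1]), (7, [0, 18, 18, 1]), (2, [0, 19, 17, 1]),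
   (2, [0, 20, 16, 1]), (3, [0, 21, 15, 1]), (5, [0, 23, 13, 1]), (1, [0, 24, 12, 1]),
   (3, [0, 25, 11, 1]), (6, [0, 27, 9, 1]), (8, [0, 29, 7, 1]), (6, [0, 30, 6, 1]),
   (6, [0, 1, 39]), (6, [0, 9, 31]), (3, [0, 10, 30]), (2, [0, 11, 29]), (3, [0, 12, 28]),
   (4, [0, 13, 27]), (2, [0, 14, 26]), (8, [0, 15, 25]), (4, [0, 17, 23]), (5, [0, 18, 22]),
   (7, [0, 20, 20]), (2, [0, 21, 19]), (5, [0, 23, 17]), (7, [0, 24, 16]), (8, [0, 25, 15]),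
   (3, [0, 26, 14]), (5, [0, 27, 13]), (6, [0, 28, 12]), (1, [0, 31, 9])]

/-- data -/
def dR1_0 : List Tm :=
  [(1, [1])]

/-- data -/
def dR1_1 : List Tm :=
  [(1, [0, 0, 0, 0, 1]), (1, [0, 1])]

/-- data -/
def dR1_2 : List Tm :=
  [(1, [0, 0, 0, 0, 0, 0, 1]), (8, [0, 1, 1, 0, 2]), (8, [0, 2, 1, 0, 1]), (1, [1, 3])]

/-- data -/
def dR1_3 : List Tm :=
  [(1, [0, 0, 0, 0, 0, 0, 0, 1]), (1, [0, 1, 2, 0, 2, 0, 2]), (1, [0, 2, 2, 0, 1, 0, 2]),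
   (8, [1, 3, 1, 0, 0, 0, 2]), (8, [0, 2, 3, 0, 4, 0, 1]), (7, [0, 3, 3, 0, 3, 0, 1]),
   (8, [0, 4, 3, 0, 2, 0, 1]), (2, [1, 4, 2, 0, 2, 0, 1]), (2, [1, 5, 2, 0, 1, 0, 1]),
   (8, [2, 6, 1, 0, 0, 0, 1]), (6, [0, 1, 0, 1, 8]), (8, [0, 1, 4, 0, 8]), (6, [0, 2, 0, 1, 7]),
   (5, [0, 2, 4, 0, 7]), (8, [0, 3, 0, 1, 6]), (3, [0, 4, 0, 1, 5]), (5, [0, 4, 4, 0, 5]),
   (3, [0, 5, 0, 1, 4]), (5, [0, 5, 4, 0, 4]), (8, [1, 5, 3, 0, 4]), (8, [0, 6, 0, 1, 3]),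
   (7, [1, 6, 3, 0, 3]), (6, [0, 7, 0, 1, 2]), (5, [0, 7, 4, 0, 2]), (8, [1, 7, 3, 0, 2]),
   (1, [2, 7, 2, 0, 2]), (6, [0, 8, 0, 1, 1]), (8, [0, 8, 4, 0, 1]), (1, [2, 8, 2, 0, 1]),
   (1, [0, 9, 0, 0, 1])]

/-- data -/
def dL1_0 : List Tm :=
  [(1, [1])]

/-- data -/
def dL1_1 : List Tm :=
  [(1, [0, 0, 0, 0, 1]), (1, [0, 1])]

/-- data -/
def dL1_2 : List Tm :=
  [(1, [0, 0, 0, 0, 0, 0, 1]), (8, [0, 1, 1, 0, 2]), (8, [0, 2, 1, 0, 1]), (1, [9, 1])]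

/-- data -/
def dL1_3 : List Tm :=
  [(1, [0, 0, 0, 0, 0, 0, 0, 1]), (1, [0, 1, 2, 0, 2, 0, 2]), (1, [0, 2, 2, 0, 1, 0, 2]),
   (8, [9, 1, 1, 0, 0, 0, 2]), (8, [0, 2, 3, 0, 4, 0, 1]), (7, [0, 3, 3, 0, 3, 0, 1]),
   (8, [0, 4, 3, 0, 2, 0, 1]), (2, [9, 2, 2, 0, 2, 0, 1]), (2, [9, 3, 2, 0, 1, 0, 1]),
   (8, [18, 2, 1, 0, 0, 0, 1]), (1, [0, 1, 0, 0, 9]), (6, [0, 1, 0, 1, 8]), (8, [0, 1, 4, 0, 8]),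
   (6, [0, 2, 0, 1, 7]), (5, [0, 2, 4, 0, 7]), (8, [0, 3, 0, 1, 6]), (3, [0, 4, 0, 1, 5]),
   (5, [0, 4, 4, 0, 5]), (3, [0, 5, 0, 1, 4]), (5, [0, 5, 4, 0, 4]), (8, [9, 3, 3, 0, 4]),
   (8, [0, 6, 0, 1, 3]), (7, [9, 4, 3, 0, 3]), (6, [0, 7, 0, 1, 2]), (5, [0, 7, 4, 0, 2]),
   (8, [9, 5, 3, 0, 2]), (1, [18, 3, 2, 0, 2]), (6, [0, 8, 0, 1, 1]), (8, [0, 8, 4, 0, 1]),
   (1, [18, 4, 2, 0, 1])]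

/-- data -/
def eX1_0 : List Tm :=
  [(1, [0, 0, 1])]

/-- data -/
def eX1_1 : List Tm :=
  [(1, [0, 0, 0, 1]), (3, [0, 1])]

/-- data -/
def eX1_2 : List Tm :=
  [(1, [0, 0, 0, 0, 0, 1]), (6, [0, 1, 1, 2]), (8, [0, 1, 9]), (1, [0, 3, 1])]

/-- data -/
def eX1_3 : List Tm :=
  [(1, [0, 0, 0, 0, 0, 0, 0, 0, 1]), (3, [0, 1, 2, 2, 0, 2]), (1, [0, 1, 10, 0, 0, 2]),
   (8, [0, 3, 2, 0, 0, 2]), (3, [0, 2, 11, 2, 0, 1]), (6, [0, 4, 3, 2, 0, 1]),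
   (8, [0, 2, 19, 0, 0, 1]), (2, [0, 4, 11, 0, 0, 1]), (8, [0, 6, 3, 0, 0, 1]), (8, [0, 1, 0, 9]),
   (6, [0, 1, 4, 8]), (3, [0, 3, 20, 2]), (3, [0, 5, 12, 2]), (3, [0, 7, 4, 2]),
   (1, [0, 9, 0, 1]), (8, [0, 5, 20]), (1, [0, 7, 12])]

/-- data -/
def dR2_0 : List Tm :=
  [(1, [1])]

/-- data -/
def dR2_1 : List Tm :=
  [(1, [0, 0, 0, 0, 1])]

/-- data -/
def dR2_2 : List Tm :=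
  [(1, [0, 0, 0, 0, 0, 0, 1]), (1, [0, 1])]

/-- data -/
def dR2_3 : List Tm :=
  [(1, [0, 0, 0, 0, 0, 0, 0, 1]), (8, [0, 1, 1, 0, 0, 0, 2]), (8, [0, 2, 1, 0, 0, 0, 1]),
   (1, [1, 3])]

/-- data -/
def dL2_0 : List Tm :=
  [(1, [1])]

/-- data -/
def dL2_1 : List Tm :=
  [(1, [0, 0, 0, 0, 1])]

/-- data -/
def dL2_2 : List Tm :=
  [(1, [0, 0, 0, 0, 0, 0, 1]), (1, [0, 1])]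

/-- data -/
def dL2_3 : List Tm :=
  [(1, [0, 0, 0, 0, 0, 0, 0, 1]), (8, [0, 1, 1, 0, 0, 0, 2]), (8, [0, 2, 1, 0, 0, 0, 1]),
   (1, [27, 1])]

/-- data -/
def eX2_0 : List Tm :=
  [(1, [0, 0, 1])]

/-- data -/
def eX2_1 : List Tm :=
  [(1, [0, 0, 0, 1])]

/-- data -/
def eX2_2 : List Tm :=
  [(1, [0, 0, 0, 0, 0, 1]), (3, [0, 1])]

/-- data -/
def eX2_3 : List Tm :=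
  [(1, [0, 0, 0, 0, 0, 0, 0, 0, 1]), (6, [0, 1, 1, 0, 0, 2]), (8, [0, 1, 27]), (1, [0, 3, 1])]

/-- data -/
def dR3_0 : List Tm :=
  [(1, [1])]

/-- data -/
def dR3_1 : List Tm :=
  [(1, [0, 0, 0, 0, 1])]

/-- data -/
def dR3_2 : List Tm :=
  [(1, [0, 0, 0, 0, 0, 0, 1])]

/-- data -/
def dR3_3 : List Tm :=
  [(1, [0, 0, 0, 0, 0, 0, 0, 1]), (1, [0, 1])]

/-- data -/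
def dL3_0 : List Tm :=
  [(1, [1])]

/-- data -/
def dL3_1 : List Tm :=
  [(1, [0, 0, 0, 0, 1])]

/-- data -/
def dL3_2 : List Tm :=
  [(1, [0, 0, 0, 0, 0, 0, 1])]

/-- data -/
def dL3_3 : List Tm :=
  [(1, [0, 0, 0, 0, 0, 0, 0, 1]), (1, [0, 1])]

/-- data -/
def eX3_0 : List Tm :=
  [(1, [0, 0, 1])]

/-- data -/
def eX3_1 : List Tm :=
  [(1, [0, 0, 0, 1])]

/-- data -/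
def eX3_2 : List Tm :=
  [(1, [0, 0, 0, 0, 0, 1])]

/-- data -/
def eX3_3 : List Tm :=
  [(1, [0, 0, 0, 0, 0, 0, 0, 0, 1]), (3, [0, 1])]

/-- data -/
def eF_0 : List Tm :=
  [(1, [0, 0, 1]), (3, [1])]

/-- data -/
def eF_1 : List Tm :=
  [(3, [0, 0, 0, 0, 1]), (1, [0, 0, 0, 1]), (5, [1, 0, 3]), (1, [3, 0, 1])]

/-- data -/
def eF_2 : List Tm :=
  [(3, [0, 0, 0, 0, 0, 0, 1]), (1, [0, 0, 0, 0, 0, 1]), (1, [0, 0, 1, 0, 3]),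
   (6, [0, 0, 1, 2, 1]), (6, [1, 0, 4, 1, 1]), (3, [3, 0, 2, 1, 1]), (8, [0, 0, 9, 0, 1]),
   (6, [2, 0, 7, 0, 1]), (6, [4, 0, 5, 0, 1]), (6, [6, 0, 3, 0, 1]), (8, [1, 0, 0, 3]),
   (4, [1, 0, 4, 2]), (3, [2, 0, 3, 2]), (8, [3, 0, 2, 2]), (6, [4, 0, 1, 2]), (2, [2, 0, 7, 1]),
   (6, [3, 0, 6, 1]), (8, [4, 0, 5, 1]), (6, [5, 0, 4, 1]), (8, [6, 0, 3, 1]), (6, [7, 0, 2, 1]),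
   (1, [9, 0, 0, 1]), (6, [1, 0, 12]), (3, [3, 0, 10]), (1, [4, 0, 9]), (2, [5, 0, 8]),
   (6, [6, 0, 7]), (4, [7, 0, 6]), (3, [8, 0, 5]), (8, [10, 0, 3])]

/-- data -/
def eF_3 : List Tm :=
  [(1, [0, 0, 0, 0, 0, 0, 0, 0, 1]), (3, [0, 0, 0, 0, 0, 0, 0, 1]), (1, [0, 0, 1, 0, 0, 0, 3]),
   (6, [0, 0, 1, 0, 0, 2, 1]), (3, [0, 0, 2, 0, 3, 1, 1]), (6, [0, 0, 10, 0, 1, 1, 1]),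
   (6, [1, 0, 1, 3, 0, 1, 1]), (3, [1, 0, 5, 2, 0, 1, 1]), (6, [3, 0, 3, 2, 0, 1, 1]),
   (6, [2, 0, 8, 1, 0, 1, 1]), (6, [4, 0, 6, 1, 0, 1, 1]), (6, [6, 0, 4, 1, 0, 1, 1]),
   (3, [9, 0, 1, 1, 0, 1, 1]), (3, [4, 0, 10, 0, 0, 1, 1]), (6, [5, 0, 9, 0, 0, 1, 1]),
   (3, [7, 0, 7, 0, 0, 1, 1]), (6, [10, 0, 4, 0, 0, 1, 1]), (6, [0, 0, 3, 0, 6, 0, 1]),
   (6, [0, 0, 11, 0, 4, 0, 1]), (6, [1, 0, 2, 3, 3, 0, 1]), (3, [1, 0, 6, 2, 3, 0, 1]),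
   (6, [3, 0, 4, 2, 3, 0, 1]), (6, [2, 0, 9, 1, 3, 0, 1]), (6, [4, 0, 7, 1, 3, 0, 1]),
   (6, [6, 0, 5, 1, 3, 0, 1]), (3, [9, 0, 2, 1, 3, 0, 1]), (3, [4, 0, 11, 0, 3, 0, 1]),
   (6, [5, 0, 10, 0, 3, 0, 1]), (3, [7, 0, 8, 0, 3, 0, 1]), (6, [10, 0, 5, 0, 3, 0, 1]),
   (6, [0, 0, 19, 0, 2, 0, 1]), (3, [1, 0, 10, 3, 1, 0, 1]), (6, [1, 0, 14, 2, 1, 0, 1]),
   (3, [3, 0, 12, 2, 1, 0, 1]), (3, [2, 0, 17, 1, 1, 0, 1]), (3, [4, 0, 15, 1, 1, 0, 1]),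
   (3, [6, 0, 13, 1, 1, 0, 1]), (6, [9, 0, 10, 1, 1, 0, 1]), (6, [4, 0, 19, 0, 1, 0, 1]),
   (3, [5, 0, 18, 0, 1, 0, 1]), (6, [7, 0, 16, 0, 1, 0, 1]), (3, [10, 0, 13, 0, 1, 0, 1]),
   (6, [2, 0, 1, 6, 0, 0, 1]), (6, [2, 0, 5, 5, 0, 0, 1]), (3, [4, 0, 3, 5, 0, 0, 1]),
   (6, [2, 0, 9, 4, 0, 0, 1]), (3, [3, 0, 8, 4, 0, 0, 1]), (6, [4, 0, 7, 4, 0, 0, 1]),
   (3, [5, 0, 6, 4, 0, 0, 1]), (6, [6, 0, 5, 4, 0, 0, 1]), (3, [7, 0, 4, 4, 0, 0, 1]),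
   (6, [10, 0, 1, 4, 0, 0, 1]), (6, [3, 0, 12, 3, 0, 0, 1]), (6, [5, 0, 10, 3, 0, 0, 1]),
   (3, [6, 0, 9, 3, 0, 0, 1]), (6, [8, 0, 7, 3, 0, 0, 1]), (3, [9, 0, 6, 3, 0, 0, 1]),
   (3, [10, 0, 5, 3, 0, 0, 1]), (3, [11, 0, 4, 3, 0, 0, 1]), (6, [12, 0, 3, 3, 0, 0, 1]),
   (6, [4, 0, 15, 2, 0, 0, 1]), (3, [5, 0, 14, 2, 0, 0, 1]), (6, [7, 0, 12, 2, 0, 0, 1]),
   (6, [8, 0, 11, 2, 0, 0, 1]), (3, [11, 0, 8, 2, 0, 0, 1]), (6, [12, 0, 7, 2, 0, 0, 1]),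
   (6, [15, 0, 4, 2, 0, 0, 1]), (6, [18, 0, 1, 2, 0, 0, 1]), (6, [6, 0, 17, 1, 0, 0, 1]),
   (3, [7, 0, 16, 1, 0, 0, 1]), (6, [8, 0, 15, 1, 0, 0, 1]), (6, [10, 0, 13, 1, 0, 0, 1]),
   (3, [12, 0, 11, 1, 0, 0, 1]), (6, [16, 0, 7, 1, 0, 0, 1]), (6, [19, 0, 4, 1, 0, 0, 1]),
   (8, [0, 0, 27, 0, 0, 0, 1]), (6, [8, 0, 19, 0, 0, 0, 1]), (6, [9, 0, 18, 0, 0, 0, 1]),
   (6, [10, 0, 17, 0, 0, 0, 1]), (3, [11, 0, 16, 0, 0, 0, 1]), (6, [12, 0, 15, 0, 0, 0, 1]),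
   (3, [14, 0, 13, 0, 0, 0, 1]), (3, [15, 0, 12, 0, 0, 0, 1]), (6, [17, 0, 10, 0, 0, 0, 1]),
   (6, [20, 0, 7, 0, 0, 0, 1]), (8, [1, 0, 0, 0, 0, 3]), (8, [0, 0, 2, 0, 3, 2]),
   (6, [1, 0, 1, 0, 3, 2]), (3, [0, 0, 2, 2, 1, 2]), (3, [1, 0, 5, 1, 1, 2]),
   (6, [3, 0, 3, 1, 1, 2]), (1, [0, 0, 10, 0, 1, 2]), (3, [1, 0, 9, 0, 1, 2]),
   (3, [2, 0, 8, 0, 1, 2]), (3, [4, 0, 6, 0, 1, 2]), (3, [6, 0, 4, 0, 1, 2]),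
   (1, [1, 0, 1, 3, 0, 2]), (3, [2, 0, 0, 3, 0, 2]), (5, [1, 0, 5, 2, 0, 2]),
   (3, [2, 0, 4, 2, 0, 2]), (1, [3, 0, 3, 2, 0, 2]), (6, [4, 0, 2, 2, 0, 2]),
   (7, [2, 0, 8, 1, 0, 2]), (6, [3, 0, 7, 1, 0, 2]), (1, [4, 0, 6, 1, 0, 2]),
   (6, [5, 0, 5, 1, 0, 2]), (1, [6, 0, 4, 1, 0, 2]), (6, [7, 0, 3, 1, 0, 2]),
   (8, [9, 0, 1, 1, 0, 2]), (6, [10, 0, 0, 1, 0, 2]), (3, [1, 0, 13, 0, 0, 2]),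
   (6, [3, 0, 11, 0, 0, 2]), (8, [4, 0, 10, 0, 0, 2]), (4, [5, 0, 9, 0, 0, 2]),
   (6, [6, 0, 8, 0, 0, 2]), (5, [7, 0, 7, 0, 0, 2]), (3, [8, 0, 6, 0, 0, 2]),
   (1, [10, 0, 4, 0, 0, 2]), (3, [11, 0, 3, 0, 0, 2]), (8, [0, 0, 3, 0, 6, 1]),
   (6, [1, 0, 2, 0, 6, 1]), (6, [0, 0, 3, 2, 4, 1]), (6, [1, 0, 6, 1, 4, 1]),
   (3, [3, 0, 4, 1, 4, 1]), (2, [0, 0, 11, 0, 4, 1]), (6, [1, 0, 10, 0, 4, 1]),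
   (6, [2, 0, 9, 0, 4, 1]), (6, [4, 0, 7, 0, 4, 1]), (6, [6, 0, 5, 0, 4, 1]),
   (2, [1, 0, 2, 3, 3, 1]), (6, [2, 0, 1, 3, 3, 1]), (1, [1, 0, 6, 2, 3, 1]),
   (6, [2, 0, 5, 2, 3, 1]), (2, [3, 0, 4, 2, 3, 1]), (3, [4, 0, 3, 2, 3, 1]),
   (5, [2, 0, 9, 1, 3, 1]), (3, [3, 0, 8, 1, 3, 1]), (2, [4, 0, 7, 1, 3, 1]),
   (3, [5, 0, 6, 1, 3, 1]), (2, [6, 0, 5, 1, 3, 1]), (3, [7, 0, 4, 1, 3, 1]),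
   (7, [9, 0, 2, 1, 3, 1]), (3, [10, 0, 1, 1, 3, 1]), (6, [1, 0, 14, 0, 3, 1]),
   (3, [3, 0, 12, 0, 3, 1]), (7, [4, 0, 11, 0, 3, 1]), (8, [5, 0, 10, 0, 3, 1]),
   (3, [6, 0, 9, 0, 3, 1]), (1, [7, 0, 8, 0, 3, 1]), (6, [8, 0, 7, 0, 3, 1]),
   (2, [10, 0, 5, 0, 3, 1]), (6, [11, 0, 4, 0, 3, 1]), (3, [0, 0, 11, 2, 2, 1]),
   (3, [1, 0, 14, 1, 2, 1]), (6, [3, 0, 12, 1, 2, 1]), (8, [0, 0, 19, 0, 2, 1]),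
   (6, [1, 0, 18, 0, 2, 1]), (3, [2, 0, 17, 0, 2, 1]), (3, [4, 0, 15, 0, 2, 1]),
   (3, [6, 0, 13, 0, 2, 1]), (3, [1, 0, 2, 5, 1, 1]), (6, [1, 0, 6, 4, 1, 1]),
   (3, [2, 0, 5, 4, 1, 1]), (3, [3, 0, 4, 4, 1, 1]), (6, [4, 0, 3, 4, 1, 1]),
   (7, [1, 0, 10, 3, 1, 1]), (3, [2, 0, 9, 3, 1, 1]), (3, [3, 0, 8, 3, 1, 1]),
   (3, [5, 0, 6, 3, 1, 1]), (3, [7, 0, 4, 3, 1, 1]), (6, [9, 0, 2, 3, 1, 1]),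
   (8, [1, 0, 14, 2, 1, 1]), (3, [2, 0, 13, 2, 1, 1]), (7, [3, 0, 12, 2, 1, 1]),
   (3, [4, 0, 11, 2, 1, 1]), (3, [5, 0, 10, 2, 1, 1]), (6, [7, 0, 8, 2, 1, 1]),
   (3, [12, 0, 3, 2, 1, 1]), (4, [2, 0, 17, 1, 1, 1]), (6, [3, 0, 16, 1, 1, 1]),
   (1, [4, 0, 15, 1, 1, 1]), (3, [5, 0, 14, 1, 1, 1]), (7, [6, 0, 13, 1, 1, 1]),
   (3, [8, 0, 11, 1, 1, 1]), (2, [9, 0, 10, 1, 1, 1]), (6, [10, 0, 9, 1, 1, 1]),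
   (3, [12, 0, 7, 1, 1, 1]), (3, [13, 0, 6, 1, 1, 1]), (6, [15, 0, 4, 1, 1, 1]),
   (3, [1, 0, 22, 0, 1, 1]), (6, [3, 0, 20, 0, 1, 1]), (2, [4, 0, 19, 0, 1, 1]),
   (1, [5, 0, 18, 0, 1, 1]), (3, [6, 0, 17, 0, 1, 1]), (2, [7, 0, 16, 0, 1, 1]),
   (4, [10, 0, 13, 0, 1, 1]), (3, [11, 0, 12, 0, 1, 1]), (3, [12, 0, 11, 0, 1, 1]),
   (6, [13, 0, 10, 0, 1, 1]), (3, [14, 0, 9, 0, 1, 1]), (3, [16, 0, 7, 0, 1, 1]),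
   (8, [2, 0, 1, 6, 0, 1]), (6, [3, 0, 0, 6, 0, 1]), (8, [2, 0, 5, 5, 0, 1]),
   (3, [3, 0, 4, 5, 0, 1]), (7, [4, 0, 3, 5, 0, 1]), (6, [5, 0, 2, 5, 0, 1]),
   (2, [2, 0, 9, 4, 0, 1]), (4, [3, 0, 8, 4, 0, 1]), (5, [4, 0, 7, 4, 0, 1]),
   (7, [5, 0, 6, 4, 0, 1]), (5, [6, 0, 5, 4, 0, 1]), (7, [7, 0, 4, 4, 0, 1]),
   (6, [8, 0, 3, 4, 0, 1]), (2, [10, 0, 1, 4, 0, 1]), (6, [11, 0, 0, 4, 0, 1]),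
   (3, [2, 0, 13, 3, 0, 1]), (2, [3, 0, 12, 3, 0, 1]), (6, [4, 0, 11, 3, 0, 1]),
   (5, [5, 0, 10, 3, 0, 1]), (1, [6, 0, 9, 3, 0, 1]), (3, [7, 0, 8, 3, 0, 1]),
   (8, [8, 0, 7, 3, 0, 1]), (1, [9, 0, 6, 3, 0, 1]), (1, [10, 0, 5, 3, 0, 1]),
   (4, [11, 0, 4, 3, 0, 1]), (5, [12, 0, 3, 3, 0, 1]), (3, [13, 0, 2, 3, 0, 1]),
   (6, [2, 0, 17, 2, 0, 1]), (2, [4, 0, 15, 2, 0, 1]), (1, [5, 0, 14, 2, 0, 1]),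
   (2, [7, 0, 12, 2, 0, 1]), (5, [8, 0, 11, 2, 0, 1]), (6, [10, 0, 9, 2, 0, 1]),
   (4, [11, 0, 8, 2, 0, 1]), (5, [12, 0, 7, 2, 0, 1]), (2, [15, 0, 4, 2, 0, 1]),
   (3, [16, 0, 3, 2, 0, 1]), (8, [18, 0, 1, 2, 0, 1]), (6, [19, 0, 0, 2, 0, 1]),
   (3, [3, 0, 20, 1, 0, 1]), (5, [6, 0, 17, 1, 0, 1]), (4, [7, 0, 16, 1, 0, 1]),
   (2, [8, 0, 15, 1, 0, 1]), (6, [9, 0, 14, 1, 0, 1]), (8, [10, 0, 13, 1, 0, 1]),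
   (6, [11, 0, 12, 1, 0, 1]), (7, [12, 0, 11, 1, 0, 1]), (3, [13, 0, 10, 1, 0, 1]),
   (6, [14, 0, 9, 1, 0, 1]), (8, [16, 0, 7, 1, 0, 1]), (3, [17, 0, 6, 1, 0, 1]),
   (2, [19, 0, 4, 1, 0, 1]), (6, [20, 0, 3, 1, 0, 1]), (6, [5, 0, 22, 0, 0, 1]),
   (3, [6, 0, 21, 0, 0, 1]), (3, [7, 0, 20, 0, 0, 1]), (2, [8, 0, 19, 0, 0, 1]),
   (2, [9, 0, 18, 0, 0, 1]), (2, [10, 0, 17, 0, 0, 1]), (4, [11, 0, 16, 0, 0, 1]),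
   (8, [12, 0, 15, 0, 0, 1]), (6, [13, 0, 14, 0, 0, 1]), (4, [14, 0, 13, 0, 0, 1]),
   (1, [15, 0, 12, 0, 0, 1]), (6, [16, 0, 11, 0, 0, 1]), (8, [17, 0, 10, 0, 0, 1]),
   (3, [18, 0, 9, 0, 0, 1]), (8, [20, 0, 7, 0, 0, 1]), (6, [21, 0, 6, 0, 0, 1]),
   (1, [27, 0, 0, 0, 0, 1]), (1, [0, 0, 0, 1, 9]), (8, [1, 0, 3, 0, 9]), (3, [0, 0, 4, 2, 7]),
   (3, [1, 0, 7, 1, 7]), (6, [3, 0, 5, 1, 7]), (1, [0, 0, 12, 0, 7]), (3, [1, 0, 11, 0, 7]),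
   (3, [2, 0, 10, 0, 7]), (3, [4, 0, 8, 0, 7]), (3, [6, 0, 6, 0, 7]), (1, [1, 0, 3, 3, 6]),
   (3, [2, 0, 2, 3, 6]), (5, [1, 0, 7, 2, 6]), (3, [2, 0, 6, 2, 6]), (1, [3, 0, 5, 2, 6]),
   (6, [4, 0, 4, 2, 6]), (7, [2, 0, 10, 1, 6]), (6, [3, 0, 9, 1, 6]), (1, [4, 0, 8, 1, 6]),
   (6, [5, 0, 7, 1, 6]), (1, [6, 0, 6, 1, 6]), (6, [7, 0, 5, 1, 6]), (8, [9, 0, 3, 1, 6]),
   (6, [10, 0, 2, 1, 6]), (3, [1, 0, 15, 0, 6]), (6, [3, 0, 13, 0, 6]), (8, [4, 0, 12, 0, 6]),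
   (4, [5, 0, 11, 0, 6]), (6, [6, 0, 10, 0, 6]), (5, [7, 0, 9, 0, 6]), (3, [8, 0, 8, 0, 6]),
   (1, [10, 0, 6, 0, 6]), (3, [11, 0, 5, 0, 6]), (3, [0, 0, 12, 2, 5]), (3, [1, 0, 15, 1, 5]),
   (6, [3, 0, 13, 1, 5]), (8, [0, 0, 20, 0, 5]), (6, [1, 0, 19, 0, 5]), (3, [2, 0, 18, 0, 5]),
   (3, [4, 0, 16, 0, 5]), (3, [6, 0, 14, 0, 5]), (3, [1, 0, 3, 5, 4]), (6, [1, 0, 7, 4, 4]),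
   (3, [2, 0, 6, 4, 4]), (3, [3, 0, 5, 4, 4]), (6, [4, 0, 4, 4, 4]), (7, [1, 0, 11, 3, 4]),
   (3, [2, 0, 10, 3, 4]), (3, [3, 0, 9, 3, 4]), (3, [5, 0, 7, 3, 4]), (3, [7, 0, 5, 3, 4]),
   (6, [9, 0, 3, 3, 4]), (8, [1, 0, 15, 2, 4]), (3, [2, 0, 14, 2, 4]), (7, [3, 0, 13, 2, 4]),
   (3, [4, 0, 12, 2, 4]), (3, [5, 0, 11, 2, 4]), (6, [7, 0, 9, 2, 4]), (3, [12, 0, 4, 2, 4]),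
   (4, [2, 0, 18, 1, 4]), (6, [3, 0, 17, 1, 4]), (1, [4, 0, 16, 1, 4]), (3, [5, 0, 15, 1, 4]),
   (7, [6, 0, 14, 1, 4]), (3, [8, 0, 12, 1, 4]), (2, [9, 0, 11, 1, 4]), (6, [10, 0, 10, 1, 4]),
   (3, [12, 0, 8, 1, 4]), (3, [13, 0, 7, 1, 4]), (6, [15, 0, 5, 1, 4]), (3, [1, 0, 23, 0, 4]),
   (6, [3, 0, 21, 0, 4]), (2, [4, 0, 20, 0, 4]), (1, [5, 0, 19, 0, 4]), (3, [6, 0, 18, 0, 4]),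
   (2, [7, 0, 17, 0, 4]), (4, [10, 0, 14, 0, 4]), (3, [11, 0, 13, 0, 4]), (3, [12, 0, 12, 0, 4]),
   (6, [13, 0, 11, 0, 4]), (3, [14, 0, 10, 0, 4]), (3, [16, 0, 8, 0, 4]), (8, [2, 0, 2, 6, 3]),
   (6, [3, 0, 1, 6, 3]), (8, [2, 0, 6, 5, 3]), (3, [3, 0, 5, 5, 3]), (7, [4, 0, 4, 5, 3]),
   (6, [5, 0, 3, 5, 3]), (2, [2, 0, 10, 4, 3]), (4, [3, 0, 9, 4, 3]), (5, [4, 0, 8, 4, 3]),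
   (7, [5, 0, 7, 4, 3]), (5, [6, 0, 6, 4, 3]), (7, [7, 0, 5, 4, 3]), (6, [8, 0, 4, 4, 3]),
   (2, [10, 0, 2, 4, 3]), (6, [11, 0, 1, 4, 3]), (3, [2, 0, 14, 3, 3]), (2, [3, 0, 13, 3, 3]),
   (6, [4, 0, 12, 3, 3]), (5, [5, 0, 11, 3, 3]), (1, [6, 0, 10, 3, 3]), (3, [7, 0, 9, 3, 3]),
   (8, [8, 0, 8, 3, 3]), (1, [9, 0, 7, 3, 3]), (1, [10, 0, 6, 3, 3]), (4, [11, 0, 5, 3, 3]),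
   (5, [12, 0, 4, 3, 3]), (3, [13, 0, 3, 3, 3]), (3, [0, 0, 20, 2, 3]), (6, [2, 0, 18, 2, 3]),
   (2, [4, 0, 16, 2, 3]), (1, [5, 0, 15, 2, 3]), (2, [7, 0, 13, 2, 3]), (5, [8, 0, 12, 2, 3]),
   (6, [10, 0, 10, 2, 3]), (4, [11, 0, 9, 2, 3]), (5, [12, 0, 8, 2, 3]), (2, [15, 0, 5, 2, 3]),
   (3, [16, 0, 4, 2, 3]), (8, [18, 0, 2, 2, 3]), (6, [19, 0, 1, 2, 3]), (3, [1, 0, 23, 1, 3]),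
   (5, [6, 0, 18, 1, 3]), (4, [7, 0, 17, 1, 3]), (2, [8, 0, 16, 1, 3]), (6, [9, 0, 15, 1, 3]),
   (8, [10, 0, 14, 1, 3]), (6, [11, 0, 13, 1, 3]), (7, [12, 0, 12, 1, 3]), (3, [13, 0, 11, 1, 3]),
   (6, [14, 0, 10, 1, 3]), (8, [16, 0, 8, 1, 3]), (3, [17, 0, 7, 1, 3]), (2, [19, 0, 5, 1, 3]),
   (6, [20, 0, 4, 1, 3]), (1, [1, 0, 27, 0, 3]), (3, [2, 0, 26, 0, 3]), (3, [4, 0, 24, 0, 3]),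
   (6, [5, 0, 23, 0, 3]), (6, [6, 0, 22, 0, 3]), (3, [7, 0, 21, 0, 3]), (2, [8, 0, 20, 0, 3]),
   (2, [9, 0, 19, 0, 3]), (2, [10, 0, 18, 0, 3]), (4, [11, 0, 17, 0, 3]), (8, [12, 0, 16, 0, 3]),
   (6, [13, 0, 15, 0, 3]), (4, [14, 0, 14, 0, 3]), (1, [15, 0, 13, 0, 3]), (6, [16, 0, 12, 0, 3]),
   (8, [17, 0, 11, 0, 3]), (3, [18, 0, 10, 0, 3]), (8, [20, 0, 8, 0, 3]), (6, [21, 0, 7, 0, 3]),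
   (6, [1, 0, 11, 5, 2]), (3, [1, 0, 15, 4, 2]), (6, [2, 0, 14, 4, 2]), (6, [3, 0, 13, 4, 2]),
   (3, [4, 0, 12, 4, 2]), (1, [1, 0, 19, 3, 2]), (3, [2, 0, 18, 3, 2]), (6, [3, 0, 17, 3, 2]),
   (6, [5, 0, 15, 3, 2]), (6, [7, 0, 13, 3, 2]), (3, [9, 0, 11, 3, 2]), (5, [1, 0, 23, 2, 2]),
   (3, [2, 0, 22, 2, 2]), (1, [3, 0, 21, 2, 2]), (6, [5, 0, 19, 2, 2]), (3, [7, 0, 17, 2, 2]),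
   (6, [12, 0, 12, 2, 2]), (7, [2, 0, 26, 1, 2]), (6, [3, 0, 25, 1, 2]), (7, [4, 0, 24, 1, 2]),
   (1, [6, 0, 22, 1, 2]), (3, [7, 0, 21, 1, 2]), (6, [8, 0, 20, 1, 2]), (8, [9, 0, 19, 1, 2]),
   (6, [10, 0, 18, 1, 2]), (6, [12, 0, 16, 1, 2]), (6, [13, 0, 15, 1, 2]), (3, [15, 0, 13, 1, 2]),
   (3, [1, 0, 31, 0, 2]), (6, [3, 0, 29, 0, 2]), (8, [4, 0, 28, 0, 2]), (4, [5, 0, 27, 0, 2]),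
   (2, [7, 0, 25, 0, 2]), (6, [8, 0, 24, 0, 2]), (4, [10, 0, 22, 0, 2]), (3, [11, 0, 21, 0, 2]),
   (6, [12, 0, 20, 0, 2]), (3, [13, 0, 19, 0, 2]), (6, [14, 0, 18, 0, 2]), (6, [16, 0, 16, 0, 2]),
   (8, [0, 0, 0, 9, 1]), (6, [0, 0, 4, 8, 1]), (3, [2, 0, 2, 8, 1]), (6, [1, 0, 7, 7, 1]),
   (3, [2, 0, 6, 7, 1]), (6, [3, 0, 5, 7, 1]), (6, [4, 0, 4, 7, 1]), (6, [5, 0, 3, 7, 1]),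
   (1, [2, 0, 10, 6, 1]), (6, [3, 0, 9, 6, 1]), (3, [4, 0, 8, 6, 1]), (3, [6, 0, 6, 6, 1]),
   (3, [8, 0, 4, 6, 1]), (6, [9, 0, 3, 6, 1]), (3, [10, 0, 2, 6, 1]), (1, [2, 0, 14, 5, 1]),
   (2, [4, 0, 12, 5, 1]), (6, [5, 0, 11, 5, 1]), (6, [6, 0, 10, 5, 1]), (3, [8, 0, 8, 5, 1]),
   (6, [9, 0, 7, 5, 1]), (6, [10, 0, 6, 5, 1]), (3, [12, 0, 4, 5, 1]), (6, [13, 0, 3, 5, 1]),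
   (7, [2, 0, 18, 4, 1]), (5, [3, 0, 17, 4, 1]), (1, [4, 0, 16, 4, 1]), (5, [5, 0, 15, 4, 1]),
   (4, [6, 0, 14, 4, 1]), (5, [7, 0, 13, 4, 1]), (3, [8, 0, 12, 4, 1]), (6, [9, 0, 11, 4, 1]),
   (4, [10, 0, 10, 4, 1]), (6, [11, 0, 9, 4, 1]), (6, [12, 0, 8, 4, 1]), (3, [13, 0, 7, 4, 1]),
   (6, [14, 0, 6, 4, 1]), (3, [16, 0, 4, 4, 1]), (3, [18, 0, 2, 4, 1]), (6, [2, 0, 22, 3, 1]),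
   (7, [3, 0, 21, 3, 1]), (3, [4, 0, 20, 3, 1]), (7, [5, 0, 19, 3, 1]), (5, [6, 0, 18, 3, 1]),
   (3, [7, 0, 17, 3, 1]), (7, [8, 0, 16, 3, 1]), (5, [9, 0, 15, 3, 1]), (8, [10, 0, 14, 3, 1]),
   (5, [11, 0, 13, 3, 1]), (1, [12, 0, 12, 3, 1]), (6, [13, 0, 11, 3, 1]), (6, [14, 0, 10, 3, 1]),
   (3, [15, 0, 9, 3, 1]), (6, [16, 0, 8, 3, 1]), (6, [17, 0, 7, 3, 1]), (6, [18, 0, 6, 3, 1]),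
   (6, [19, 0, 5, 3, 1]), (6, [21, 0, 3, 3, 1]), (3, [2, 0, 26, 2, 1]), (7, [4, 0, 24, 2, 1]),
   (8, [5, 0, 23, 2, 1]), (7, [7, 0, 21, 2, 1]), (7, [8, 0, 20, 2, 1]), (3, [9, 0, 19, 2, 1]),
   (6, [10, 0, 18, 2, 1]), (2, [11, 0, 17, 2, 1]), (7, [12, 0, 16, 2, 1]), (3, [13, 0, 15, 2, 1]),
   (3, [14, 0, 14, 2, 1]), (4, [15, 0, 13, 2, 1]), (6, [17, 0, 11, 2, 1]), (1, [18, 0, 10, 2, 1]),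
   (3, [19, 0, 9, 2, 1]), (3, [21, 0, 7, 2, 1]), (3, [24, 0, 4, 2, 1]), (6, [3, 0, 29, 1, 1]),
   (4, [6, 0, 26, 1, 1]), (2, [7, 0, 25, 1, 1]), (1, [8, 0, 24, 1, 1]), (6, [9, 0, 23, 1, 1]),
   (1, [10, 0, 22, 1, 1]), (5, [12, 0, 20, 1, 1]), (6, [15, 0, 17, 1, 1]), (7, [16, 0, 16, 1, 1]),
   (6, [18, 0, 14, 1, 1]), (4, [19, 0, 13, 1, 1]), (3, [20, 0, 12, 1, 1]), (3, [22, 0, 10, 1, 1]),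
   (3, [25, 0, 7, 1, 1]), (3, [5, 0, 31, 0, 1]), (6, [6, 0, 30, 0, 1]), (6, [7, 0, 29, 0, 1]),
   (4, [8, 0, 28, 0, 1]), (8, [9, 0, 27, 0, 1]), (7, [10, 0, 26, 0, 1]), (8, [11, 0, 25, 0, 1]),
   (4, [12, 0, 24, 0, 1]), (3, [13, 0, 23, 0, 1]), (2, [14, 0, 22, 0, 1]), (5, [15, 0, 21, 0, 1]),
   (3, [16, 0, 20, 0, 1]), (4, [17, 0, 19, 0, 1]), (3, [18, 0, 18, 0, 1]), (4, [20, 0, 16, 0, 1]),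
   (6, [21, 0, 15, 0, 1]), (3, [23, 0, 13, 0, 1]), (3, [26, 0, 10, 0, 1]), (8, [27, 0, 9, 0, 1]),
   (3, [1, 0, 3, 9]), (6, [3, 0, 1, 9]), (1, [4, 0, 0, 9]), (4, [1, 0, 7, 8]), (6, [2, 0, 6, 8]),
   (4, [3, 0, 5, 8]), (3, [4, 0, 4, 8]), (1, [5, 0, 3, 8]), (8, [2, 0, 10, 7]), (8, [3, 0, 9, 7]),
   (3, [4, 0, 8, 7]), (1, [5, 0, 7, 7]), (6, [6, 0, 6, 7]), (7, [7, 0, 5, 7]), (1, [8, 0, 4, 7]),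
   (2, [9, 0, 3, 7]), (8, [11, 0, 1, 7]), (6, [12, 0, 0, 7]), (3, [3, 0, 13, 6]),
   (6, [4, 0, 12, 6]), (6, [5, 0, 11, 6]), (6, [6, 0, 10, 6]), (4, [7, 0, 9, 6]),
   (3, [8, 0, 8, 6]), (5, [9, 0, 7, 6]), (8, [11, 0, 5, 6]), (6, [12, 0, 4, 6]),
   (1, [13, 0, 3, 6]), (6, [14, 0, 2, 6]), (3, [3, 0, 17, 5]), (2, [4, 0, 16, 5]),
   (7, [5, 0, 15, 5]), (6, [6, 0, 14, 5]), (6, [7, 0, 13, 5]), (1, [8, 0, 12, 5]),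
   (7, [9, 0, 11, 5]), (1, [10, 0, 10, 5]), (5, [11, 0, 9, 5]), (1, [12, 0, 8, 5]),
   (6, [13, 0, 7, 5]), (5, [15, 0, 5, 5]), (7, [16, 0, 4, 5]), (6, [17, 0, 3, 5]),
   (1, [19, 0, 1, 5]), (3, [20, 0, 0, 5]), (3, [3, 0, 21, 4]), (6, [4, 0, 20, 4]),
   (1, [5, 0, 19, 4]), (7, [6, 0, 18, 4]), (7, [8, 0, 16, 4]), (5, [9, 0, 15, 4]),
   (8, [10, 0, 14, 4]), (3, [11, 0, 13, 4]), (5, [12, 0, 12, 4]), (6, [13, 0, 11, 4]),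
   (7, [14, 0, 10, 4]), (8, [15, 0, 9, 4]), (1, [16, 0, 8, 4]), (1, [17, 0, 7, 4]),
   (6, [18, 0, 6, 4]), (5, [19, 0, 5, 4]), (1, [20, 0, 4, 4]), (4, [21, 0, 3, 4]),
   (6, [22, 0, 2, 4]), (3, [4, 0, 24, 3]), (6, [7, 0, 21, 3]), (1, [8, 0, 20, 3]),
   (3, [9, 0, 19, 3]), (1, [11, 0, 17, 3]), (5, [12, 0, 16, 3]), (6, [13, 0, 15, 3]),
   (6, [14, 0, 14, 3]), (4, [15, 0, 13, 3]), (2, [16, 0, 12, 3]), (2, [17, 0, 11, 3]),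
   (1, [18, 0, 10, 3]), (6, [20, 0, 8, 3]), (5, [21, 0, 7, 3]), (2, [22, 0, 6, 3]),
   (3, [23, 0, 5, 3]), (1, [24, 0, 4, 3]), (6, [25, 0, 3, 3]), (8, [28, 0, 0, 3]),
   (3, [5, 0, 27, 2]), (6, [6, 0, 26, 2]), (4, [7, 0, 25, 2]), (8, [8, 0, 24, 2]),
   (8, [9, 0, 23, 2]), (4, [11, 0, 21, 2]), (8, [12, 0, 20, 2]), (8, [13, 0, 19, 2]),
   (4, [14, 0, 18, 2]), (2, [15, 0, 17, 2]), (3, [17, 0, 15, 2]), (4, [18, 0, 14, 2]),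
   (5, [19, 0, 13, 2]), (3, [20, 0, 12, 2]), (2, [21, 0, 11, 2]), (8, [22, 0, 10, 2]),
   (3, [23, 0, 9, 2]), (3, [24, 0, 8, 2]), (3, [25, 0, 7, 2]), (1, [28, 0, 4, 2]),
   (3, [29, 0, 3, 2]), (3, [7, 0, 29, 1]), (8, [8, 0, 28, 1]), (6, [10, 0, 26, 1]),
   (1, [11, 0, 25, 1]), (1, [12, 0, 24, 1]), (5, [14, 0, 22, 1]), (5, [15, 0, 21, 1]),
   (7, [18, 0, 18, 1]), (2, [19, 0, 17, 1]), (2, [20, 0, 16, 1]), (3, [21, 0, 15, 1]),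
   (5, [23, 0, 13, 1]), (1, [24, 0, 12, 1]), (3, [25, 0, 11, 1]), (6, [27, 0, 9, 1]),
   (8, [29, 0, 7, 1]), (6, [30, 0, 6, 1]), (6, [1, 0, 39]), (6, [9, 0, 31]), (3, [10, 0, 30]),
   (2, [11, 0, 29]), (3, [12, 0, 28]), (4, [13, 0, 27]), (2, [14, 0, 26]), (8, [15, 0, 25]),
   (4, [17, 0, 23]), (5, [18, 0, 22]), (7, [20, 0, 20]), (2, [21, 0, 19]), (5, [23, 0, 17]),
   (7, [24, 0, 16]), (8, [25, 0, 15]), (3, [26, 0, 14]), (5, [27, 0, 13]), (6, [28, 0, 12]),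
   (1, [31, 0, 9])]

/-- table -/
def dR : ℕ → ℕ → List Tm
  | 0, 0 => dR0_0
  | 0, 1 => dR0_1
  | 0, 2 => dR0_2
  | 0, 3 => dR0_3
  | 1, 0 => dR1_0
  | 1, 1 => dR1_1
  | 1, 2 => dR1_2
  | 1, 3 => dR1_3
  | 2, 0 => dR2_0
  | 2, 1 => dR2_1
  | 2, 2 => dR2_2
  | 2, 3 => dR2_3
  | 3, 0 => dR3_0
  | 3, 1 => dR3_1
  | 3, 2 => dR3_2
  | 3, 3 => dR3_3
  | _, _ => []

/-- table -/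
def dL : ℕ → ℕ → List Tm
  | 0, 0 => dL0_0
  | 0, 1 => dL0_1
  | 0, 2 => dL0_2
  | 0, 3 => dL0_3
  | 1, 0 => dL1_0
  | 1, 1 => dL1_1
  | 1, 2 => dL1_2
  | 1, 3 => dL1_3
  | 2, 0 => dL2_0
  | 2, 1 => dL2_1
  | 2, 2 => dL2_2
  | 2, 3 => dL2_3
  | 3, 0 => dL3_0
  | 3, 1 => dL3_1
  | 3, 2 => dL3_2
  | 3, 3 => dL3_3
  | _, _ => []

/-- table -/
def eX : ℕ → ℕ → List Tm
  | 0, 0 => eX0_0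
  | 0, 1 => eX0_1
  | 0, 2 => eX0_2
  | 0, 3 => eX0_3
  | 1, 0 => eX1_0
  | 1, 1 => eX1_1
  | 1, 2 => eX1_2
  | 1, 3 => eX1_3
  | 2, 0 => eX2_0
  | 2, 1 => eX2_1
  | 2, 2 => eX2_2
  | 2, 3 => eX2_3
  | 3, 0 => eX3_0
  | 3, 1 => eX3_1
  | 3, 2 => eX3_2
  | 3, 3 => eX3_3
  | _, _ => []

/-- table -/
def eF : ℕ → List Tm
  | 0 => eF_0
  | 1 => eF_1
  | 2 => eF_2
  | 3 => eF_3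
  | _ => []

end Vale.Agent.P236B
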