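import Vale.Agent.P236B.Kr2
import Vale.Agent.P236B.FamD

/-!
# P236 / B : explicit formulas modulo `9` (tests)
-/

namespace Vale.Agent.P236B

/-- a list as a function -/
def gt (l : List ℕ) (i : ℕ) : ℕ := l.getD i 0

/-- the variables `v_{i+1}` -/
def vE : ℕ → Ex
  | 0 => varE 2
  | 1 => varE 3
  | 2 => varE 5
  | 3 => varE 8
  | i + 4 => varE (9 + 2 * i)

/-- the variables `t_{i+1}` -/
def tE : ℕ → Ex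
  | 0 => varE 0
  | 1 => varE 4
  | 2 => varE 6
  | 3 => varE 7
  | i + 4 => varE (10 + 2 * i)

/-- the sequence `x e_n` -/
def xE (n i : ℕ) : Ex := cond (Nat.beq i n) (varE 1) (.tl [])

/-- lists of terms as expressions -/
def tlE (f : ℕ → List Tm) (i : ℕ) : Ex := .tl (f i)

theorem c_dR0_0 : chk 8 1 (gt [2, 1, 1, 1, 1, 1, 1, 1])
    (gt [1, 1, 1, 4, 4, 13, 13, 40, 40]) (gt [0, 1, 2, 2, 2, 2, 2, 2, 2]) 7 2 27 1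
    (delP 3 vE (tlE (dR 0)) 0) (delN 3 vE tE (xE 0) 0) = true := by decide +kernel

theorem c_dR0_1 : chk 8 4 (gt [4, 2, 1, 2, 1, 1, 1, 1])
    (gt [1, 1, 1, 4, 4, 13, 13, 40, 40]) (gt [0, 1, 4, 8, 8, 16, 16, 16, 16]) 10 3 81 1
    (delP 3 vE (tlE (dR 0)) 1) (delN 3 vE tE (xE 0) 1) = true := by decide +kernel

theorem c_dR0_2 : chk 8 13 (gt [10, 5, 2, 4, 1, 2, 1, 1])
    (gt [1, 1, 1, 4, 4, 13, 13, 40, 40]) (gt [0, 1, 10, 50, 100, 400, 400, 800, 800]) 17 9 243 1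
    (delP 3 vE (tlE (dR 0)) 2) (delN 3 vE tE (xE 0) 2) = true := by decide +kernel

theorem c_dR0_3 : chk 8 40 (gt [28, 14, 4, 10, 2, 4, 2, 1])
    (gt [1, 1, 1, 4, 4, 13, 13, 40, 40]) (gt [0, 1, 28, 392, 1568, 15680, 31360, 125440, 250880]) 44 34 729 1
    (delP 3 vE (tlE (dR 0)) 3) (delN 3 vE tE (xE 0) 3) = true := by decide +kernel

theorem c_dL0_0 : chk 8 1 (gt [2, 1, 1, 1, 1, 1, 1, 1])
    (gt [1, 1, 1, 4, 4, 13, 13, 40, 40]) (gt [0, 1, 2, 2, 2, 2, 2, 2, 2]) 7 2 27 1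
    (delP 3 vE (tlE (dL 0)) 0) (delN 3 vE (xE 0) tE 0) = true := by decide +kernel

theorem c_dL0_1 : chk 8 4 (gt [4, 2, 1, 2, 1, 1, 1, 1])
    (gt [1, 1, 1, 4, 4, 13, 13, 40, 40]) (gt [0, 1, 4, 8, 8, 16, 16, 16, 16]) 10 3 81 1
    (delP 3 vE (tlE (dL 0)) 1) (delN 3 vE (xE 0) tE 1) = true := by decide +kernel

theorem c_dL0_2 : chk 8 13 (gt [10, 5, 2, 4, 1, 2, 1, 1])
    (gt [1, 1, 1, 4, 4, 13, 13, 40, 40]) (gt [0, 1, 10, 50, 100, 400, 400, 800, 800]) 17 9 243 1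
    (delP 3 vE (tlE (dL 0)) 2) (delN 3 vE (xE 0) tE 2) = true := by decide +kernel

theorem c_dL0_3 : chk 8 40 (gt [28, 14, 4, 10, 2, 4, 2, 1])
    (gt [1, 1, 1, 4, 4, 13, 13, 40, 40]) (gt [0, 1, 28, 392, 1568, 15680, 31360, 125440, 250880]) 44 34 729 1
    (delP 3 vE (tlE (dL 0)) 3) (delN 3 vE (xE 0) tE 3) = true := by decide +kernel

theorem c_eX0_0 : chk 8 1 (gt [2, 2, 1, 1, 1, 1, 1, 1])
    (gt [1, 1, 1, 4, 4, 13, 13, 40, 40]) (gt [0, 1, 2, 4, 4, 4, 4, 4, 4]) 6 2 9 1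
    (etaP 3 vE (xE 0) (tlE (eX 0)) 0) (etaN 3 vE (xE 0) 0) = true := by decide +kernel

theorem c_eX0_1 : chk 8 4 (gt [5, 5, 2, 1, 1, 1, 1, 1])
    (gt [1, 1, 1, 4, 4, 13, 13, 40, 40]) (gt [0, 1, 5, 25, 50, 50, 50, 50, 50]) 9 4 27 1
    (etaP 3 vE (xE 0) (tlE (eX 0)) 1) (etaN 3 vE (xE 0) 1) = true := by decide +kernel

theorem c_eX0_2 : chk 8 13 (gt [13, 14, 4, 1, 2, 1, 1, 1])
    (gt [1, 1, 1, 4, 4, 13, 13, 40, 40]) (gt [0, 1, 13, 182, 728, 728, 1456, 1456, 1456]) 22 15 81 1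
    (etaP 3 vE (xE 0) (tlE (eX 0)) 2) (etaN 3 vE (xE 0) 2) = true := by decide +kernel

theorem c_eX0_3 : chk 8 40 (gt [37, 41, 11, 1, 4, 1, 1, 2])
    (gt [1, 1, 1, 4, 4, 13, 13, 40, 40]) (gt [0, 1, 37, 1517, 16687, 16687, 66748, 66748, 66748]) 59 51 243 1
    (etaP 3 vE (xE 0) (tlE (eX 0)) 3) (etaN 3 vE (xE 0) 3) = true := by decide +kernel

theorem c_dR1_0 : chk 8 1 (gt [1, 1, 1, 1, 1, 1, 1, 1])
    (gt [1, 4, 1, 4, 4, 13, 13, 40, 40]) (gt [0, 1, 1, 1, 1, 1, 1, 1, 1]) 7 2 27 1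
    (delP 3 vE (tlE (dR 1)) 0) (delN 3 vE tE (xE 1) 0) = true := by decide +kernel

theorem c_dR1_1 : chk 8 4 (gt [2, 2, 1, 2, 1, 1, 1, 1])
    (gt [1, 4, 1, 4, 4, 13, 13, 40, 40]) (gt [0, 1, 2, 4, 4, 8, 8, 8, 8]) 9 2 81 1
    (delP 3 vE (tlE (dR 1)) 1) (delN 3 vE tE (xE 1) 1) = true := by decide +kernel

theorem c_dR1_2 : chk 8 13 (gt [4, 5, 2, 4, 1, 2, 1, 1])
    (gt [1, 4, 1, 4, 4, 13, 13, 40, 40]) (gt [0, 1, 4, 20, 40, 160, 160, 320, 320]) 11 3 243 1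
    (delP 3 vE (tlE (dR 1)) 2) (delN 3 vE tE (xE 1) 2) = true := by decide +kernel

theorem c_dR1_3 : chk 8 40 (gt [10, 14, 4, 10, 2, 4, 2, 1])
    (gt [1, 4, 1, 4, 4, 13, 13, 40, 40]) (gt [0, 1, 10, 140, 560, 5600, 11200, 44800, 89600]) 19 9 729 1
    (delP 3 vE (tlE (dR 1)) 3) (delN 3 vE tE (xE 1) 3) = true := by decide +kernel

theorem c_dL1_0 : chk 8 1 (gt [1, 1, 1, 1, 1, 1, 1, 1])
    (gt [1, 4, 1, 4, 4, 13, 13, 40, 40]) (gt [0, 1, 1, 1, 1, 1, 1, 1, 1]) 7 2 27 1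
    (delP 3 vE (tlE (dL 1)) 0) (delN 3 vE (xE 1) tE 0) = true := by decide +kernel

theorem c_dL1_1 : chk 8 4 (gt [2, 2, 1, 2, 1, 1, 1, 1])
    (gt [1, 4, 1, 4, 4, 13, 13, 40, 40]) (gt [0, 1, 2, 4, 4, 8, 8, 8, 8]) 9 2 81 1
    (delP 3 vE (tlE (dL 1)) 1) (delN 3 vE (xE 1) tE 1) = true := by decide +kernel

theorem c_dL1_2 : chk 8 13 (gt [4, 5, 2, 4, 1, 2, 1, 1])
    (gt [1, 4, 1, 4, 4, 13, 13, 40, 40]) (gt [0, 1, 4, 20, 40, 160, 160, 320, 320]) 11 3 243 1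
    (delP 3 vE (tlE (dL 1)) 2) (delN 3 vE (xE 1) tE 2) = true := by decide +kernel

theorem c_dL1_3 : chk 8 40 (gt [10, 14, 4, 10, 2, 4, 2, 1])
    (gt [1, 4, 1, 4, 4, 13, 13, 40, 40]) (gt [0, 1, 10, 140, 560, 5600, 11200, 44800, 89600]) 19 9 729 1
    (delP 3 vE (tlE (dL 1)) 3) (delN 3 vE (xE 1) tE 3) = true := by decide +kernel

theorem c_eX1_0 : chk 8 1 (gt [1, 2, 1, 1, 1, 1, 1, 1])
    (gt [1, 4, 1, 4, 4, 13, 13, 40, 40]) (gt [0, 1, 1, 2, 2, 2, 2, 2, 2]) 6 2 9 1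
    (etaP 3 vE (xE 1) (tlE (eX 1)) 0) (etaN 3 vE (xE 1) 0) = true := by decide +kernel

theorem c_eX1_1 : chk 8 4 (gt [2, 5, 2, 1, 1, 1, 1, 1])
    (gt [1, 4, 1, 4, 4, 13, 13, 40, 40]) (gt [0, 1, 2, 10, 20, 20, 20, 20, 20]) 7 2 27 1
    (etaP 3 vE (xE 1) (tlE (eX 1)) 1) (etaN 3 vE (xE 1) 1) = true := by decide +kernel

theorem c_eX1_2 : chk 8 13 (gt [4, 14, 4, 1, 2, 1, 1, 1])
    (gt [1, 4, 1, 4, 4, 13, 13, 40, 40]) (gt [0, 1, 4, 56, 224, 224, 448, 448, 448]) 10 3 81 1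
    (etaP 3 vE (xE 1) (tlE (eX 1)) 2) (etaN 3 vE (xE 1) 2) = true := by decide +kernel

theorem c_eX1_3 : chk 8 40 (gt [11, 41, 11, 1, 4, 1, 1, 2])
    (gt [1, 4, 1, 4, 4, 13, 13, 40, 40]) (gt [0, 1, 11, 451, 4961, 4961, 19844, 19844, 19844]) 24 16 243 1
    (etaP 3 vE (xE 1) (tlE (eX 1)) 3) (etaN 3 vE (xE 1) 3) = true := by decide +kernel

theorem c_dR2_0 : chk 8 1 (gt [1, 1, 1, 1, 1, 1, 1, 1])
    (gt [1, 13, 1, 4, 4, 13, 13, 40, 40]) (gt [0, 1, 1, 1, 1, 1, 1, 1, 1]) 7 2 27 1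
    (delP 3 vE (tlE (dR 2)) 0) (delN 3 vE tE (xE 2) 0) = true := by decide +kernel

theorem c_dR2_1 : chk 8 4 (gt [1, 2, 1, 2, 1, 1, 1, 1])
    (gt [1, 13, 1, 4, 4, 13, 13, 40, 40]) (gt [0, 1, 1, 2, 2, 4, 4, 4, 4]) 9 2 81 1
    (delP 3 vE (tlE (dR 2)) 1) (delN 3 vE tE (xE 2) 1) = true := by decide +kernel

theorem c_dR2_2 : chk 8 13 (gt [2, 5, 2, 4, 1, 2, 1, 1])
    (gt [1, 13, 1, 4, 4, 13, 13, 40, 40]) (gt [0, 1, 2, 10, 20, 80, 80, 160, 160]) 10 2 243 1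
    (delP 3 vE (tlE (dR 2)) 2) (delN 3 vE tE (xE 2) 2) = true := by decide +kernel

theorem c_dR2_3 : chk 8 40 (gt [4, 14, 4, 10, 2, 4, 2, 1])
    (gt [1, 13, 1, 4, 4, 13, 13, 40, 40]) (gt [0, 1, 4, 56, 224, 2240, 4480, 17920, 35840]) 13 3 729 1
    (delP 3 vE (tlE (dR 2)) 3) (delN 3 vE tE (xE 2) 3) = true := by decide +kernel

theorem c_dL2_0 : chk 8 1 (gt [1, 1, 1, 1, 1, 1, 1, 1])
    (gt [1, 13, 1, 4, 4, 13, 13, 40, 40]) (gt [0, 1, 1, 1, 1, 1, 1, 1, 1]) 7 2 27 1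
    (delP 3 vE (tlE (dL 2)) 0) (delN 3 vE (xE 2) tE 0) = true := by decide +kernel

theorem c_dL2_1 : chk 8 4 (gt [1, 2, 1, 2, 1, 1, 1, 1])
    (gt [1, 13, 1, 4, 4, 13, 13, 40, 40]) (gt [0, 1, 1, 2, 2, 4, 4, 4, 4]) 9 2 81 1
    (delP 3 vE (tlE (dL 2)) 1) (delN 3 vE (xE 2) tE 1) = true := by decide +kernel

theorem c_dL2_2 : chk 8 13 (gt [2, 5, 2, 4, 1, 2, 1, 1])
    (gt [1, 13, 1, 4, 4, 13, 13, 40, 40]) (gt [0, 1, 2, 10, 20, 80, 80, 160, 160]) 10 2 243 1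
    (delP 3 vE (tlE (dL 2)) 2) (delN 3 vE (xE 2) tE 2) = true := by decide +kernel

theorem c_dL2_3 : chk 8 40 (gt [4, 14, 4, 10, 2, 4, 2, 1])
    (gt [1, 13, 1, 4, 4, 13, 13, 40, 40]) (gt [0, 1, 4, 56, 224, 2240, 4480, 17920, 35840]) 13 3 729 1
    (delP 3 vE (tlE (dL 2)) 3) (delN 3 vE (xE 2) tE 3) = true := by decide +kernel

theorem c_eX2_0 : chk 8 1 (gt [1, 2, 1, 1, 1, 1, 1, 1])
    (gt [1, 13, 1, 4, 4, 13, 13, 40, 40]) (gt [0, 1, 1, 2, 2, 2, 2, 2, 2]) 6 2 9 1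
    (etaP 3 vE (xE 2) (tlE (eX 2)) 0) (etaN 3 vE (xE 2) 0) = true := by decide +kernel

theorem c_eX2_1 : chk 8 4 (gt [1, 5, 2, 1, 1, 1, 1, 1])
    (gt [1, 13, 1, 4, 4, 13, 13, 40, 40]) (gt [0, 1, 1, 5, 10, 10, 10, 10, 10]) 7 2 27 1
    (etaP 3 vE (xE 2) (tlE (eX 2)) 1) (etaN 3 vE (xE 2) 1) = true := by decide +kernel

theorem c_eX2_2 : chk 8 13 (gt [2, 14, 4, 1, 2, 1, 1, 1])
    (gt [1, 13, 1, 4, 4, 13, 13, 40, 40]) (gt [0, 1, 2, 28, 112, 112, 224, 224, 224]) 9 2 81 1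
    (etaP 3 vE (xE 2) (tlE (eX 2)) 2) (etaN 3 vE (xE 2) 2) = true := by decide +kernel

theorem c_eX2_3 : chk 8 40 (gt [4, 41, 11, 1, 4, 1, 1, 2])
    (gt [1, 13, 1, 4, 4, 13, 13, 40, 40]) (gt [0, 1, 4, 164, 1804, 1804, 7216, 7216, 7216]) 11 3 243 1
    (etaP 3 vE (xE 2) (tlE (eX 2)) 3) (etaN 3 vE (xE 2) 3) = true := by decide +kernel

theorem c_dR3_0 : chk 8 1 (gt [1, 1, 1, 1, 1, 1, 1, 1])
    (gt [1, 40, 1, 4, 4, 13, 13, 40, 40]) (gt [0, 1, 1, 1, 1, 1, 1, 1, 1]) 7 2 27 1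
    (delP 3 vE (tlE (dR 3)) 0) (delN 3 vE tE (xE 3) 0) = true := by decide +kernel

theorem c_dR3_1 : chk 8 4 (gt [1, 2, 1, 2, 1, 1, 1, 1])
    (gt [1, 40, 1, 4, 4, 13, 13, 40, 40]) (gt [0, 1, 1, 2, 2, 4, 4, 4, 4]) 9 2 81 1
    (delP 3 vE (tlE (dR 3)) 1) (delN 3 vE tE (xE 3) 1) = true := by decide +kernel

theorem c_dR3_2 : chk 8 13 (gt [1, 5, 2, 4, 1, 2, 1, 1])
    (gt [1, 40, 1, 4, 4, 13, 13, 40, 40]) (gt [0, 1, 1, 5, 10, 40, 40, 80, 80]) 10 2 243 1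
    (delP 3 vE (tlE (dR 3)) 2) (delN 3 vE tE (xE 3) 2) = true := by decide +kernel

theorem c_dR3_3 : chk 8 40 (gt [2, 14, 4, 10, 2, 4, 2, 1])
    (gt [1, 40, 1, 4, 4, 13, 13, 40, 40]) (gt [0, 1, 2, 28, 112, 1120, 2240, 8960, 17920]) 12 2 729 1
    (delP 3 vE (tlE (dR 3)) 3) (delN 3 vE tE (xE 3) 3) = true := by decide +kernel

theorem c_dL3_0 : chk 8 1 (gt [1, 1, 1, 1, 1, 1, 1, 1])
    (gt [1, 40, 1, 4, 4, 13, 13, 40, 40]) (gt [0, 1, 1, 1, 1, 1, 1, 1, 1]) 7 2 27 1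
    (delP 3 vE (tlE (dL 3)) 0) (delN 3 vE (xE 3) tE 0) = true := by decide +kernel

theorem c_dL3_1 : chk 8 4 (gt [1, 2, 1, 2, 1, 1, 1, 1])
    (gt [1, 40, 1, 4, 4, 13, 13, 40, 40]) (gt [0, 1, 1, 2, 2, 4, 4, 4, 4]) 9 2 81 1
    (delP 3 vE (tlE (dL 3)) 1) (delN 3 vE (xE 3) tE 1) = true := by decide +kernel

theorem c_dL3_2 : chk 8 13 (gt [1, 5, 2, 4, 1, 2, 1, 1])
    (gt [1, 40, 1, 4, 4, 13, 13, 40, 40]) (gt [0, 1, 1, 5, 10, 40, 40, 80, 80]) 10 2 243 1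
    (delP 3 vE (tlE (dL 3)) 2) (delN 3 vE (xE 3) tE 2) = true := by decide +kernel

theorem c_dL3_3 : chk 8 40 (gt [2, 14, 4, 10, 2, 4, 2, 1])
    (gt [1, 40, 1, 4, 4, 13, 13, 40, 40]) (gt [0, 1, 2, 28, 112, 1120, 2240, 8960, 17920]) 12 2 729 1
    (delP 3 vE (tlE (dL 3)) 3) (delN 3 vE (xE 3) tE 3) = true := by decide +kernel

theorem c_eX3_0 : chk 8 1 (gt [1, 2, 1, 1, 1, 1, 1, 1])
    (gt [1, 40, 1, 4, 4, 13, 13, 40, 40]) (gt [0, 1, 1, 2, 2, 2, 2, 2, 2]) 6 2 9 1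
    (etaP 3 vE (xE 3) (tlE (eX 3)) 0) (etaN 3 vE (xE 3) 0) = true := by decide +kernel

theorem c_eX3_1 : chk 8 4 (gt [1, 5, 2, 1, 1, 1, 1, 1])
    (gt [1, 40, 1, 4, 4, 13, 13, 40, 40]) (gt [0, 1, 1, 5, 10, 10, 10, 10, 10]) 7 2 27 1
    (etaP 3 vE (xE 3) (tlE (eX 3)) 1) (etaN 3 vE (xE 3) 1) = true := by decide +kernel

theorem c_eX3_2 : chk 8 13 (gt [1, 14, 4, 1, 2, 1, 1, 1])
    (gt [1, 40, 1, 4, 4, 13, 13, 40, 40]) (gt [0, 1, 1, 14, 56, 56, 112, 112, 112]) 9 2 81 1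
    (etaP 3 vE (xE 3) (tlE (eX 3)) 2) (etaN 3 vE (xE 3) 2) = true := by decide +kernel

theorem c_eX3_3 : chk 8 40 (gt [2, 41, 11, 1, 4, 1, 1, 2])
    (gt [1, 40, 1, 4, 4, 13, 13, 40, 40]) (gt [0, 1, 2, 82, 902, 902, 3608, 3608, 3608]) 10 2 243 1
    (etaP 3 vE (xE 3) (tlE (eX 3)) 3) (etaN 3 vE (xE 3) 3) = true := by decide +kernel

theorem c_eF_0 : chk 8 1 (gt [1, 2, 1, 1, 1, 1, 1, 1])
    (gt [1, 1, 1, 4, 4, 13, 13, 40, 40]) (gt [0, 1, 1, 2, 2, 2, 2, 2, 2]) 6 2 9 1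
    (etaP 3 vE tE (tlE eF) 0) (etaN 3 vE tE 0) = true := by decide +kernel

theorem c_eF_1 : chk 8 4 (gt [1, 5, 2, 2, 1, 1, 1, 1])
    (gt [1, 1, 1, 4, 4, 13, 13, 40, 40]) (gt [0, 1, 1, 5, 10, 20, 20, 20, 20]) 9 4 27 1
    (etaP 3 vE tE (tlE eF) 1) (etaN 3 vE tE 1) = true := by decide +kernel

theorem c_eF_2 : chk 8 13 (gt [1, 14, 4, 4, 2, 2, 1, 1])
    (gt [1, 1, 1, 4, 4, 13, 13, 40, 40]) (gt [0, 1, 1, 14, 56, 224, 448, 896, 896]) 23 16 81 1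
    (etaP 3 vE tE (tlE eF) 2) (etaN 3 vE tE 2) = true := by decide +kernel

theorem c_eF_3 : chk 8 40 (gt [1, 41, 11, 11, 4, 4, 2, 2])
    (gt [1, 1, 1, 4, 4, 13, 13, 40, 40]) (gt [0, 1, 1, 41, 451, 4961, 19844, 79376, 158752]) 61 53 243 2
    (etaP 3 vE tE (tlE eF) 3) (etaN 3 vE tE 3) = true := by decide +kernel

end Vale.Agent.P236B
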