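import Vale.Agent.P236A.Basic

/-!
# P236 / B : the ghost bridge

`HM = ℤ[m_1, m_2, …]` contains `Av ℤ = ℤ[v_1, v_2, …]` (`phi`), the right unit extends to `HM` by
`m_n ↦ ∑ m_j t_{n-j}^{p^j}` (`etaH`), and `HM = ℤ[w_1, w_2, …]`, `v_n = p w_n` (`toW`, `toM`).
The differential `X0 δ` extends to `XH δ`, and the matrix `RR δ' δ` is the functional `YY δ' δ`
on `HM[t]` whose values on `etaH b` are the values of `XH δ' ∘ XH δ`.
-/

noncomputable section

namespace Vale.Agent.P236B

open MvPolynomial Vale.Agent.P236A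
open Vale.Agent.P257.H134 (comp)

section Gen

variable (p : ℕ) [hp : Fact p.Prime] {k B : Type} [CommRing k] [CommRing B]

omit hp in
theorem reg_poly (hB : ∀ x : B, (p : B) * x = 0 → x = 0) (y : MvPolynomial ℕ B)
    (h : (p : MvPolynomial ℕ B) * y = 0) : y = 0 := by
  ext J
  apply hB
  rw [← coeff_C_mul, map_natCast, h, coeff_zero]

theorem RB_comp (hB : ∀ x : B, (p : B) * x = 0 → x = 0) (x : Av k →+* B) {m : ℕ → B}
    (hm : IsLog p (fun i => x (X i)) m) (n : ℕ) :
    RB p x (comp p (fun i => C (m i)) (hat X) n) =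
      comp p (fun i => C (comp p (fun i => C (m i)) (hat X) i)) (hat X) n := by
  have h0 := hm.map p (B := MvPolynomial ℕ (MvPolynomial ℕ B))
    ((C : MvPolynomial ℕ B →+* MvPolynomial ℕ (MvPolynomial ℕ B)).comp C)
  have h := h0.del p (reg_poly p (reg_poly p hB)) (fun i => C (X i)) X n
  have e1 := map_comp p (A := MvPolynomial ℕ B) (B := MvPolynomial ℕ (MvPolynomial ℕ B))
  have e2 := map_hat (A := MvPolynomial ℕ B) (B := MvPolynomial ℕ (MvPolynomial ℕ B))
  simp only [e1, e2, RB_C, RB_X]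
  exact h

end Gen

/-- the ring `ℤ[m_1, m_2, …]` or `ℤ[w_1, w_2, …]` -/
abbrev HM : Type := MvPolynomial ℕ ℤ

/-- `m_0 = 1, m_1, m_2, …` -/
def mm : ℕ → HM := hat X

@[simp] theorem mm_zero : mm 0 = 1 := rfl
@[simp] theorem mm_succ (i : ℕ) : mm (i + 1) = X i := rfl

variable (p : ℕ)

/-- `v_{n+1}` in terms of the `m_i` -/
def vM (n : ℕ) : HM :=
  (p : HM) * X n - ∑ i : Fin n, (X (i : ℕ) : HM) * vM (n - (i + 1)) ^ p ^ (i + 1 : ℕ)
decreasing_by have := i.2; omega

theorem vM_eq (n : ℕ) : vM p n =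
    (p : HM) * X n - ∑ i ∈ Finset.range n, X i * vM p (n - (i + 1)) ^ p ^ (i + 1) := by
  rw [vM, Finset.sum_range]

theorem isLog_vM : IsLog p (vM p) mm := by
  refine ⟨rfl, fun n => ?_⟩
  rw [Finset.sum_range_succ', Nat.sub_zero, pow_zero, pow_one, mm_zero, one_mul, vM_eq p n]
  simp only [mm_succ]
  ring

/-- `w_{n+1} = v_{n+1} / p` in terms of the `m_i` -/
def wM (n : ℕ) : HM :=
  X n - ∑ i : Fin n,
    (p : HM) ^ (p ^ (i + 1 : ℕ) - 1) * X (i : ℕ) * wM (n - (i + 1)) ^ p ^ (i + 1 : ℕ)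
decreasing_by have := i.2; omega

theorem wM_eq (n : ℕ) : wM p n = X n - ∑ i ∈ Finset.range n,
    (p : HM) ^ (p ^ (i + 1) - 1) * X i * wM p (n - (i + 1)) ^ p ^ (i + 1) := by
  rw [wM, Finset.sum_range]

/-- `m_n` in terms of the `w_i` -/
def mW : ℕ → HM
  | 0 => 1
  | n + 1 => ∑ i : Fin (n + 1), (p : HM) ^ (p ^ (i : ℕ) - 1) * mW i * X (n - i) ^ p ^ (i : ℕ)

theorem mW_zero : mW p 0 = 1 := by rw [mW]

theorem mW_succ (n : ℕ) : mW p (n + 1) = ∑ i ∈ Finset.range (n + 1),
    (p : HM) ^ (p ^ i - 1) * mW p i * X (n - i) ^ p ^ i := by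
  rw [mW, Finset.sum_range]

/-- `ℤ[v] → ℤ[m]` -/
def phi : Av ℤ →+* HM := eval₂Hom C (vM p)

/-- from the `m`-basis to the `w`-basis -/
def toW : HM →+* HM := eval₂Hom C fun i => mW p (i + 1)

/-- from the `w`-basis to the `m`-basis -/
def toM : HM →+* HM := eval₂Hom C (wM p)

/-- `v_n ↦ p w_n` -/
def sc : Av ℤ →+* HM := eval₂Hom C fun i => (p : HM) * X i

/-- the right unit on `ℤ[m]` -/
def etaH : HM →+* MvPolynomial ℕ HM :=
  eval₂Hom ((C : HM →+* MvPolynomial ℕ HM).comp C) fun n =>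
    comp p (fun i => C (mm i)) (hat X) (n + 1)

@[simp] theorem phi_X (i : ℕ) : phi p (X i) = vM p i := by simp [phi]
@[simp] theorem toW_X (i : ℕ) : toW p (X i) = mW p (i + 1) := by simp [toW]
@[simp] theorem toM_X (i : ℕ) : toM p (X i) = wM p i := by simp [toM]
@[simp] theorem sc_X (i : ℕ) : sc p (X i) = (p : HM) * X i := by simp [sc]

theorem toW_mm (i : ℕ) : toW p (mm i) = mW p i := by
  cases i with
  | zero => rw [mm_zero, map_one, mW_zero]
  | succ i => rw [mm_succ, toW_X]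

theorem etaH_mm (n : ℕ) : etaH p (mm n) = comp p (fun i => C (mm i)) (hat X) n := by
  cases n with
  | zero => rw [comp_zero, mm_zero, map_one, map_one, hat_zero, mul_one]
  | succ n => simp [etaH]

theorem etaH_X (n : ℕ) : etaH p (X n) =
    ∑ j ∈ Finset.range (n + 2), C (mm j) * hat X (n + 1 - j) ^ p ^ j := by
  rw [← mm_succ, etaH_mm, comp_range]

theorem hom_ext_int {B : Type} [CommRing B] {f g : MvPolynomial ℕ ℤ →+* B}
    (h : ∀ i, f (X i) = g (X i)) : f = g :=
  MvPolynomial.ringHom_ext' (RingHom.ext_int _ _) h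

theorem coeff_sc (a : Av ℤ) (L : ℕ →₀ ℕ) :
    coeff L (sc p a) = (p : ℤ) ^ L.degree * coeff L a := by
  classical
  induction a using MvPolynomial.induction_on' with
  | monomial J r =>
    have h : sc p (monomial J r) = monomial J ((p : ℤ) ^ J.degree * r) := by
      rw [sc, eval₂Hom_monomial, monomial_eq, Finsupp.prod, Finsupp.prod,
        Finsupp.degree_apply, ← Finset.prod_pow_eq_pow_sum]
      simp only [mul_pow, Finset.prod_mul_distrib, map_mul, map_prod, map_pow, map_natCast]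
      ring
    rw [h, coeff_monomial, coeff_monomial]
    split_ifs with hJ
    · rw [hJ]
    · rw [mul_zero]
  | add a a' h h' => rw [map_add, coeff_add, coeff_add, h, h', mul_add]

variable [hp : Fact p.Prime]

theorem reg_of_domain (B : Type) [CommRing B] [IsDomain B] [CharZero B] (x : B)
    (h : (p : B) * x = 0) : x = 0 :=
  (mul_eq_zero.1 h).resolve_left (Nat.cast_ne_zero.2 hp.out.ne_zero)

theorem p_mul_pow {B : Type} [CommRing B] (i : ℕ) :
    (p : B) * (p : B) ^ (p ^ i - 1) = (p : B) ^ p ^ i := by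
  rw [← pow_succ', Nat.sub_add_cancel (Nat.one_le_pow _ _ hp.out.pos)]

theorem p_mul_wM (n : ℕ) : (p : HM) * wM p n = vM p n := by
  induction n using Nat.strong_induction_on with
  | _ n ih =>
    rw [wM_eq, vM_eq, mul_sub, Finset.mul_sum]
    congr 1
    refine Finset.sum_congr rfl fun i hi => ?_
    rw [Finset.mem_range] at hi
    rw [← ih _ (by omega), mul_pow, ← p_mul_pow]
    ring

theorem isLog_mW : IsLog p (fun i => (p : HM) * X i) (mW p) := by
  refine ⟨mW_zero p, fun n => ?_⟩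
  rw [mW_succ, Finset.mul_sum]
  refine Finset.sum_congr rfl fun i _ => ?_
  rw [mul_pow, ← p_mul_pow]
  ring

theorem toW_vM (n : ℕ) : toW p (vM p n) = (p : HM) * X n := by
  have h := (isLog_vM p).map p (toW p)
  simp only [toW_mm] at h
  exact congrFun (h.unique p (isLog_mW p)) n

theorem toW_phi (a : Av ℤ) : toW p (phi p a) = sc p a :=
  RingHom.congr_fun (f := (toW p).comp (phi p)) (hom_ext_int fun i => by
    rw [RingHom.comp_apply, phi_X, toW_vM, sc_X]) a

/-- **the lattice**: the coefficient of `w ^ L` is `p ^ |L|` times the coefficient of `v ^ L` -/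
theorem coeff_toW_phi (a : Av ℤ) (L : ℕ →₀ ℕ) :
    coeff L (toW p (phi p a)) = (p : ℤ) ^ L.degree * coeff L a := by rw [toW_phi, coeff_sc]

theorem toW_toM (a : HM) : toW p (toM p a) = a :=
  RingHom.congr_fun (f := (toW p).comp (toM p)) (g := RingHom.id _) (hom_ext_int fun i => by
    rw [RingHom.comp_apply, toM_X, RingHom.id_apply, ← sub_eq_zero]
    apply reg_of_domain p
    rw [mul_sub, ← toW_vM, ← p_mul_wM, map_mul, map_natCast, sub_self]) a

theorem toM_toW (a : HM) : toM p (toW p a) = a :=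
  RingHom.congr_fun (f := (toM p).comp (toW p)) (g := RingHom.id _) (hom_ext_int fun i => by
    have h := (isLog_mW p).map p (toM p)
    simp only [map_mul, map_natCast, toM_X, p_mul_wM] at h
    rw [RingHom.comp_apply, toW_X, RingHom.id_apply]
    apply pow_cancel p (reg_of_domain p HM) (n := i + 1)
    rw [← h.MM_eq, (isLog_vM p).MM_eq, mm_succ]) a

theorem toM_sc (a : Av ℤ) : toM p (sc p a) = phi p a := by rw [← toW_phi, toM_toW]

theorem etaH_vM (n : ℕ) : etaH p (vM p n) = eta p (fun i => C (vM p i)) X n := by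
  have h := (isLog_vM p).map p (etaH p)
  simp only [etaH_mm] at h
  exact congrFun (h.unique p
    (((isLog_vM p).map p C).eta p (reg_of_domain p (MvPolynomial ℕ HM)) X)) n

/-- `etaH` extends the right unit -/
theorem etaH_phi (a : Av ℤ) : etaH p (phi p a) = map (phi p) (etaR p ℤ a) :=
  RingHom.congr_fun (f := (etaH p).comp (phi p)) (g := (map (phi p)).comp (etaR p ℤ))
    (hom_ext_int fun i => by
      rw [RingHom.comp_apply, RingHom.comp_apply, phi_X, etaH_vM, etaR, eval₂Hom_X', map_eta]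
      simp only [map_C, map_X, phi_X]) a

theorem etaB_phi (a : Av ℤ) : etaB p (phi p) a = etaH p (phi p a) := by rw [etaH_phi, map_etaR]

theorem RB_etaH (b : HM) : RB p (phi p) (etaH p b) = map (etaH p) (etaH p b) :=
  RingHom.congr_fun (f := (RB p (phi p)).comp (etaH p)) (g := (map (etaH p)).comp (etaH p))
    (hom_ext_int (B := MvPolynomial ℕ (MvPolynomial ℕ HM)) fun n => by
      have h := RB_comp p (reg_of_domain p HM) (phi p) (m := mm)
        (by simpa only [phi_X] using isLog_vM p) (n + 1)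
      have e1 := map_comp p (A := MvPolynomial ℕ HM) (B := MvPolynomial ℕ (MvPolynomial ℕ HM))
        (map (etaH p)) (fun i => C (mm i)) (hat X) (n + 1)
      have e2 := map_hat (A := MvPolynomial ℕ HM) (B := MvPolynomial ℕ (MvPolynomial ℕ HM))
        (map (etaH p)) X
      simp only [e2, map_C, map_X, etaH_mm] at e1
      rw [RingHom.comp_apply, RingHom.comp_apply, ← mm_succ, etaH_mm, h]
      exact e1.symm) b

/-- the action of an operation on `ℤ[m]` -/
def actH (ξ : (ℕ →₀ ℕ) → Av ℤ) : HM →+ HM :=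
  (lin fun J => phi p (ξ J)).toAddMonoidHom.comp (etaH p).toAddMonoidHom

omit hp in
theorem actH_apply (ξ : (ℕ →₀ ℕ) → Av ℤ) (b : HM) :
    actH p ξ b = lin (fun J => phi p (ξ J)) (etaH p b) := rfl

theorem actH_phi (ξ : (ℕ →₀ ℕ) → Av ℤ) (a : Av ℤ) : actH p ξ (phi p a) = phi p (act0 p ξ a) := by
  rw [actH_apply, etaH_phi, act0, map_lin]

variable {ι : Type} [Fintype ι]

/-- the differential on `ι → ℤ[m]` -/
def XH (δ : Mat ι (Av ℤ)) (c : ι → HM) : ι → HM := fun g' => ∑ g, actH p (δ g g') (c g)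

/-- **K3**: `XH` extends `X0` -/
theorem phi_X0 (δ : Mat ι (Av ℤ)) (c : ι → Av ℤ) (g' : ι) :
    phi p (X0 p δ c g') = XH p δ (fun g => phi p (c g)) g' := by
  simp only [X0, XH, map_sum, actH_phi]

omit hp in
theorem XH_single [DecidableEq ι] (δ : Mat ι (Av ℤ)) (g : ι) (b : HM) (g' : ι) :
    XH p δ (Pi.single g b) g' = actH p (δ g g') b := by
  rw [XH, Finset.sum_eq_single g, Pi.single_eq_same]
  · intro g₁ _ h
    rw [Pi.single_eq_of_ne h, map_zero]
  · intro h
    exact absurd (Finset.mem_univ g) h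

/-- the functional on `ℤ[m][t]` with the values `RR δ' δ g g''` -/
def YY (δ' δ : Mat ι (Av ℤ)) (g g'' : ι) : MvPolynomial ℕ HM →ₗ[HM] HM :=
  lin fun J => phi p (RR p δ' δ g g'' J)

theorem YY_mon (δ' δ : Mat ι (Av ℤ)) (g g'' : ι) (J : ℕ →₀ ℕ) :
    YY p δ' δ g g'' (monomial J 1) = phi p (RR p δ' δ g g'' J) := lin_one _ _

theorem YY_eq (δ' δ : Mat ι (Av ℤ)) (g g'' : ι) (y : MvPolynomial ℕ HM) :
    YY p δ' δ g g'' y =
      ∑ g', lin (fun J => phi p (δ' g' g'' J)) (actB p (phi p) (δ g g') y) := by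
  simp only [lin_actB, YY, RR_eq, map_sum, lin_sum]

theorem actB_etaH (ξ : (ℕ →₀ ℕ) → Av ℤ) (b : HM) :
    actB p (phi p) ξ (etaH p b) = etaH p (actH p ξ b) := by
  rw [actB, RB_etaH, actH_apply, map_lin]
  simp only [etaB_phi]

/-- **K2**: the values of `YY` on the image of the right unit -/
theorem YY_eta (δ' δ : Mat ι (Av ℤ)) (g g'' : ι) (b : HM) :
    YY p δ' δ g g'' (etaH p b) = ∑ g', actH p (δ' g' g'') (actH p (δ g g') b) := by
  simp only [YY_eq, actB_etaH]
  rfl

theorem YY_eta' [DecidableEq ι] (δ' δ : Mat ι (Av ℤ)) (g g'' : ι) (b : HM) :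
    YY p δ' δ g g'' (etaH p b) = XH p δ' (XH p δ (Pi.single g b)) g'' := by
  rw [YY_eta, XH]
  simp only [XH_single]

end Vale.Agent.P236B

end
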