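import Vale.Agent.P236B.Ghost
import Vale.Agent.P236A.Wt

/-!
# P236 / B : tables, weights and ideals for the ghost bridge

* `ZZ F J K = F (t ^ J * η (m ^ K))` and its recursion `ZZ_succ`, `ZZ_succ'`;
* `JJ a N = (p v_1 ^ a, v_1 ^ N)`, `mem_JJ_iff`, `inv_JJ`, `JJ_mono`, `red_JJ`;
* `sqIn_of_ghost` : the criterion for `SqIn`.
-/

noncomputable section

namespace Vale.Agent.P236B

open MvPolynomial Vale.Agent.P236A

/-! ### tables -/

/-- the exponent of `t_i ^ e` (`t_0 = 1`) -/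
def tsh : ℕ → ℕ → (ℕ →₀ ℕ)
  | 0, _ => 0
  | i + 1, e => Finsupp.single i e

@[simp] theorem tsh_zero (e : ℕ) : tsh 0 e = 0 := rfl
@[simp] theorem tsh_succ (i e : ℕ) : tsh (i + 1) e = Finsupp.single i e := rfl

theorem hat_X_pow {B : Type} [CommRing B] (i e : ℕ) :
    (hat X i : MvPolynomial ℕ B) ^ e = monomial (tsh i e) 1 := by
  cases i with
  | zero => rw [hat_zero, one_pow, tsh_zero]; rfl
  | succ i => rw [hat_succ, tsh_succ, X_pow_eq_monomial]

variable (p : ℕ)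

theorem etaH_X' (n : ℕ) : etaH p (X n) =
    ∑ j ∈ Finset.range (n + 2), monomial (tsh (n + 1 - j) (p ^ j)) (mm j) := by
  rw [etaH_X]
  exact Finset.sum_congr rfl fun j _ => by rw [hat_X_pow, C_mul_monomial, mul_one]

section Tab

variable {M : Type} [AddCommGroup M] [Module HM M]

/-- the values of a functional on `t ^ J * η (m ^ K)` -/
def ZZ (F : MvPolynomial ℕ HM →ₗ[HM] M) (J K : ℕ →₀ ℕ) : M :=
  F (monomial J 1 * etaH p (monomial K 1))

theorem ZZ_zero_right (F : MvPolynomial ℕ HM →ₗ[HM] M) (J : ℕ →₀ ℕ) :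
    ZZ p F J 0 = F (monomial J 1) := by
  rw [ZZ, monomial_zero', C_1, (etaH p).map_one, mul_one]

theorem ZZ_zero_left (F : MvPolynomial ℕ HM →ₗ[HM] M) (K : ℕ →₀ ℕ) :
    ZZ p F 0 K = F (etaH p (monomial K 1)) := by
  rw [ZZ, monomial_zero', C_1, one_mul]

/-- **the recursion** `η (m_{n+1}) = ∑ m_j t_{n+1-j} ^ (p ^ j)` -/
theorem ZZ_succ (F : MvPolynomial ℕ HM →ₗ[HM] M) (J K : ℕ →₀ ℕ) (n : ℕ) :
    ZZ p F J (K + Finsupp.single n 1) =
      ∑ j ∈ Finset.range (n + 2), mm j • ZZ p F (J + tsh (n + 1 - j) (p ^ j)) K := by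
  have h : (monomial (K + Finsupp.single n 1) 1 : HM) = monomial K 1 * X n := by
    rw [monomial_add_single, pow_one]
  rw [ZZ, h, (etaH p).map_mul, etaH_X', Finset.mul_sum, Finset.mul_sum, map_sum]
  refine Finset.sum_congr rfl fun j _ => ?_
  rw [ZZ, ← map_smul, ← C_mul', ← mul_assoc (C _), C_mul_monomial, mul_left_comm, monomial_mul,
    one_mul, mul_one, mul_comm]

/-- the recursion solved for the highest `t` -/
theorem ZZ_succ' (F : MvPolynomial ℕ HM →ₗ[HM] M) (J K : ℕ →₀ ℕ) (n : ℕ) :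
    ZZ p F (J + Finsupp.single n 1) K = ZZ p F J (K + Finsupp.single n 1) -
      ∑ j ∈ Finset.range (n + 1), (X j : HM) • ZZ p F (J + tsh (n - j) (p ^ (j + 1))) K := by
  rw [ZZ_succ, Finset.sum_range_succ' _ (n + 1)]
  simp only [mm_succ, mm_zero, one_smul, Nat.sub_zero, tsh_succ, pow_zero, Nat.add_sub_add_right,
    add_sub_cancel_left]

end Tab

/-! ### the ideals -/

variable {k : Type} [CommRing k]

/-- the ideal `(p v_1 ^ a, v_1 ^ N)` -/
def JJ (k : Type) [CommRing k] (a N : ℕ) : Ideal (Av k) :=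
  Ideal.span {(p : Av k) * X 0 ^ a, X 0 ^ N}

theorem p_mul_mem_JJ (a N : ℕ) : (p : Av k) * X 0 ^ a ∈ JJ p k a N := Ideal.subset_span (by simp)

theorem pow_mem_JJ (a N : ℕ) : (X 0 : Av k) ^ N ∈ JJ p k a N := Ideal.subset_span (by simp)

theorem monomial_eq_pow_mul {L : ℕ →₀ ℕ} {a : ℕ} (h : a ≤ L 0) (c : k) :
    (monomial L c : Av k) = X 0 ^ a * monomial (L - Finsupp.single 0 a) c := by
  rw [X_pow_eq_monomial, monomial_mul, one_mul, add_tsub_cancel_of_le]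
  exact Finsupp.single_le_iff.2 h

theorem mem_JJ {a N : ℕ} {r : Av k} (h0 : ∀ L : ℕ →₀ ℕ, L 0 < a → L 0 < N → coeff L r = 0)
    (h1 : ∀ L : ℕ →₀ ℕ, a ≤ L 0 → L 0 < N → (p : k) ∣ coeff L r) : r ∈ JJ p k a N := by
  rw [r.as_sum]
  refine Ideal.sum_mem _ fun L _ => ?_
  by_cases hN : N ≤ L 0
  · rw [monomial_eq_pow_mul hN]
    exact Ideal.mul_mem_right _ _ (pow_mem_JJ p a N)
  by_cases ha : a ≤ L 0
  · obtain ⟨c, hc⟩ := h1 L ha (by omega)
    rw [hc, ← C_mul_monomial, map_natCast, monomial_eq_pow_mul ha, ← mul_assoc]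
    exact Ideal.mul_mem_right _ _ (p_mul_mem_JJ p a N)
  · rw [h0 L (by omega) (by omega), monomial_zero]
    exact zero_mem _

theorem coeff_pow_mul_eq_zero {L : ℕ →₀ ℕ} {a : ℕ} (h : L 0 < a) (c : Av k) :
    coeff L (X 0 ^ a * c) = 0 := by
  classical
  rw [X_pow_eq_monomial, coeff_monomial_mul', if_neg]
  rw [Finsupp.single_le_iff]
  omega

theorem coeff_eq_zero_of_mem_JJ {a N : ℕ} {r : Av k} (h : r ∈ JJ p k a N) {L : ℕ →₀ ℕ}
    (ha : L 0 < a) (hN : L 0 < N) : coeff L r = 0 := by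
  obtain ⟨c, d, rfl⟩ := Ideal.mem_span_pair.1 h
  rw [coeff_add, mul_comm d, coeff_pow_mul_eq_zero hN, ← mul_assoc, mul_comm _ (X 0 ^ a),
    coeff_pow_mul_eq_zero ha, add_zero]

theorem dvd_coeff_of_mem_JJ {a N : ℕ} {r : Av k} (h : r ∈ JJ p k a N) {L : ℕ →₀ ℕ}
    (hN : L 0 < N) : (p : k) ∣ coeff L r := by
  obtain ⟨c, d, rfl⟩ := Ideal.mem_span_pair.1 h
  rw [coeff_add, mul_comm d, coeff_pow_mul_eq_zero hN, add_zero, mul_left_comm, ← map_natCast C,
    coeff_C_mul]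
  exact dvd_mul_right _ _

theorem mem_JJ_iff {a N : ℕ} {r : Av k} : r ∈ JJ p k a N ↔
    (∀ L : ℕ →₀ ℕ, L 0 < a → L 0 < N → coeff L r = 0) ∧
      ∀ L : ℕ →₀ ℕ, L 0 < N → (p : k) ∣ coeff L r :=
  ⟨fun h => ⟨fun _ => coeff_eq_zero_of_mem_JJ p h, fun _ => dvd_coeff_of_mem_JJ p h⟩,
    fun h => mem_JJ p h.1 fun L _ => h.2 L⟩

theorem JJ_mono {a N a' N' : ℕ} (ha : a' ≤ a) (hN : N' ≤ N) : JJ p k a N ≤ JJ p k a' N' := by
  intro r hr
  exact mem_JJ p (fun L h h' => coeff_eq_zero_of_mem_JJ p hr (by omega) (by omega))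
    fun L _ h => dvd_coeff_of_mem_JJ p hr (by omega)

theorem red_JJ (red : k →+* ZMod p) {a N : ℕ} (hN : 0 < N) {r : Av k} (h : r ∈ JJ p k a N) :
    red (constantCoeff r) = 0 := by
  obtain ⟨c, hc⟩ := dvd_coeff_of_mem_JJ p h (L := 0) hN
  rw [constantCoeff_eq, hc, map_mul, map_natCast, ZMod.natCast_self, zero_mul]

theorem add_pow_of_sq {B : Type} [CommRing B] (x : B) {y : B} (hy : y * y = 0) (n : ℕ) :
    (x + y) ^ (n + 1) = x ^ (n + 1) + (n + 1 : ℕ) * x ^ n * y := by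
  induction n with
  | zero => simp
  | succ n ih =>
    rw [pow_succ, ih]
    push_cast
    linear_combination ((n : B) + 1) * x ^ n * hy

variable [hp : Fact p.Prime]

theorem etaR_X0 : etaR p k (X 0) = C (X 0) + (p : Gm k) * X 0 := by
  rw [etaR, eval₂Hom_X', eta_one]

/-- the ideal `(p v_1 ^ a, v_1 ^ N)` is invariant modulo `p ^ 2` -/
theorem inv_JJ (hk : (p : k) * p = 0) {a N : ℕ} (h : a < N ∨ p ∣ N) : Inv p (JJ p k a N) := by
  have hG : (p : Gm k) * p = 0 := by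
    have h1 := congrArg ((C : Av k →+* Gm k).comp C) hk
    simpa only [map_mul, map_natCast, map_zero] using h1
  have hy : ((p : Gm k) * X 0) * ((p : Gm k) * X 0) = 0 := by linear_combination ((X 0 : Gm k) * X 0) * hG
  have h1 : (p : Gm k) * C (X 0) ^ a ∈ (JJ p k a N).map (C : Av k →+* Gm k) := by
    have h2 := Ideal.mem_map_of_mem (C : Av k →+* Gm k) (p_mul_mem_JJ p (k := k) a N)
    rwa [map_mul, map_pow, map_natCast] at h2
  have h2 : (C (X 0) : Gm k) ^ N ∈ (JJ p k a N).map (C : Av k →+* Gm k) := by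
    have h2 := Ideal.mem_map_of_mem (C : Av k →+* Gm k) (pow_mem_JJ p (k := k) a N)
    rwa [map_pow] at h2
  have h3 : JJ p k a N ≤ ((JJ p k a N).map (C : Av k →+* Gm k)).comap (etaR p k) := by
    refine Ideal.span_le.2 ?_
    rintro r (rfl | rfl)
    · rw [SetLike.mem_coe, Ideal.mem_comap, map_mul, map_pow, map_natCast, etaR_X0]
      rcases a with _ | a
      · simpa using h1
      · rw [add_pow_of_sq _ hy]
        convert h1 using 1
        linear_combination ((a + 1 : ℕ) : Gm k) * C (X 0) ^ a * X 0 * hG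
    · rw [SetLike.mem_coe, Ideal.mem_comap, map_pow, etaR_X0]
      rcases N with _ | N
      · simpa using h2
      · rw [add_pow_of_sq _ hy]
        refine Ideal.add_mem _ h2 ?_
        rcases h with h | ⟨c, hc⟩
        · obtain ⟨e, rfl⟩ : ∃ e, N = a + e := ⟨N - a, by omega⟩
          convert Ideal.mul_mem_left _ (((a + e + 1 : ℕ) : Gm k) * C (X 0) ^ e * X 0) h1 using 1
          ring
        · rw [hc]
          convert Ideal.zero_mem _ using 1
          push_cast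
          linear_combination (c : Gm k) * C (X 0) ^ N * X 0 * hG
  exact fun r hr => h3 hr

/-! ### weights -/

omit hp in
theorem natCast_mem {B : Type} [CommRing B] (𝒢 : Grd B) (n : ℕ) : (n : B) ∈ 𝒢.G 0 := by
  simpa using 𝒢.intCast_mem n

omit hp in
theorem hat_mem {B : Type} [CommRing B] (𝒢 : Grd B) {t : ℕ → B} (ht : ∀ i, t i ∈ 𝒢.G (wz p i))
    (j : ℕ) : hat t j ∈ 𝒢.G ((p : ℤ) ^ j - 1) := by
  cases j with
  | zero => rw [pow_zero, sub_self]; exact 𝒢.one_mem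
  | succ j => exact ht j

omit hp in
theorem wt_aux {i j n : ℕ} (h : i + j = n) :
    (p : ℤ) ^ i - 1 + p ^ i • ((p : ℤ) ^ j - 1) = (p : ℤ) ^ n - 1 := by
  rw [nsmul_eq_mul, mul_sub, Nat.cast_pow, ← pow_add, h]
  ring

omit hp in
theorem vM_mem (n : ℕ) : vM p n ∈ (gA p ℤ).G (wz p n) := by
  induction n using Nat.strong_induction_on with
  | _ n ih =>
    rw [vM_eq]
    refine sub_mem (Grd.cast _ ((gA p ℤ).mul_mem (natCast_mem _ p) (Grd.X_mem _ _ n)) (zero_add _))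
      (sum_mem fun i hi => ?_)
    rw [Finset.mem_range] at hi
    exact Grd.cast _ ((gA p ℤ).mul_mem (Grd.X_mem _ _ i) (Grd.pow_mem _ (ih _ (by omega)) _))
      (wt_aux p (by omega))

omit hp in
theorem wM_mem (n : ℕ) : wM p n ∈ (gA p ℤ).G (wz p n) := by
  induction n using Nat.strong_induction_on with
  | _ n ih =>
    rw [wM_eq]
    refine sub_mem (Grd.X_mem _ _ n) (sum_mem fun i hi => ?_)
    rw [Finset.mem_range] at hi
    refine Grd.cast _ ((gA p ℤ).mul_mem ((gA p ℤ).mul_mem (Grd.pow_mem _ (natCast_mem _ p) _)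
      (Grd.X_mem _ _ i)) (Grd.pow_mem _ (ih _ (by omega)) _)) ?_
    rw [smul_zero, zero_add]
    exact wt_aux p (by omega)

omit hp in
theorem mW_mem (n : ℕ) : mW p n ∈ (gA p ℤ).G ((p : ℤ) ^ n - 1) := by
  induction n using Nat.strong_induction_on with
  | _ n ih =>
    rcases n with _ | n
    · rw [mW_zero, pow_zero, sub_self]
      exact (gA p ℤ).one_mem
    · rw [mW_succ]
      refine sum_mem fun i hi => ?_
      rw [Finset.mem_range] at hi
      refine Grd.cast _ ((gA p ℤ).mul_mem ((gA p ℤ).mul_mem (Grd.pow_mem _ (natCast_mem _ p) _)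
        (ih i hi)) (Grd.pow_mem _ (Grd.X_mem _ _ (n - i)) _)) ?_
      rw [smul_zero, zero_add]
      exact wt_aux p (by omega)

omit hp in
theorem wt_phi : (gA p ℤ).Map (gA p ℤ) (phi p) := (Grd.map_C _ _).eval₂ (vM_mem p)

omit hp in
theorem wt_toW : (gA p ℤ).Map (gA p ℤ) (toW p) := (Grd.map_C _ _).eval₂ fun i => mW_mem p (i + 1)

omit hp in
theorem wt_toM : (gA p ℤ).Map (gA p ℤ) (toM p) := (Grd.map_C _ _).eval₂ (wM_mem p)

omit hp in
theorem wt_etaH : (gA p ℤ).Map (gG p ℤ) (etaH p) := by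
  refine ((Grd.map_C _ _).comp (Grd.map_C _ _)).eval₂ fun n => ?_
  rw [comp_range]
  refine sum_mem fun i hi => ?_
  rw [Finset.mem_range] at hi
  exact Grd.cast _ ((gG p ℤ).mul_mem (Grd.C_mem _ (hat_mem p (gA p ℤ) (Grd.X_mem _ _) i))
    (Grd.pow_mem _ (hat_mem p (gG p ℤ) (Grd.X_mem _ _) (n + 1 - i)) _)) (wt_aux p (by omega))

omit hp in
theorem actH_mem {w e : ℤ} {ξ : (ℕ →₀ ℕ) → Av ℤ} (hξ : ∀ J, ξ J ∈ (gA p ℤ).G (mz p J + e))
    {b : HM} (hb : b ∈ (gA p ℤ).G w) : actH p ξ b ∈ (gA p ℤ).G (w + e) :=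
  lin_mem_G p (wt_etaH p _ _ hb) fun J => wt_phi p _ _ (hξ J)

variable {ι : Type} [Fintype ι] {Γ : Gens ι}

omit hp in
theorem XH_hom {δ : Mat ι (Av ℤ)} (hδ : HomD p Γ δ) {s : ℕ} {w : ℤ} {c : ι → HM}
    (hc : Hom p Γ s w c) : Hom p Γ (s + 1) w (XH p δ c) := by
  rw [hom_iff] at hc ⊢
  refine fun g' => ⟨sum_mem fun g _ => Grd.cast _ (actH_mem p (hδ.mem p Γ g g') (hc g).1)
    (by ring), fun h => Finset.sum_eq_zero fun g _ => ?_⟩
  by_cases hg : Γ.deg g = s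
  · rw [actH_apply]
    exact lin_eq_zero fun J _ => by rw [hδ.deg g g' J (by rwa [hg]), map_zero]
  · rw [(hc g).2 hg, map_zero]

omit hp [Fintype ι] in
theorem homD_mapM {k' : Type} [CommRing k'] (θ : k →+* k') {δ : Mat ι (Av k)} (hδ : HomD p Γ δ) :
    HomD p Γ (mapM θ δ) where
  wt g g' J := (mem_gA p).1 ((Grd.map_triv θ).map _ _ _ ((mem_gA p).2 (hδ.wt g g' J)))
  deg g g' J h := by rw [mapM, hδ.deg g g' J h, map_zero]
  unit g' := by rw [mapM, hδ.unit, map_zero]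

theorem RR_mem {δ' δ : Mat ι (Av k)} (h' : HomD p Γ δ') (h : HomD p Γ δ) (g g'' : ι)
    (J : ℕ →₀ ℕ) : RR p δ' δ g g'' J ∈ (gA p k).G (mz p J + Γ.wt g - Γ.wt g'') := by
  have h0 := Grd.monomial_mem (wz p) J (gA p k).one_mem
  exact sum_mem fun g' _ => Grd.cast _
    (lin_mem_G p (actG_mem_G p (h.mem p Γ g g') h0) (h'.mem p Γ g' g'')) (by rw [mz]; ring)

theorem RR_deg {δ' δ : Mat ι (Av k)} (h' : HomD p Γ δ') (h : HomD p Γ δ) {g g'' : ι}
    (hg : Γ.deg g'' ≠ Γ.deg g + 2) (J : ℕ →₀ ℕ) : RR p δ' δ g g'' J = 0 := by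
  refine Finset.sum_eq_zero fun g' _ => ?_
  by_cases h1 : Γ.deg g' = Γ.deg g + 1
  · exact lin_eq_zero fun L _ => h'.deg g' g'' L (by omega)
  · rw [show δ g g' = fun _ => 0 from funext fun L => h.deg g g' L h1, ← actB_id, actB_zero_left,
      map_zero]

/-- **the lattice criterion** -/
theorem map_mem_JJ (hk : (p : k) * p = 0) {a N : ℕ} {r : Av ℤ}
    (h0 : ∀ L : ℕ →₀ ℕ, coeff L r ≠ 0 → L 0 < a → L 0 < N →
      (p : ℤ) ^ (L.degree + 2) ∣ coeff L (toW p (phi p r)))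
    (h1 : ∀ L : ℕ →₀ ℕ, coeff L r ≠ 0 → a ≤ L 0 → L 0 < N →
      (p : ℤ) ^ (L.degree + 1) ∣ coeff L (toW p (phi p r))) :
    map (Int.castRingHom k) r ∈ JJ p k a N := by
  have hp0 : ∀ n : ℕ, (p : ℤ) ^ n ≠ 0 := fun n =>
    pow_ne_zero _ (Nat.cast_ne_zero.2 hp.out.ne_zero)
  refine mem_JJ p (fun L ha hN => ?_) fun L ha hN => ?_
  · rw [coeff_map]
    by_cases h : coeff L r = 0
    · rw [h, map_zero]
    have h2 := h0 L h ha hN
    rw [coeff_toW_phi, pow_add, mul_dvd_mul_iff_left (hp0 _)] at h2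
    obtain ⟨c, hc⟩ := h2
    rw [hc, map_mul, map_pow, map_natCast, pow_two, hk, zero_mul]
  · rw [coeff_map]
    by_cases h : coeff L r = 0
    · rw [h, map_zero]
      exact dvd_zero _
    have h2 := h1 L h ha hN
    rw [coeff_toW_phi, pow_add, mul_dvd_mul_iff_left (hp0 _), pow_one] at h2
    obtain ⟨c, hc⟩ := h2
    rw [hc, map_mul, map_natCast]
    exact dvd_mul_right _ _

/-- **K2**: `δ ∘ δ` vanishes modulo `(p ^ 2, p v_1 ^ a, v_1 ^ N)` if the coefficients of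
`YY δ δ (t ^ J)` in the `w`-basis have the stated divisibility. -/
theorem sqIn_of_ghost (hk : (p : k) * p = 0) {δ : Mat ι (Av ℤ)} (hδ : HomD p Γ δ) (a N : ℕ → ℕ)
    (W : ℤ) (h : ∀ (g g'' : ι) (J L : ℕ →₀ ℕ), Γ.deg g'' = Γ.deg g + 2 → mz p J + Γ.wt g ≤ W →
      mz p L + Γ.wt g'' = mz p J + Γ.wt g → L 0 < N (Γ.deg g + 1) →
      (p : ℤ) ^ (L.degree + if L 0 < a (Γ.deg g + 1) then 2 else 1) ∣
        coeff L (toW p (YY p δ δ g g'' (monomial J 1)))) :
    SqIn p Γ (mapM (Int.castRingHom k) δ) (fun s => JJ p k (a s) (N s)) W := by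
  intro g g'' J hJ
  rw [← mapM_RR, mapM]
  have h2 : ∀ L, coeff L (RR p δ δ g g'' J) ≠ 0 → Γ.deg g'' = Γ.deg g + 2 ∧
      mz p L + Γ.wt g'' = mz p J + Γ.wt g := fun L hL => by
    refine ⟨by_contra fun hg => hL (by rw [RR_deg p hδ hδ hg, coeff_zero]), ?_⟩
    have h3 := (mem_gA p).1 (RR_mem p hδ hδ g g'' J) hL
    rw [mz, h3, sub_add_cancel]
  refine map_mem_JJ p hk (fun L hL ha hN => ?_) fun L hL ha hN => ?_
  · have h3 := h g g'' J L (h2 L hL).1 hJ (h2 L hL).2 hN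
    rwa [if_pos ha, YY_mon] at h3
  · have h3 := h g g'' J L (h2 L hL).1 hJ (h2 L hL).2 hN
    rwa [if_neg (by omega), YY_mon] at h3

/-- **K3**: the entries of `X0 δ` from the entries of `XH δ` in the `w`-basis -/
theorem coeff_X0 (δ : Mat ι (Av ℤ)) (c : ι → Av ℤ) (g' : ι) (L : ℕ →₀ ℕ) :
    (p : ℤ) ^ L.degree * coeff L (X0 p δ c g') =
      coeff L (toW p (XH p δ (fun g => phi p (c g)) g')) := by
  rw [← phi_X0, coeff_toW_phi]

theorem phi_monomial (K : ℕ →₀ ℕ) (r : ℤ) :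
    phi p (monomial K r) = C ((p : ℤ) ^ K.degree * r) * toM p (monomial K 1) := by
  classical
  have h : sc p (monomial K r) = C ((p : ℤ) ^ K.degree * r) * monomial K 1 := by
    ext L
    rw [coeff_sc, coeff_C_mul, coeff_monomial, coeff_monomial]
    split_ifs with h
    · rw [h, mul_one]
    · rw [mul_zero, mul_zero]
  rw [← toM_sc, h, map_mul, eq_intCast C, map_intCast]

end Vale.Agent.P236B

end
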