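import Mathlib.Algebra.MvPolynomial.CommRing
import Mathlib.Data.Finsupp.Weight
import Mathlib.Algebra.Order.Ring.GeomSum
import Mathlib.Algebra.Field.GeomSum
import Mathlib.Data.Nat.ModEq
import Mathlib.Tactic.Ring
import Mathlib.Tactic.Linarith
import Mathlib.Tactic.LinearCombination

/-!
# P236 / B : congruences of polynomials by Kronecker substitution

`Ex` : expressions with natural coefficients; `Ex.ev x e` : the value in a commutative semiring;
`chk` : a test on natural numbers; `dvd_of_chk` : if the test succeeds then `m ∣ P - N` in every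
commutative ring.
-/

namespace Vale.Agent.P236B

open MvPolynomial

/-- a term: the coefficient and the exponents -/
abbrev Tm : Type := ℕ × List ℕ

/-- expressions -/
inductive Ex where
  | tl (l : List Tm)
  | sh (i a : ℕ) (e : Ex)
  | add (a b : Ex)
  | mul (a b : Ex)
  | pow (a : Ex) (n : ℕ)
  | smul (c : ℕ) (a : Ex)

section Ev

variable {R R' : Type} [CommSemiring R] [CommSemiring R']

/-- the monomial with the exponents `l`, starting with the variable `i` -/
def mon (x : ℕ → R) : ℕ → List ℕ → R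
  | _, [] => 1
  | i, a :: l => x i ^ a * mon x (i + 1) l

/-- the value of a list of terms -/
def evL (x : ℕ → R) : List Tm → R
  | [] => 0
  | t :: l => (t.1 : R) * mon x 0 t.2 + evL x l

/-- the value of an expression -/
def Ex.ev (x : ℕ → R) : Ex → R
  | tl l => evL x l
  | sh i a e => x i ^ a * e.ev x
  | add a b => a.ev x + b.ev x
  | mul a b => a.ev x * b.ev x
  | pow a n => a.ev x ^ n
  | smul c a => (c : R) * a.ev x

theorem map_mon (φ : R →+* R') (x : ℕ → R) (i : ℕ) (l : List ℕ) :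
    φ (mon x i l) = mon (fun j => φ (x j)) i l := by
  induction l generalizing i with
  | nil => exact map_one φ
  | cons a l ih => rw [mon, mon, map_mul, map_pow, ih]

theorem map_evL (φ : R →+* R') (x : ℕ → R) (l : List Tm) :
    φ (evL x l) = evL (fun j => φ (x j)) l := by
  induction l with
  | nil => exact map_zero φ
  | cons t l ih => rw [evL, evL, map_add, map_mul, map_natCast, map_mon, ih]

theorem Ex.map_ev (φ : R →+* R') (x : ℕ → R) (e : Ex) :
    φ (e.ev x) = e.ev fun j => φ (x j) := by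
  induction e with
  | tl l => exact map_evL φ x l
  | sh i a e ih => rw [ev, ev, map_mul, map_pow, ih]
  | add a b ha hb => rw [ev, ev, map_add, ha, hb]
  | mul a b ha hb => rw [ev, ev, map_mul, ha, hb]
  | pow a n ha => rw [ev, ev, map_pow, ha]
  | smul c a ha => rw [ev, ev, map_mul, map_natCast, ha]

theorem evL_append (x : ℕ → R) (l l' : List Tm) : evL x (l ++ l') = evL x l + evL x l' := by
  induction l with
  | nil => rw [List.nil_append, evL, zero_add]
  | cons t l ih => rw [List.cons_append, evL, evL, ih, add_assoc]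

end Ev

/-- the weight of a monomial -/
def dot (u : ℕ → ℕ) : ℕ → List ℕ → ℕ
  | _, [] => 0
  | i, a :: l => a * u i + dot u (i + 1) l

/-- Kronecker value of a list of terms -/
def kvL (B : ℕ) (k : ℕ → ℕ) : List Tm → ℕ
  | [] => 0
  | t :: l => Nat.add (Nat.shiftLeft t.1 (B * dot k 0 t.2)) (kvL B k l)

/-- Kronecker value -/
def Ex.kv (B : ℕ) (k : ℕ → ℕ) : Ex → ℕ
  | tl l => kvL B k l
  | sh i a e => Nat.shiftLeft (e.kv B k) (B * (a * k i))
  | add a b => Nat.add (a.kv B k) (b.kv B k)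
  | mul a b => Nat.mul (a.kv B k) (b.kv B k)
  | pow a n => Nat.pow (a.kv B k) n
  | smul c a => Nat.mul c (a.kv B k)

theorem mon_two (B : ℕ) (k : ℕ → ℕ) (i : ℕ) (l : List ℕ) :
    mon (fun j => 2 ^ (B * k j)) i l = 2 ^ (B * dot k i l) := by
  induction l generalizing i with
  | nil => simp [mon, dot]
  | cons a l ih => rw [mon, dot, ih, ← pow_mul, ← pow_add]; congr 1; ring

theorem kvL_eq (B : ℕ) (k : ℕ → ℕ) (l : List Tm) :
    kvL B k l = evL (fun j => 2 ^ (B * k j)) l := by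
  induction l with
  | nil => rfl
  | cons t l ih =>
    rw [kvL, evL, ih, mon_two, Nat.add_eq, Nat.shiftLeft_eq', Nat.shiftLeft_eq, Nat.cast_id]

theorem Ex.kv_eq (B : ℕ) (k : ℕ → ℕ) (e : Ex) : e.kv B k = e.ev fun j => 2 ^ (B * k j) := by
  induction e with
  | tl l => exact kvL_eq B k l
  | sh i a e ih =>
    rw [kv, ev, ih, Nat.shiftLeft_eq', Nat.shiftLeft_eq, ← pow_mul, mul_comm]
    congr 2
    ring
  | add a b ha hb => rw [kv, ev, ha, hb, Nat.add_eq]
  | mul a b ha hb => rw [kv, ev, ha, hb, Nat.mul_eq]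
  | pow a n ha => rw [kv, ev, ha, Nat.pow_eq]
  | smul c a ha => rw [kv, ev, ha, Nat.mul_eq, Nat.cast_id]

/-- upper bound for the weights -/
def ubL (u : ℕ → ℕ) : List Tm → ℕ
  | [] => 0
  | t :: l => max (dot u 0 t.2) (ubL u l)

/-- lower bound for the weights -/
def lbL (u : ℕ → ℕ) (W : ℕ) : List Tm → ℕ
  | [] => W
  | t :: l => min (dot u 0 t.2) (lbL u W l)

/-- upper bound for the weights -/
def Ex.ub (u : ℕ → ℕ) : Ex → ℕ
  | tl l => ubL u l
  | sh i a e => a * u i + e.ub u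
  | add a b => max (a.ub u) (b.ub u)
  | mul a b => a.ub u + b.ub u
  | pow a n => n * a.ub u
  | smul _ a => a.ub u

/-- lower bound for the weights -/
def Ex.lb (u : ℕ → ℕ) (W : ℕ) : Ex → ℕ
  | tl l => lbL u W l
  | sh i a e => a * u i + e.lb u W
  | add a b => min (a.lb u W) (b.lb u W)
  | mul a b => a.lb u W + b.lb u W
  | pow a n => n * a.lb u W
  | smul _ a => a.lb u W

/-- all monomials have weight between `a` and `b` -/
def Btw (u : ℕ → ℕ) (a b : ℕ) (f : MvPolynomial ℕ ℕ) : Prop :=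
  ∀ d ∈ f.support, a ≤ Finsupp.weight u d ∧ Finsupp.weight u d ≤ b

namespace Btw

variable {u : ℕ → ℕ} {a b a' b' : ℕ} {f g : MvPolynomial ℕ ℕ}

theorem mono (h : Btw u a b f) (ha : a' ≤ a) (hb : b ≤ b') : Btw u a' b' f :=
  fun d hd => ⟨ha.trans (h d hd).1, (h d hd).2.trans hb⟩

theorem zero : Btw u a b 0 := fun d hd => by simp at hd

theorem add (h : Btw u a b f) (h' : Btw u a' b' g) : Btw u (min a a') (max b b') (f + g) := by
  classical
  intro d hd
  rcases Finset.mem_union.1 (support_add hd) with h1 | h1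
  · exact h.mono (min_le_left _ _) (le_max_left _ _) d h1
  · exact h'.mono (min_le_right _ _) (le_max_right _ _) d h1

theorem mul (h : Btw u a b f) (h' : Btw u a' b' g) : Btw u (a + a') (b + b') (f * g) := by
  classical
  intro d hd
  obtain ⟨d1, h1, d2, h2, rfl⟩ := Finset.mem_add.1 (support_mul f g hd)
  rw [map_add]
  exact ⟨add_le_add (h d1 h1).1 (h' d2 h2).1, add_le_add (h d1 h1).2 (h' d2 h2).2⟩

theorem cst (c : ℕ) : Btw u 0 0 (c : MvPolynomial ℕ ℕ) := by
  classical
  intro d hd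
  rw [← map_natCast (C : ℕ →+* MvPolynomial ℕ ℕ), mem_support_iff, coeff_C] at hd
  obtain rfl : 0 = d := by_contra fun h => hd (if_neg h)
  rw [map_zero]
  exact ⟨le_rfl, le_rfl⟩

theorem pow (h : Btw u a b f) (n : ℕ) : Btw u (n * a) (n * b) (f ^ n) := by
  induction n with
  | zero => simpa using cst (u := u) 1
  | succ n ih => rw [pow_succ, Nat.succ_mul, Nat.succ_mul]; exact ih.mul h

theorem var (i : ℕ) : Btw u (u i) (u i) (X i) := by
  intro d hd
  rw [support_X, Finset.mem_singleton] at hd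
  rw [hd, Finsupp.weight_single, one_smul]
  exact ⟨le_rfl, le_rfl⟩

theorem smul (c : ℕ) (h : Btw u a b f) : Btw u a b ((c : MvPolynomial ℕ ℕ) * f) := by
  simpa using (cst c).mul h

end Btw

theorem btw_mon (u : ℕ → ℕ) (i : ℕ) (l : List ℕ) : Btw u (dot u i l) (dot u i l) (mon X i l) := by
  induction l generalizing i with
  | nil => simpa [mon, dot] using Btw.cst (u := u) 1
  | cons a l ih => exact ((Btw.var i).pow a).mul (ih (i + 1))

theorem btw_evL (u : ℕ → ℕ) (W : ℕ) (l : List Tm) : Btw u (lbL u W l) (ubL u l) (evL X l) := by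
  induction l with
  | nil => exact Btw.zero
  | cons t l ih => exact ((btw_mon u 0 t.2).smul t.1).add ih

theorem Ex.btw (u : ℕ → ℕ) (W : ℕ) (e : Ex) : Btw u (e.lb u W) (e.ub u) (e.ev X) := by
  induction e with
  | tl l => exact btw_evL u W l
  | sh i a e ih => exact ((Btw.var i).pow a).mul ih
  | add a b ha hb => exact ha.add hb
  | mul a b ha hb => exact ha.mul hb
  | pow a n ha => exact ha.pow n
  | smul c a ha => exact ha.smul c

/-! ### digits -/

/-- the number with the digits `c` -/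
def pk (B L : ℕ) (c : ℕ → ℕ) : ℕ := ∑ j ∈ Finset.range L, c j * 2 ^ (B * j)

/-- the digit number `j` -/
def dg (B j n : ℕ) : ℕ := n / 2 ^ (B * j) % 2 ^ B

theorem pk_succ (B L : ℕ) (c : ℕ → ℕ) : pk B (L + 1) c = c 0 + 2 ^ B * pk B L fun j => c (j + 1) := by
  rw [pk, Finset.sum_range_succ', pk, Finset.mul_sum, add_comm]
  congr 1
  · simp
  · exact Finset.sum_congr rfl fun j _ => by rw [mul_add, pow_add]; ring

theorem dg_succ (B j n : ℕ) : dg B (j + 1) n = dg B j (n / 2 ^ B) := by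
  rw [dg, dg, Nat.div_div_eq_div_mul, ← pow_add]
  congr 3
  ring

theorem dg_pk {B L : ℕ} {c : ℕ → ℕ} (hc : ∀ j < L, c j < 2 ^ B) {j : ℕ} (hj : j < L) :
    dg B j (pk B L c) = c j := by
  induction L generalizing c j with
  | zero => omega
  | succ L ih =>
    rw [pk_succ]
    rcases j with _ | j
    · rw [dg, mul_zero, pow_zero, Nat.div_one, Nat.add_mul_mod_self_left,
        Nat.mod_eq_of_lt (hc 0 hj)]
    · rw [dg_succ, Nat.add_mul_div_left _ _ (Nat.two_pow_pos B), Nat.div_eq_of_lt (hc 0 (by omega)),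
        zero_add]
      exact ih (fun j hj => hc _ (by omega)) (by omega)

theorem pk_dg (B L n : ℕ) : pk B L (fun j => dg B j n) = n % 2 ^ (B * L) := by
  induction L generalizing n with
  | zero => simp [pk, Nat.mod_one]
  | succ L ih =>
    rw [pk_succ]
    simp only [dg_succ]
    rw [ih, dg, mul_zero, pow_zero, Nat.div_one, mul_add, mul_one, add_comm (B * L), pow_add,
      Nat.mod_mul]

theorem pk_lt {B L : ℕ} {c : ℕ → ℕ} (hc : ∀ j < L, c j < 2 ^ B) : pk B L c < 2 ^ (B * L) := by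
  induction L generalizing c with
  | zero => simp [pk]
  | succ L ih =>
    have h1 := ih (c := fun j => c (j + 1)) fun j hj => hc _ (by omega)
    have h2 := hc 0 (by omega)
    rw [pk_succ, mul_add, mul_one, add_comm (B * L), pow_add]
    nlinarith

theorem dg_and (B j a b : ℕ) : dg B j (a &&& b) = dg B j a &&& dg B j b := by
  rw [dg, dg, dg, Nat.and_div_two_pow, Nat.and_mod_two_pow]

theorem pk_mul (B L a : ℕ) (c : ℕ → ℕ) : a * pk B L c = pk B L fun j => a * c j := by
  simp only [pk, Finset.mul_sum, mul_assoc]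

theorem pk_add (B L : ℕ) (c c' : ℕ → ℕ) : pk B L c + pk B L c' = pk B L fun j => c j + c' j := by
  simp only [pk, add_mul, Finset.sum_add_distrib]

/-- the repunit -/
def rep (B L : ℕ) : ℕ := Nat.div (Nat.sub (Nat.shiftLeft 1 (B * L)) 1) (2 ^ B - 1)

theorem rep_eq {B : ℕ} (hB : 0 < B) (L : ℕ) : rep B L = pk B L fun _ => 1 := by
  have h := Nat.geomSum_eq (m := 2 ^ B) (Nat.one_lt_two_pow hB.ne') L
  have h1 : rep B L = ((2 ^ B) ^ L - 1) / (2 ^ B - 1) := by
    rw [rep, Nat.shiftLeft_eq', Nat.shiftLeft_eq, one_mul, Nat.sub_eq, pow_mul]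
    rfl
  rw [h1, ← h]
  exact Finset.sum_congr rfl fun j _ => by rw [one_mul, pow_mul]

/-- the test for the divisibility of all digits -/
def dvTest (B b L m M : ℕ) : Bool :=
  Nat.beq (Nat.mod M m) 0 &&
    Nat.beq (Nat.land (Nat.div M m) (Nat.mul (2 ^ b - 1) (rep B L))) (Nat.div M m)

theorem dvd_of_dvTest {B b L m : ℕ} {c : ℕ → ℕ} (hB : 0 < B) (hb : m * 2 ^ b ≤ 2 ^ B) (hm : 0 < m)
    (hc : ∀ j < L, c j < 2 ^ B) (h : dvTest B b L m (pk B L c) = true) {j : ℕ} (hj : j < L) :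
    m ∣ c j := by
  rw [dvTest, Bool.and_eq_true, Nat.beq_eq, Nat.beq_eq, Nat.land_eq, Nat.mul_eq, rep_eq hB,
    pk_mul] at h
  change pk B L c % m = 0 ∧ (pk B L c / m) &&& _ = pk B L c / m at h
  set q := pk B L c / m with hq
  have h1 : m * q = pk B L c := Nat.mul_div_cancel' (Nat.dvd_of_mod_eq_zero h.1)
  have hbB : 2 ^ b ≤ 2 ^ B := (Nat.le_mul_of_pos_left _ hm).trans hb
  have h2 : ∀ j < L, dg B j q < 2 ^ b := fun j hj => by
    have h3 := congrArg (dg B j) h.2
    rw [dg_and, dg_pk (fun j _ => by have := Nat.two_pow_pos b; omega) hj, mul_one,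
      Nat.and_two_pow_sub_one_eq_mod] at h3
    rw [← h3]
    exact Nat.mod_lt _ (Nat.two_pow_pos b)
  have h3 : q = pk B L fun j => dg B j q := by
    rw [pk_dg, Nat.mod_eq_of_lt]
    exact (Nat.div_le_self _ _).trans_lt (pk_lt hc)
  have h4 := congrArg (dg B j) h1
  rw [h3, pk_mul, dg_pk hc hj, dg_pk (fun j hj => ?_) hj] at h4
  · exact ⟨_, h4.symm⟩
  · exact (Nat.mul_lt_mul_of_pos_left (h2 j hj) hm).trans_le hb

/-! ### mixed radix -/

/-- products of the radices -/
def rad (D : ℕ → ℕ) : ℕ → ℕ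
  | 0 => 1
  | i + 1 => rad D i * D i

theorem radix_lt (D : ℕ → ℕ) {r : ℕ} {a : ℕ → ℕ} (ha : ∀ i < r, a i < D i) :
    ∑ i ∈ Finset.range r, a i * rad D i < rad D r := by
  induction r with
  | zero => simp [rad]
  | succ r ih =>
    have h1 := ih fun i hi => ha i (by omega)
    have h2 := ha r (by omega)
    rw [Finset.sum_range_succ, rad]
    nlinarith

theorem radix_inj (D : ℕ → ℕ) {r : ℕ} {a a' : ℕ → ℕ} (ha : ∀ i < r, a i < D i)
    (ha' : ∀ i < r, a' i < D i)
    (h : ∑ i ∈ Finset.range r, a i * rad D i = ∑ i ∈ Finset.range r, a' i * rad D i) :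
    ∀ i < r, a i = a' i := by
  induction r with
  | zero => intro i hi; omega
  | succ r ih =>
    have h1 := radix_lt D (r := r) fun i hi => ha i (by omega)
    have h2 := radix_lt D (r := r) fun i hi => ha' i (by omega)
    rw [Finset.sum_range_succ, Finset.sum_range_succ] at h
    have h3 := congrArg (· / rad D r) h
    have h0 : 0 < rad D r := by omega
    simp only [Nat.add_mul_div_right _ _ h0, Nat.div_eq_of_lt h1, Nat.div_eq_of_lt h2,
      zero_add] at h3
    rw [h3, add_left_inj] at h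
    intro i hi
    rcases Nat.lt_succ_iff_lt_or_eq.1 hi with hi | rfl
    · exact ih (fun i hi => ha i (by omega)) (fun i hi => ha' i (by omega)) h i hi
    · exact h3

/-- the unit vector -/
def uv (j i : ℕ) : ℕ := cond (Nat.beq i j) 1 0

/-- the indicator of the variables above `r` -/
def hi (r i : ℕ) : ℕ := cond (Nat.ble i r) 0 1

/-- all `i < r` -/
def allLt (f : ℕ → Bool) : ℕ → Bool
  | 0 => true
  | r + 1 => f r && allLt f r

theorem allLt_spec {f : ℕ → Bool} {r : ℕ} (h : allLt f r = true) : ∀ i < r, f i = true := by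
  induction r with
  | zero => intro i hi; omega
  | succ r ih =>
    rw [allLt, Bool.and_eq_true] at h
    intro i hi
    rcases Nat.lt_succ_iff_lt_or_eq.1 hi with hi | rfl
    · exact ih h.2 i hi
    · exact h.1

/-- the monomials in the variables `0, …, r` of weight `W` with the exponents `d (i + 1) < D i` -/
def Dom (r W : ℕ) (D w : ℕ → ℕ) (d : ℕ →₀ ℕ) : Prop :=
  Finsupp.weight w d = W ∧ (∀ i < r, d (i + 1) < D i) ∧ ∀ i, r < i → d i = 0

/-- the test for the support -/
def domTest (r W : ℕ) (D w : ℕ → ℕ) (e : Ex) : Bool :=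
  Nat.ble W (e.lb w W) && Nat.ble (e.ub w) W && Nat.beq (e.ub (hi r)) 0 &&
    allLt (fun i => Nat.blt (e.ub (uv (i + 1))) (D i)) r

theorem le_weight (u : ℕ → ℕ) (d : ℕ →₀ ℕ) (i : ℕ) : d i * u i ≤ Finsupp.weight u d := by
  rw [Finsupp.weight_apply, Finsupp.sum]
  by_cases h : i ∈ d.support
  · exact Finset.single_le_sum (f := fun i => d i • u i) (fun _ _ => Nat.zero_le _) h
  · rw [Finsupp.notMem_support_iff.1 h, zero_mul]
    exact Nat.zero_le _

theorem dom_of_test {r W : ℕ} {D w : ℕ → ℕ} {e : Ex} (h : domTest r W D w e = true) :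
    ∀ d ∈ (e.ev (X : ℕ → MvPolynomial ℕ ℕ)).support, Dom r W D w d := by
  simp only [domTest, Bool.and_eq_true, Nat.ble_eq, Nat.beq_eq] at h
  obtain ⟨⟨⟨h1, h2⟩, h3⟩, h4⟩ := h
  intro d hd
  refine ⟨le_antisymm ((e.btw w W d hd).2.trans h2) (h1.trans (e.btw w W d hd).1),
    fun i hi => ?_, fun i hi => ?_⟩
  · have h5 := allLt_spec h4 i hi
    rw [Nat.blt_eq] at h5
    have h6 := (le_weight (uv (i + 1)) d (i + 1)).trans (e.btw (uv (i + 1)) 0 d hd).2
    rw [uv, Nat.beq_refl, cond_true, mul_one] at h6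
    omega
  · have h6 := (le_weight (Vale.Agent.P236B.hi r) d i).trans
      (e.btw (Vale.Agent.P236B.hi r) 0 d hd).2
    have h7 : Nat.ble i r = false := by
      rw [← Bool.not_eq_true, Nat.ble_eq]
      omega
    rw [h3, Vale.Agent.P236B.hi, h7, cond_false, mul_one] at h6
    omega

theorem Dom.weight_eq {r W : ℕ} {D w : ℕ → ℕ} {d : ℕ →₀ ℕ} (h : Dom r W D w d) (u : ℕ → ℕ) :
    Finsupp.weight u d = d 0 * u 0 + ∑ i ∈ Finset.range r, d (i + 1) * u (i + 1) := by
  rw [Finsupp.weight_apply, Finsupp.sum_of_support_subset d (s := Finset.range (r + 1))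
    (fun i hi => ?_) (fun i c => c • u i) (fun i _ => zero_smul _ _), Finset.sum_range_succ',
    add_comm]
  · rfl
  · rw [Finset.mem_range]
    by_contra h1
    exact Finsupp.mem_support_iff.1 hi (h.2.2 i (by omega))

theorem Dom.code {r W : ℕ} {D w k : ℕ → ℕ} (hk0 : k 0 = 0) (hk : ∀ i < r, k (i + 1) = rad D i)
    {d : ℕ →₀ ℕ} (h : Dom r W D w d) :
    Finsupp.weight k d = ∑ i ∈ Finset.range r, d (i + 1) * rad D i := by
  rw [h.weight_eq, hk0, mul_zero, zero_add]
  exact Finset.sum_congr rfl fun i hi => by rw [hk i (Finset.mem_range.1 hi)]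

theorem Dom.inj {r W : ℕ} {D w k : ℕ → ℕ} (hw : 0 < w 0) (hk0 : k 0 = 0)
    (hk : ∀ i < r, k (i + 1) = rad D i) {d d' : ℕ →₀ ℕ} (h : Dom r W D w d) (h' : Dom r W D w d')
    (e : Finsupp.weight k d = Finsupp.weight k d') : d = d' := by
  rw [h.code hk0 hk, h'.code hk0 hk] at e
  have h1 := radix_inj D h.2.1 h'.2.1 e
  have h2 := h.1.trans h'.1.symm
  rw [h.weight_eq, h'.weight_eq, Finset.sum_congr rfl fun i hi => by
    rw [h1 i (Finset.mem_range.1 hi)], add_left_inj] at h2
  ext i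
  rcases i with _ | i
  · exact Nat.eq_of_mul_eq_mul_right hw h2
  · by_cases hi : i < r
    · exact h1 i hi
    · rw [h.2.2 _ (by omega), h'.2.2 _ (by omega)]

/-- the sum of the coefficients with code `j` -/
noncomputable def cf (k : ℕ → ℕ) (f : MvPolynomial ℕ ℕ) (j : ℕ) : ℕ :=
  ∑ d ∈ f.support with Finsupp.weight k d = j, coeff d f

theorem kv_sum (B : ℕ) (k : ℕ → ℕ) (e : Ex) : e.kv B k =
    ∑ d ∈ (e.ev (X : ℕ → MvPolynomial ℕ ℕ)).support,
      coeff d (e.ev (X : ℕ → MvPolynomial ℕ ℕ)) * 2 ^ (B * Finsupp.weight k d) := by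
  have h := e.map_ev (eval₂Hom (RingHom.id ℕ) fun j => 2 ^ (B * k j)) X
  simp only [eval₂Hom_X'] at h
  rw [e.kv_eq, ← h, coe_eval₂Hom, eval₂_eq]
  refine Finset.sum_congr rfl fun d _ => ?_
  rw [RingHom.id_apply, Finsupp.weight_apply, Finsupp.sum, Finset.mul_sum,
    ← Finset.prod_pow_eq_pow_sum]
  congr 1
  exact Finset.prod_congr rfl fun i _ => by rw [← pow_mul, smul_eq_mul]; congr 1; ring

theorem cf_le (k : ℕ → ℕ) (e : Ex) (j : ℕ) : cf k (e.ev X) j ≤ e.kv 0 k := by
  rw [kv_sum, cf]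
  simp only [zero_mul, pow_zero, mul_one]
  exact Finset.sum_le_sum_of_subset (Finset.filter_subset _ _)

theorem kv_pk (B L : ℕ) (k : ℕ → ℕ) (e : Ex)
    (h : ∀ d ∈ (e.ev (X : ℕ → MvPolynomial ℕ ℕ)).support, Finsupp.weight k d < L) :
    e.kv B k = pk B L (cf k (e.ev X)) := by
  rw [kv_sum, pk, ← Finset.sum_fiberwise_of_maps_to (t := Finset.range L)
    (g := fun d => Finsupp.weight k d) fun d hd => Finset.mem_range.2 (h d hd)]
  refine Finset.sum_congr rfl fun j _ => ?_
  rw [cf, Finset.sum_mul]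
  exact Finset.sum_congr rfl fun d hd => by rw [(Finset.mem_filter.1 hd).2]

theorem cf_eq {r W : ℕ} {D w k : ℕ → ℕ} (hw : 0 < w 0) (hk0 : k 0 = 0)
    (hk : ∀ i < r, k (i + 1) = rad D i) {f : MvPolynomial ℕ ℕ} (hf : ∀ d ∈ f.support, Dom r W D w d)
    {d : ℕ →₀ ℕ} (hd : Dom r W D w d) : cf k f (Finsupp.weight k d) = coeff d f := by
  rw [cf, Finset.sum_eq_single d]
  · intro d' hd' hne
    exact absurd ((hf d' (Finset.mem_filter.1 hd').1).inj hw hk0 hk hd
      (Finset.mem_filter.1 hd').2) hne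
  · intro h
    by_contra h1
    exact h (Finset.mem_filter.2 ⟨mem_support_iff.2 h1, rfl⟩)

/-- **The test.**  Variables `0, …, r` with the weights `w`, total weight `W`; the variable `0` is
set to one, the variable `i + 1` has exponents `< D i` and the code `k (i + 1)`; `B` bits per
digit; `m * c` bounds the coefficients of `N`. -/
def chk (r W : ℕ) (D w k : ℕ → ℕ) (B b m c : ℕ) (P N : Ex) : Bool :=
  domTest r W D w P && domTest r W D w N && Nat.blt 0 (w 0) && Nat.beq (k 0) 0 &&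
    allLt (fun i => Nat.beq (k (i + 1)) (rad D i)) r && Nat.blt 0 B && Nat.blt 0 m &&
    Nat.ble (m * 2 ^ b) (2 ^ B) && Nat.blt (P.kv 0 k + m * c) (2 ^ B) &&
    Nat.ble (N.kv 0 k) (m * c) &&
    dvTest B b (rad D r) m
      (Nat.sub (Nat.add (P.kv B k) (Nat.mul (m * c) (rep B (rad D r)))) (N.kv B k))

theorem coeff_dvd_of_chk {r W : ℕ} {D w k : ℕ → ℕ} {B b m c : ℕ} {P N : Ex}
    (h : chk r W D w k B b m c P N = true) (d : ℕ →₀ ℕ) :
    (m : ℤ) ∣ (coeff d (P.ev (X : ℕ → MvPolynomial ℕ ℕ)) : ℕ) -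
      (coeff d (N.ev (X : ℕ → MvPolynomial ℕ ℕ)) : ℕ) := by
  simp only [chk, Bool.and_eq_true, Nat.blt_eq, Nat.ble_eq, Nat.beq_eq] at h
  obtain ⟨⟨⟨⟨⟨⟨⟨⟨⟨⟨hP, hN⟩, hw⟩, hk0⟩, hk⟩, hB⟩, hm⟩, hb⟩, hc⟩, hc'⟩, ht⟩ := h
  have hP' := dom_of_test hP
  have hN' := dom_of_test hN
  have hk' : ∀ i < r, k (i + 1) = rad D i := fun i hi => Nat.eq_of_beq_eq_true (allLt_spec hk i hi)
  have hlt : ∀ d, Dom r W D w d → Finsupp.weight k d < rad D r := fun d hd => by
    rw [hd.code hk0 hk']
    exact radix_lt D hd.2.1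
  by_cases hd : Dom r W D w d
  swap
  · rw [notMem_support_iff.1 fun h => hd (hP' d h), notMem_support_iff.1 fun h => hd (hN' d h),
      sub_self]
    exact dvd_zero _
  have h1 : Nat.sub (Nat.add (P.kv B k) (Nat.mul (m * c) (rep B (rad D r)))) (N.kv B k) =
      pk B (rad D r) fun j => cf k (P.ev X) j + m * c - cf k (N.ev X) j := by
    rw [Nat.sub_eq, Nat.add_eq, Nat.mul_eq, rep_eq hB, pk_mul,
      kv_pk B _ k P fun d hd => hlt d (hP' d hd), kv_pk B _ k N fun d hd => hlt d (hN' d hd),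
      pk_add, Nat.sub_eq_iff_eq_add, pk_add]
    · congr 1
      funext j
      have := cf_le k N j
      omega
    · refine Finset.sum_le_sum fun j _ => Nat.mul_le_mul_right _ ?_
      have := cf_le k N j
      beta_reduce
      omega
  rw [h1] at ht
  have h2 := dvd_of_dvTest hB hb hm (fun j _ => by have := cf_le k P j; omega) ht (hlt d hd)
  have h3 := cf_le k N (Finsupp.weight k d)
  rw [cf_eq hw hk0 hk' hP' hd, cf_eq hw hk0 hk' hN' hd] at *
  obtain ⟨e, he⟩ := h2
  refine ⟨e - c, ?_⟩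
  have h4 : ((coeff d (P.ev (X : ℕ → MvPolynomial ℕ ℕ)) + m * c -
      coeff d (N.ev (X : ℕ → MvPolynomial ℕ ℕ)) : ℕ) : ℤ) = (m * e : ℕ) := by rw [he]
  rw [Nat.cast_sub (by omega)] at h4
  push_cast at h4
  linear_combination h4

/-- **Soundness of the test.** -/
theorem dvd_of_chk {r W : ℕ} {D w k : ℕ → ℕ} {B b m c : ℕ} {P N : Ex}
    (h : chk r W D w k B b m c P N = true) {R : Type} [CommRing R] (x : ℕ → R) :
    (m : R) ∣ P.ev x - N.ev x := by
  have h1 : (C (m : ℤ) : MvPolynomial ℕ ℤ) ∣ P.ev X - N.ev X := by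
    rw [C_dvd_iff_dvd_coeff]
    intro d
    have e : ∀ e : Ex, coeff d (e.ev (X : ℕ → MvPolynomial ℕ ℤ)) =
        (coeff d (e.ev (X : ℕ → MvPolynomial ℕ ℕ)) : ℕ) := fun e => by
      have h2 := e.map_ev (map (Nat.castRingHom ℤ)) (X : ℕ → MvPolynomial ℕ ℕ)
      simp only [map_X] at h2
      rw [← h2, coeff_map]
      rfl
    rw [coeff_sub, e, e]
    exact coeff_dvd_of_chk h d
  have h2 := map_dvd (eval₂Hom (Int.castRingHom R) x) h1
  simpa only [eval₂Hom_C, map_natCast, map_sub, Ex.map_ev, eval₂Hom_X'] using h2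

end Vale.Agent.P236B
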