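import Vale.Agent.P236B.Kr
import Vale.Agent.P236B.Typ2

/-!
# P236 / B : explicit formulas for `eta` and `del` modulo `p ^ (e + 1)`

`del_of_chk`, `eta_of_chk` : the ghost equations for candidate expressions are tested by
`chk`; the candidates are then congruent to `del`, `eta` in every commutative ring.
-/

namespace Vale.Agent.P236B

open MvPolynomial

/-- finite sums -/
def sumE (f : ℕ → Ex) : ℕ → Ex
  | 0 => .tl []
  | n + 1 => .add (sumE f n) (f n)

/-- the constant one -/
def oneE : Ex := .tl [(1, [])]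

/-- the variable number `i` -/
def varE (i : ℕ) : Ex := .sh i 1 oneE

/-- the sequence `1, t 0, t 1, …` -/
def hatE (t : ℕ → Ex) : ℕ → Ex
  | 0 => oneE
  | j + 1 => t j

/-- a summand of `pcomp` -/
def pcT (p : ℕ) (g h : ℕ → Ex) (n i : ℕ) : Ex :=
  .smul (p ^ (n - i)) (.mul (g i) (.pow (h (n - i)) (p ^ i)))

/-- `pcomp` -/
def pcE (p : ℕ) (g h : ℕ → Ex) (n : ℕ) : Ex := sumE (pcT p g h n) (n + 1)

/-- `pcomp` without the last summand -/
def pcE' (p : ℕ) (g h : ℕ → Ex) (n : ℕ) : Ex := sumE (pcT p g h n) n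

/-- `MM` (the first argument bounds the depth of the recursion) -/
def mE (p : ℕ) (v : ℕ → Ex) : ℕ → ℕ → Ex
  | 0, _ => oneE
  | _ + 1, 0 => oneE
  | f + 1, n + 1 => pcE p (mE p v f) v n

variable {R : Type} [CommRing R] (x : ℕ → R) (p : ℕ)

theorem ev_sumE (f : ℕ → Ex) (n : ℕ) : (sumE f n).ev x = ∑ i ∈ Finset.range n, (f i).ev x := by
  induction n with
  | zero => rfl
  | succ n ih => rw [sumE, Ex.ev, ih, Finset.sum_range_succ]

@[simp] theorem ev_oneE : oneE.ev x = 1 := by simp [oneE, Ex.ev, evL, mon]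

@[simp] theorem ev_varE (i : ℕ) : (varE i).ev x = x i := by simp [varE, Ex.ev]

@[simp] theorem ev_nil : (Ex.tl []).ev x = 0 := rfl

theorem ev_hatE (t : ℕ → Ex) (j : ℕ) : (hatE t j).ev x = hat (fun i => (t i).ev x) j := by
  cases j with
  | zero => exact ev_oneE x
  | succ j => rfl

theorem ev_pcT (g h : ℕ → Ex) (n i : ℕ) : (pcT p g h n i).ev x =
    (p : R) ^ (n - i) * (g i).ev x * (h (n - i)).ev x ^ p ^ i := by
  rw [pcT, Ex.ev, Ex.ev, Ex.ev, Nat.cast_pow, mul_assoc]

theorem ev_pcE {g h : ℕ → Ex} {n : ℕ} {G H : ℕ → R} (hg : ∀ i ≤ n, (g i).ev x = G i)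
    (hh : ∀ i, (h i).ev x = H i) : (pcE p g h n).ev x = pcomp p G H n := by
  rw [pcE, ev_sumE, pcomp]
  refine Finset.sum_congr rfl fun i hi => ?_
  rw [Finset.mem_range] at hi
  rw [ev_pcT, hg i (by omega), hh]

theorem ev_pcE' {g t : ℕ → Ex} {n : ℕ} {G : ℕ → R} (hg : ∀ i < n, (g i).ev x = G i) :
    (pcE' p g (hatE t) n).ev x + G n = pcomp p G (hat fun i => (t i).ev x) n := by
  rw [pcE', ev_sumE, pcomp, Finset.sum_range_succ, Nat.sub_self, pow_zero, one_mul, hat_zero,
    one_pow, mul_one]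
  congr 1
  refine Finset.sum_congr rfl fun i hi => ?_
  rw [Finset.mem_range] at hi
  rw [ev_pcT, hg i hi, ev_hatE]

theorem ev_mE (v : ℕ → Ex) {f n : ℕ} (h : n ≤ f) :
    (mE p v f n).ev x = MM p (fun i => (v i).ev x) n := by
  induction f generalizing n with
  | zero =>
    obtain rfl : n = 0 := by omega
    rw [mE, ev_oneE, MM_zero]
  | succ f ih =>
    rcases n with _ | n
    · rw [mE, ev_oneE, MM_zero]
    · rw [mE, ev_pcE x p (fun i hi => ih (by omega)) fun _ => rfl, MM_succ, pcomp]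

/-- left hand side of the ghost equation for the coproduct -/
def delP (v T : ℕ → Ex) (k : ℕ) : Ex := pcE' p (mE p v k) (hatE T) (k + 1)

/-- right hand side of the ghost equation for the coproduct -/
def delN (v t t' : ℕ → Ex) (k : ℕ) : Ex :=
  .add (pcE' p (pcE p (mE p v k) (hatE t)) (hatE t') (k + 1)) (pcE' p (mE p v k) (hatE t) (k + 1))

/-- left hand side of the ghost equation for the right unit -/
def etaP (v t w : ℕ → Ex) (k : ℕ) : Ex := pcE p (pcE p (mE p v k) (hatE t)) w k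

/-- right hand side of the ghost equation for the right unit -/
def etaN (v t : ℕ → Ex) (k : ℕ) : Ex := pcE p (mE p v (k + 1)) (hatE t) (k + 1)

variable [hp : Fact p.Prime]

theorem reg_int (y : MvPolynomial ℕ ℤ) (h : (p : MvPolynomial ℕ ℤ) * y = 0) : y = 0 :=
  (mul_eq_zero.1 h).resolve_left (Nat.cast_ne_zero.2 hp.out.ne_zero)

/-- **explicit formulas for the coproduct** -/
theorem del_of_dvd {v t t' T : ℕ → Ex} {e n : ℕ}
    (h : ∀ k < n, ((p ^ (k + 1 + (e + 1)) : ℕ) : MvPolynomial ℕ ℤ) ∣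
      (delP p v T k).ev X - (delN p v t t' k).ev X) {k : ℕ} (hk : k < n) :
    (p : R) ^ (e + 1) ∣ (T k).ev x -
      del p (fun i => (v i).ev x) (fun i => (t i).ev x) (fun i => (t' i).ev x) k := by
  have h1 := del_crit p (reg_int p) (v := fun i => (v i).ev X) (t := fun i => (t i).ev X)
    (t' := fun i => (t' i).ev X) (T := fun i => (T i).ev X) (e := e) (n := n) (fun k hk => by
      have h2 := h k hk
      have hm : ∀ i < k + 1, (mE p v k i).ev (X : ℕ → MvPolynomial ℕ ℤ) =
          MM p (fun i => (v i).ev X) i := fun i hi => ev_mE X p v (by omega)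
      rw [← ev_pcE' X p hm, ← ev_pcE' X p (g := pcE p (mE p v k) (hatE t)) fun i hi =>
        ev_pcE X p (fun j hj => hm j (by omega)) (ev_hatE X t), ← ev_pcE' X p hm]
      rw [Nat.cast_pow, delP, delN, Ex.ev] at h2
      convert h2 using 1
      ring) k hk
  have h2 := map_dvd (eval₂Hom (Int.castRingHom R) x) h1
  simpa only [map_pow, map_natCast, map_sub, map_del, Ex.map_ev, eval₂Hom_X'] using h2

/-- **explicit formulas for the right unit** -/
theorem eta_of_dvd {v t w : ℕ → Ex} {e n : ℕ}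
    (h : ∀ k < n, ((p ^ (k + (e + 1)) : ℕ) : MvPolynomial ℕ ℤ) ∣
      (etaP p v t w k).ev X - (etaN p v t k).ev X) {k : ℕ} (hk : k < n) :
    (p : R) ^ (e + 1) ∣ (w k).ev x - eta p (fun i => (v i).ev x) (fun i => (t i).ev x) k := by
  have h1 := eta_crit p (reg_int p) (v := fun i => (v i).ev X) (t := fun i => (t i).ev X)
    (w := fun i => (w i).ev X) (e := e) (n := n) (fun k hk => by
      have h2 := h k hk
      rw [Nat.cast_pow, etaP, etaN, ev_pcE X p (fun i hi => ev_pcE X p
        (fun j hj => ev_mE X p v (by omega)) (ev_hatE X t)) fun _ => rfl,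
        ev_pcE X p (fun j hj => ev_mE X p v hj) (ev_hatE X t)] at h2
      exact h2) k hk
  have h2 := map_dvd (eval₂Hom (Int.castRingHom R) x) h1
  simpa only [map_pow, map_natCast, map_sub, map_eta, Ex.map_ev, eval₂Hom_X'] using h2

end Vale.Agent.P236B
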