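import Vale.Agent.P236B.Fam

/-!
# P236 / B : congruences modulo `(9, 3 x ^ a, x ^ N)` by Kronecker substitution

`chkI` : the test; `eq_of_chkI` : its soundness; `subE` : substitution into a list of terms.
-/

namespace Vale.Agent.P236B

open MvPolynomial

theorem pk_mod {B L L' : ℕ} {c : ℕ → ℕ} (hc : ∀ j < L, c j < 2 ^ B) (h : L' ≤ L) :
    pk B L c % 2 ^ (B * L') = pk B L' c := by
  rw [← pk_dg]
  exact Finset.sum_congr rfl fun j hj => by
    beta_reduce
    rw [dg_pk hc ((Finset.mem_range.1 hj).trans_le h)]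

/-- the lowest `L` digits are divisible by `m` -/
def lowTest (B b L m M : ℕ) : Bool :=
  dvTest B b L m (Nat.land M (Nat.sub (Nat.shiftLeft 1 (B * L)) 1))

theorem dvd_of_lowTest {B b L L' m : ℕ} {c : ℕ → ℕ} (hB : 0 < B) (hb : m * 2 ^ b ≤ 2 ^ B)
    (hm : 0 < m) (hc : ∀ j < L, c j < 2 ^ B) (hL : L' ≤ L)
    (h : lowTest B b L' m (pk B L c) = true) {j : ℕ} (hj : j < L') : m ∣ c j := by
  rw [lowTest, Nat.land_eq, Nat.sub_eq, Nat.shiftLeft_eq', Nat.shiftLeft_eq, one_mul,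
    Nat.and_two_pow_sub_one_eq_mod, pk_mod hc hL] at h
  exact dvd_of_dvTest hB hb hm (fun j hj => hc j (hj.trans_le hL)) h hj

/-- both tests -/
def twoTest (b L L' M : ℕ) : Bool := lowTest (b + 4) b L 9 M && lowTest (b + 4) (b + 2) L' 3 M

/-- **The test.**  Variables `0, …, r + 1`, data as in `chk` with `b + 4` bits per digit; the
ideal is `(9, 3 x ^ a, x ^ N)` for the variable `x` number `r + 1`. -/
def chkI (r W : ℕ) (D w k : ℕ → ℕ) (b c a N : ℕ) (P Q : Ex) : Bool :=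
  domTest (r + 1) W D w P && domTest (r + 1) W D w Q && Nat.blt 0 (w 0) && Nat.beq (k 0) 0 &&
    allLt (fun i => Nat.beq (k (i + 1)) (rad D i)) (r + 1) &&
    Nat.blt (P.kv 0 k + 9 * c) (2 ^ (b + 4)) && Nat.ble (Q.kv 0 k) (9 * c) &&
    twoTest b (rad D r * min a (D r)) (rad D r * min N (D r))
      (Nat.sub (Nat.add (P.kv (b + 4) k) (Nat.mul (9 * c) (rep (b + 4) (rad D (r + 1)))))
        (Q.kv (b + 4) k))

theorem coeff_dvd_of_chkI {r W : ℕ} {D w k : ℕ → ℕ} {b c a N : ℕ} {P Q : Ex}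
    (h : chkI r W D w k b c a N P Q = true) (d : ℕ →₀ ℕ) :
    (d (r + 1) < a → (9 : ℤ) ∣ (coeff d (P.ev (X : ℕ → MvPolynomial ℕ ℕ)) : ℕ) -
      (coeff d (Q.ev (X : ℕ → MvPolynomial ℕ ℕ)) : ℕ)) ∧
    (d (r + 1) < N → (3 : ℤ) ∣ (coeff d (P.ev (X : ℕ → MvPolynomial ℕ ℕ)) : ℕ) -
      (coeff d (Q.ev (X : ℕ → MvPolynomial ℕ ℕ)) : ℕ)) := by
  simp only [chkI, Bool.and_eq_true, Nat.blt_eq, Nat.ble_eq, Nat.beq_eq] at h
  obtain ⟨⟨⟨⟨⟨⟨⟨hP, hN⟩, hw⟩, hk0⟩, hk⟩, hc⟩, hc'⟩, ht⟩ := h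
  have hP' := dom_of_test hP
  have hN' := dom_of_test hN
  have hk' : ∀ i < r + 1, k (i + 1) = rad D i := fun i hi =>
    Nat.eq_of_beq_eq_true (allLt_spec hk i hi)
  by_cases hd : Dom (r + 1) W D w d
  swap
  · rw [notMem_support_iff.1 fun h => hd (hP' d h), notMem_support_iff.1 fun h => hd (hN' d h),
      sub_self]
    exact ⟨fun _ => dvd_zero _, fun _ => dvd_zero _⟩
  have hlt : ∀ d, Dom (r + 1) W D w d → Finsupp.weight k d < rad D (r + 1) := fun d hd => by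
    rw [hd.code hk0 hk']
    exact radix_lt D hd.2.1
  have hlt' : ∀ n, d (r + 1) < n → Finsupp.weight k d < rad D r * min n (D r) := fun n hn => by
    have h1 := radix_lt D (r := r) (a := fun i => d (i + 1)) fun i hi => hd.2.1 i (by omega)
    have h2 : d (r + 1) + 1 ≤ min n (D r) := le_min hn (hd.2.1 r (by omega))
    have h3 := Nat.mul_le_mul_left (rad D r) h2
    rw [hd.code hk0 hk', Finset.sum_range_succ]
    nlinarith
  have hle : ∀ n, rad D r * min n (D r) ≤ rad D (r + 1) := fun n =>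
    Nat.mul_le_mul_left _ (min_le_right _ _)
  have h1 : Nat.sub (Nat.add (P.kv (b + 4) k) (Nat.mul (9 * c) (rep (b + 4) (rad D (r + 1)))))
      (Q.kv (b + 4) k) =
      pk (b + 4) (rad D (r + 1)) fun j => cf k (P.ev X) j + 9 * c - cf k (Q.ev X) j := by
    rw [Nat.sub_eq, Nat.add_eq, Nat.mul_eq, rep_eq (by omega), pk_mul,
      kv_pk _ _ k P fun d hd => hlt d (hP' d hd), kv_pk _ _ k Q fun d hd => hlt d (hN' d hd),
      pk_add, Nat.sub_eq_iff_eq_add, pk_add]
    · congr 1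
      funext j
      have := cf_le k Q j
      omega
    · refine Finset.sum_le_sum fun j _ => Nat.mul_le_mul_right _ ?_
      have := cf_le k Q j
      beta_reduce
      omega
  rw [h1, twoTest, Bool.and_eq_true] at ht
  have hd' : ∀ j < rad D (r + 1), cf k (P.ev X) j + 9 * c - cf k (Q.ev X) j < 2 ^ (b + 4) :=
    fun j _ => by have := cf_le k P j; omega
  have h3 := cf_le k Q (Finsupp.weight k d)
  refine ⟨fun hn => ?_, fun hn => ?_⟩
  · have h2 := dvd_of_lowTest (by omega) (by rw [pow_add]; omega) (by omega) hd' (hle a) ht.1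
      (hlt' a hn)
    rw [cf_eq hw hk0 hk' hP' hd, cf_eq hw hk0 hk' hN' hd] at *
    omega
  · have h2 := dvd_of_lowTest (by omega) (by rw [pow_add, pow_add]; omega) (by omega) hd' (hle N)
      ht.2 (hlt' N hn)
    rw [cf_eq hw hk0 hk' hP' hd, cf_eq hw hk0 hk' hN' hd] at *
    omega

variable {R : Type} [CommRing R]

/-- **Soundness of the test.** -/
theorem eq_of_chkI {r W : ℕ} {D w k : ℕ → ℕ} {b c a N : ℕ} {P Q : Ex}
    (h : chkI r W D w k b c a N P Q = true) (x : ℕ → R) (h9 : (9 : R) = 0)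
    (ha : 3 * x (r + 1) ^ a = 0) (hN : x (r + 1) ^ N = 0) : P.ev x = Q.ev x := by
  have e : ∀ (e : Ex) d, coeff d (e.ev (X : ℕ → MvPolynomial ℕ ℤ)) =
      (coeff d (e.ev (X : ℕ → MvPolynomial ℕ ℕ)) : ℕ) := fun e d => by
    have h2 := e.map_ev (map (Nat.castRingHom ℤ)) (X : ℕ → MvPolynomial ℕ ℕ)
    simp only [map_X] at h2
    rw [← h2, coeff_map]
    rfl
  have h1 : eval₂Hom (Int.castRingHom R) x (P.ev X - Q.ev X) = 0 := by
    rw [coe_eval₂Hom, eval₂_eq]
    refine Finset.sum_eq_zero fun d _ => ?_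
    have h2 := coeff_dvd_of_chkI h d
    rw [← e, ← e, ← coeff_sub] at h2
    have h3 : ∀ n ≤ d (r + 1), x (r + 1) ^ n ∣ ∏ i ∈ d.support, x i ^ d i := fun n hn => by
      by_cases h0 : r + 1 ∈ d.support
      · exact (pow_dvd_pow _ hn).trans (Finset.dvd_prod_of_mem (fun i => x i ^ d i) h0)
      · rw [Finsupp.notMem_support_iff.1 h0, Nat.le_zero] at hn
        rw [hn, pow_zero]
        exact one_dvd _
    rcases lt_or_ge (d (r + 1)) N with h4 | h4
    · rcases lt_or_ge (d (r + 1)) a with h5 | h5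
      · obtain ⟨u, hu⟩ := h2.1 h5
        rw [hu, eq_intCast]
        push_cast
        rw [h9, zero_mul, zero_mul]
      · obtain ⟨u, hu⟩ := h2.2 h4
        obtain ⟨z, hz⟩ := h3 a h5
        rw [hu, hz, eq_intCast]
        push_cast
        linear_combination (u * z) * ha
    · obtain ⟨z, hz⟩ := h3 N h4
      rw [hz, hN, zero_mul, mul_zero]
  simpa only [map_sub, Ex.map_ev, eval₂Hom_X', sub_eq_zero] using h1

/-- substitution into a monomial -/
def monE (σ : ℕ → Ex) : ℕ → List ℕ → Ex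
  | _, [] => oneE
  | i, a :: l => cond (Nat.beq a 0) (monE σ (i + 1) l) (.mul (.pow (σ i) a) (monE σ (i + 1) l))

/-- substitution into a list of terms -/
def subE (σ : ℕ → Ex) : List Tm → Ex
  | [] => .tl []
  | t :: l => .add (.smul t.1 (monE σ 0 t.2)) (subE σ l)

theorem ev_monE (x : ℕ → R) (σ : ℕ → Ex) (i : ℕ) (l : List ℕ) :
    (monE σ i l).ev x = mon (fun j => (σ j).ev x) i l := by
  induction l generalizing i with
  | nil => exact ev_oneE x
  | cons a l ih =>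
    rw [monE, mon]
    rcases a with _ | a
    · rw [Nat.beq_refl, cond_true, ih, pow_zero, one_mul]
    · rw [show Nat.beq (a + 1) 0 = false from rfl, cond_false, Ex.ev, Ex.ev, ih]

theorem ev_subE (x : ℕ → R) (σ : ℕ → Ex) (l : List Tm) :
    (subE σ l).ev x = evL (fun j => (σ j).ev x) l := by
  induction l with
  | nil => rfl
  | cons t l ih => rw [subE, Ex.ev, Ex.ev, ev_monE, ih, evL]

/-- `pt` for expressions -/
def ptE (v t : ℕ → Ex) (x : Ex) : ℕ → Ex
  | 0 => t 0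
  | 1 => x
  | 2 => v 0
  | 3 => v 1
  | 4 => t 1
  | 5 => v 2
  | 6 => t 2
  | 7 => t 3
  | 8 => v 3
  | i + 9 => cond (Nat.beq (i % 2) 0) (v (i / 2 + 4)) (t (i / 2 + 4))

theorem ev_ptE (y : ℕ → R) (v t : ℕ → Ex) (x : Ex) :
    (fun j => (ptE v t x j).ev y) = pt (fun i => (v i).ev y) (fun i => (t i).ev y) (x.ev y) := by
  funext j
  match j with
  | 0 | 1 | 2 | 3 | 4 | 5 | 6 | 7 | 8 => rfl
  | i + 9 =>
    rw [ptE, pt]
    rcases Nat.mod_two_eq_zero_or_one i with h | h <;> rw [h] <;> rfl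

end Vale.Agent.P236B
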