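import Vale.Agent.P236X.Defs

/-!
# P236 / B : programs (N = 10)
-/

noncomputable section

namespace Vale.Agent.P236B

open Vale.Agent.P236X

/-- program -/
def w1_10_1P : Pg :=
  (.qs (nat_lit 0) (.add (.mv (nat_lit 1) (.t (nat_lit 0) (nat_lit 0))) (.mul (nat_lit 3) (.t
  (nat_lit 0) (nat_lit 1)))))

/-- compiled program -/
def w1_10_1 : Prog := fun Y Z c d =>
  (qo Y d (nat_lit 0) (Nat.add (mv Y (nat_lit 1) (tm Z c (nat_lit 0))) (Nat.mul (nat_lit 3) (tm Z c
  (nat_lit 0)))))

/-- program -/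
def w1_10_2P : Pg :=
  (.qs (nat_lit 0) (.mv (nat_lit 1) (.add (.mv (nat_lit 1) (.t (nat_lit 0) (nat_lit 0))) (.mul
  (nat_lit 6) (.t (nat_lit 0) (nat_lit 1))))))

/-- compiled program -/
def w1_10_2 : Prog := fun Y Z c d =>
  (qo Y d (nat_lit 0) (mv Y (nat_lit 1) (Nat.add (mv Y (nat_lit 1) (tm Z c (nat_lit 0))) (Nat.mul
  (nat_lit 6) (tm Z c (nat_lit 0))))))

/-- program -/
def w1_10_3P : Pg :=
  (.mv (nat_lit 3) (.t (nat_lit 0) (nat_lit 0)))

/-- compiled program -/
def w1_10_3 : Prog := fun Y Z c _ =>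
  (mv Y (nat_lit 3) (tm Z c (nat_lit 0)))

/-- program -/
def w1_10_4P : Pg :=
  (.mv (nat_lit 4) (.t (nat_lit 0) (nat_lit 0)))

/-- compiled program -/
def w1_10_4 : Prog := fun Y Z c _ =>
  (mv Y (nat_lit 4) (tm Z c (nat_lit 0)))

/-- program -/
def w1_10_5P : Pg :=
  (.mv (nat_lit 5) (.t (nat_lit 0) (nat_lit 0)))

/-- compiled program -/
def w1_10_5 : Prog := fun Y Z c _ =>
  (mv Y (nat_lit 5) (tm Z c (nat_lit 0)))

/-- program -/
def w1_10_6P : Pg :=
  (.mv (nat_lit 6) (.t (nat_lit 0) (nat_lit 0)))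

/-- compiled program -/
def w1_10_6 : Prog := fun Y Z c _ =>
  (mv Y (nat_lit 6) (tm Z c (nat_lit 0)))

/-- program -/
def w1_10_7P : Pg :=
  (.mv (nat_lit 7) (.t (nat_lit 0) (nat_lit 0)))

/-- compiled program -/
def w1_10_7 : Prog := fun Y Z c _ =>
  (mv Y (nat_lit 7) (tm Z c (nat_lit 0)))

/-- program -/
def w1_10_8P : Pg :=
  (.mv (nat_lit 8) (.t (nat_lit 0) (nat_lit 0)))

/-- compiled program -/
def w1_10_8 : Prog := fun Y Z c _ =>
  (mv Y (nat_lit 8) (tm Z c (nat_lit 0)))

/-- program -/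
def w1_10_9P : Pg :=
  (.mv (nat_lit 9) (.t (nat_lit 0) (nat_lit 0)))

/-- compiled program -/
def w1_10_9 : Prog := fun Y Z c _ =>
  (mv Y (nat_lit 9) (tm Z c (nat_lit 0)))

/-- programs -/
def w1_10P : List Pg :=
  [.zero, w1_10_1P, w1_10_2P, w1_10_3P, w1_10_4P, w1_10_5P, w1_10_6P, w1_10_7P, w1_10_8P, w1_10_9P]

/-- compiled programs -/
def w1_10 : List Prog :=
  [zeroP, w1_10_1, w1_10_2, w1_10_3, w1_10_4, w1_10_5, w1_10_6, w1_10_7, w1_10_8, w1_10_9]

/-- program -/
def w4_10P : Pg :=
  (.fold (nat_lit 0) (.add (.add (.add (.add (.add (.add (.add (.fold (nat_lit 0) (.add (.add (.add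
  (.add (.add (.add (.add (.fold (nat_lit 0) (.add (.add (.add (.add (.fold (nat_lit 0) (.add (.add
  (.add (.mv (nat_lit 16393) (.add (.mul (nat_lit 2) (.add (.mw (nat_lit 128) (.t (nat_lit
  6755399441055747) (nat_lit 2))) (.mw (nat_lit 512) (.t (nat_lit 0) (nat_lit 2))))) (.mw (nat_lit
  384) (.t (nat_lit 0) (nat_lit 6))))) (.mv (nat_lit 32768) (.add (.mul (nat_lit 3) (.mw (nat_lit
  384) (.t (nat_lit 0) (nat_lit 2)))) (.mul (nat_lit 6) (.mw (nat_lit 128) (.t (nat_lit 0) (nat_lit
  10))))))) (.mul (nat_lit 3) (.at (nat_lit 22517998136868864) (nat_lit 0) (.at (nat_lit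
  21955048183431552) (nat_lit 1) (.mw (nat_lit 640) (.t (nat_lit 0) (nat_lit 20))))))) (.mv (nat_lit
  6) (.add (.at (nat_lit 13510798882111494) (nat_lit 10) (.add (.mw (nat_lit 128) (.t (nat_lit
  13510798882111494) (nat_lit 6))) (.mw (nat_lit 384) (.t (nat_lit 6755399441055747) (nat_lit
  10))))) (.mul (nat_lit 2) (.add (.mw (nat_lit 512) (.t (nat_lit 6755399441055747) (nat_lit 6)))
  (.add (.mw (nat_lit 640) (.t (nat_lit 6755399441055747) (nat_lit 2))) (.mw (nat_lit 384) (.t
  (nat_lit 0) (nat_lit 22)))))))))) (.mv (nat_lit 49152) (.mul (nat_lit 8) (.t (nat_lit 0) (nat_lit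
  1))))) (.mv (nat_lit 16385) (.add (.fold (nat_lit 14) (.add (.add (.mul (nat_lit 2) (.mw (nat_lit
  512) (.t (nat_lit 0) (nat_lit 10)))) (.mul (nat_lit 6) (.add (.mw (nat_lit 384) (.t (nat_lit
  7318349394477184) (nat_lit 1))) (.mw (nat_lit 128) (.t (nat_lit 6755399441055747) (nat_lit
  10)))))) (.mul (nat_lit 8) (.add (.mw (nat_lit 768) (.t (nat_lit 0) (nat_lit 2))) (.mw (nat_lit
  256) (.t (nat_lit 0) (nat_lit 18))))))) (.mul (nat_lit 3) (.add (.mw (nat_lit 384) (.t (nat_lit
  6755399441055747) (nat_lit 2))) (.mw (nat_lit 128) (.t (nat_lit 7318349394477184) (nat_lit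
  9)))))))) (.mv (nat_lit 16388) (.add (.add (.mw (nat_lit 512) (.t (nat_lit 0) (nat_lit 7))) (.mw
  (nat_lit 384) (.t (nat_lit 0) (nat_lit 11)))) (.mul (nat_lit 2) (.add (.add (.mw (nat_lit 256) (.t
  (nat_lit 6755399441055747) (nat_lit 3))) (.mw (nat_lit 256) (.t (nat_lit 0) (nat_lit 15)))) (.mw
  (nat_lit 128) (.t (nat_lit 0) (nat_lit 19)))))))) (.mv (nat_lit 4) (.add (.add (.add (.mul
  (nat_lit 2) (.mw (nat_lit 384) (.t (nat_lit 6755399441055747) (nat_lit 12)))) (.add (.mw (nat_lit
  896) (.t (nat_lit 0) (nat_lit 8))) (.add (.mw (nat_lit 640) (.t (nat_lit 0) (nat_lit 16))) (.mw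
  (nat_lit 512) (.t (nat_lit 0) (nat_lit 20)))))) (.add (.mw (nat_lit 640) (.t (nat_lit
  6755399441055747) (nat_lit 4))) (.mw (nat_lit 384) (.t (nat_lit 0) (nat_lit 24))))) (.mw (nat_lit
  256) (.t (nat_lit 0) (nat_lit 28))))))) (.fold (nat_lit 0) (.add (.add (.add (.fold (nat_lit 0)
  (.add (.add (.mul (nat_lit 6) (.mw (nat_lit 896) (.t (nat_lit 0) (nat_lit 12)))) (.mv (nat_lit 8)
  (.add (.add (.mw (nat_lit 128) (.t (nat_lit 13510798882111494) (nat_lit 4))) (.add (.mw (nat_lit
  640) (.t (nat_lit 0) (nat_lit 12))) (.mw (nat_lit 512) (.t (nat_lit 0) (nat_lit 16))))) (.mul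
  (nat_lit 2) (.add (.add (.mw (nat_lit 384) (.t (nat_lit 6755399441055747) (nat_lit 8))) (.add (.mw
  (nat_lit 512) (.t (nat_lit 6755399441055747) (nat_lit 4))) (.mw (nat_lit 256) (.t (nat_lit
  6755399441055747) (nat_lit 12))))) (.at (nat_lit 6755399441055747) (nat_lit 20) (.mw (nat_lit 128)
  (.t (nat_lit 6755399441055747) (nat_lit 16))))))))) (.mv (nat_lit 7) (.add (.add (.add (.mw
  (nat_lit 896) (.t (nat_lit 0) (nat_lit 5))) (.add (.mw (nat_lit 512) (.t (nat_lit
  6755399441055747) (nat_lit 5))) (.mw (nat_lit 384) (.t (nat_lit 6755399441055747) (nat_lit 9)))))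
  (.add (.mw (nat_lit 1024) (.t (nat_lit 0) (nat_lit 1))) (.mw (nat_lit 512) (.t (nat_lit 0)
  (nat_lit 17))))) (.mul (nat_lit 2) (.add (.add (.add (.mw (nat_lit 256) (.t (nat_lit
  13510798882111494) (nat_lit 1))) (.mw (nat_lit 768) (.t (nat_lit 0) (nat_lit 9)))) (.mw (nat_lit
  384) (.t (nat_lit 0) (nat_lit 21)))) (.mw (nat_lit 128) (.t (nat_lit 0) (nat_lit 29))))))))) (.mv
  (nat_lit 16389) (.add (.mul (nat_lit 2) (.add (.add (.mw (nat_lit 640) (.t (nat_lit 0) (nat_lit
  2))) (.mw (nat_lit 512) (.t (nat_lit 0) (nat_lit 6)))) (.at (nat_lit 6755399441055747) (nat_lit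
  10) (.mw (nat_lit 128) (.t (nat_lit 6755399441055747) (nat_lit 6)))))) (.mw (nat_lit 384) (.t
  (nat_lit 0) (nat_lit 10)))))) (.mv (nat_lit 16391) (.mul (nat_lit 2) (.add (.add (.add (.mw
  (nat_lit 128) (.t (nat_lit 6755399441055747) (nat_lit 4))) (.mw (nat_lit 384) (.t (nat_lit 0)
  (nat_lit 8)))) (.add (.mw (nat_lit 512) (.t (nat_lit 0) (nat_lit 4))) (.mw (nat_lit 256) (.t
  (nat_lit 0) (nat_lit 12))))) (.at (nat_lit 0) (nat_lit 20) (.mw (nat_lit 128) (.t (nat_lit 0)
  (nat_lit 16)))))))) (.mv (nat_lit 3) (.add (.add (.add (.mw (nat_lit 384) (.t (nat_lit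
  13510798882111494) (nat_lit 1))) (.mul (nat_lit 2) (.add (.at (nat_lit 20266198323167241) (nat_lit
  1) (.mw (nat_lit 128) (.t (nat_lit 13510798882111494) (nat_lit 9)))) (.mw (nat_lit 896) (.t
  (nat_lit 0) (nat_lit 9)))))) (.mw (nat_lit 768) (.t (nat_lit 0) (nat_lit 13)))) (.add (.mw
  (nat_lit 1024) (.t (nat_lit 0) (nat_lit 5))) (.mw (nat_lit 512) (.t (nat_lit 0) (nat_lit
  21))))))))) (.fold (nat_lit 0) (.add (.add (.fold (nat_lit 0) (.add (.mv (nat_lit 32769) (.add
  (.add (.add (.mul (nat_lit 6) (.t (nat_lit 7318349394477184) (nat_lit 0))) (.mul (nat_lit 3) (.t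
  (nat_lit 6755399441055747) (nat_lit 1)))) (.mw (nat_lit 384) (.t (nat_lit 0) (nat_lit 1)))) (.mul
  (nat_lit 8) (.mw (nat_lit 128) (.t (nat_lit 0) (nat_lit 9)))))) (.mv (nat_lit 9) (.at (nat_lit 0)
  (nat_lit 31) (.add (.add (.mw (nat_lit 768) (.t (nat_lit 0) (nat_lit 7))) (.add (.mw (nat_lit 512)
  (.t (nat_lit 6755399441055747) (nat_lit 3))) (.mw (nat_lit 256) (.t (nat_lit 6755399441055747)
  (nat_lit 11))))) (.mul (nat_lit 2) (.at (nat_lit 2251799813685249) (nat_lit 27) (.at (nat_lit
  13510798882111494) (nat_lit 7) (.add (.mw (nat_lit 896) (.t (nat_lit 0) (nat_lit 3))) (.add (.mw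
  (nat_lit 640) (.t (nat_lit 0) (nat_lit 11))) (.mw (nat_lit 512) (.t (nat_lit 0) (nat_lit
  15))))))))))))) (.mv (nat_lit 5) (.add (.add (.add (.mw (nat_lit 256) (.t (nat_lit
  13510798882111494) (nat_lit 3))) (.mw (nat_lit 1024) (.t (nat_lit 0) (nat_lit 3)))) (.add (.mw
  (nat_lit 896) (.t (nat_lit 0) (nat_lit 7))) (.add (.mw (nat_lit 512) (.t (nat_lit
  6755399441055747) (nat_lit 7))) (.mw (nat_lit 384) (.t (nat_lit 6755399441055747) (nat_lit
  11)))))) (.mul (nat_lit 2) (.add (.add (.add (.mw (nat_lit 768) (.t (nat_lit 0) (nat_lit 11)))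
  (.mw (nat_lit 256) (.t (nat_lit 6755399441055747) (nat_lit 15)))) (.add (.mw (nat_lit 640) (.t
  (nat_lit 0) (nat_lit 15))) (.mw (nat_lit 512) (.t (nat_lit 0) (nat_lit 19))))) (.mw (nat_lit 128)
  (.t (nat_lit 6755399441055747) (nat_lit 19)))))))) (.mul (nat_lit 8) (.add (.mw (nat_lit 1152) (.t
  (nat_lit 2251799813685249) (nat_lit 0))) (.mw (nat_lit 384) (.t (nat_lit 0) (nat_lit 28))))))))
  (.fold (nat_lit 0) (.add (.mv (nat_lit 1) (.add (.add (.at (nat_lit 20266198323167241) (nat_lit 3)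
  (.fold (nat_lit 1) (.add (.mul (nat_lit 8) (.mw (nat_lit 896) (.t (nat_lit 0) (nat_lit 11))))
  (.mul (nat_lit 6) (.add (.add (.add (.mw (nat_lit 768) (.t (nat_lit 7318349394477184) (nat_lit
  2))) (.mw (nat_lit 1152) (.t (nat_lit 0) (nat_lit 3)))) (.mw (nat_lit 512) (.t (nat_lit
  7318349394477184) (nat_lit 10)))) (.mw (nat_lit 256) (.t (nat_lit 7318349394477184) (nat_lit
  18)))))))) (.at (nat_lit 21955048183431552) (nat_lit 0) (.mw (nat_lit 640) (.t (nat_lit 0)
  (nat_lit 19))))) (.mul (nat_lit 3) (.add (.mw (nat_lit 768) (.t (nat_lit 6755399441055747)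
  (nat_lit 3))) (.add (.mw (nat_lit 512) (.t (nat_lit 6755399441055747) (nat_lit 11))) (.mw (nat_lit
  256) (.t (nat_lit 6755399441055747) (nat_lit 19)))))))) (.mv (nat_lit 16384) (.at (nat_lit 0)
  (nat_lit 27) (.mul (nat_lit 6) (.add (.mw (nat_lit 768) (.t (nat_lit 0) (nat_lit 3))) (.add (.mw
  (nat_lit 512) (.t (nat_lit 0) (nat_lit 11))) (.mw (nat_lit 256) (.t (nat_lit 0) (nat_lit
  19))))))))))) (.mv (nat_lit 32770) (.mul (nat_lit 2) (.t (nat_lit 6755399441055747) (nat_lit
  0))))) (.mv (nat_lit 32773) (.mul (nat_lit 2) (.mw (nat_lit 256) (.t (nat_lit 0) (nat_lit 1))))))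
  (.mv (nat_lit 32775) (.mul (nat_lit 2) (.t (nat_lit 0) (nat_lit 7))))) (.add (.add (.add (.add
  (.add (.mv (nat_lit 16386) (.add (.mul (nat_lit 2) (.mw (nat_lit 384) (.t (nat_lit
  6755399441055747) (nat_lit 1)))) (.mw (nat_lit 128) (.t (nat_lit 6755399441055747) (nat_lit 9)))))
  (.mv (nat_lit 16390) (.add (.mw (nat_lit 256) (.t (nat_lit 6755399441055747) (nat_lit 1))) (.add
  (.mw (nat_lit 512) (.t (nat_lit 0) (nat_lit 5))) (.mw (nat_lit 384) (.t (nat_lit 0) (nat_lit
  9))))))) (.mv (nat_lit 32772) (.at (nat_lit 0) (nat_lit 10) (.mw (nat_lit 128) (.t (nat_lit 0)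
  (nat_lit 6)))))) (.mv (nat_lit 16392) (.at (nat_lit 6755399441055747) (nat_lit 7) (.add (.mw
  (nat_lit 512) (.t (nat_lit 0) (nat_lit 3))) (.mw (nat_lit 256) (.t (nat_lit 0) (nat_lit 11)))))))
  (.mv (nat_lit 16387) (.add (.mw (nat_lit 640) (.t (nat_lit 0) (nat_lit 4))) (.mul (nat_lit 2) (.at
  (nat_lit 13510798882111494) (nat_lit 0) (.mw (nat_lit 384) (.t (nat_lit 0) (nat_lit 12))))))))
  (.mv (nat_lit 2) (.mul (nat_lit 2) (.add (.mw (nat_lit 768) (.t (nat_lit 6755399441055747)
  (nat_lit 2))) (.add (.mw (nat_lit 512) (.t (nat_lit 6755399441055747) (nat_lit 10))) (.mw (nat_lit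
  256) (.t (nat_lit 6755399441055747) (nat_lit 18)))))))))) (.mv (nat_lit 2097152) (.t (nat_lit 0)
  (nat_lit 0)))) (.mw (nat_lit 128) (.t (nat_lit 20266198323167241) (nat_lit 0)))) (.mv (nat_lit
  32776) (.mw (nat_lit 128) (.t (nat_lit 0) (nat_lit 2))))) (.mv (nat_lit 32771) (.mw (nat_lit 256)
  (.t (nat_lit 0) (nat_lit 3))))) (.mv (nat_lit 32774) (.mw (nat_lit 128) (.t (nat_lit 0) (nat_lit
  4))))) (.mw (nat_lit 1152) (.t (nat_lit 0) (nat_lit 4)))) (.mv (nat_lit 32777) (.t (nat_lit 0)
  (nat_lit 5)))))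

/-- compiled program -/
def w4_10 : Prog := fun Y Z c d =>
  (fo Y d (nat_lit 0) (Nat.add (Nat.add (Nat.add (Nat.add (Nat.add (Nat.add (Nat.add (fo Y d
  (nat_lit 0) (Nat.add (Nat.add (Nat.add (Nat.add (Nat.add (Nat.add (Nat.add (fo Y d (nat_lit 0)
  (Nat.add (Nat.add (Nat.add (Nat.add (fo Y d (nat_lit 0) (Nat.add (Nat.add (Nat.add (mv Y (nat_lit
  16393) (Nat.add (Nat.mul (nat_lit 2) (Nat.add (mw Y (nat_lit 128) (tm Z c (nat_lit
  6755399441055747))) (mw Y (nat_lit 512) (tm Z c (nat_lit 0))))) (mw Y (nat_lit 384) (tm Z c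
  (nat_lit 0))))) (mv Y (nat_lit 32768) (Nat.add (Nat.mul (nat_lit 3) (mw Y (nat_lit 384) (tm Z c
  (nat_lit 0)))) (Nat.mul (nat_lit 6) (mw Y (nat_lit 128) (tm Z c (nat_lit 0))))))) (Nat.mul
  (nat_lit 3) (ad Z c (nat_lit 22517998136868864) (ad Z c (nat_lit 21955048183431552) (mw Y (nat_lit
  640) (tm Z c (nat_lit 0))))))) (mv Y (nat_lit 6) (Nat.add (ad Z c (nat_lit 13510798882111494)
  (Nat.add (mw Y (nat_lit 128) (tm Z c (nat_lit 13510798882111494))) (mw Y (nat_lit 384) (tm Z c
  (nat_lit 6755399441055747))))) (Nat.mul (nat_lit 2) (Nat.add (mw Y (nat_lit 512) (tm Z c (nat_lit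
  6755399441055747))) (Nat.add (mw Y (nat_lit 640) (tm Z c (nat_lit 6755399441055747))) (mw Y
  (nat_lit 384) (tm Z c (nat_lit 0)))))))))) (mv Y (nat_lit 49152) (Nat.mul (nat_lit 8) (tm Z c
  (nat_lit 0))))) (mv Y (nat_lit 16385) (Nat.add (fo Y d (nat_lit 14) (Nat.add (Nat.add (Nat.mul
  (nat_lit 2) (mw Y (nat_lit 512) (tm Z c (nat_lit 0)))) (Nat.mul (nat_lit 6) (Nat.add (mw Y
  (nat_lit 384) (tm Z c (nat_lit 7318349394477184))) (mw Y (nat_lit 128) (tm Z c (nat_lit
  6755399441055747)))))) (Nat.mul (nat_lit 8) (Nat.add (mw Y (nat_lit 768) (tm Z c (nat_lit 0))) (mw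
  Y (nat_lit 256) (tm Z c (nat_lit 0))))))) (Nat.mul (nat_lit 3) (Nat.add (mw Y (nat_lit 384) (tm Z
  c (nat_lit 6755399441055747))) (mw Y (nat_lit 128) (tm Z c (nat_lit 7318349394477184)))))))) (mv Y
  (nat_lit 16388) (Nat.add (Nat.add (mw Y (nat_lit 512) (tm Z c (nat_lit 0))) (mw Y (nat_lit 384)
  (tm Z c (nat_lit 0)))) (Nat.mul (nat_lit 2) (Nat.add (Nat.add (mw Y (nat_lit 256) (tm Z c (nat_lit
  6755399441055747))) (mw Y (nat_lit 256) (tm Z c (nat_lit 0)))) (mw Y (nat_lit 128) (tm Z c
  (nat_lit 0)))))))) (mv Y (nat_lit 4) (Nat.add (Nat.add (Nat.add (Nat.mul (nat_lit 2) (mw Y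
  (nat_lit 384) (tm Z c (nat_lit 6755399441055747)))) (Nat.add (mw Y (nat_lit 896) (tm Z c (nat_lit
  0))) (Nat.add (mw Y (nat_lit 640) (tm Z c (nat_lit 0))) (mw Y (nat_lit 512) (tm Z c (nat_lit
  0)))))) (Nat.add (mw Y (nat_lit 640) (tm Z c (nat_lit 6755399441055747))) (mw Y (nat_lit 384) (tm
  Z c (nat_lit 0))))) (mw Y (nat_lit 256) (tm Z c (nat_lit 0))))))) (fo Y d (nat_lit 0) (Nat.add
  (Nat.add (Nat.add (fo Y d (nat_lit 0) (Nat.add (Nat.add (Nat.mul (nat_lit 6) (mw Y (nat_lit 896)
  (tm Z c (nat_lit 0)))) (mv Y (nat_lit 8) (Nat.add (Nat.add (mw Y (nat_lit 128) (tm Z c (nat_lit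
  13510798882111494))) (Nat.add (mw Y (nat_lit 640) (tm Z c (nat_lit 0))) (mw Y (nat_lit 512) (tm Z
  c (nat_lit 0))))) (Nat.mul (nat_lit 2) (Nat.add (Nat.add (mw Y (nat_lit 384) (tm Z c (nat_lit
  6755399441055747))) (Nat.add (mw Y (nat_lit 512) (tm Z c (nat_lit 6755399441055747))) (mw Y
  (nat_lit 256) (tm Z c (nat_lit 6755399441055747))))) (ad Z c (nat_lit 6755399441055747) (mw Y
  (nat_lit 128) (tm Z c (nat_lit 6755399441055747))))))))) (mv Y (nat_lit 7) (Nat.add (Nat.add
  (Nat.add (mw Y (nat_lit 896) (tm Z c (nat_lit 0))) (Nat.add (mw Y (nat_lit 512) (tm Z c (nat_lit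
  6755399441055747))) (mw Y (nat_lit 384) (tm Z c (nat_lit 6755399441055747))))) (Nat.add (mw Y
  (nat_lit 1024) (tm Z c (nat_lit 0))) (mw Y (nat_lit 512) (tm Z c (nat_lit 0))))) (Nat.mul (nat_lit
  2) (Nat.add (Nat.add (Nat.add (mw Y (nat_lit 256) (tm Z c (nat_lit 13510798882111494))) (mw Y
  (nat_lit 768) (tm Z c (nat_lit 0)))) (mw Y (nat_lit 384) (tm Z c (nat_lit 0)))) (mw Y (nat_lit
  128) (tm Z c (nat_lit 0))))))))) (mv Y (nat_lit 16389) (Nat.add (Nat.mul (nat_lit 2) (Nat.add
  (Nat.add (mw Y (nat_lit 640) (tm Z c (nat_lit 0))) (mw Y (nat_lit 512) (tm Z c (nat_lit 0)))) (ad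
  Z c (nat_lit 6755399441055747) (mw Y (nat_lit 128) (tm Z c (nat_lit 6755399441055747)))))) (mw Y
  (nat_lit 384) (tm Z c (nat_lit 0)))))) (mv Y (nat_lit 16391) (Nat.mul (nat_lit 2) (Nat.add
  (Nat.add (Nat.add (mw Y (nat_lit 128) (tm Z c (nat_lit 6755399441055747))) (mw Y (nat_lit 384) (tm
  Z c (nat_lit 0)))) (Nat.add (mw Y (nat_lit 512) (tm Z c (nat_lit 0))) (mw Y (nat_lit 256) (tm Z c
  (nat_lit 0))))) (ad Z c (nat_lit 0) (mw Y (nat_lit 128) (tm Z c (nat_lit 0)))))))) (mv Y (nat_lit
  3) (Nat.add (Nat.add (Nat.add (mw Y (nat_lit 384) (tm Z c (nat_lit 13510798882111494))) (Nat.mul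
  (nat_lit 2) (Nat.add (ad Z c (nat_lit 20266198323167241) (mw Y (nat_lit 128) (tm Z c (nat_lit
  13510798882111494)))) (mw Y (nat_lit 896) (tm Z c (nat_lit 0)))))) (mw Y (nat_lit 768) (tm Z c
  (nat_lit 0)))) (Nat.add (mw Y (nat_lit 1024) (tm Z c (nat_lit 0))) (mw Y (nat_lit 512) (tm Z c
  (nat_lit 0))))))))) (fo Y d (nat_lit 0) (Nat.add (Nat.add (fo Y d (nat_lit 0) (Nat.add (mv Y
  (nat_lit 32769) (Nat.add (Nat.add (Nat.add (Nat.mul (nat_lit 6) (tm Z c (nat_lit
  7318349394477184))) (Nat.mul (nat_lit 3) (tm Z c (nat_lit 6755399441055747)))) (mw Y (nat_lit 384)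
  (tm Z c (nat_lit 0)))) (Nat.mul (nat_lit 8) (mw Y (nat_lit 128) (tm Z c (nat_lit 0)))))) (mv Y
  (nat_lit 9) (ad Z c (nat_lit 0) (Nat.add (Nat.add (mw Y (nat_lit 768) (tm Z c (nat_lit 0)))
  (Nat.add (mw Y (nat_lit 512) (tm Z c (nat_lit 6755399441055747))) (mw Y (nat_lit 256) (tm Z c
  (nat_lit 6755399441055747))))) (Nat.mul (nat_lit 2) (ad Z c (nat_lit 2251799813685249) (ad Z c
  (nat_lit 13510798882111494) (Nat.add (mw Y (nat_lit 896) (tm Z c (nat_lit 0))) (Nat.add (mw Y
  (nat_lit 640) (tm Z c (nat_lit 0))) (mw Y (nat_lit 512) (tm Z c (nat_lit 0))))))))))))) (mv Y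
  (nat_lit 5) (Nat.add (Nat.add (Nat.add (mw Y (nat_lit 256) (tm Z c (nat_lit 13510798882111494)))
  (mw Y (nat_lit 1024) (tm Z c (nat_lit 0)))) (Nat.add (mw Y (nat_lit 896) (tm Z c (nat_lit 0)))
  (Nat.add (mw Y (nat_lit 512) (tm Z c (nat_lit 6755399441055747))) (mw Y (nat_lit 384) (tm Z c
  (nat_lit 6755399441055747)))))) (Nat.mul (nat_lit 2) (Nat.add (Nat.add (Nat.add (mw Y (nat_lit
  768) (tm Z c (nat_lit 0))) (mw Y (nat_lit 256) (tm Z c (nat_lit 6755399441055747)))) (Nat.add (mw
  Y (nat_lit 640) (tm Z c (nat_lit 0))) (mw Y (nat_lit 512) (tm Z c (nat_lit 0))))) (mw Y (nat_lit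
  128) (tm Z c (nat_lit 6755399441055747)))))))) (Nat.mul (nat_lit 8) (Nat.add (mw Y (nat_lit 1152)
  (tm Z c (nat_lit 2251799813685249))) (mw Y (nat_lit 384) (tm Z c (nat_lit 0)))))))) (fo Y d
  (nat_lit 0) (Nat.add (mv Y (nat_lit 1) (Nat.add (Nat.add (ad Z c (nat_lit 20266198323167241) (fo Y
  d (nat_lit 1) (Nat.add (Nat.mul (nat_lit 8) (mw Y (nat_lit 896) (tm Z c (nat_lit 0)))) (Nat.mul
  (nat_lit 6) (Nat.add (Nat.add (Nat.add (mw Y (nat_lit 768) (tm Z c (nat_lit 7318349394477184)))
  (mw Y (nat_lit 1152) (tm Z c (nat_lit 0)))) (mw Y (nat_lit 512) (tm Z c (nat_lit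
  7318349394477184)))) (mw Y (nat_lit 256) (tm Z c (nat_lit 7318349394477184)))))))) (ad Z c
  (nat_lit 21955048183431552) (mw Y (nat_lit 640) (tm Z c (nat_lit 0))))) (Nat.mul (nat_lit 3)
  (Nat.add (mw Y (nat_lit 768) (tm Z c (nat_lit 6755399441055747))) (Nat.add (mw Y (nat_lit 512) (tm
  Z c (nat_lit 6755399441055747))) (mw Y (nat_lit 256) (tm Z c (nat_lit 6755399441055747)))))))) (mv
  Y (nat_lit 16384) (ad Z c (nat_lit 0) (Nat.mul (nat_lit 6) (Nat.add (mw Y (nat_lit 768) (tm Z c
  (nat_lit 0))) (Nat.add (mw Y (nat_lit 512) (tm Z c (nat_lit 0))) (mw Y (nat_lit 256) (tm Z c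
  (nat_lit 0))))))))))) (mv Y (nat_lit 32770) (Nat.mul (nat_lit 2) (tm Z c (nat_lit
  6755399441055747))))) (mv Y (nat_lit 32773) (Nat.mul (nat_lit 2) (mw Y (nat_lit 256) (tm Z c
  (nat_lit 0)))))) (mv Y (nat_lit 32775) (Nat.mul (nat_lit 2) (tm Z c (nat_lit 0))))) (Nat.add
  (Nat.add (Nat.add (Nat.add (Nat.add (mv Y (nat_lit 16386) (Nat.add (Nat.mul (nat_lit 2) (mw Y
  (nat_lit 384) (tm Z c (nat_lit 6755399441055747)))) (mw Y (nat_lit 128) (tm Z c (nat_lit
  6755399441055747))))) (mv Y (nat_lit 16390) (Nat.add (mw Y (nat_lit 256) (tm Z c (nat_lit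
  6755399441055747))) (Nat.add (mw Y (nat_lit 512) (tm Z c (nat_lit 0))) (mw Y (nat_lit 384) (tm Z c
  (nat_lit 0))))))) (mv Y (nat_lit 32772) (ad Z c (nat_lit 0) (mw Y (nat_lit 128) (tm Z c (nat_lit
  0)))))) (mv Y (nat_lit 16392) (ad Z c (nat_lit 6755399441055747) (Nat.add (mw Y (nat_lit 512) (tm
  Z c (nat_lit 0))) (mw Y (nat_lit 256) (tm Z c (nat_lit 0))))))) (mv Y (nat_lit 16387) (Nat.add (mw
  Y (nat_lit 640) (tm Z c (nat_lit 0))) (Nat.mul (nat_lit 2) (ad Z c (nat_lit 13510798882111494) (mw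
  Y (nat_lit 384) (tm Z c (nat_lit 0)))))))) (mv Y (nat_lit 2) (Nat.mul (nat_lit 2) (Nat.add (mw Y
  (nat_lit 768) (tm Z c (nat_lit 6755399441055747))) (Nat.add (mw Y (nat_lit 512) (tm Z c (nat_lit
  6755399441055747))) (mw Y (nat_lit 256) (tm Z c (nat_lit 6755399441055747)))))))))) (mv Y (nat_lit
  2097152) (tm Z c (nat_lit 0)))) (mw Y (nat_lit 128) (tm Z c (nat_lit 20266198323167241)))) (mv Y
  (nat_lit 32776) (mw Y (nat_lit 128) (tm Z c (nat_lit 0))))) (mv Y (nat_lit 32771) (mw Y (nat_lit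
  256) (tm Z c (nat_lit 0))))) (mv Y (nat_lit 32774) (mw Y (nat_lit 128) (tm Z c (nat_lit 0))))) (mw
  Y (nat_lit 1152) (tm Z c (nat_lit 0)))) (mv Y (nat_lit 32777) (tm Z c (nat_lit 0)))))

/-- program -/
def b14_10P : Pg :=
  (.fold (nat_lit 0) (.add (.fold (nat_lit 0) (.add (.add (.fold (nat_lit 0) (.add (.add (.fold
  (nat_lit 0) (.add (.fold (nat_lit 0) (.add (.fold (nat_lit 0) (.add (.fold (nat_lit 0) (.add
  (.fold (nat_lit 0) (.add (.fold (nat_lit 0) (.add (.at (nat_lit 21955151262646272) (nat_lit 1) (.t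
  (nat_lit 22522396183363584) (nat_lit 0))) (.mv (nat_lit 8) (.add (.add (.add (.at (nat_lit
  11259033702891520) (nat_lit 12) (.at (nat_lit 14636699103526912) (nat_lit 6) (.add (.mul (nat_lit
  2) (.fold (nat_lit 8) (.at (nat_lit 10696049414897664) (nat_lit 13) (.add (.add (.add (.add (.at
  (nat_lit 12947848976924672) (nat_lit 9) (.add (.add (.at (nat_lit 14073749408055296) (nat_lit 7)
  (.at (nat_lit 14073749668102144) (nat_lit 7) (.t (nat_lit 14636699623620608) (nat_lit 6)))) (.add
  (.at (nat_lit 15199650099232768) (nat_lit 5) (.t (nat_lit 15762600054751232) (nat_lit 4))) (.at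
  (nat_lit 13510800232677376) (nat_lit 8) (.t (nat_lit 14073750188195840) (nat_lit 7))))) (.at
  (nat_lit 12947883569446912) (nat_lit 9) (.t (nat_lit 14636733436002304) (nat_lit 6))))) (.at
  (nat_lit 12384899281453056) (nat_lit 10) (.at (nat_lit 12384899021406208) (nat_lit 10) (.t
  (nat_lit 13510799452536832) (nat_lit 8))))) (.at (nat_lit 12384899801546752) (nat_lit 10) (.t
  (nat_lit 12947849757065216) (nat_lit 9)))) (.at (nat_lit 14073749148008448) (nat_lit 7) (.add (.at
  (nat_lit 13510799712583680) (nat_lit 8) (.t (nat_lit 14073783220436992) (nat_lit 7))) (.at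
  (nat_lit 11821949846028288) (nat_lit 11) (.t (nat_lit 12384933353881600) (nat_lit 10)))))) (.add
  (.at (nat_lit 11821949585981440) (nat_lit 11) (.t (nat_lit 12384899541499904) (nat_lit 10))) (.at
  (nat_lit 10696049154850816) (nat_lit 13) (.t (nat_lit 11258999110369280) (nat_lit 12)))))))) (.at
  (nat_lit 16325583302557696) (nat_lit 3) (.t (nat_lit 16325549750222848) (nat_lit 3)))))) (.add
  (.at (nat_lit 11821950106075136) (nat_lit 11) (.at (nat_lit 15199649579139072) (nat_lit 5) (.t
  (nat_lit 15762633086992384) (nat_lit 4)))) (.add (.at (nat_lit 12384900061593600) (nat_lit 10) (.t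
  (nat_lit 14073749928148992) (nat_lit 7))) (.at (nat_lit 10133099459379200) (nat_lit 14) (.t
  (nat_lit 10696050195038208) (nat_lit 13)))))) (.at (nat_lit 10133099979472896) (nat_lit 14) (.t
  (nat_lit 10696083487326208) (nat_lit 13)))) (.mw (nat_lit 128) (.mul (nat_lit 2) (.at (nat_lit
  5066549599666176) (nat_lit 19) (.at (nat_lit 5629499815231488) (nat_lit 18) (.add (.at (nat_lit
  11821949065887744) (nat_lit 7) (.t (nat_lit 12384899281453056) (nat_lit 6))) (.at (nat_lit
  8444249332776960) (nat_lit 13) (.t (nat_lit 9007199548342272) (nat_lit 12)))))))))))) (.mv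
  (nat_lit 2) (.add (.add (.add (.add (.at (nat_lit 20266267323662336) (nat_lit 2) (.t (nat_lit
  20829217539227648) (nat_lit 1))) (.mul (nat_lit 2) (.at (nat_lit 19703283815809024) (nat_lit 3)
  (.t (nat_lit 20266234031374336) (nat_lit 2))))) (.at (nat_lit 19140300307955712) (nat_lit 4) (.t
  (nat_lit 19703250523521024) (nat_lit 3)))) (.mw (nat_lit 128) (.at (nat_lit 14073749928148992)
  (nat_lit 9) (.at (nat_lit 14636733436002304) (nat_lit 8) (.add (.add (.at (nat_lit
  15762599794704384) (nat_lit 6) (.t (nat_lit 16325583302557696) (nat_lit 5))) (.at (nat_lit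
  15199683651567616) (nat_lit 7) (.t (nat_lit 16888533518123008) (nat_lit 4)))) (.at (nat_lit
  14636700143714304) (nat_lit 8) (.t (nat_lit 16325550010269696) (nat_lit 5)))))))) (.mw (nat_lit
  256) (.at (nat_lit 9007199548342272) (nat_lit 14) (.at (nat_lit 9570149763907584) (nat_lit 13)
  (.add (.at (nat_lit 12384899281453056) (nat_lit 8) (.t (nat_lit 12947849497018368) (nat_lit 7)))
  (.mul (nat_lit 2) (.at (nat_lit 10696049414897664) (nat_lit 11) (.t (nat_lit 11258999630462976)
  (nat_lit 10)))))))))))) (.mv (nat_lit 9) (.add (.add (.at (nat_lit 11821949065887744) (nat_lit 10)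
  (.at (nat_lit 12384899801546752) (nat_lit 9) (.at (nat_lit 12384899021406208) (nat_lit 9) (.at
  (nat_lit 12947849236971520) (nat_lit 8) (.at (nat_lit 13510833264918528) (nat_lit 7) (.add (.fold
  (nat_lit 9) (.add (.add (.add (.at (nat_lit 13510799712583680) (nat_lit 7) (.t (nat_lit
  14636699363573760) (nat_lit 5))) (.add (.at (nat_lit 13510798932443136) (nat_lit 7) (.t (nat_lit
  15762599794704384) (nat_lit 3))) (.at (nat_lit 14636699883667456) (nat_lit 5) (.at (nat_lit
  12947850017112064) (nat_lit 8) (.t (nat_lit 13510799972630528) (nat_lit 7)))))) (.add (.at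
  (nat_lit 11821950106075136) (nat_lit 10) (.at (nat_lit 15199649579139072) (nat_lit 4) (.t (nat_lit
  15762633086992384) (nat_lit 3)))) (.add (.at (nat_lit 12384900061593600) (nat_lit 9) (.t (nat_lit
  14073749928148992) (nat_lit 6))) (.at (nat_lit 10133099459379200) (nat_lit 13) (.t (nat_lit
  10696050195038208) (nat_lit 12)))))) (.mw (nat_lit 128) (.add (.add (.add (.at (nat_lit
  3940649688629248) (nat_lit 20) (.t (nat_lit 11258999110369280) (nat_lit 7))) (.at (nat_lit
  3377699733110784) (nat_lit 21) (.t (nat_lit 11821949065887744) (nat_lit 6)))) (.at (nat_lit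
  2814749777592320) (nat_lit 22) (.t (nat_lit 12384899021406208) (nat_lit 5)))) (.mul (nat_lit 2)
  (.add (.add (.at (nat_lit 7318349421740032) (nat_lit 14) (.t (nat_lit 7881299377258496) (nat_lit
  13))) (.at (nat_lit 6192449510703104) (nat_lit 16) (.t (nat_lit 9007199288295424) (nat_lit 11))))
  (.at (nat_lit 1688849866555392) (nat_lit 24) (.t (nat_lit 13510798932443136) (nat_lit 3)))))))))
  (.mul (nat_lit 2) (.fold (nat_lit 9) (.at (nat_lit 7881300157399040) (nat_lit 17) (.at (nat_lit
  8444283665252352) (nat_lit 16) (.add (.add (.add (.at (nat_lit 11821949846028288) (nat_lit 10)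
  (.add (.at (nat_lit 12947849757065216) (nat_lit 8) (.at (nat_lit 14073783220436992) (nat_lit 6)
  (.at (nat_lit 15199683131473920) (nat_lit 4) (.t (nat_lit 16325583042510848) (nat_lit 2))))) (.at
  (nat_lit 15762599534657536) (nat_lit 3) (.at (nat_lit 12384899281453056) (nat_lit 9) (.t (nat_lit
  12947849497018368) (nat_lit 8)))))) (.at (nat_lit 10696049414897664) (nat_lit 12) (.t (nat_lit
  11258999630462976) (nat_lit 11)))) (.at (nat_lit 10133099979472896) (nat_lit 13) (.t (nat_lit
  10696083487326208) (nat_lit 12)))) (.add (.at (nat_lit 14073749668102144) (nat_lit 6) (.t (nat_lit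
  14636699623620608) (nat_lit 5))) (.at (nat_lit 9007200068435968) (nat_lit 15) (.t (nat_lit
  9570183576289280) (nat_lit 14))))))))))))))) (.at (nat_lit 14636733175955456) (nat_lit 5) (.at
  (nat_lit 11258999370416128) (nat_lit 11) (.t (nat_lit 11821949325934592) (nat_lit 10))))) (.at
  (nat_lit 8444250112917504) (nat_lit 16) (.add (.at (nat_lit 9007233620770816) (nat_lit 15) (.add
  (.add (.at (nat_lit 11258999890509824) (nat_lit 11) (.at (nat_lit 10696049154850816) (nat_lit 12)
  (.t (nat_lit 11258999110369280) (nat_lit 11)))) (.at (nat_lit 11259033442844672) (nat_lit 11) (.at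
  (nat_lit 10133099199332352) (nat_lit 13) (.t (nat_lit 10696049934991360) (nat_lit 12))))) (.at
  (nat_lit 9570149243813888) (nat_lit 14) (.at (nat_lit 9570150023954432) (nat_lit 14) (.t (nat_lit
  10133133531807744) (nat_lit 13)))))) (.at (nat_lit 8444249332776960) (nat_lit 16) (.t (nat_lit
  9570149763907584) (nat_lit 14))))))))) (.mv (nat_lit 3) (.add (.at (nat_lit 18014400396918784)
  (nat_lit 5) (.at (nat_lit 18577350092390400) (nat_lit 4) (.at (nat_lit 19140367412625408) (nat_lit
  3) (.fold (nat_lit 3) (.add (.at (nat_lit 19140334120337408) (nat_lit 3) (.at (nat_lit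
  19140333600243712) (nat_lit 3) (.at (nat_lit 19703317368143872) (nat_lit 2) (.fold (nat_lit 3)
  (.add (.at (nat_lit 19703284075855872) (nat_lit 2) (.at (nat_lit 18577383644725248) (nat_lit 4)
  (.at (nat_lit 18014433689206784) (nat_lit 5) (.t (nat_lit 18577350352437248) (nat_lit 4))))) (.mul
  (nat_lit 2) (.at (nat_lit 17451450181353472) (nat_lit 6) (.at (nat_lit 18014400136871936) (nat_lit
  5) (.at (nat_lit 18014399876825088) (nat_lit 5) (.at (nat_lit 18577383904772096) (nat_lit 4) (.at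
  (nat_lit 18577383384678400) (nat_lit 4) (.add (.at (nat_lit 19140333860290560) (nat_lit 3) (.at
  (nat_lit 19140300307955712) (nat_lit 3) (.at (nat_lit 19703317628190720) (nat_lit 2) (.at (nat_lit
  19703283815809024) (nat_lit 2) (.t (nat_lit 20266267583709184) (nat_lit 1)))))) (.add (.at
  (nat_lit 19140367152578560) (nat_lit 3) (.t (nat_lit 19140300568002560) (nat_lit 3))) (.at
  (nat_lit 18577417197060096) (nat_lit 4) (.t (nat_lit 18577350612484096) (nat_lit 4))))))))))))))))
  (.mw (nat_lit 256) (.add (.add (.add (.at (nat_lit 11258999370416128) (nat_lit 9) (.t (nat_lit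
  11821949325934592) (nat_lit 8))) (.at (nat_lit 8444249592823808) (nat_lit 14) (.t (nat_lit
  9007199288295424) (nat_lit 13)))) (.add (.at (nat_lit 10133099719426048) (nat_lit 11) (.t (nat_lit
  10696049674944512) (nat_lit 10))) (.at (nat_lit 7881299637305344) (nat_lit 15) (.t (nat_lit
  9570149243813888) (nat_lit 12))))) (.mul (nat_lit 2) (.add (.add (.add (.add (.at (nat_lit
  11821949585981440) (nat_lit 8) (.t (nat_lit 12384899541499904) (nat_lit 7))) (.at (nat_lit
  10696049154850816) (nat_lit 10) (.t (nat_lit 11258999110369280) (nat_lit 9)))) (.at (nat_lit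
  9570149503860736) (nat_lit 12) (.t (nat_lit 10133099459379200) (nat_lit 11)))) (.at (nat_lit
  8444249852870656) (nat_lit 14) (.t (nat_lit 9007199808389120) (nat_lit 13)))) (.at (nat_lit
  7318349421740032) (nat_lit 16) (.t (nat_lit 7881299377258496) (nat_lit 15)))))))))))) (.mw
  (nat_lit 128) (.add (.add (.add (.at (nat_lit 14073749928148992) (nat_lit 8) (.at (nat_lit
  15199649839185920) (nat_lit 6) (.at (nat_lit 15199649579139072) (nat_lit 6) (.add (.fold (nat_lit
  7) (.mul (nat_lit 2) (.add (.add (.add (.at (nat_lit 14636733175955456) (nat_lit 7) (.t (nat_lit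
  15199683131473920) (nat_lit 6))) (.at (nat_lit 14073749668102144) (nat_lit 8) (.t (nat_lit
  14636699623620608) (nat_lit 7)))) (.add (.add (.at (nat_lit 15762633607086080) (nat_lit 5) (.t
  (nat_lit 16325583562604544) (nat_lit 4))) (.at (nat_lit 14073783740530688) (nat_lit 8) (.t
  (nat_lit 14636733696049152) (nat_lit 7)))) (.add (.at (nat_lit 15199650099232768) (nat_lit 6) (.t
  (nat_lit 15762600054751232) (nat_lit 5))) (.at (nat_lit 13510800232677376) (nat_lit 9) (.t
  (nat_lit 14073750188195840) (nat_lit 8)))))) (.add (.at (nat_lit 12947883309400064) (nat_lit 10)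
  (.t (nat_lit 13510833264918528) (nat_lit 9))) (.at (nat_lit 12384899801546752) (nat_lit 11) (.t
  (nat_lit 12947849757065216) (nat_lit 10))))))) (.at (nat_lit 15199650359279616) (nat_lit 6) (.t
  (nat_lit 16888500225835008) (nat_lit 3))))))) (.at (nat_lit 15762633347039232) (nat_lit 5) (.at
  (nat_lit 15199683391520768) (nat_lit 6) (.at (nat_lit 13510833524965376) (nat_lit 9) (.t (nat_lit
  14073783480483840) (nat_lit 8)))))) (.add (.at (nat_lit 13510799712583680) (nat_lit 9) (.t
  (nat_lit 14636699363573760) (nat_lit 7))) (.add (.at (nat_lit 13510798932443136) (nat_lit 9) (.t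
  (nat_lit 15762599794704384) (nat_lit 5))) (.at (nat_lit 14636699883667456) (nat_lit 7) (.at
  (nat_lit 12947850017112064) (nat_lit 10) (.t (nat_lit 13510799972630528) (nat_lit 9))))))) (.at
  (nat_lit 11821949065887744) (nat_lit 12) (.t (nat_lit 12947849497018368) (nat_lit 10))))))))) (.mv
  (nat_lit 5) (.add (.add (.at (nat_lit 16325550010269696) (nat_lit 6) (.add (.at (nat_lit
  16888533518123008) (nat_lit 5) (.at (nat_lit 17451450441400320) (nat_lit 4) (.at (nat_lit
  17451449921306624) (nat_lit 4) (.add (.add (.fold (nat_lit 5) (.add (.add (.at (nat_lit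
  18014400396918784) (nat_lit 3) (.add (.add (.at (nat_lit 16325549750222848) (nat_lit 6) (.t
  (nat_lit 16888499705741312) (nat_lit 5))) (.at (nat_lit 15199717463949312) (nat_lit 8) (.t
  (nat_lit 15762667419467776) (nat_lit 7)))) (.add (.at (nat_lit 14073748887961600) (nat_lit 10) (.t
  (nat_lit 14636698843480064) (nat_lit 9))) (.at (nat_lit 14073750448242688) (nat_lit 10) (.t
  (nat_lit 14636700403761152) (nat_lit 9)))))) (.mw (nat_lit 128) (.add (.add (.at (nat_lit
  10696049674944512) (nat_lit 12) (.at (nat_lit 11821950106075136) (nat_lit 10) (.add (.add (.fold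
  (nat_lit 9) (.add (.add (.at (nat_lit 11821949585981440) (nat_lit 10) (.t (nat_lit
  12384899541499904) (nat_lit 9))) (.at (nat_lit 10696049154850816) (nat_lit 12) (.t (nat_lit
  11258999110369280) (nat_lit 11)))) (.mul (nat_lit 2) (.add (.at (nat_lit 11258999630462976)
  (nat_lit 11) (.add (.add (.at (nat_lit 12384900061593600) (nat_lit 9) (.t (nat_lit
  14073749928148992) (nat_lit 6))) (.at (nat_lit 11821949065887744) (nat_lit 10) (.t (nat_lit
  12947849497018368) (nat_lit 8)))) (.add (.add (.at (nat_lit 12947883309400064) (nat_lit 8) (.t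
  (nat_lit 13510833264918528) (nat_lit 7))) (.at (nat_lit 12384899801546752) (nat_lit 9) (.t
  (nat_lit 12947849757065216) (nat_lit 8)))) (.at (nat_lit 11258999890509824) (nat_lit 11) (.t
  (nat_lit 11821983398363136) (nat_lit 10)))))) (.at (nat_lit 11259033442844672) (nat_lit 11) (.at
  (nat_lit 10133099199332352) (nat_lit 13) (.t (nat_lit 10696049934991360) (nat_lit 12)))))))) (.at
  (nat_lit 14636699883667456) (nat_lit 5) (.at (nat_lit 12947850017112064) (nat_lit 8) (.t (nat_lit
  13510799972630528) (nat_lit 7))))) (.at (nat_lit 12384899021406208) (nat_lit 9) (.t (nat_lit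
  13510799452536832) (nat_lit 7)))))) (.at (nat_lit 9570149243813888) (nat_lit 14) (.at (nat_lit
  9570150023954432) (nat_lit 14) (.t (nat_lit 10133133531807744) (nat_lit 13))))) (.add (.at
  (nat_lit 14636733175955456) (nat_lit 5) (.t (nat_lit 15199683131473920) (nat_lit 4))) (.add (.at
  (nat_lit 14073749668102144) (nat_lit 6) (.t (nat_lit 14636699623620608) (nat_lit 5))) (.at
  (nat_lit 9007200068435968) (nat_lit 15) (.t (nat_lit 9570183576289280) (nat_lit 14)))))))) (.mw
  (nat_lit 256) (.at (nat_lit 3940649688629248) (nat_lit 20) (.at (nat_lit 4503599644147712)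
  (nat_lit 19) (.add (.at (nat_lit 10696049154850816) (nat_lit 8) (.t (nat_lit 11258999110369280)
  (nat_lit 7))) (.at (nat_lit 7318349421740032) (nat_lit 14) (.t (nat_lit 7881299377258496) (nat_lit
  13))))))))) (.mul (nat_lit 2) (.fold (nat_lit 5) (.at (nat_lit 14636699623620608) (nat_lit 9)
  (.add (.add (.at (nat_lit 15762600054751232) (nat_lit 7) (.at (nat_lit 16325583562604544) (nat_lit
  6) (.add (.add (.at (nat_lit 17451483993735168) (nat_lit 4) (.t (nat_lit 17451483473641472)
  (nat_lit 4))) (.at (nat_lit 16888500485881856) (nat_lit 5) (.t (nat_lit 18577383904772096)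
  (nat_lit 2)))) (.at (nat_lit 16325583822651392) (nat_lit 6) (.t (nat_lit 16888533778169856)
  (nat_lit 5)))))) (.at (nat_lit 15199683131473920) (nat_lit 8) (.t (nat_lit 16325583042510848)
  (nat_lit 6)))) (.add (.at (nat_lit 18577383644725248) (nat_lit 2) (.at (nat_lit 18014433689206784)
  (nat_lit 3) (.t (nat_lit 18577350352437248) (nat_lit 2)))) (.add (.at (nat_lit 15199683911614464)
  (nat_lit 8) (.t (nat_lit 15199649059045376) (nat_lit 8))) (.at (nat_lit 14636733956096000)
  (nat_lit 9) (.t (nat_lit 14636699103526912) (nat_lit 9)))))))))) (.add (.at (nat_lit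
  19140367152578560) (nat_lit 1) (.t (nat_lit 19140300568002560) (nat_lit 1))) (.at (nat_lit
  18577417197060096) (nat_lit 2) (.t (nat_lit 18577350612484096) (nat_lit 2)))))))) (.at (nat_lit
  18014433949253632) (nat_lit 3) (.at (nat_lit 17451517286023168) (nat_lit 4) (.at (nat_lit
  16325550270316544) (nat_lit 6) (.t (nat_lit 17451450181353472) (nat_lit 4))))))) (.add (.at
  (nat_lit 16888567330504704) (nat_lit 5) (.t (nat_lit 18014400136871936) (nat_lit 3))) (.at
  (nat_lit 15762600314798080) (nat_lit 7) (.t (nat_lit 16325549490176000) (nat_lit 6))))) (.at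
  (nat_lit 15199649579139072) (nat_lit 8) (.t (nat_lit 15762633086992384) (nat_lit 7))))))) (.mv
  (nat_lit 7) (.add (.add (.add (.add (.at (nat_lit 16888533258076160) (nat_lit 3) (.at (nat_lit
  16888499705741312) (nat_lit 3) (.add (.fold (nat_lit 7) (.add (.add (.add (.add (.add (.add (.at
  (nat_lit 15762633607086080) (nat_lit 5) (.t (nat_lit 16325583562604544) (nat_lit 4))) (.at
  (nat_lit 14073783740530688) (nat_lit 8) (.t (nat_lit 14636733696049152) (nat_lit 7)))) (.add (.at
  (nat_lit 15199650099232768) (nat_lit 6) (.t (nat_lit 15762600054751232) (nat_lit 5))) (.at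
  (nat_lit 13510800232677376) (nat_lit 9) (.t (nat_lit 14073750188195840) (nat_lit 8))))) (.at
  (nat_lit 15762599534657536) (nat_lit 5) (.at (nat_lit 12384899281453056) (nat_lit 11) (.t (nat_lit
  12947849497018368) (nat_lit 10))))) (.at (nat_lit 11821950106075136) (nat_lit 12) (.at (nat_lit
  15199649579139072) (nat_lit 6) (.t (nat_lit 15762633086992384) (nat_lit 5))))) (.at (nat_lit
  14073749148008448) (nat_lit 8) (.add (.at (nat_lit 13510799712583680) (nat_lit 9) (.t (nat_lit
  14073783220436992) (nat_lit 8))) (.at (nat_lit 11821949846028288) (nat_lit 12) (.t (nat_lit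
  12384933353881600) (nat_lit 11)))))) (.mw (nat_lit 128) (.add (.at (nat_lit 7318349941833728)
  (nat_lit 16) (.add (.add (.at (nat_lit 11258999630462976) (nat_lit 9) (.at (nat_lit
  11821949325934592) (nat_lit 8) (.add (.fold (nat_lit 11) (.add (.add (.at (nat_lit
  10133099719426048) (nat_lit 11) (.t (nat_lit 10696049674944512) (nat_lit 10))) (.at (nat_lit
  7881299637305344) (nat_lit 15) (.t (nat_lit 9570149243813888) (nat_lit 12)))) (.mul (nat_lit 2)
  (.add (.add (.at (nat_lit 7881299897352192) (nat_lit 15) (.at (nat_lit 8444249852870656) (nat_lit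
  14) (.at (nat_lit 9007199548342272) (nat_lit 13) (.add (.at (nat_lit 11258999110369280) (nat_lit
  9) (.add (.at (nat_lit 12384899541499904) (nat_lit 7) (.t (nat_lit 12947849236971520) (nat_lit
  6))) (.at (nat_lit 11821949065887744) (nat_lit 8) (.t (nat_lit 12947849497018368) (nat_lit 6)))))
  (.at (nat_lit 9570149503860736) (nat_lit 12) (.t (nat_lit 10133099459379200) (nat_lit 11)))))))
  (.at (nat_lit 6755399466221568) (nat_lit 17) (.t (nat_lit 10696049414897664) (nat_lit 10)))) (.at
  (nat_lit 6755399726268416) (nat_lit 17) (.t (nat_lit 7318349421740032) (nat_lit 16))))))) (.at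
  (nat_lit 12384899281453056) (nat_lit 7) (.at (nat_lit 12384899021406208) (nat_lit 7) (.t (nat_lit
  13510799452536832) (nat_lit 5))))))) (.at (nat_lit 8444249332776960) (nat_lit 14) (.t (nat_lit
  9570149763907584) (nat_lit 12)))) (.at (nat_lit 7318349681786880) (nat_lit 16) (.t (nat_lit
  10133099199332352) (nat_lit 11))))) (.at (nat_lit 6192449510703104) (nat_lit 18) (.t (nat_lit
  9007199288295424) (nat_lit 13))))))) (.mul (nat_lit 2) (.fold (nat_lit 7) (.add (.at (nat_lit
  12384900321640448) (nat_lit 11) (.at (nat_lit 12384900061593600) (nat_lit 11) (.at (nat_lit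
  12947883829493760) (nat_lit 10) (.add (.add (.add (.at (nat_lit 16325583042510848) (nat_lit 4)
  (.at (nat_lit 16325549490176000) (nat_lit 4) (.at (nat_lit 16888499965788160) (nat_lit 3) (.at
  (nat_lit 16325583302557696) (nat_lit 4) (.t (nat_lit 16325549750222848) (nat_lit 4)))))) (.at
  (nat_lit 14636700143714304) (nat_lit 7) (.t (nat_lit 16325550010269696) (nat_lit 4)))) (.at
  (nat_lit 17451483473641472) (nat_lit 2) (.at (nat_lit 15762633347039232) (nat_lit 5) (.at (nat_lit
  15199683391520768) (nat_lit 6) (.at (nat_lit 13510833524965376) (nat_lit 9) (.t (nat_lit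
  14073783480483840) (nat_lit 8))))))) (.at (nat_lit 12947883569446912) (nat_lit 10) (.t (nat_lit
  14636733436002304) (nat_lit 7))))))) (.at (nat_lit 11258999890509824) (nat_lit 13) (.t (nat_lit
  11821983398363136) (nat_lit 12))))))))) (.at (nat_lit 15199649319092224) (nat_lit 6) (.t (nat_lit
  15762599274610688) (nat_lit 5)))) (.at (nat_lit 15199683651567616) (nat_lit 6) (.t (nat_lit
  16888533518123008) (nat_lit 3)))) (.at (nat_lit 14636733175955456) (nat_lit 7) (.t (nat_lit
  15199683131473920) (nat_lit 6)))) (.add (.at (nat_lit 12384933613928448) (nat_lit 11) (.at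
  (nat_lit 12947850277158912) (nat_lit 10) (.add (.at (nat_lit 13510833785012224) (nat_lit 9) (.at
  (nat_lit 14636699363573760) (nat_lit 7) (.at (nat_lit 13510799452536832) (nat_lit 9) (.t (nat_lit
  14073749408055296) (nat_lit 8))))) (.at (nat_lit 12947883309400064) (nat_lit 10) (.t (nat_lit
  13510833264918528) (nat_lit 9)))))) (.at (nat_lit 11821949585981440) (nat_lit 12) (.t (nat_lit
  12384899541499904) (nat_lit 11)))))))) (.mv (nat_lit 1) (.add (.fold (nat_lit 1) (.add (.add
  (.fold (nat_lit 1) (.mw (nat_lit 256) (.add (.mul (nat_lit 8) (.fold (nat_lit 9) (.add (.add (.at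
  (nat_lit 13510799712583680) (nat_lit 7) (.t (nat_lit 14073783220436992) (nat_lit 6))) (.mul
  (nat_lit 2) (.at (nat_lit 11821949846028288) (nat_lit 10) (.t (nat_lit 12384933353881600) (nat_lit
  9))))) (.at (nat_lit 10133099979472896) (nat_lit 13) (.t (nat_lit 10696083487326208) (nat_lit
  12)))))) (.mul (nat_lit 3) (.add (.at (nat_lit 9570150023954432) (nat_lit 14) (.t (nat_lit
  10133133531807744) (nat_lit 13))) (.add (.at (nat_lit 14636733175955456) (nat_lit 5) (.t (nat_lit
  15199683131473920) (nat_lit 4))) (.add (.at (nat_lit 14073749668102144) (nat_lit 6) (.t (nat_lit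
  14636699623620608) (nat_lit 5))) (.at (nat_lit 9007200068435968) (nat_lit 15) (.t (nat_lit
  9570183576289280) (nat_lit 14)))))))))) (.mw (nat_lit 384) (.add (.fold (nat_lit 13) (.add (.mul
  (nat_lit 5) (.add (.at (nat_lit 6755399466221568) (nat_lit 15) (.t (nat_lit 8444249332776960)
  (nat_lit 12))) (.at (nat_lit 3377699733110784) (nat_lit 21) (.t (nat_lit 11821949065887744)
  (nat_lit 6))))) (.mul (nat_lit 3) (.at (nat_lit 2251799822073856) (nat_lit 23) (.at (nat_lit
  12947848976924672) (nat_lit 4) (.at (nat_lit 2814749777592320) (nat_lit 22) (.t (nat_lit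
  12384899021406208) (nat_lit 5)))))))) (.mul (nat_lit 8) (.fold (nat_lit 13) (.add (.at (nat_lit
  1688849866555392) (nat_lit 24) (.t (nat_lit 13510798932443136) (nat_lit 3))) (.mul (nat_lit 3)
  (.at (nat_lit 562949955518464) (nat_lit 26) (.at (nat_lit 1125899911036928) (nat_lit 25) (.at
  (nat_lit 5629499555184640) (nat_lit 17) (.add (.at (nat_lit 9570149243813888) (nat_lit 10) (.at
  (nat_lit 14073748887961600) (nat_lit 2) (.t (nat_lit 14636698843480064) (nat_lit 1)))) (.add (.at
  (nat_lit 7318349421740032) (nat_lit 14) (.t (nat_lit 7881299377258496) (nat_lit 13))) (.at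
  (nat_lit 6192449510703104) (nat_lit 16) (.t (nat_lit 9007199288295424) (nat_lit 11)))))))))))))))
  (.mw (nat_lit 128) (.add (.add (.at (nat_lit 16325617374986240) (nat_lit 6) (.at (nat_lit
  18014467241541632) (nat_lit 3) (.add (.mul (nat_lit 3) (.fold (nat_lit 5) (.add (.add (.add (.add
  (.at (nat_lit 19140367152578560) (nat_lit 1) (.t (nat_lit 19140300568002560) (nat_lit 1))) (.at
  (nat_lit 18577417197060096) (nat_lit 2) (.t (nat_lit 18577350612484096) (nat_lit 2)))) (.at
  (nat_lit 16325583822651392) (nat_lit 6) (.t (nat_lit 16888533778169856) (nat_lit 5)))) (.at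
  (nat_lit 15199649319092224) (nat_lit 8) (.t (nat_lit 15762599274610688) (nat_lit 7)))) (.add (.add
  (.at (nat_lit 16325549750222848) (nat_lit 6) (.t (nat_lit 16888499705741312) (nat_lit 5))) (.at
  (nat_lit 15199717463949312) (nat_lit 8) (.t (nat_lit 15762667419467776) (nat_lit 7)))) (.add (.at
  (nat_lit 14073748887961600) (nat_lit 10) (.t (nat_lit 14636698843480064) (nat_lit 9))) (.at
  (nat_lit 14073750448242688) (nat_lit 10) (.t (nat_lit 14636700403761152) (nat_lit 9)))))))) (.mul
  (nat_lit 6) (.fold (nat_lit 5) (.add (.add (.add (.add (.at (nat_lit 16888499965788160) (nat_lit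
  5) (.t (nat_lit 17451449921306624) (nat_lit 4))) (.at (nat_lit 17451517286023168) (nat_lit 4) (.at
  (nat_lit 16325550270316544) (nat_lit 6) (.t (nat_lit 17451450181353472) (nat_lit 4))))) (.add (.at
  (nat_lit 16888567330504704) (nat_lit 5) (.t (nat_lit 18014400136871936) (nat_lit 3))) (.at
  (nat_lit 15762600314798080) (nat_lit 7) (.t (nat_lit 16325549490176000) (nat_lit 6))))) (.at
  (nat_lit 15762599534657536) (nat_lit 7) (.t (nat_lit 18014400396918784) (nat_lit 3)))) (.add (.at
  (nat_lit 18577383644725248) (nat_lit 2) (.at (nat_lit 18014433689206784) (nat_lit 3) (.t (nat_lit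
  18577350352437248) (nat_lit 2)))) (.add (.at (nat_lit 15199683911614464) (nat_lit 8) (.t (nat_lit
  15199649059045376) (nat_lit 8))) (.at (nat_lit 14636733956096000) (nat_lit 9) (.t (nat_lit
  14636699103526912) (nat_lit 9))))))))))) (.mul (nat_lit 2) (.at (nat_lit 15762633867132928)
  (nat_lit 7) (.t (nat_lit 17451483733688320) (nat_lit 4))))) (.at (nat_lit 15199650359279616)
  (nat_lit 8) (.t (nat_lit 16888500225835008) (nat_lit 5))))))) (.mul (nat_lit 8) (.at (nat_lit
  20829184246939648) (nat_lit 2) (.t (nat_lit 21392167754792960) (nat_lit 1))))))) (.mw (nat_lit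
  128) (.add (.mul (nat_lit 8) (.fold (nat_lit 4) (.add (.at (nat_lit 16888499445694464) (nat_lit 6)
  (.t (nat_lit 18577350092390400) (nat_lit 3))) (.mul (nat_lit 3) (.add (.at (nat_lit
  19140300307955712) (nat_lit 2) (.t (nat_lit 19703250523521024) (nat_lit 1))) (.at (nat_lit
  15762599014563840) (nat_lit 8) (.t (nat_lit 16325549230129152) (nat_lit 7)))))))) (.mul (nat_lit
  3) (.at (nat_lit 17451449661259776) (nat_lit 5) (.t (nat_lit 18014399876825088) (nat_lit 4))))))))
  (.mv (nat_lit 4) (.add (.add (.at (nat_lit 17451483733688320) (nat_lit 5) (.at (nat_lit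
  18014467501588480) (nat_lit 4) (.at (nat_lit 18577417197060096) (nat_lit 3) (.at (nat_lit
  19140367412625408) (nat_lit 2) (.fold (nat_lit 4) (.add (.add (.mul (nat_lit 2) (.fold (nat_lit 4)
  (.add (.add (.at (nat_lit 16888533778169856) (nat_lit 6) (.at (nat_lit 16888500225835008) (nat_lit
  6) (.add (.at (nat_lit 17451483993735168) (nat_lit 5) (.add (.at (nat_lit 18014467241541632)
  (nat_lit 4) (.add (.at (nat_lit 18577417457106944) (nat_lit 3) (.t (nat_lit 19140333860290560)
  (nat_lit 2))) (.at (nat_lit 18014433689206784) (nat_lit 4) (.t (nat_lit 18577350352437248)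
  (nat_lit 3))))) (.at (nat_lit 17451449661259776) (nat_lit 5) (.t (nat_lit 18014399876825088)
  (nat_lit 4))))) (.at (nat_lit 17451483213594624) (nat_lit 5) (.at (nat_lit 16888533258076160)
  (nat_lit 6) (.t (nat_lit 17451450441400320) (nat_lit 5))))))) (.at (nat_lit 16325549750222848)
  (nat_lit 7) (.t (nat_lit 16888499705741312) (nat_lit 6)))) (.add (.at (nat_lit 19140300307955712)
  (nat_lit 2) (.t (nat_lit 19703250523521024) (nat_lit 1))) (.at (nat_lit 15762599014563840)
  (nat_lit 8) (.t (nat_lit 16325549230129152) (nat_lit 7))))))) (.at (nat_lit 18014433949253632)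
  (nat_lit 4) (.at (nat_lit 17451517286023168) (nat_lit 5) (.at (nat_lit 16325550270316544) (nat_lit
  7) (.t (nat_lit 17451450181353472) (nat_lit 5)))))) (.mw (nat_lit 256) (.at (nat_lit
  6192449510703104) (nat_lit 17) (.add (.add (.add (.add (.at (nat_lit 10133099459379200) (nat_lit
  10) (.at (nat_lit 10696049154850816) (nat_lit 9) (.t (nat_lit 11258999370416128) (nat_lit 8))))
  (.at (nat_lit 8444249332776960) (nat_lit 13) (.t (nat_lit 9007199548342272) (nat_lit 12)))) (.at
  (nat_lit 7881299637305344) (nat_lit 14) (.t (nat_lit 9570149243813888) (nat_lit 11)))) (.at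
  (nat_lit 6755399726268416) (nat_lit 16) (.t (nat_lit 7318349421740032) (nat_lit 15)))) (.mul
  (nat_lit 2) (.add (.add (.at (nat_lit 7881299377258496) (nat_lit 14) (.at (nat_lit
  9570149503860736) (nat_lit 11) (.at (nat_lit 8444249592823808) (nat_lit 13) (.t (nat_lit
  9007199288295424) (nat_lit 12))))) (.at (nat_lit 7318349681786880) (nat_lit 15) (.t (nat_lit
  10133099199332352) (nat_lit 10)))) (.at (nat_lit 6755399466221568) (nat_lit 16) (.t (nat_lit
  10696049414897664) (nat_lit 9)))))))))))))) (.at (nat_lit 16888500485881856) (nat_lit 6) (.t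
  (nat_lit 18577383904772096) (nat_lit 3)))) (.mw (nat_lit 128) (.add (.at (nat_lit
  11821950106075136) (nat_lit 11) (.at (nat_lit 12384933613928448) (nat_lit 10) (.add (.at (nat_lit
  14073749668102144) (nat_lit 7) (.fold (nat_lit 8) (.add (.add (.at (nat_lit 15199649839185920)
  (nat_lit 5) (.at (nat_lit 15199683391520768) (nat_lit 5) (.at (nat_lit 13510833524965376) (nat_lit
  8) (.t (nat_lit 14073783480483840) (nat_lit 7))))) (.mul (nat_lit 2) (.add (.add (.add (.at
  (nat_lit 12947883569446912) (nat_lit 9) (.t (nat_lit 14636733436002304) (nat_lit 6))) (.at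
  (nat_lit 14636699883667456) (nat_lit 6) (.at (nat_lit 12947850017112064) (nat_lit 9) (.t (nat_lit
  13510799972630528) (nat_lit 8))))) (.at (nat_lit 12384900061593600) (nat_lit 10) (.t (nat_lit
  14073749928148992) (nat_lit 7)))) (.add (.at (nat_lit 13510799712583680) (nat_lit 8) (.t (nat_lit
  14073783220436992) (nat_lit 7))) (.at (nat_lit 11821949846028288) (nat_lit 11) (.t (nat_lit
  12384933353881600) (nat_lit 10))))))) (.add (.add (.at (nat_lit 12947883309400064) (nat_lit 9) (.t
  (nat_lit 13510833264918528) (nat_lit 8))) (.at (nat_lit 12384899801546752) (nat_lit 10) (.t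
  (nat_lit 12947849757065216) (nat_lit 9)))) (.at (nat_lit 11258999890509824) (nat_lit 12) (.t
  (nat_lit 11821983398363136) (nat_lit 11))))))) (.at (nat_lit 12947849236971520) (nat_lit 9) (.t
  (nat_lit 13510799192489984) (nat_lit 8)))))) (.at (nat_lit 14636733175955456) (nat_lit 6) (.at
  (nat_lit 11258999370416128) (nat_lit 12) (.t (nat_lit 11821949325934592) (nat_lit 11))))))))) (.mv
  (nat_lit 16384) (.add (.mul (nat_lit 8) (.fold (nat_lit 13) (.add (.at (nat_lit 5066549599666176)
  (nat_lit 18) (.t (nat_lit 10133099199332352) (nat_lit 9))) (.mul (nat_lit 3) (.add (.at (nat_lit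
  3377699733110784) (nat_lit 21) (.t (nat_lit 11821949065887744) (nat_lit 6))) (.at (nat_lit
  1688849866555392) (nat_lit 24) (.t (nat_lit 13510798932443136) (nat_lit 3)))))))) (.mul (nat_lit
  3) (.at (nat_lit 6755399466221568) (nat_lit 15) (.t (nat_lit 8444249332776960) (nat_lit 12))))))))
  (.mv (nat_lit 6) (.add (.at (nat_lit 16888499705741312) (nat_lit 4) (.add (.add (.add (.fold
  (nat_lit 6) (.add (.add (.add (.at (nat_lit 15762633607086080) (nat_lit 6) (.t (nat_lit
  16325583562604544) (nat_lit 5))) (.at (nat_lit 14073783740530688) (nat_lit 9) (.t (nat_lit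
  14636733696049152) (nat_lit 8)))) (.add (.at (nat_lit 15199650099232768) (nat_lit 7) (.t (nat_lit
  15762600054751232) (nat_lit 6))) (.at (nat_lit 13510800232677376) (nat_lit 10) (.t (nat_lit
  14073750188195840) (nat_lit 9))))) (.mw (nat_lit 128) (.add (.add (.add (.add (.at (nat_lit
  11821949585981440) (nat_lit 9) (.t (nat_lit 12384899541499904) (nat_lit 8))) (.at (nat_lit
  11258999370416128) (nat_lit 10) (.t (nat_lit 11821949325934592) (nat_lit 9)))) (.at (nat_lit
  10133099719426048) (nat_lit 12) (.t (nat_lit 10696049674944512) (nat_lit 11)))) (.at (nat_lit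
  9570149503860736) (nat_lit 13) (.t (nat_lit 10133099459379200) (nat_lit 12)))) (.mul (nat_lit 2)
  (.at (nat_lit 7881299637305344) (nat_lit 16) (.at (nat_lit 8444249592823808) (nat_lit 15) (.add
  (.add (.at (nat_lit 13510799452536832) (nat_lit 6) (.t (nat_lit 14073749408055296) (nat_lit 5)))
  (.at (nat_lit 12947849236971520) (nat_lit 7) (.t (nat_lit 13510799192489984) (nat_lit 6)))) (.at
  (nat_lit 8444249852870656) (nat_lit 15) (.t (nat_lit 9007199808389120) (nat_lit 14)))))))))))
  (.fold (nat_lit 6) (.add (.at (nat_lit 18014433429159936) (nat_lit 2) (.at (nat_lit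
  17451483473641472) (nat_lit 3) (.at (nat_lit 15762633347039232) (nat_lit 6) (.at (nat_lit
  15199683391520768) (nat_lit 7) (.at (nat_lit 13510833524965376) (nat_lit 10) (.t (nat_lit
  14073783480483840) (nat_lit 9))))))) (.mul (nat_lit 2) (.at (nat_lit 12947848976924672) (nat_lit
  11) (.add (.at (nat_lit 14073748887961600) (nat_lit 9) (.at (nat_lit 14636699623620608) (nat_lit
  8) (.add (.at (nat_lit 15762633086992384) (nat_lit 6) (.add (.at (nat_lit 16888500485881856)
  (nat_lit 4) (.at (nat_lit 15762599534657536) (nat_lit 6) (.t (nat_lit 18014400396918784) (nat_lit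
  2)))) (.at (nat_lit 15762633867132928) (nat_lit 6) (.t (nat_lit 17451483733688320) (nat_lit 3)))))
  (.at (nat_lit 15199650359279616) (nat_lit 7) (.t (nat_lit 16888500225835008) (nat_lit 4)))))) (.at
  (nat_lit 13510799712583680) (nat_lit 10) (.t (nat_lit 14073783220436992) (nat_lit 9))))))))) (.at
  (nat_lit 16888499965788160) (nat_lit 4) (.t (nat_lit 17451449921306624) (nat_lit 3)))) (.at
  (nat_lit 17451483213594624) (nat_lit 3) (.at (nat_lit 16888533258076160) (nat_lit 4) (.t (nat_lit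
  17451450441400320) (nat_lit 3)))))) (.add (.at (nat_lit 13510798932443136) (nat_lit 10) (.t
  (nat_lit 15762599794704384) (nat_lit 6))) (.at (nat_lit 14636699883667456) (nat_lit 8) (.at
  (nat_lit 12947850017112064) (nat_lit 11) (.t (nat_lit 13510799972630528) (nat_lit 10)))))))))

/-- compiled program -/
def b14_10 : Prog := fun Y Z c d =>
  (fo Y d (nat_lit 0) (Nat.add (fo Y d (nat_lit 0) (Nat.add (Nat.add (fo Y d (nat_lit 0) (Nat.add
  (Nat.add (fo Y d (nat_lit 0) (Nat.add (fo Y d (nat_lit 0) (Nat.add (fo Y d (nat_lit 0) (Nat.add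
  (fo Y d (nat_lit 0) (Nat.add (fo Y d (nat_lit 0) (Nat.add (fo Y d (nat_lit 0) (Nat.add (ad Z c
  (nat_lit 21955151262646272) (tm Z c (nat_lit 22522396183363584))) (mv Y (nat_lit 8) (Nat.add
  (Nat.add (Nat.add (ad Z c (nat_lit 11259033702891520) (ad Z c (nat_lit 14636699103526912) (Nat.add
  (Nat.mul (nat_lit 2) (fo Y d (nat_lit 8) (ad Z c (nat_lit 10696049414897664) (Nat.add (Nat.add
  (Nat.add (Nat.add (ad Z c (nat_lit 12947848976924672) (Nat.add (Nat.add (ad Z c (nat_lit
  14073749408055296) (ad Z c (nat_lit 14073749668102144) (tm Z c (nat_lit 14636699623620608))))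
  (Nat.add (ad Z c (nat_lit 15199650099232768) (tm Z c (nat_lit 15762600054751232))) (ad Z c
  (nat_lit 13510800232677376) (tm Z c (nat_lit 14073750188195840))))) (ad Z c (nat_lit
  12947883569446912) (tm Z c (nat_lit 14636733436002304))))) (ad Z c (nat_lit 12384899281453056) (ad
  Z c (nat_lit 12384899021406208) (tm Z c (nat_lit 13510799452536832))))) (ad Z c (nat_lit
  12384899801546752) (tm Z c (nat_lit 12947849757065216)))) (ad Z c (nat_lit 14073749148008448)
  (Nat.add (ad Z c (nat_lit 13510799712583680) (tm Z c (nat_lit 14073783220436992))) (ad Z c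
  (nat_lit 11821949846028288) (tm Z c (nat_lit 12384933353881600)))))) (Nat.add (ad Z c (nat_lit
  11821949585981440) (tm Z c (nat_lit 12384899541499904))) (ad Z c (nat_lit 10696049154850816) (tm Z
  c (nat_lit 11258999110369280)))))))) (ad Z c (nat_lit 16325583302557696) (tm Z c (nat_lit
  16325549750222848)))))) (Nat.add (ad Z c (nat_lit 11821950106075136) (ad Z c (nat_lit
  15199649579139072) (tm Z c (nat_lit 15762633086992384)))) (Nat.add (ad Z c (nat_lit
  12384900061593600) (tm Z c (nat_lit 14073749928148992))) (ad Z c (nat_lit 10133099459379200) (tm Z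
  c (nat_lit 10696050195038208)))))) (ad Z c (nat_lit 10133099979472896) (tm Z c (nat_lit
  10696083487326208)))) (mw Y (nat_lit 128) (Nat.mul (nat_lit 2) (ad Z c (nat_lit 5066549599666176)
  (ad Z c (nat_lit 5629499815231488) (Nat.add (ad Z c (nat_lit 11821949065887744) (tm Z c (nat_lit
  12384899281453056))) (ad Z c (nat_lit 8444249332776960) (tm Z c (nat_lit
  9007199548342272)))))))))))) (mv Y (nat_lit 2) (Nat.add (Nat.add (Nat.add (Nat.add (ad Z c
  (nat_lit 20266267323662336) (tm Z c (nat_lit 20829217539227648))) (Nat.mul (nat_lit 2) (ad Z c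
  (nat_lit 19703283815809024) (tm Z c (nat_lit 20266234031374336))))) (ad Z c (nat_lit
  19140300307955712) (tm Z c (nat_lit 19703250523521024)))) (mw Y (nat_lit 128) (ad Z c (nat_lit
  14073749928148992) (ad Z c (nat_lit 14636733436002304) (Nat.add (Nat.add (ad Z c (nat_lit
  15762599794704384) (tm Z c (nat_lit 16325583302557696))) (ad Z c (nat_lit 15199683651567616) (tm Z
  c (nat_lit 16888533518123008)))) (ad Z c (nat_lit 14636700143714304) (tm Z c (nat_lit
  16325550010269696)))))))) (mw Y (nat_lit 256) (ad Z c (nat_lit 9007199548342272) (ad Z c (nat_lit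
  9570149763907584) (Nat.add (ad Z c (nat_lit 12384899281453056) (tm Z c (nat_lit
  12947849497018368))) (Nat.mul (nat_lit 2) (ad Z c (nat_lit 10696049414897664) (tm Z c (nat_lit
  11258999630462976)))))))))))) (mv Y (nat_lit 9) (Nat.add (Nat.add (ad Z c (nat_lit
  11821949065887744) (ad Z c (nat_lit 12384899801546752) (ad Z c (nat_lit 12384899021406208) (ad Z c
  (nat_lit 12947849236971520) (ad Z c (nat_lit 13510833264918528) (Nat.add (fo Y d (nat_lit 9)
  (Nat.add (Nat.add (Nat.add (ad Z c (nat_lit 13510799712583680) (tm Z c (nat_lit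
  14636699363573760))) (Nat.add (ad Z c (nat_lit 13510798932443136) (tm Z c (nat_lit
  15762599794704384))) (ad Z c (nat_lit 14636699883667456) (ad Z c (nat_lit 12947850017112064) (tm Z
  c (nat_lit 13510799972630528)))))) (Nat.add (ad Z c (nat_lit 11821950106075136) (ad Z c (nat_lit
  15199649579139072) (tm Z c (nat_lit 15762633086992384)))) (Nat.add (ad Z c (nat_lit
  12384900061593600) (tm Z c (nat_lit 14073749928148992))) (ad Z c (nat_lit 10133099459379200) (tm Z
  c (nat_lit 10696050195038208)))))) (mw Y (nat_lit 128) (Nat.add (Nat.add (Nat.add (ad Z c (nat_lit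
  3940649688629248) (tm Z c (nat_lit 11258999110369280))) (ad Z c (nat_lit 3377699733110784) (tm Z c
  (nat_lit 11821949065887744)))) (ad Z c (nat_lit 2814749777592320) (tm Z c (nat_lit
  12384899021406208)))) (Nat.mul (nat_lit 2) (Nat.add (Nat.add (ad Z c (nat_lit 7318349421740032)
  (tm Z c (nat_lit 7881299377258496))) (ad Z c (nat_lit 6192449510703104) (tm Z c (nat_lit
  9007199288295424)))) (ad Z c (nat_lit 1688849866555392) (tm Z c (nat_lit
  13510798932443136))))))))) (Nat.mul (nat_lit 2) (fo Y d (nat_lit 9) (ad Z c (nat_lit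
  7881300157399040) (ad Z c (nat_lit 8444283665252352) (Nat.add (Nat.add (Nat.add (ad Z c (nat_lit
  11821949846028288) (Nat.add (ad Z c (nat_lit 12947849757065216) (ad Z c (nat_lit
  14073783220436992) (ad Z c (nat_lit 15199683131473920) (tm Z c (nat_lit 16325583042510848))))) (ad
  Z c (nat_lit 15762599534657536) (ad Z c (nat_lit 12384899281453056) (tm Z c (nat_lit
  12947849497018368)))))) (ad Z c (nat_lit 10696049414897664) (tm Z c (nat_lit 11258999630462976))))
  (ad Z c (nat_lit 10133099979472896) (tm Z c (nat_lit 10696083487326208)))) (Nat.add (ad Z c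
  (nat_lit 14073749668102144) (tm Z c (nat_lit 14636699623620608))) (ad Z c (nat_lit
  9007200068435968) (tm Z c (nat_lit 9570183576289280))))))))))))))) (ad Z c (nat_lit
  14636733175955456) (ad Z c (nat_lit 11258999370416128) (tm Z c (nat_lit 11821949325934592))))) (ad
  Z c (nat_lit 8444250112917504) (Nat.add (ad Z c (nat_lit 9007233620770816) (Nat.add (Nat.add (ad Z
  c (nat_lit 11258999890509824) (ad Z c (nat_lit 10696049154850816) (tm Z c (nat_lit
  11258999110369280)))) (ad Z c (nat_lit 11259033442844672) (ad Z c (nat_lit 10133099199332352) (tm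
  Z c (nat_lit 10696049934991360))))) (ad Z c (nat_lit 9570149243813888) (ad Z c (nat_lit
  9570150023954432) (tm Z c (nat_lit 10133133531807744)))))) (ad Z c (nat_lit 8444249332776960) (tm
  Z c (nat_lit 9570149763907584))))))))) (mv Y (nat_lit 3) (Nat.add (ad Z c (nat_lit
  18014400396918784) (ad Z c (nat_lit 18577350092390400) (ad Z c (nat_lit 19140367412625408) (fo Y d
  (nat_lit 3) (Nat.add (ad Z c (nat_lit 19140334120337408) (ad Z c (nat_lit 19140333600243712) (ad Z
  c (nat_lit 19703317368143872) (fo Y d (nat_lit 3) (Nat.add (ad Z c (nat_lit 19703284075855872) (ad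
  Z c (nat_lit 18577383644725248) (ad Z c (nat_lit 18014433689206784) (tm Z c (nat_lit
  18577350352437248))))) (Nat.mul (nat_lit 2) (ad Z c (nat_lit 17451450181353472) (ad Z c (nat_lit
  18014400136871936) (ad Z c (nat_lit 18014399876825088) (ad Z c (nat_lit 18577383904772096) (ad Z c
  (nat_lit 18577383384678400) (Nat.add (ad Z c (nat_lit 19140333860290560) (ad Z c (nat_lit
  19140300307955712) (ad Z c (nat_lit 19703317628190720) (ad Z c (nat_lit 19703283815809024) (tm Z c
  (nat_lit 20266267583709184)))))) (Nat.add (ad Z c (nat_lit 19140367152578560) (tm Z c (nat_lit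
  19140300568002560))) (ad Z c (nat_lit 18577417197060096) (tm Z c (nat_lit
  18577350612484096)))))))))))))))) (mw Y (nat_lit 256) (Nat.add (Nat.add (Nat.add (ad Z c (nat_lit
  11258999370416128) (tm Z c (nat_lit 11821949325934592))) (ad Z c (nat_lit 8444249592823808) (tm Z
  c (nat_lit 9007199288295424)))) (Nat.add (ad Z c (nat_lit 10133099719426048) (tm Z c (nat_lit
  10696049674944512))) (ad Z c (nat_lit 7881299637305344) (tm Z c (nat_lit 9570149243813888)))))
  (Nat.mul (nat_lit 2) (Nat.add (Nat.add (Nat.add (Nat.add (ad Z c (nat_lit 11821949585981440) (tm Z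
  c (nat_lit 12384899541499904))) (ad Z c (nat_lit 10696049154850816) (tm Z c (nat_lit
  11258999110369280)))) (ad Z c (nat_lit 9570149503860736) (tm Z c (nat_lit 10133099459379200))))
  (ad Z c (nat_lit 8444249852870656) (tm Z c (nat_lit 9007199808389120)))) (ad Z c (nat_lit
  7318349421740032) (tm Z c (nat_lit 7881299377258496)))))))))))) (mw Y (nat_lit 128) (Nat.add
  (Nat.add (Nat.add (ad Z c (nat_lit 14073749928148992) (ad Z c (nat_lit 15199649839185920) (ad Z c
  (nat_lit 15199649579139072) (Nat.add (fo Y d (nat_lit 7) (Nat.mul (nat_lit 2) (Nat.add (Nat.add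
  (Nat.add (ad Z c (nat_lit 14636733175955456) (tm Z c (nat_lit 15199683131473920))) (ad Z c
  (nat_lit 14073749668102144) (tm Z c (nat_lit 14636699623620608)))) (Nat.add (Nat.add (ad Z c
  (nat_lit 15762633607086080) (tm Z c (nat_lit 16325583562604544))) (ad Z c (nat_lit
  14073783740530688) (tm Z c (nat_lit 14636733696049152)))) (Nat.add (ad Z c (nat_lit
  15199650099232768) (tm Z c (nat_lit 15762600054751232))) (ad Z c (nat_lit 13510800232677376) (tm Z
  c (nat_lit 14073750188195840)))))) (Nat.add (ad Z c (nat_lit 12947883309400064) (tm Z c (nat_lit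
  13510833264918528))) (ad Z c (nat_lit 12384899801546752) (tm Z c (nat_lit 12947849757065216)))))))
  (ad Z c (nat_lit 15199650359279616) (tm Z c (nat_lit 16888500225835008))))))) (ad Z c (nat_lit
  15762633347039232) (ad Z c (nat_lit 15199683391520768) (ad Z c (nat_lit 13510833524965376) (tm Z c
  (nat_lit 14073783480483840)))))) (Nat.add (ad Z c (nat_lit 13510799712583680) (tm Z c (nat_lit
  14636699363573760))) (Nat.add (ad Z c (nat_lit 13510798932443136) (tm Z c (nat_lit
  15762599794704384))) (ad Z c (nat_lit 14636699883667456) (ad Z c (nat_lit 12947850017112064) (tm Z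
  c (nat_lit 13510799972630528))))))) (ad Z c (nat_lit 11821949065887744) (tm Z c (nat_lit
  12947849497018368))))))))) (mv Y (nat_lit 5) (Nat.add (Nat.add (ad Z c (nat_lit 16325550010269696)
  (Nat.add (ad Z c (nat_lit 16888533518123008) (ad Z c (nat_lit 17451450441400320) (ad Z c (nat_lit
  17451449921306624) (Nat.add (Nat.add (fo Y d (nat_lit 5) (Nat.add (Nat.add (ad Z c (nat_lit
  18014400396918784) (Nat.add (Nat.add (ad Z c (nat_lit 16325549750222848) (tm Z c (nat_lit
  16888499705741312))) (ad Z c (nat_lit 15199717463949312) (tm Z c (nat_lit 15762667419467776))))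
  (Nat.add (ad Z c (nat_lit 14073748887961600) (tm Z c (nat_lit 14636698843480064))) (ad Z c
  (nat_lit 14073750448242688) (tm Z c (nat_lit 14636700403761152)))))) (mw Y (nat_lit 128) (Nat.add
  (Nat.add (ad Z c (nat_lit 10696049674944512) (ad Z c (nat_lit 11821950106075136) (Nat.add (Nat.add
  (fo Y d (nat_lit 9) (Nat.add (Nat.add (ad Z c (nat_lit 11821949585981440) (tm Z c (nat_lit
  12384899541499904))) (ad Z c (nat_lit 10696049154850816) (tm Z c (nat_lit 11258999110369280))))
  (Nat.mul (nat_lit 2) (Nat.add (ad Z c (nat_lit 11258999630462976) (Nat.add (Nat.add (ad Z c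
  (nat_lit 12384900061593600) (tm Z c (nat_lit 14073749928148992))) (ad Z c (nat_lit
  11821949065887744) (tm Z c (nat_lit 12947849497018368)))) (Nat.add (Nat.add (ad Z c (nat_lit
  12947883309400064) (tm Z c (nat_lit 13510833264918528))) (ad Z c (nat_lit 12384899801546752) (tm Z
  c (nat_lit 12947849757065216)))) (ad Z c (nat_lit 11258999890509824) (tm Z c (nat_lit
  11821983398363136)))))) (ad Z c (nat_lit 11259033442844672) (ad Z c (nat_lit 10133099199332352)
  (tm Z c (nat_lit 10696049934991360)))))))) (ad Z c (nat_lit 14636699883667456) (ad Z c (nat_lit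
  12947850017112064) (tm Z c (nat_lit 13510799972630528))))) (ad Z c (nat_lit 12384899021406208) (tm
  Z c (nat_lit 13510799452536832)))))) (ad Z c (nat_lit 9570149243813888) (ad Z c (nat_lit
  9570150023954432) (tm Z c (nat_lit 10133133531807744))))) (Nat.add (ad Z c (nat_lit
  14636733175955456) (tm Z c (nat_lit 15199683131473920))) (Nat.add (ad Z c (nat_lit
  14073749668102144) (tm Z c (nat_lit 14636699623620608))) (ad Z c (nat_lit 9007200068435968) (tm Z
  c (nat_lit 9570183576289280)))))))) (mw Y (nat_lit 256) (ad Z c (nat_lit 3940649688629248) (ad Z c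
  (nat_lit 4503599644147712) (Nat.add (ad Z c (nat_lit 10696049154850816) (tm Z c (nat_lit
  11258999110369280))) (ad Z c (nat_lit 7318349421740032) (tm Z c (nat_lit 7881299377258496)))))))))
  (Nat.mul (nat_lit 2) (fo Y d (nat_lit 5) (ad Z c (nat_lit 14636699623620608) (Nat.add (Nat.add (ad
  Z c (nat_lit 15762600054751232) (ad Z c (nat_lit 16325583562604544) (Nat.add (Nat.add (ad Z c
  (nat_lit 17451483993735168) (tm Z c (nat_lit 17451483473641472))) (ad Z c (nat_lit
  16888500485881856) (tm Z c (nat_lit 18577383904772096)))) (ad Z c (nat_lit 16325583822651392) (tm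
  Z c (nat_lit 16888533778169856)))))) (ad Z c (nat_lit 15199683131473920) (tm Z c (nat_lit
  16325583042510848)))) (Nat.add (ad Z c (nat_lit 18577383644725248) (ad Z c (nat_lit
  18014433689206784) (tm Z c (nat_lit 18577350352437248)))) (Nat.add (ad Z c (nat_lit
  15199683911614464) (tm Z c (nat_lit 15199649059045376))) (ad Z c (nat_lit 14636733956096000) (tm Z
  c (nat_lit 14636699103526912)))))))))) (Nat.add (ad Z c (nat_lit 19140367152578560) (tm Z c
  (nat_lit 19140300568002560))) (ad Z c (nat_lit 18577417197060096) (tm Z c (nat_lit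
  18577350612484096)))))))) (ad Z c (nat_lit 18014433949253632) (ad Z c (nat_lit 17451517286023168)
  (ad Z c (nat_lit 16325550270316544) (tm Z c (nat_lit 17451450181353472))))))) (Nat.add (ad Z c
  (nat_lit 16888567330504704) (tm Z c (nat_lit 18014400136871936))) (ad Z c (nat_lit
  15762600314798080) (tm Z c (nat_lit 16325549490176000))))) (ad Z c (nat_lit 15199649579139072) (tm
  Z c (nat_lit 15762633086992384))))))) (mv Y (nat_lit 7) (Nat.add (Nat.add (Nat.add (Nat.add (ad Z
  c (nat_lit 16888533258076160) (ad Z c (nat_lit 16888499705741312) (Nat.add (fo Y d (nat_lit 7)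
  (Nat.add (Nat.add (Nat.add (Nat.add (Nat.add (Nat.add (ad Z c (nat_lit 15762633607086080) (tm Z c
  (nat_lit 16325583562604544))) (ad Z c (nat_lit 14073783740530688) (tm Z c (nat_lit
  14636733696049152)))) (Nat.add (ad Z c (nat_lit 15199650099232768) (tm Z c (nat_lit
  15762600054751232))) (ad Z c (nat_lit 13510800232677376) (tm Z c (nat_lit 14073750188195840)))))
  (ad Z c (nat_lit 15762599534657536) (ad Z c (nat_lit 12384899281453056) (tm Z c (nat_lit
  12947849497018368))))) (ad Z c (nat_lit 11821950106075136) (ad Z c (nat_lit 15199649579139072) (tm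
  Z c (nat_lit 15762633086992384))))) (ad Z c (nat_lit 14073749148008448) (Nat.add (ad Z c (nat_lit
  13510799712583680) (tm Z c (nat_lit 14073783220436992))) (ad Z c (nat_lit 11821949846028288) (tm Z
  c (nat_lit 12384933353881600)))))) (mw Y (nat_lit 128) (Nat.add (ad Z c (nat_lit 7318349941833728)
  (Nat.add (Nat.add (ad Z c (nat_lit 11258999630462976) (ad Z c (nat_lit 11821949325934592) (Nat.add
  (fo Y d (nat_lit 11) (Nat.add (Nat.add (ad Z c (nat_lit 10133099719426048) (tm Z c (nat_lit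
  10696049674944512))) (ad Z c (nat_lit 7881299637305344) (tm Z c (nat_lit 9570149243813888))))
  (Nat.mul (nat_lit 2) (Nat.add (Nat.add (ad Z c (nat_lit 7881299897352192) (ad Z c (nat_lit
  8444249852870656) (ad Z c (nat_lit 9007199548342272) (Nat.add (ad Z c (nat_lit 11258999110369280)
  (Nat.add (ad Z c (nat_lit 12384899541499904) (tm Z c (nat_lit 12947849236971520))) (ad Z c
  (nat_lit 11821949065887744) (tm Z c (nat_lit 12947849497018368))))) (ad Z c (nat_lit
  9570149503860736) (tm Z c (nat_lit 10133099459379200))))))) (ad Z c (nat_lit 6755399466221568) (tm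
  Z c (nat_lit 10696049414897664)))) (ad Z c (nat_lit 6755399726268416) (tm Z c (nat_lit
  7318349421740032))))))) (ad Z c (nat_lit 12384899281453056) (ad Z c (nat_lit 12384899021406208)
  (tm Z c (nat_lit 13510799452536832))))))) (ad Z c (nat_lit 8444249332776960) (tm Z c (nat_lit
  9570149763907584)))) (ad Z c (nat_lit 7318349681786880) (tm Z c (nat_lit 10133099199332352)))))
  (ad Z c (nat_lit 6192449510703104) (tm Z c (nat_lit 9007199288295424))))))) (Nat.mul (nat_lit 2)
  (fo Y d (nat_lit 7) (Nat.add (ad Z c (nat_lit 12384900321640448) (ad Z c (nat_lit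
  12384900061593600) (ad Z c (nat_lit 12947883829493760) (Nat.add (Nat.add (Nat.add (ad Z c (nat_lit
  16325583042510848) (ad Z c (nat_lit 16325549490176000) (ad Z c (nat_lit 16888499965788160) (ad Z c
  (nat_lit 16325583302557696) (tm Z c (nat_lit 16325549750222848)))))) (ad Z c (nat_lit
  14636700143714304) (tm Z c (nat_lit 16325550010269696)))) (ad Z c (nat_lit 17451483473641472) (ad
  Z c (nat_lit 15762633347039232) (ad Z c (nat_lit 15199683391520768) (ad Z c (nat_lit
  13510833524965376) (tm Z c (nat_lit 14073783480483840))))))) (ad Z c (nat_lit 12947883569446912)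
  (tm Z c (nat_lit 14636733436002304))))))) (ad Z c (nat_lit 11258999890509824) (tm Z c (nat_lit
  11821983398363136))))))))) (ad Z c (nat_lit 15199649319092224) (tm Z c (nat_lit
  15762599274610688)))) (ad Z c (nat_lit 15199683651567616) (tm Z c (nat_lit 16888533518123008))))
  (ad Z c (nat_lit 14636733175955456) (tm Z c (nat_lit 15199683131473920)))) (Nat.add (ad Z c
  (nat_lit 12384933613928448) (ad Z c (nat_lit 12947850277158912) (Nat.add (ad Z c (nat_lit
  13510833785012224) (ad Z c (nat_lit 14636699363573760) (ad Z c (nat_lit 13510799452536832) (tm Z c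
  (nat_lit 14073749408055296))))) (ad Z c (nat_lit 12947883309400064) (tm Z c (nat_lit
  13510833264918528)))))) (ad Z c (nat_lit 11821949585981440) (tm Z c (nat_lit
  12384899541499904)))))))) (mv Y (nat_lit 1) (Nat.add (fo Y d (nat_lit 1) (Nat.add (Nat.add (fo Y d
  (nat_lit 1) (mw Y (nat_lit 256) (Nat.add (Nat.mul (nat_lit 8) (fo Y d (nat_lit 9) (Nat.add
  (Nat.add (ad Z c (nat_lit 13510799712583680) (tm Z c (nat_lit 14073783220436992))) (Nat.mul
  (nat_lit 2) (ad Z c (nat_lit 11821949846028288) (tm Z c (nat_lit 12384933353881600))))) (ad Z c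
  (nat_lit 10133099979472896) (tm Z c (nat_lit 10696083487326208)))))) (Nat.mul (nat_lit 3) (Nat.add
  (ad Z c (nat_lit 9570150023954432) (tm Z c (nat_lit 10133133531807744))) (Nat.add (ad Z c (nat_lit
  14636733175955456) (tm Z c (nat_lit 15199683131473920))) (Nat.add (ad Z c (nat_lit
  14073749668102144) (tm Z c (nat_lit 14636699623620608))) (ad Z c (nat_lit 9007200068435968) (tm Z
  c (nat_lit 9570183576289280)))))))))) (mw Y (nat_lit 384) (Nat.add (fo Y d (nat_lit 13) (Nat.add
  (Nat.mul (nat_lit 5) (Nat.add (ad Z c (nat_lit 6755399466221568) (tm Z c (nat_lit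
  8444249332776960))) (ad Z c (nat_lit 3377699733110784) (tm Z c (nat_lit 11821949065887744)))))
  (Nat.mul (nat_lit 3) (ad Z c (nat_lit 2251799822073856) (ad Z c (nat_lit 12947848976924672) (ad Z
  c (nat_lit 2814749777592320) (tm Z c (nat_lit 12384899021406208)))))))) (Nat.mul (nat_lit 8) (fo Y
  d (nat_lit 13) (Nat.add (ad Z c (nat_lit 1688849866555392) (tm Z c (nat_lit 13510798932443136)))
  (Nat.mul (nat_lit 3) (ad Z c (nat_lit 562949955518464) (ad Z c (nat_lit 1125899911036928) (ad Z c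
  (nat_lit 5629499555184640) (Nat.add (ad Z c (nat_lit 9570149243813888) (ad Z c (nat_lit
  14073748887961600) (tm Z c (nat_lit 14636698843480064)))) (Nat.add (ad Z c (nat_lit
  7318349421740032) (tm Z c (nat_lit 7881299377258496))) (ad Z c (nat_lit 6192449510703104) (tm Z c
  (nat_lit 9007199288295424))))))))))))))) (mw Y (nat_lit 128) (Nat.add (Nat.add (ad Z c (nat_lit
  16325617374986240) (ad Z c (nat_lit 18014467241541632) (Nat.add (Nat.mul (nat_lit 3) (fo Y d
  (nat_lit 5) (Nat.add (Nat.add (Nat.add (Nat.add (ad Z c (nat_lit 19140367152578560) (tm Z c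
  (nat_lit 19140300568002560))) (ad Z c (nat_lit 18577417197060096) (tm Z c (nat_lit
  18577350612484096)))) (ad Z c (nat_lit 16325583822651392) (tm Z c (nat_lit 16888533778169856))))
  (ad Z c (nat_lit 15199649319092224) (tm Z c (nat_lit 15762599274610688)))) (Nat.add (Nat.add (ad Z
  c (nat_lit 16325549750222848) (tm Z c (nat_lit 16888499705741312))) (ad Z c (nat_lit
  15199717463949312) (tm Z c (nat_lit 15762667419467776)))) (Nat.add (ad Z c (nat_lit
  14073748887961600) (tm Z c (nat_lit 14636698843480064))) (ad Z c (nat_lit 14073750448242688) (tm Z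
  c (nat_lit 14636700403761152)))))))) (Nat.mul (nat_lit 6) (fo Y d (nat_lit 5) (Nat.add (Nat.add
  (Nat.add (Nat.add (ad Z c (nat_lit 16888499965788160) (tm Z c (nat_lit 17451449921306624))) (ad Z
  c (nat_lit 17451517286023168) (ad Z c (nat_lit 16325550270316544) (tm Z c (nat_lit
  17451450181353472))))) (Nat.add (ad Z c (nat_lit 16888567330504704) (tm Z c (nat_lit
  18014400136871936))) (ad Z c (nat_lit 15762600314798080) (tm Z c (nat_lit 16325549490176000)))))
  (ad Z c (nat_lit 15762599534657536) (tm Z c (nat_lit 18014400396918784)))) (Nat.add (ad Z c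
  (nat_lit 18577383644725248) (ad Z c (nat_lit 18014433689206784) (tm Z c (nat_lit
  18577350352437248)))) (Nat.add (ad Z c (nat_lit 15199683911614464) (tm Z c (nat_lit
  15199649059045376))) (ad Z c (nat_lit 14636733956096000) (tm Z c (nat_lit
  14636699103526912))))))))))) (Nat.mul (nat_lit 2) (ad Z c (nat_lit 15762633867132928) (tm Z c
  (nat_lit 17451483733688320))))) (ad Z c (nat_lit 15199650359279616) (tm Z c (nat_lit
  16888500225835008))))))) (Nat.mul (nat_lit 8) (ad Z c (nat_lit 20829184246939648) (tm Z c (nat_lit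
  21392167754792960))))))) (mw Y (nat_lit 128) (Nat.add (Nat.mul (nat_lit 8) (fo Y d (nat_lit 4)
  (Nat.add (ad Z c (nat_lit 16888499445694464) (tm Z c (nat_lit 18577350092390400))) (Nat.mul
  (nat_lit 3) (Nat.add (ad Z c (nat_lit 19140300307955712) (tm Z c (nat_lit 19703250523521024))) (ad
  Z c (nat_lit 15762599014563840) (tm Z c (nat_lit 16325549230129152)))))))) (Nat.mul (nat_lit 3)
  (ad Z c (nat_lit 17451449661259776) (tm Z c (nat_lit 18014399876825088)))))))) (mv Y (nat_lit 4)
  (Nat.add (Nat.add (ad Z c (nat_lit 17451483733688320) (ad Z c (nat_lit 18014467501588480) (ad Z c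
  (nat_lit 18577417197060096) (ad Z c (nat_lit 19140367412625408) (fo Y d (nat_lit 4) (Nat.add
  (Nat.add (Nat.mul (nat_lit 2) (fo Y d (nat_lit 4) (Nat.add (Nat.add (ad Z c (nat_lit
  16888533778169856) (ad Z c (nat_lit 16888500225835008) (Nat.add (ad Z c (nat_lit
  17451483993735168) (Nat.add (ad Z c (nat_lit 18014467241541632) (Nat.add (ad Z c (nat_lit
  18577417457106944) (tm Z c (nat_lit 19140333860290560))) (ad Z c (nat_lit 18014433689206784) (tm Z
  c (nat_lit 18577350352437248))))) (ad Z c (nat_lit 17451449661259776) (tm Z c (nat_lit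
  18014399876825088))))) (ad Z c (nat_lit 17451483213594624) (ad Z c (nat_lit 16888533258076160) (tm
  Z c (nat_lit 17451450441400320))))))) (ad Z c (nat_lit 16325549750222848) (tm Z c (nat_lit
  16888499705741312)))) (Nat.add (ad Z c (nat_lit 19140300307955712) (tm Z c (nat_lit
  19703250523521024))) (ad Z c (nat_lit 15762599014563840) (tm Z c (nat_lit 16325549230129152)))))))
  (ad Z c (nat_lit 18014433949253632) (ad Z c (nat_lit 17451517286023168) (ad Z c (nat_lit
  16325550270316544) (tm Z c (nat_lit 17451450181353472)))))) (mw Y (nat_lit 256) (ad Z c (nat_lit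
  6192449510703104) (Nat.add (Nat.add (Nat.add (Nat.add (ad Z c (nat_lit 10133099459379200) (ad Z c
  (nat_lit 10696049154850816) (tm Z c (nat_lit 11258999370416128)))) (ad Z c (nat_lit
  8444249332776960) (tm Z c (nat_lit 9007199548342272)))) (ad Z c (nat_lit 7881299637305344) (tm Z c
  (nat_lit 9570149243813888)))) (ad Z c (nat_lit 6755399726268416) (tm Z c (nat_lit
  7318349421740032)))) (Nat.mul (nat_lit 2) (Nat.add (Nat.add (ad Z c (nat_lit 7881299377258496) (ad
  Z c (nat_lit 9570149503860736) (ad Z c (nat_lit 8444249592823808) (tm Z c (nat_lit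
  9007199288295424))))) (ad Z c (nat_lit 7318349681786880) (tm Z c (nat_lit 10133099199332352))))
  (ad Z c (nat_lit 6755399466221568) (tm Z c (nat_lit 10696049414897664)))))))))))))) (ad Z c
  (nat_lit 16888500485881856) (tm Z c (nat_lit 18577383904772096)))) (mw Y (nat_lit 128) (Nat.add
  (ad Z c (nat_lit 11821950106075136) (ad Z c (nat_lit 12384933613928448) (Nat.add (ad Z c (nat_lit
  14073749668102144) (fo Y d (nat_lit 8) (Nat.add (Nat.add (ad Z c (nat_lit 15199649839185920) (ad Z
  c (nat_lit 15199683391520768) (ad Z c (nat_lit 13510833524965376) (tm Z c (nat_lit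
  14073783480483840))))) (Nat.mul (nat_lit 2) (Nat.add (Nat.add (Nat.add (ad Z c (nat_lit
  12947883569446912) (tm Z c (nat_lit 14636733436002304))) (ad Z c (nat_lit 14636699883667456) (ad Z
  c (nat_lit 12947850017112064) (tm Z c (nat_lit 13510799972630528))))) (ad Z c (nat_lit
  12384900061593600) (tm Z c (nat_lit 14073749928148992)))) (Nat.add (ad Z c (nat_lit
  13510799712583680) (tm Z c (nat_lit 14073783220436992))) (ad Z c (nat_lit 11821949846028288) (tm Z
  c (nat_lit 12384933353881600))))))) (Nat.add (Nat.add (ad Z c (nat_lit 12947883309400064) (tm Z c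
  (nat_lit 13510833264918528))) (ad Z c (nat_lit 12384899801546752) (tm Z c (nat_lit
  12947849757065216)))) (ad Z c (nat_lit 11258999890509824) (tm Z c (nat_lit
  11821983398363136))))))) (ad Z c (nat_lit 12947849236971520) (tm Z c (nat_lit
  13510799192489984)))))) (ad Z c (nat_lit 14636733175955456) (ad Z c (nat_lit 11258999370416128)
  (tm Z c (nat_lit 11821949325934592))))))))) (mv Y (nat_lit 16384) (Nat.add (Nat.mul (nat_lit 8)
  (fo Y d (nat_lit 13) (Nat.add (ad Z c (nat_lit 5066549599666176) (tm Z c (nat_lit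
  10133099199332352))) (Nat.mul (nat_lit 3) (Nat.add (ad Z c (nat_lit 3377699733110784) (tm Z c
  (nat_lit 11821949065887744))) (ad Z c (nat_lit 1688849866555392) (tm Z c (nat_lit
  13510798932443136)))))))) (Nat.mul (nat_lit 3) (ad Z c (nat_lit 6755399466221568) (tm Z c (nat_lit
  8444249332776960)))))))) (mv Y (nat_lit 6) (Nat.add (ad Z c (nat_lit 16888499705741312) (Nat.add
  (Nat.add (Nat.add (fo Y d (nat_lit 6) (Nat.add (Nat.add (Nat.add (ad Z c (nat_lit
  15762633607086080) (tm Z c (nat_lit 16325583562604544))) (ad Z c (nat_lit 14073783740530688) (tm Z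
  c (nat_lit 14636733696049152)))) (Nat.add (ad Z c (nat_lit 15199650099232768) (tm Z c (nat_lit
  15762600054751232))) (ad Z c (nat_lit 13510800232677376) (tm Z c (nat_lit 14073750188195840)))))
  (mw Y (nat_lit 128) (Nat.add (Nat.add (Nat.add (Nat.add (ad Z c (nat_lit 11821949585981440) (tm Z
  c (nat_lit 12384899541499904))) (ad Z c (nat_lit 11258999370416128) (tm Z c (nat_lit
  11821949325934592)))) (ad Z c (nat_lit 10133099719426048) (tm Z c (nat_lit 10696049674944512))))
  (ad Z c (nat_lit 9570149503860736) (tm Z c (nat_lit 10133099459379200)))) (Nat.mul (nat_lit 2) (ad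
  Z c (nat_lit 7881299637305344) (ad Z c (nat_lit 8444249592823808) (Nat.add (Nat.add (ad Z c
  (nat_lit 13510799452536832) (tm Z c (nat_lit 14073749408055296))) (ad Z c (nat_lit
  12947849236971520) (tm Z c (nat_lit 13510799192489984)))) (ad Z c (nat_lit 8444249852870656) (tm Z
  c (nat_lit 9007199808389120))))))))))) (fo Y d (nat_lit 6) (Nat.add (ad Z c (nat_lit
  18014433429159936) (ad Z c (nat_lit 17451483473641472) (ad Z c (nat_lit 15762633347039232) (ad Z c
  (nat_lit 15199683391520768) (ad Z c (nat_lit 13510833524965376) (tm Z c (nat_lit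
  14073783480483840))))))) (Nat.mul (nat_lit 2) (ad Z c (nat_lit 12947848976924672) (Nat.add (ad Z c
  (nat_lit 14073748887961600) (ad Z c (nat_lit 14636699623620608) (Nat.add (ad Z c (nat_lit
  15762633086992384) (Nat.add (ad Z c (nat_lit 16888500485881856) (ad Z c (nat_lit
  15762599534657536) (tm Z c (nat_lit 18014400396918784)))) (ad Z c (nat_lit 15762633867132928) (tm
  Z c (nat_lit 17451483733688320))))) (ad Z c (nat_lit 15199650359279616) (tm Z c (nat_lit
  16888500225835008)))))) (ad Z c (nat_lit 13510799712583680) (tm Z c (nat_lit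
  14073783220436992))))))))) (ad Z c (nat_lit 16888499965788160) (tm Z c (nat_lit
  17451449921306624)))) (ad Z c (nat_lit 17451483213594624) (ad Z c (nat_lit 16888533258076160) (tm
  Z c (nat_lit 17451450441400320)))))) (Nat.add (ad Z c (nat_lit 13510798932443136) (tm Z c (nat_lit
  15762599794704384))) (ad Z c (nat_lit 14636699883667456) (ad Z c (nat_lit 12947850017112064) (tm Z
  c (nat_lit 13510799972630528)))))))))

end Vale.Agent.P236B
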