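import Vale.Agent.P236X.Defs

/-!
# P236 / B : programs (N = 13)
-/

noncomputable section

namespace Vale.Agent.P236B

open Vale.Agent.P236X

/-- program -/
def w1_13_1P : Pg :=
  (.qs (nat_lit 0) (.add (.mv (nat_lit 1) (.t (nat_lit 0) (nat_lit 0))) (.mul (nat_lit 3) (.t
  (nat_lit 0) (nat_lit 1)))))

/-- compiled program -/
def w1_13_1 : Prog := fun Y Z c d =>
  (qo Y d (nat_lit 0) (Nat.add (mv Y (nat_lit 1) (tm Z c (nat_lit 0))) (Nat.mul (nat_lit 3) (tm Z c
  (nat_lit 0)))))

/-- program -/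
def w1_13_2P : Pg :=
  (.qs (nat_lit 0) (.mv (nat_lit 1) (.add (.mv (nat_lit 1) (.t (nat_lit 0) (nat_lit 0))) (.mul
  (nat_lit 6) (.t (nat_lit 0) (nat_lit 1))))))

/-- compiled program -/
def w1_13_2 : Prog := fun Y Z c d =>
  (qo Y d (nat_lit 0) (mv Y (nat_lit 1) (Nat.add (mv Y (nat_lit 1) (tm Z c (nat_lit 0))) (Nat.mul
  (nat_lit 6) (tm Z c (nat_lit 0))))))

/-- program -/
def w1_13_3P : Pg :=
  (.mv (nat_lit 3) (.t (nat_lit 0) (nat_lit 0)))

/-- compiled program -/
def w1_13_3 : Prog := fun Y Z c _ =>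
  (mv Y (nat_lit 3) (tm Z c (nat_lit 0)))

/-- program -/
def w1_13_4P : Pg :=
  (.mv (nat_lit 4) (.t (nat_lit 0) (nat_lit 0)))

/-- compiled program -/
def w1_13_4 : Prog := fun Y Z c _ =>
  (mv Y (nat_lit 4) (tm Z c (nat_lit 0)))

/-- program -/
def w1_13_5P : Pg :=
  (.mv (nat_lit 5) (.t (nat_lit 0) (nat_lit 0)))

/-- compiled program -/
def w1_13_5 : Prog := fun Y Z c _ =>
  (mv Y (nat_lit 5) (tm Z c (nat_lit 0)))

/-- program -/
def w1_13_6P : Pg :=
  (.mv (nat_lit 6) (.t (nat_lit 0) (nat_lit 0)))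

/-- compiled program -/
def w1_13_6 : Prog := fun Y Z c _ =>
  (mv Y (nat_lit 6) (tm Z c (nat_lit 0)))

/-- program -/
def w1_13_7P : Pg :=
  (.mv (nat_lit 7) (.t (nat_lit 0) (nat_lit 0)))

/-- compiled program -/
def w1_13_7 : Prog := fun Y Z c _ =>
  (mv Y (nat_lit 7) (tm Z c (nat_lit 0)))

/-- program -/
def w1_13_8P : Pg :=
  (.mv (nat_lit 8) (.t (nat_lit 0) (nat_lit 0)))

/-- compiled program -/
def w1_13_8 : Prog := fun Y Z c _ =>
  (mv Y (nat_lit 8) (tm Z c (nat_lit 0)))

/-- program -/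
def w1_13_9P : Pg :=
  (.mv (nat_lit 9) (.t (nat_lit 0) (nat_lit 0)))

/-- compiled program -/
def w1_13_9 : Prog := fun Y Z c _ =>
  (mv Y (nat_lit 9) (tm Z c (nat_lit 0)))

/-- program -/
def w1_13_10P : Pg :=
  (.mv (nat_lit 10) (.t (nat_lit 0) (nat_lit 0)))

/-- compiled program -/
def w1_13_10 : Prog := fun Y Z c _ =>
  (mv Y (nat_lit 10) (tm Z c (nat_lit 0)))

/-- program -/
def w1_13_11P : Pg :=
  (.mv (nat_lit 11) (.t (nat_lit 0) (nat_lit 0)))

/-- compiled program -/
def w1_13_11 : Prog := fun Y Z c _ =>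
  (mv Y (nat_lit 11) (tm Z c (nat_lit 0)))

/-- program -/
def w1_13_12P : Pg :=
  (.mv (nat_lit 12) (.t (nat_lit 0) (nat_lit 0)))

/-- compiled program -/
def w1_13_12 : Prog := fun Y Z c _ =>
  (mv Y (nat_lit 12) (tm Z c (nat_lit 0)))

/-- programs -/
def w1_13P : List Pg :=
  [.zero, w1_13_1P, w1_13_2P, w1_13_3P, w1_13_4P, w1_13_5P, w1_13_6P, w1_13_7P, w1_13_8P, w1_13_9P,
  w1_13_10P, w1_13_11P, w1_13_12P]

/-- compiled programs -/
def w1_13 : List Prog :=
  [zeroP, w1_13_1, w1_13_2, w1_13_3, w1_13_4, w1_13_5, w1_13_6, w1_13_7, w1_13_8, w1_13_9, w1_13_10,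
  w1_13_11, w1_13_12]

/-- program -/
def w4_13P : Pg :=
  (.fold (nat_lit 0) (.add (.add (.add (.add (.add (.add (.add (.add (.add (.add (.add (.fold
  (nat_lit 0) (.add (.add (.add (.add (.add (.add (.add (.add (.add (.add (.fold (nat_lit 0) (.add
  (.add (.add (.add (.mv (nat_lit 32770) (.mul (nat_lit 2) (.t (nat_lit 6755399441055747) (nat_lit
  0)))) (.mv (nat_lit 49152) (.mul (nat_lit 8) (.t (nat_lit 0) (nat_lit 1))))) (.mv (nat_lit 16395)
  (.add (.at (nat_lit 6755399441055747) (nat_lit 4) (.mul (nat_lit 2) (.at (nat_lit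
  9007199254740996) (nat_lit 0) (.mw (nat_lit 256) (.t (nat_lit 0) (nat_lit 8)))))) (.mw (nat_lit
  128) (.t (nat_lit 0) (nat_lit 12)))))) (.mv (nat_lit 16388) (.add (.add (.mw (nat_lit 512) (.t
  (nat_lit 0) (nat_lit 7))) (.mw (nat_lit 384) (.t (nat_lit 0) (nat_lit 11)))) (.mul (nat_lit 2)
  (.add (.mw (nat_lit 256) (.t (nat_lit 6755399441055747) (nat_lit 3))) (.add (.mw (nat_lit 256) (.t
  (nat_lit 0) (nat_lit 15))) (.mw (nat_lit 128) (.t (nat_lit 0) (nat_lit 19))))))))) (.mv (nat_lit
  4) (.add (.add (.add (.add (.mw (nat_lit 640) (.t (nat_lit 6755399441055747) (nat_lit 4))) (.mw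
  (nat_lit 896) (.t (nat_lit 0) (nat_lit 8)))) (.mul (nat_lit 2) (.mw (nat_lit 384) (.t (nat_lit
  6755399441055747) (nat_lit 12))))) (.add (.mw (nat_lit 640) (.t (nat_lit 0) (nat_lit 16))) (.add
  (.mw (nat_lit 512) (.t (nat_lit 0) (nat_lit 20))) (.mw (nat_lit 384) (.t (nat_lit 0) (nat_lit
  24)))))) (.mw (nat_lit 256) (.t (nat_lit 0) (nat_lit 28))))))) (.fold (nat_lit 0) (.add (.add
  (.add (.mv (nat_lit 16393) (.add (.mul (nat_lit 2) (.add (.mw (nat_lit 128) (.t (nat_lit
  6755399441055747) (nat_lit 2))) (.mw (nat_lit 512) (.t (nat_lit 0) (nat_lit 2))))) (.mw (nat_lit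
  384) (.t (nat_lit 0) (nat_lit 6))))) (.mv (nat_lit 16394) (.add (.mw (nat_lit 384) (.t (nat_lit
  2251799813685249) (nat_lit 1))) (.mul (nat_lit 2) (.at (nat_lit 0) (nat_lit 17) (.add (.at
  (nat_lit 6755399441055747) (nat_lit 5) (.mw (nat_lit 384) (.t (nat_lit 0) (nat_lit 5)))) (.mw
  (nat_lit 128) (.t (nat_lit 2251799813685249) (nat_lit 9))))))))) (.mul (nat_lit 3) (.at (nat_lit
  22517998136868864) (nat_lit 0) (.at (nat_lit 21955048183431552) (nat_lit 1) (.mw (nat_lit 640) (.t
  (nat_lit 0) (nat_lit 20))))))) (.mv (nat_lit 6) (.add (.at (nat_lit 13510798882111494) (nat_lit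
  10) (.add (.mw (nat_lit 128) (.t (nat_lit 13510798882111494) (nat_lit 6))) (.mw (nat_lit 384) (.t
  (nat_lit 6755399441055747) (nat_lit 10))))) (.mul (nat_lit 2) (.add (.add (.mw (nat_lit 640) (.t
  (nat_lit 6755399441055747) (nat_lit 2))) (.mw (nat_lit 512) (.t (nat_lit 6755399441055747)
  (nat_lit 6)))) (.mw (nat_lit 384) (.t (nat_lit 0) (nat_lit 22)))))))))) (.fold (nat_lit 0) (.add
  (.add (.add (.add (.fold (nat_lit 0) (.add (.add (.mv (nat_lit 16385) (.add (.fold (nat_lit 14)
  (.add (.add (.mul (nat_lit 2) (.mw (nat_lit 512) (.t (nat_lit 0) (nat_lit 10)))) (.mul (nat_lit 6)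
  (.add (.mw (nat_lit 384) (.t (nat_lit 7318349394477184) (nat_lit 1))) (.mw (nat_lit 128) (.t
  (nat_lit 6755399441055747) (nat_lit 10)))))) (.mul (nat_lit 8) (.add (.mw (nat_lit 768) (.t
  (nat_lit 0) (nat_lit 2))) (.mw (nat_lit 256) (.t (nat_lit 0) (nat_lit 18))))))) (.mul (nat_lit 3)
  (.add (.mw (nat_lit 384) (.t (nat_lit 6755399441055747) (nat_lit 2))) (.mw (nat_lit 128) (.t
  (nat_lit 7318349394477184) (nat_lit 9))))))) (.mv (nat_lit 16391) (.mul (nat_lit 2) (.at (nat_lit
  0) (nat_lit 20) (.add (.add (.mw (nat_lit 128) (.t (nat_lit 6755399441055747) (nat_lit 4))) (.add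
  (.mw (nat_lit 512) (.t (nat_lit 0) (nat_lit 4))) (.mw (nat_lit 384) (.t (nat_lit 0) (nat_lit
  8))))) (.add (.mw (nat_lit 256) (.t (nat_lit 0) (nat_lit 12))) (.mw (nat_lit 128) (.t (nat_lit 0)
  (nat_lit 16))))))))) (.mv (nat_lit 7) (.add (.add (.add (.add (.mw (nat_lit 512) (.t (nat_lit
  6755399441055747) (nat_lit 5))) (.mw (nat_lit 896) (.t (nat_lit 0) (nat_lit 5)))) (.mw (nat_lit
  384) (.t (nat_lit 6755399441055747) (nat_lit 9)))) (.add (.mw (nat_lit 1024) (.t (nat_lit 0)
  (nat_lit 1))) (.mw (nat_lit 512) (.t (nat_lit 0) (nat_lit 17))))) (.mul (nat_lit 2) (.add (.add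
  (.add (.mw (nat_lit 256) (.t (nat_lit 13510798882111494) (nat_lit 1))) (.mw (nat_lit 768) (.t
  (nat_lit 0) (nat_lit 9)))) (.mw (nat_lit 384) (.t (nat_lit 0) (nat_lit 21)))) (.mw (nat_lit 128)
  (.t (nat_lit 0) (nat_lit 29))))))))) (.mv (nat_lit 16386) (.add (.mul (nat_lit 2) (.mw (nat_lit
  384) (.t (nat_lit 6755399441055747) (nat_lit 1)))) (.mw (nat_lit 128) (.t (nat_lit
  6755399441055747) (nat_lit 9)))))) (.mv (nat_lit 16389) (.add (.mul (nat_lit 2) (.add (.add (.mw
  (nat_lit 640) (.t (nat_lit 0) (nat_lit 2))) (.mw (nat_lit 512) (.t (nat_lit 0) (nat_lit 6)))) (.at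
  (nat_lit 6755399441055747) (nat_lit 10) (.mw (nat_lit 128) (.t (nat_lit 6755399441055747) (nat_lit
  6)))))) (.mw (nat_lit 384) (.t (nat_lit 0) (nat_lit 10)))))) (.mv (nat_lit 32768) (.add (.mul
  (nat_lit 3) (.mw (nat_lit 384) (.t (nat_lit 0) (nat_lit 2)))) (.mul (nat_lit 6) (.mw (nat_lit 128)
  (.t (nat_lit 0) (nat_lit 10))))))) (.mv (nat_lit 3) (.add (.add (.add (.mw (nat_lit 384) (.t
  (nat_lit 13510798882111494) (nat_lit 1))) (.mul (nat_lit 2) (.add (.at (nat_lit 20266198323167241)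
  (nat_lit 1) (.mw (nat_lit 128) (.t (nat_lit 13510798882111494) (nat_lit 9)))) (.mw (nat_lit 896)
  (.t (nat_lit 0) (nat_lit 9)))))) (.mw (nat_lit 768) (.t (nat_lit 0) (nat_lit 13)))) (.add (.mw
  (nat_lit 1024) (.t (nat_lit 0) (nat_lit 5))) (.mw (nat_lit 512) (.t (nat_lit 0) (nat_lit
  21))))))))) (.mv (nat_lit 32773) (.mul (nat_lit 2) (.mw (nat_lit 256) (.t (nat_lit 0) (nat_lit
  1)))))) (.mv (nat_lit 32775) (.mul (nat_lit 2) (.t (nat_lit 0) (nat_lit 7))))) (.mv (nat_lit
  16390) (.add (.mw (nat_lit 256) (.t (nat_lit 6755399441055747) (nat_lit 1))) (.add (.mw (nat_lit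
  512) (.t (nat_lit 0) (nat_lit 5))) (.mw (nat_lit 384) (.t (nat_lit 0) (nat_lit 9))))))) (.mv
  (nat_lit 32772) (.at (nat_lit 0) (nat_lit 10) (.mw (nat_lit 128) (.t (nat_lit 0) (nat_lit 6))))))
  (.mv (nat_lit 16392) (.at (nat_lit 6755399441055747) (nat_lit 7) (.add (.mw (nat_lit 512) (.t
  (nat_lit 0) (nat_lit 3))) (.mw (nat_lit 256) (.t (nat_lit 0) (nat_lit 11))))))) (.mv (nat_lit
  16387) (.add (.mw (nat_lit 640) (.t (nat_lit 0) (nat_lit 4))) (.mul (nat_lit 2) (.at (nat_lit
  13510798882111494) (nat_lit 0) (.mw (nat_lit 384) (.t (nat_lit 0) (nat_lit 12)))))))) (.mv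
  (nat_lit 16396) (.at (nat_lit 0) (nat_lit 15) (.add (.mw (nat_lit 256) (.t (nat_lit
  2251799813685249) (nat_lit 3))) (.mul (nat_lit 2) (.add (.mw (nat_lit 384) (.t (nat_lit 0)
  (nat_lit 3))) (.mw (nat_lit 256) (.t (nat_lit 0) (nat_lit 7))))))))) (.mv (nat_lit 2) (.mul
  (nat_lit 2) (.add (.mw (nat_lit 768) (.t (nat_lit 6755399441055747) (nat_lit 2))) (.add (.mw
  (nat_lit 512) (.t (nat_lit 6755399441055747) (nat_lit 10))) (.mw (nat_lit 256) (.t (nat_lit
  6755399441055747) (nat_lit 18))))))))) (.fold (nat_lit 0) (.add (.add (.mul (nat_lit 6) (.mw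
  (nat_lit 896) (.t (nat_lit 0) (nat_lit 12)))) (.mv (nat_lit 8) (.add (.add (.mw (nat_lit 128) (.t
  (nat_lit 13510798882111494) (nat_lit 4))) (.add (.mw (nat_lit 640) (.t (nat_lit 0) (nat_lit 12)))
  (.mw (nat_lit 512) (.t (nat_lit 0) (nat_lit 16))))) (.mul (nat_lit 2) (.add (.add (.mw (nat_lit
  384) (.t (nat_lit 6755399441055747) (nat_lit 8))) (.add (.mw (nat_lit 512) (.t (nat_lit
  6755399441055747) (nat_lit 4))) (.mw (nat_lit 256) (.t (nat_lit 6755399441055747) (nat_lit 12)))))
  (.at (nat_lit 6755399441055747) (nat_lit 20) (.mw (nat_lit 128) (.t (nat_lit 6755399441055747)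
  (nat_lit 16))))))))) (.mv (nat_lit 11) (.add (.add (.at (nat_lit 13510798882111494) (nat_lit 5)
  (.mw (nat_lit 384) (.t (nat_lit 9007199254740996) (nat_lit 1)))) (.mw (nat_lit 640) (.t (nat_lit
  0) (nat_lit 9)))) (.mul (nat_lit 2) (.add (.add (.add (.mw (nat_lit 384) (.t (nat_lit
  6755399441055747) (nat_lit 5))) (.mw (nat_lit 128) (.t (nat_lit 9007199254740996) (nat_lit 9))))
  (.at (nat_lit 6755399441055747) (nat_lit 17) (.mw (nat_lit 384) (.t (nat_lit 0) (nat_lit 17)))))
  (.mw (nat_lit 256) (.t (nat_lit 0) (nat_lit 21)))))))))) (.fold (nat_lit 0) (.add (.add (.mv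
  (nat_lit 32778) (.at (nat_lit 2251799813685249) (nat_lit 0) (.mul (nat_lit 2) (.t (nat_lit 0)
  (nat_lit 4))))) (.mv (nat_lit 12) (.add (.add (.add (.add (.at (nat_lit 15762598695796743)
  (nat_lit 0) (.mw (nat_lit 640) (.t (nat_lit 0) (nat_lit 8)))) (.mw (nat_lit 128) (.t (nat_lit
  6755399441055747) (nat_lit 12)))) (.mw (nat_lit 384) (.t (nat_lit 2251799813685249) (nat_lit
  12)))) (.mul (nat_lit 2) (.add (.at (nat_lit 13510798882111494) (nat_lit 4) (.mw (nat_lit 640) (.t
  (nat_lit 2251799813685249) (nat_lit 4)))) (.add (.mw (nat_lit 256) (.t (nat_lit 6755399441055747)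
  (nat_lit 8))) (.add (.mw (nat_lit 512) (.t (nat_lit 0) (nat_lit 12))) (.mw (nat_lit 384) (.t
  (nat_lit 0) (nat_lit 16)))))))) (.mw (nat_lit 128) (.t (nat_lit 0) (nat_lit 24)))))) (.mv (nat_lit
  9) (.at (nat_lit 0) (nat_lit 31) (.add (.add (.mw (nat_lit 768) (.t (nat_lit 0) (nat_lit 7)))
  (.add (.mw (nat_lit 512) (.t (nat_lit 6755399441055747) (nat_lit 3))) (.mw (nat_lit 256) (.t
  (nat_lit 6755399441055747) (nat_lit 11))))) (.mul (nat_lit 2) (.at (nat_lit 2251799813685249)
  (nat_lit 27) (.add (.at (nat_lit 13510798882111494) (nat_lit 7) (.mw (nat_lit 896) (.t (nat_lit 0)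
  (nat_lit 3)))) (.add (.mw (nat_lit 640) (.t (nat_lit 0) (nat_lit 11))) (.mw (nat_lit 512) (.t
  (nat_lit 0) (nat_lit 15))))))))))))) (.fold (nat_lit 0) (.add (.add (.fold (nat_lit 0) (.add (.mv
  (nat_lit 32769) (.add (.add (.add (.mul (nat_lit 6) (.t (nat_lit 7318349394477184) (nat_lit 0)))
  (.mul (nat_lit 3) (.t (nat_lit 6755399441055747) (nat_lit 1)))) (.mw (nat_lit 384) (.t (nat_lit 0)
  (nat_lit 1)))) (.mul (nat_lit 8) (.mw (nat_lit 128) (.t (nat_lit 0) (nat_lit 9)))))) (.mv (nat_lit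
  10) (.add (.add (.add (.add (.add (.mw (nat_lit 768) (.t (nat_lit 2251799813685249) (nat_lit 2)))
  (.add (.mw (nat_lit 128) (.t (nat_lit 13510798882111494) (nat_lit 2))) (.mw (nat_lit 384) (.t
  (nat_lit 6755399441055747) (nat_lit 6))))) (.mw (nat_lit 512) (.t (nat_lit 2251799813685249)
  (nat_lit 10)))) (.add (.mw (nat_lit 640) (.t (nat_lit 0) (nat_lit 10))) (.add (.mw (nat_lit 512)
  (.t (nat_lit 0) (nat_lit 14))) (.mw (nat_lit 384) (.t (nat_lit 0) (nat_lit 18)))))) (.mw (nat_lit
  256) (.t (nat_lit 2251799813685249) (nat_lit 18)))) (.mul (nat_lit 2) (.add (.add (.mw (nat_lit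
  512) (.t (nat_lit 6755399441055747) (nat_lit 2))) (.mw (nat_lit 896) (.t (nat_lit 0) (nat_lit
  2)))) (.mw (nat_lit 256) (.t (nat_lit 0) (nat_lit 22))))))))) (.mv (nat_lit 5) (.add (.add (.add
  (.mw (nat_lit 256) (.t (nat_lit 13510798882111494) (nat_lit 3))) (.mw (nat_lit 1024) (.t (nat_lit
  0) (nat_lit 3)))) (.add (.add (.mw (nat_lit 512) (.t (nat_lit 6755399441055747) (nat_lit 7))) (.mw
  (nat_lit 896) (.t (nat_lit 0) (nat_lit 7)))) (.mw (nat_lit 384) (.t (nat_lit 6755399441055747)
  (nat_lit 11))))) (.mul (nat_lit 2) (.add (.add (.add (.mw (nat_lit 768) (.t (nat_lit 0) (nat_lit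
  11))) (.mw (nat_lit 256) (.t (nat_lit 6755399441055747) (nat_lit 15)))) (.add (.mw (nat_lit 640)
  (.t (nat_lit 0) (nat_lit 15))) (.mw (nat_lit 512) (.t (nat_lit 0) (nat_lit 19))))) (.mw (nat_lit
  128) (.t (nat_lit 6755399441055747) (nat_lit 19)))))))) (.mul (nat_lit 8) (.add (.mw (nat_lit
  1152) (.t (nat_lit 2251799813685249) (nat_lit 0))) (.mw (nat_lit 384) (.t (nat_lit 0) (nat_lit
  28)))))))) (.fold (nat_lit 0) (.add (.mv (nat_lit 1) (.add (.add (.at (nat_lit 20266198323167241)
  (nat_lit 3) (.fold (nat_lit 1) (.add (.mul (nat_lit 8) (.mw (nat_lit 896) (.t (nat_lit 0) (nat_lit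
  11)))) (.mul (nat_lit 6) (.add (.add (.add (.mw (nat_lit 768) (.t (nat_lit 7318349394477184)
  (nat_lit 2))) (.mw (nat_lit 1152) (.t (nat_lit 0) (nat_lit 3)))) (.mw (nat_lit 512) (.t (nat_lit
  7318349394477184) (nat_lit 10)))) (.mw (nat_lit 256) (.t (nat_lit 7318349394477184) (nat_lit
  18)))))))) (.at (nat_lit 21955048183431552) (nat_lit 0) (.mw (nat_lit 640) (.t (nat_lit 0)
  (nat_lit 19))))) (.mul (nat_lit 3) (.add (.mw (nat_lit 768) (.t (nat_lit 6755399441055747)
  (nat_lit 3))) (.add (.mw (nat_lit 512) (.t (nat_lit 6755399441055747) (nat_lit 11))) (.mw (nat_lit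
  256) (.t (nat_lit 6755399441055747) (nat_lit 19)))))))) (.mv (nat_lit 16384) (.at (nat_lit 0)
  (nat_lit 27) (.mul (nat_lit 6) (.add (.mw (nat_lit 768) (.t (nat_lit 0) (nat_lit 3))) (.add (.mw
  (nat_lit 512) (.t (nat_lit 0) (nat_lit 11))) (.mw (nat_lit 256) (.t (nat_lit 0) (nat_lit
  19))))))))))) (.mv (nat_lit 2097152) (.t (nat_lit 0) (nat_lit 0)))) (.mw (nat_lit 128) (.t
  (nat_lit 20266198323167241) (nat_lit 0)))) (.mv (nat_lit 32776) (.mw (nat_lit 128) (.t (nat_lit 0)
  (nat_lit 2))))) (.mv (nat_lit 32771) (.mw (nat_lit 256) (.t (nat_lit 0) (nat_lit 3))))) (.mv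
  (nat_lit 32774) (.mw (nat_lit 128) (.t (nat_lit 0) (nat_lit 4))))) (.mw (nat_lit 1152) (.t
  (nat_lit 0) (nat_lit 4)))) (.mv (nat_lit 32777) (.t (nat_lit 0) (nat_lit 5)))))

/-- compiled program -/
def w4_13 : Prog := fun Y Z c d =>
  (fo Y d (nat_lit 0) (Nat.add (Nat.add (Nat.add (Nat.add (Nat.add (Nat.add (Nat.add (Nat.add
  (Nat.add (Nat.add (Nat.add (fo Y d (nat_lit 0) (Nat.add (Nat.add (Nat.add (Nat.add (Nat.add
  (Nat.add (Nat.add (Nat.add (Nat.add (Nat.add (fo Y d (nat_lit 0) (Nat.add (Nat.add (Nat.add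
  (Nat.add (mv Y (nat_lit 32770) (Nat.mul (nat_lit 2) (tm Z c (nat_lit 6755399441055747)))) (mv Y
  (nat_lit 49152) (Nat.mul (nat_lit 8) (tm Z c (nat_lit 0))))) (mv Y (nat_lit 16395) (Nat.add (ad Z
  c (nat_lit 6755399441055747) (Nat.mul (nat_lit 2) (ad Z c (nat_lit 9007199254740996) (mw Y
  (nat_lit 256) (tm Z c (nat_lit 0)))))) (mw Y (nat_lit 128) (tm Z c (nat_lit 0)))))) (mv Y (nat_lit
  16388) (Nat.add (Nat.add (mw Y (nat_lit 512) (tm Z c (nat_lit 0))) (mw Y (nat_lit 384) (tm Z c
  (nat_lit 0)))) (Nat.mul (nat_lit 2) (Nat.add (mw Y (nat_lit 256) (tm Z c (nat_lit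
  6755399441055747))) (Nat.add (mw Y (nat_lit 256) (tm Z c (nat_lit 0))) (mw Y (nat_lit 128) (tm Z c
  (nat_lit 0))))))))) (mv Y (nat_lit 4) (Nat.add (Nat.add (Nat.add (Nat.add (mw Y (nat_lit 640) (tm
  Z c (nat_lit 6755399441055747))) (mw Y (nat_lit 896) (tm Z c (nat_lit 0)))) (Nat.mul (nat_lit 2)
  (mw Y (nat_lit 384) (tm Z c (nat_lit 6755399441055747))))) (Nat.add (mw Y (nat_lit 640) (tm Z c
  (nat_lit 0))) (Nat.add (mw Y (nat_lit 512) (tm Z c (nat_lit 0))) (mw Y (nat_lit 384) (tm Z c
  (nat_lit 0)))))) (mw Y (nat_lit 256) (tm Z c (nat_lit 0))))))) (fo Y d (nat_lit 0) (Nat.add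
  (Nat.add (Nat.add (mv Y (nat_lit 16393) (Nat.add (Nat.mul (nat_lit 2) (Nat.add (mw Y (nat_lit 128)
  (tm Z c (nat_lit 6755399441055747))) (mw Y (nat_lit 512) (tm Z c (nat_lit 0))))) (mw Y (nat_lit
  384) (tm Z c (nat_lit 0))))) (mv Y (nat_lit 16394) (Nat.add (mw Y (nat_lit 384) (tm Z c (nat_lit
  2251799813685249))) (Nat.mul (nat_lit 2) (ad Z c (nat_lit 0) (Nat.add (ad Z c (nat_lit
  6755399441055747) (mw Y (nat_lit 384) (tm Z c (nat_lit 0)))) (mw Y (nat_lit 128) (tm Z c (nat_lit
  2251799813685249))))))))) (Nat.mul (nat_lit 3) (ad Z c (nat_lit 22517998136868864) (ad Z c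
  (nat_lit 21955048183431552) (mw Y (nat_lit 640) (tm Z c (nat_lit 0))))))) (mv Y (nat_lit 6)
  (Nat.add (ad Z c (nat_lit 13510798882111494) (Nat.add (mw Y (nat_lit 128) (tm Z c (nat_lit
  13510798882111494))) (mw Y (nat_lit 384) (tm Z c (nat_lit 6755399441055747))))) (Nat.mul (nat_lit
  2) (Nat.add (Nat.add (mw Y (nat_lit 640) (tm Z c (nat_lit 6755399441055747))) (mw Y (nat_lit 512)
  (tm Z c (nat_lit 6755399441055747)))) (mw Y (nat_lit 384) (tm Z c (nat_lit 0)))))))))) (fo Y d
  (nat_lit 0) (Nat.add (Nat.add (Nat.add (Nat.add (fo Y d (nat_lit 0) (Nat.add (Nat.add (mv Y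
  (nat_lit 16385) (Nat.add (fo Y d (nat_lit 14) (Nat.add (Nat.add (Nat.mul (nat_lit 2) (mw Y
  (nat_lit 512) (tm Z c (nat_lit 0)))) (Nat.mul (nat_lit 6) (Nat.add (mw Y (nat_lit 384) (tm Z c
  (nat_lit 7318349394477184))) (mw Y (nat_lit 128) (tm Z c (nat_lit 6755399441055747)))))) (Nat.mul
  (nat_lit 8) (Nat.add (mw Y (nat_lit 768) (tm Z c (nat_lit 0))) (mw Y (nat_lit 256) (tm Z c
  (nat_lit 0))))))) (Nat.mul (nat_lit 3) (Nat.add (mw Y (nat_lit 384) (tm Z c (nat_lit
  6755399441055747))) (mw Y (nat_lit 128) (tm Z c (nat_lit 7318349394477184))))))) (mv Y (nat_lit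
  16391) (Nat.mul (nat_lit 2) (ad Z c (nat_lit 0) (Nat.add (Nat.add (mw Y (nat_lit 128) (tm Z c
  (nat_lit 6755399441055747))) (Nat.add (mw Y (nat_lit 512) (tm Z c (nat_lit 0))) (mw Y (nat_lit
  384) (tm Z c (nat_lit 0))))) (Nat.add (mw Y (nat_lit 256) (tm Z c (nat_lit 0))) (mw Y (nat_lit
  128) (tm Z c (nat_lit 0))))))))) (mv Y (nat_lit 7) (Nat.add (Nat.add (Nat.add (Nat.add (mw Y
  (nat_lit 512) (tm Z c (nat_lit 6755399441055747))) (mw Y (nat_lit 896) (tm Z c (nat_lit 0)))) (mw
  Y (nat_lit 384) (tm Z c (nat_lit 6755399441055747)))) (Nat.add (mw Y (nat_lit 1024) (tm Z c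
  (nat_lit 0))) (mw Y (nat_lit 512) (tm Z c (nat_lit 0))))) (Nat.mul (nat_lit 2) (Nat.add (Nat.add
  (Nat.add (mw Y (nat_lit 256) (tm Z c (nat_lit 13510798882111494))) (mw Y (nat_lit 768) (tm Z c
  (nat_lit 0)))) (mw Y (nat_lit 384) (tm Z c (nat_lit 0)))) (mw Y (nat_lit 128) (tm Z c (nat_lit
  0))))))))) (mv Y (nat_lit 16386) (Nat.add (Nat.mul (nat_lit 2) (mw Y (nat_lit 384) (tm Z c
  (nat_lit 6755399441055747)))) (mw Y (nat_lit 128) (tm Z c (nat_lit 6755399441055747)))))) (mv Y
  (nat_lit 16389) (Nat.add (Nat.mul (nat_lit 2) (Nat.add (Nat.add (mw Y (nat_lit 640) (tm Z c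
  (nat_lit 0))) (mw Y (nat_lit 512) (tm Z c (nat_lit 0)))) (ad Z c (nat_lit 6755399441055747) (mw Y
  (nat_lit 128) (tm Z c (nat_lit 6755399441055747)))))) (mw Y (nat_lit 384) (tm Z c (nat_lit 0))))))
  (mv Y (nat_lit 32768) (Nat.add (Nat.mul (nat_lit 3) (mw Y (nat_lit 384) (tm Z c (nat_lit 0))))
  (Nat.mul (nat_lit 6) (mw Y (nat_lit 128) (tm Z c (nat_lit 0))))))) (mv Y (nat_lit 3) (Nat.add
  (Nat.add (Nat.add (mw Y (nat_lit 384) (tm Z c (nat_lit 13510798882111494))) (Nat.mul (nat_lit 2)
  (Nat.add (ad Z c (nat_lit 20266198323167241) (mw Y (nat_lit 128) (tm Z c (nat_lit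
  13510798882111494)))) (mw Y (nat_lit 896) (tm Z c (nat_lit 0)))))) (mw Y (nat_lit 768) (tm Z c
  (nat_lit 0)))) (Nat.add (mw Y (nat_lit 1024) (tm Z c (nat_lit 0))) (mw Y (nat_lit 512) (tm Z c
  (nat_lit 0))))))))) (mv Y (nat_lit 32773) (Nat.mul (nat_lit 2) (mw Y (nat_lit 256) (tm Z c
  (nat_lit 0)))))) (mv Y (nat_lit 32775) (Nat.mul (nat_lit 2) (tm Z c (nat_lit 0))))) (mv Y (nat_lit
  16390) (Nat.add (mw Y (nat_lit 256) (tm Z c (nat_lit 6755399441055747))) (Nat.add (mw Y (nat_lit
  512) (tm Z c (nat_lit 0))) (mw Y (nat_lit 384) (tm Z c (nat_lit 0))))))) (mv Y (nat_lit 32772) (ad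
  Z c (nat_lit 0) (mw Y (nat_lit 128) (tm Z c (nat_lit 0)))))) (mv Y (nat_lit 16392) (ad Z c
  (nat_lit 6755399441055747) (Nat.add (mw Y (nat_lit 512) (tm Z c (nat_lit 0))) (mw Y (nat_lit 256)
  (tm Z c (nat_lit 0))))))) (mv Y (nat_lit 16387) (Nat.add (mw Y (nat_lit 640) (tm Z c (nat_lit 0)))
  (Nat.mul (nat_lit 2) (ad Z c (nat_lit 13510798882111494) (mw Y (nat_lit 384) (tm Z c (nat_lit
  0)))))))) (mv Y (nat_lit 16396) (ad Z c (nat_lit 0) (Nat.add (mw Y (nat_lit 256) (tm Z c (nat_lit
  2251799813685249))) (Nat.mul (nat_lit 2) (Nat.add (mw Y (nat_lit 384) (tm Z c (nat_lit 0))) (mw Y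
  (nat_lit 256) (tm Z c (nat_lit 0))))))))) (mv Y (nat_lit 2) (Nat.mul (nat_lit 2) (Nat.add (mw Y
  (nat_lit 768) (tm Z c (nat_lit 6755399441055747))) (Nat.add (mw Y (nat_lit 512) (tm Z c (nat_lit
  6755399441055747))) (mw Y (nat_lit 256) (tm Z c (nat_lit 6755399441055747))))))))) (fo Y d
  (nat_lit 0) (Nat.add (Nat.add (Nat.mul (nat_lit 6) (mw Y (nat_lit 896) (tm Z c (nat_lit 0)))) (mv
  Y (nat_lit 8) (Nat.add (Nat.add (mw Y (nat_lit 128) (tm Z c (nat_lit 13510798882111494))) (Nat.add
  (mw Y (nat_lit 640) (tm Z c (nat_lit 0))) (mw Y (nat_lit 512) (tm Z c (nat_lit 0))))) (Nat.mul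
  (nat_lit 2) (Nat.add (Nat.add (mw Y (nat_lit 384) (tm Z c (nat_lit 6755399441055747))) (Nat.add
  (mw Y (nat_lit 512) (tm Z c (nat_lit 6755399441055747))) (mw Y (nat_lit 256) (tm Z c (nat_lit
  6755399441055747))))) (ad Z c (nat_lit 6755399441055747) (mw Y (nat_lit 128) (tm Z c (nat_lit
  6755399441055747))))))))) (mv Y (nat_lit 11) (Nat.add (Nat.add (ad Z c (nat_lit 13510798882111494)
  (mw Y (nat_lit 384) (tm Z c (nat_lit 9007199254740996)))) (mw Y (nat_lit 640) (tm Z c (nat_lit
  0)))) (Nat.mul (nat_lit 2) (Nat.add (Nat.add (Nat.add (mw Y (nat_lit 384) (tm Z c (nat_lit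
  6755399441055747))) (mw Y (nat_lit 128) (tm Z c (nat_lit 9007199254740996)))) (ad Z c (nat_lit
  6755399441055747) (mw Y (nat_lit 384) (tm Z c (nat_lit 0))))) (mw Y (nat_lit 256) (tm Z c (nat_lit
  0)))))))))) (fo Y d (nat_lit 0) (Nat.add (Nat.add (mv Y (nat_lit 32778) (ad Z c (nat_lit
  2251799813685249) (Nat.mul (nat_lit 2) (tm Z c (nat_lit 0))))) (mv Y (nat_lit 12) (Nat.add
  (Nat.add (Nat.add (Nat.add (ad Z c (nat_lit 15762598695796743) (mw Y (nat_lit 640) (tm Z c
  (nat_lit 0)))) (mw Y (nat_lit 128) (tm Z c (nat_lit 6755399441055747)))) (mw Y (nat_lit 384) (tm Z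
  c (nat_lit 2251799813685249)))) (Nat.mul (nat_lit 2) (Nat.add (ad Z c (nat_lit 13510798882111494)
  (mw Y (nat_lit 640) (tm Z c (nat_lit 2251799813685249)))) (Nat.add (mw Y (nat_lit 256) (tm Z c
  (nat_lit 6755399441055747))) (Nat.add (mw Y (nat_lit 512) (tm Z c (nat_lit 0))) (mw Y (nat_lit
  384) (tm Z c (nat_lit 0)))))))) (mw Y (nat_lit 128) (tm Z c (nat_lit 0)))))) (mv Y (nat_lit 9) (ad
  Z c (nat_lit 0) (Nat.add (Nat.add (mw Y (nat_lit 768) (tm Z c (nat_lit 0))) (Nat.add (mw Y
  (nat_lit 512) (tm Z c (nat_lit 6755399441055747))) (mw Y (nat_lit 256) (tm Z c (nat_lit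
  6755399441055747))))) (Nat.mul (nat_lit 2) (ad Z c (nat_lit 2251799813685249) (Nat.add (ad Z c
  (nat_lit 13510798882111494) (mw Y (nat_lit 896) (tm Z c (nat_lit 0)))) (Nat.add (mw Y (nat_lit
  640) (tm Z c (nat_lit 0))) (mw Y (nat_lit 512) (tm Z c (nat_lit 0))))))))))))) (fo Y d (nat_lit 0)
  (Nat.add (Nat.add (fo Y d (nat_lit 0) (Nat.add (mv Y (nat_lit 32769) (Nat.add (Nat.add (Nat.add
  (Nat.mul (nat_lit 6) (tm Z c (nat_lit 7318349394477184))) (Nat.mul (nat_lit 3) (tm Z c (nat_lit
  6755399441055747)))) (mw Y (nat_lit 384) (tm Z c (nat_lit 0)))) (Nat.mul (nat_lit 8) (mw Y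
  (nat_lit 128) (tm Z c (nat_lit 0)))))) (mv Y (nat_lit 10) (Nat.add (Nat.add (Nat.add (Nat.add
  (Nat.add (mw Y (nat_lit 768) (tm Z c (nat_lit 2251799813685249))) (Nat.add (mw Y (nat_lit 128) (tm
  Z c (nat_lit 13510798882111494))) (mw Y (nat_lit 384) (tm Z c (nat_lit 6755399441055747))))) (mw Y
  (nat_lit 512) (tm Z c (nat_lit 2251799813685249)))) (Nat.add (mw Y (nat_lit 640) (tm Z c (nat_lit
  0))) (Nat.add (mw Y (nat_lit 512) (tm Z c (nat_lit 0))) (mw Y (nat_lit 384) (tm Z c (nat_lit
  0)))))) (mw Y (nat_lit 256) (tm Z c (nat_lit 2251799813685249)))) (Nat.mul (nat_lit 2) (Nat.add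
  (Nat.add (mw Y (nat_lit 512) (tm Z c (nat_lit 6755399441055747))) (mw Y (nat_lit 896) (tm Z c
  (nat_lit 0)))) (mw Y (nat_lit 256) (tm Z c (nat_lit 0))))))))) (mv Y (nat_lit 5) (Nat.add (Nat.add
  (Nat.add (mw Y (nat_lit 256) (tm Z c (nat_lit 13510798882111494))) (mw Y (nat_lit 1024) (tm Z c
  (nat_lit 0)))) (Nat.add (Nat.add (mw Y (nat_lit 512) (tm Z c (nat_lit 6755399441055747))) (mw Y
  (nat_lit 896) (tm Z c (nat_lit 0)))) (mw Y (nat_lit 384) (tm Z c (nat_lit 6755399441055747)))))
  (Nat.mul (nat_lit 2) (Nat.add (Nat.add (Nat.add (mw Y (nat_lit 768) (tm Z c (nat_lit 0))) (mw Y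
  (nat_lit 256) (tm Z c (nat_lit 6755399441055747)))) (Nat.add (mw Y (nat_lit 640) (tm Z c (nat_lit
  0))) (mw Y (nat_lit 512) (tm Z c (nat_lit 0))))) (mw Y (nat_lit 128) (tm Z c (nat_lit
  6755399441055747)))))))) (Nat.mul (nat_lit 8) (Nat.add (mw Y (nat_lit 1152) (tm Z c (nat_lit
  2251799813685249))) (mw Y (nat_lit 384) (tm Z c (nat_lit 0)))))))) (fo Y d (nat_lit 0) (Nat.add
  (mv Y (nat_lit 1) (Nat.add (Nat.add (ad Z c (nat_lit 20266198323167241) (fo Y d (nat_lit 1)
  (Nat.add (Nat.mul (nat_lit 8) (mw Y (nat_lit 896) (tm Z c (nat_lit 0)))) (Nat.mul (nat_lit 6)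
  (Nat.add (Nat.add (Nat.add (mw Y (nat_lit 768) (tm Z c (nat_lit 7318349394477184))) (mw Y (nat_lit
  1152) (tm Z c (nat_lit 0)))) (mw Y (nat_lit 512) (tm Z c (nat_lit 7318349394477184)))) (mw Y
  (nat_lit 256) (tm Z c (nat_lit 7318349394477184)))))))) (ad Z c (nat_lit 21955048183431552) (mw Y
  (nat_lit 640) (tm Z c (nat_lit 0))))) (Nat.mul (nat_lit 3) (Nat.add (mw Y (nat_lit 768) (tm Z c
  (nat_lit 6755399441055747))) (Nat.add (mw Y (nat_lit 512) (tm Z c (nat_lit 6755399441055747))) (mw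
  Y (nat_lit 256) (tm Z c (nat_lit 6755399441055747)))))))) (mv Y (nat_lit 16384) (ad Z c (nat_lit
  0) (Nat.mul (nat_lit 6) (Nat.add (mw Y (nat_lit 768) (tm Z c (nat_lit 0))) (Nat.add (mw Y (nat_lit
  512) (tm Z c (nat_lit 0))) (mw Y (nat_lit 256) (tm Z c (nat_lit 0))))))))))) (mv Y (nat_lit
  2097152) (tm Z c (nat_lit 0)))) (mw Y (nat_lit 128) (tm Z c (nat_lit 20266198323167241)))) (mv Y
  (nat_lit 32776) (mw Y (nat_lit 128) (tm Z c (nat_lit 0))))) (mv Y (nat_lit 32771) (mw Y (nat_lit
  256) (tm Z c (nat_lit 0))))) (mv Y (nat_lit 32774) (mw Y (nat_lit 128) (tm Z c (nat_lit 0))))) (mw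
  Y (nat_lit 1152) (tm Z c (nat_lit 0)))) (mv Y (nat_lit 32777) (tm Z c (nat_lit 0)))))

/-- program -/
def b14_13P : Pg :=
  (.fold (nat_lit 0) (.add (.add (.add (.fold (nat_lit 0) (.add (.add (.fold (nat_lit 0) (.add (.mw
  (nat_lit 128) (.add (.mul (nat_lit 8) (.fold (nat_lit 4) (.add (.at (nat_lit 16888499445694464)
  (nat_lit 6) (.t (nat_lit 18577350092390400) (nat_lit 3))) (.mul (nat_lit 3) (.add (.at (nat_lit
  19140300307955712) (nat_lit 2) (.t (nat_lit 19703250523521024) (nat_lit 1))) (.at (nat_lit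
  15762599014563840) (nat_lit 8) (.t (nat_lit 16325549230129152) (nat_lit 7)))))))) (.mul (nat_lit
  3) (.at (nat_lit 17451449661259776) (nat_lit 5) (.t (nat_lit 18014399876825088) (nat_lit 4))))))
  (.mv (nat_lit 11) (.add (.add (.at (nat_lit 7318349681786880) (nat_lit 16) (.add (.add (.mul
  (nat_lit 2) (.fold (nat_lit 11) (.add (.at (nat_lit 6192450030796800) (nat_lit 18) (.add (.add
  (.add (.at (nat_lit 11258999630462976) (nat_lit 9) (.at (nat_lit 14636699363573760) (nat_lit 3)
  (.at (nat_lit 11821949065887744) (nat_lit 8) (.t (nat_lit 13510798932443136) (nat_lit 5))))) (.add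
  (.add (.at (nat_lit 8444249852870656) (nat_lit 14) (.at (nat_lit 9570149503860736) (nat_lit 12)
  (.t (nat_lit 12384899541499904) (nat_lit 7)))) (.at (nat_lit 7881299897352192) (nat_lit 15) (.t
  (nat_lit 12947849236971520) (nat_lit 6)))) (.at (nat_lit 11258999110369280) (nat_lit 9) (.at
  (nat_lit 7318349421740032) (nat_lit 16) (.t (nat_lit 10133099459379200) (nat_lit 11)))))) (.at
  (nat_lit 6755399466221568) (nat_lit 17) (.t (nat_lit 8444249332776960) (nat_lit 14)))) (.at
  (nat_lit 6755399726268416) (nat_lit 17) (.at (nat_lit 9570149763907584) (nat_lit 12) (.t (nat_lit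
  12947849497018368) (nat_lit 6)))))) (.at (nat_lit 5066549599666176) (nat_lit 20) (.t (nat_lit
  10133099199332352) (nat_lit 11)))))) (.at (nat_lit 10696049414897664) (nat_lit 10) (.at (nat_lit
  13510799452536832) (nat_lit 5) (.t (nat_lit 14073749148008448) (nat_lit 4))))) (.add (.at (nat_lit
  10696049674944512) (nat_lit 10) (.at (nat_lit 10133099719426048) (nat_lit 11) (.t (nat_lit
  11821949325934592) (nat_lit 8)))) (.at (nat_lit 9007199288295424) (nat_lit 13) (.t (nat_lit
  9570149243813888) (nat_lit 12)))))) (.add (.at (nat_lit 7318349941833728) (nat_lit 16) (.t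
  (nat_lit 12384899021406208) (nat_lit 7))) (.at (nat_lit 6192449510703104) (nat_lit 18) (.t
  (nat_lit 7881299637305344) (nat_lit 15))))) (.at (nat_lit 5629499815231488) (nat_lit 19) (.at
  (nat_lit 9007199548342272) (nat_lit 13) (.t (nat_lit 12384899281453056) (nat_lit 7)))))))) (.mv
  (nat_lit 1) (.add (.fold (nat_lit 1) (.add (.add (.fold (nat_lit 1) (.mw (nat_lit 256) (.add (.mul
  (nat_lit 8) (.fold (nat_lit 9) (.add (.add (.at (nat_lit 13510799712583680) (nat_lit 7) (.t
  (nat_lit 14073783220436992) (nat_lit 6))) (.mul (nat_lit 2) (.at (nat_lit 11821949846028288)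
  (nat_lit 10) (.t (nat_lit 12384933353881600) (nat_lit 9))))) (.at (nat_lit 10133099979472896)
  (nat_lit 13) (.t (nat_lit 10696083487326208) (nat_lit 12)))))) (.mul (nat_lit 3) (.add (.add (.at
  (nat_lit 14636733175955456) (nat_lit 5) (.t (nat_lit 15199683131473920) (nat_lit 4))) (.at
  (nat_lit 9570150023954432) (nat_lit 14) (.t (nat_lit 10133133531807744) (nat_lit 13)))) (.at
  (nat_lit 9570183576289280) (nat_lit 14) (.at (nat_lit 9007200068435968) (nat_lit 15) (.at (nat_lit
  14073749668102144) (nat_lit 6) (.t (nat_lit 14636699623620608) (nat_lit 5)))))))))) (.mw (nat_lit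
  384) (.add (.fold (nat_lit 13) (.add (.mul (nat_lit 5) (.add (.at (nat_lit 6755399466221568)
  (nat_lit 15) (.t (nat_lit 8444249332776960) (nat_lit 12))) (.at (nat_lit 3377699733110784)
  (nat_lit 21) (.t (nat_lit 11821949065887744) (nat_lit 6))))) (.mul (nat_lit 3) (.at (nat_lit
  2251799822073856) (nat_lit 23) (.at (nat_lit 2814749777592320) (nat_lit 22) (.at (nat_lit
  12384899021406208) (nat_lit 5) (.t (nat_lit 12947848976924672) (nat_lit 4)))))))) (.mul (nat_lit
  8) (.fold (nat_lit 13) (.add (.at (nat_lit 1688849866555392) (nat_lit 24) (.t (nat_lit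
  13510798932443136) (nat_lit 3))) (.mul (nat_lit 3) (.at (nat_lit 562949955518464) (nat_lit 26)
  (.at (nat_lit 1125899911036928) (nat_lit 25) (.at (nat_lit 5629499555184640) (nat_lit 17) (.add
  (.add (.at (nat_lit 14073748887961600) (nat_lit 2) (.t (nat_lit 14636698843480064) (nat_lit 1)))
  (.at (nat_lit 9007199288295424) (nat_lit 11) (.t (nat_lit 9570149243813888) (nat_lit 10)))) (.at
  (nat_lit 6192449510703104) (nat_lit 16) (.at (nat_lit 7318349421740032) (nat_lit 14) (.t (nat_lit
  7881299377258496) (nat_lit 13))))))))))))))) (.mw (nat_lit 128) (.add (.add (.at (nat_lit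
  16325617374986240) (nat_lit 6) (.at (nat_lit 18014467241541632) (nat_lit 3) (.add (.mul (nat_lit
  3) (.fold (nat_lit 5) (.add (.add (.add (.add (.at (nat_lit 19140367152578560) (nat_lit 1) (.t
  (nat_lit 19140300568002560) (nat_lit 1))) (.at (nat_lit 18577417197060096) (nat_lit 2) (.t
  (nat_lit 18577350612484096) (nat_lit 2)))) (.at (nat_lit 16325583822651392) (nat_lit 6) (.t
  (nat_lit 16888533778169856) (nat_lit 5)))) (.at (nat_lit 15199649319092224) (nat_lit 8) (.t
  (nat_lit 15762599274610688) (nat_lit 7)))) (.add (.add (.at (nat_lit 16325549750222848) (nat_lit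
  6) (.t (nat_lit 16888499705741312) (nat_lit 5))) (.at (nat_lit 15199717463949312) (nat_lit 8) (.t
  (nat_lit 15762667419467776) (nat_lit 7)))) (.add (.at (nat_lit 14073748887961600) (nat_lit 10) (.t
  (nat_lit 14636698843480064) (nat_lit 9))) (.at (nat_lit 14073750448242688) (nat_lit 10) (.t
  (nat_lit 14636700403761152) (nat_lit 9)))))))) (.mul (nat_lit 6) (.fold (nat_lit 5) (.add (.add
  (.add (.add (.at (nat_lit 16888499965788160) (nat_lit 5) (.t (nat_lit 17451449921306624) (nat_lit
  4))) (.at (nat_lit 17451517286023168) (nat_lit 4) (.at (nat_lit 16325550270316544) (nat_lit 6) (.t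
  (nat_lit 17451450181353472) (nat_lit 4))))) (.add (.at (nat_lit 16888567330504704) (nat_lit 5) (.t
  (nat_lit 18014400136871936) (nat_lit 3))) (.at (nat_lit 15762600314798080) (nat_lit 7) (.t
  (nat_lit 16325549490176000) (nat_lit 6))))) (.at (nat_lit 15762599534657536) (nat_lit 7) (.t
  (nat_lit 18014400396918784) (nat_lit 3)))) (.add (.at (nat_lit 18577383644725248) (nat_lit 2) (.at
  (nat_lit 18014433689206784) (nat_lit 3) (.t (nat_lit 18577350352437248) (nat_lit 2)))) (.add (.at
  (nat_lit 15199683911614464) (nat_lit 8) (.t (nat_lit 15199649059045376) (nat_lit 8))) (.at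
  (nat_lit 14636733956096000) (nat_lit 9) (.t (nat_lit 14636699103526912) (nat_lit 9)))))))))))
  (.mul (nat_lit 2) (.at (nat_lit 15762633867132928) (nat_lit 7) (.t (nat_lit 17451483733688320)
  (nat_lit 4))))) (.at (nat_lit 15199650359279616) (nat_lit 8) (.t (nat_lit 16888500225835008)
  (nat_lit 5))))))) (.mul (nat_lit 8) (.at (nat_lit 20829184246939648) (nat_lit 2) (.t (nat_lit
  21392167754792960) (nat_lit 1))))))) (.mv (nat_lit 16384) (.add (.mul (nat_lit 8) (.fold (nat_lit
  13) (.add (.at (nat_lit 5066549599666176) (nat_lit 18) (.t (nat_lit 10133099199332352) (nat_lit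
  9))) (.mul (nat_lit 3) (.at (nat_lit 1688849866555392) (nat_lit 24) (.at (nat_lit
  3377699733110784) (nat_lit 21) (.at (nat_lit 11821949065887744) (nat_lit 6) (.t (nat_lit
  13510798932443136) (nat_lit 3))))))))) (.mul (nat_lit 3) (.at (nat_lit 6755399466221568) (nat_lit
  15) (.t (nat_lit 8444249332776960) (nat_lit 12)))))))) (.fold (nat_lit 0) (.add (.fold (nat_lit 0)
  (.add (.fold (nat_lit 0) (.add (.fold (nat_lit 0) (.add (.fold (nat_lit 0) (.add (.fold (nat_lit
  0) (.add (.fold (nat_lit 0) (.add (.fold (nat_lit 0) (.add (.at (nat_lit 21955151262646272)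
  (nat_lit 1) (.t (nat_lit 22522396183363584) (nat_lit 0))) (.mv (nat_lit 12) (.add (.at (nat_lit
  4503599904194560) (nat_lit 20) (.at (nat_lit 5066549859713024) (nat_lit 19) (.add (.add (.add
  (.add (.at (nat_lit 12947849236971520) (nat_lit 5) (.t (nat_lit 13510799192489984) (nat_lit 4)))
  (.at (nat_lit 7881299637305344) (nat_lit 14) (.at (nat_lit 12384899021406208) (nat_lit 6) (.t
  (nat_lit 12947848976924672) (nat_lit 5))))) (.at (nat_lit 9570149243813888) (nat_lit 11) (.at
  (nat_lit 7318349421740032) (nat_lit 15) (.t (nat_lit 10133099459379200) (nat_lit 10))))) (.add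
  (.at (nat_lit 7318349681786880) (nat_lit 15) (.t (nat_lit 10133099199332352) (nat_lit 10))) (.at
  (nat_lit 6755399466221568) (nat_lit 16) (.t (nat_lit 10696049414897664) (nat_lit 9))))) (.mul
  (nat_lit 2) (.at (nat_lit 6192449510703104) (nat_lit 17) (.add (.at (nat_lit 8444249332776960)
  (nat_lit 13) (.t (nat_lit 11258999370416128) (nat_lit 8))) (.at (nat_lit 10696049154850816)
  (nat_lit 9) (.at (nat_lit 6755399726268416) (nat_lit 16) (.t (nat_lit 9007199548342272) (nat_lit
  12)))))))))) (.at (nat_lit 3940649688629248) (nat_lit 21) (.t (nat_lit 4503599644147712) (nat_lit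
  20))))))) (.mv (nat_lit 8) (.add (.add (.add (.at (nat_lit 11259033702891520) (nat_lit 12) (.at
  (nat_lit 14636699103526912) (nat_lit 6) (.add (.mul (nat_lit 2) (.fold (nat_lit 8) (.add (.add
  (.add (.add (.at (nat_lit 12384899281453056) (nat_lit 10) (.add (.add (.add (.at (nat_lit
  14073749668102144) (nat_lit 7) (.t (nat_lit 14636699623620608) (nat_lit 6))) (.add (.at (nat_lit
  15199650099232768) (nat_lit 5) (.t (nat_lit 15762600054751232) (nat_lit 4))) (.at (nat_lit
  13510800232677376) (nat_lit 8) (.t (nat_lit 14073750188195840) (nat_lit 7))))) (.at (nat_lit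
  12384899021406208) (nat_lit 10) (.t (nat_lit 12947848976924672) (nat_lit 9)))) (.at (nat_lit
  12384899801546752) (nat_lit 10) (.t (nat_lit 12947849757065216) (nat_lit 9))))) (.add (.at
  (nat_lit 12947883569446912) (nat_lit 9) (.t (nat_lit 14636733436002304) (nat_lit 6))) (.add (.at
  (nat_lit 13510799712583680) (nat_lit 8) (.t (nat_lit 14073783220436992) (nat_lit 7))) (.at
  (nat_lit 11821949846028288) (nat_lit 11) (.t (nat_lit 12384933353881600) (nat_lit 10)))))) (.at
  (nat_lit 14073749408055296) (nat_lit 7) (.at (nat_lit 11821949585981440) (nat_lit 11) (.t (nat_lit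
  12384899541499904) (nat_lit 10))))) (.at (nat_lit 10696049154850816) (nat_lit 13) (.t (nat_lit
  11258999110369280) (nat_lit 12)))) (.at (nat_lit 10696049414897664) (nat_lit 13) (.at (nat_lit
  13510799452536832) (nat_lit 8) (.t (nat_lit 14073749148008448) (nat_lit 7))))))) (.at (nat_lit
  16325583302557696) (nat_lit 3) (.t (nat_lit 16325549750222848) (nat_lit 3)))))) (.add (.at
  (nat_lit 11821950106075136) (nat_lit 11) (.at (nat_lit 15199649579139072) (nat_lit 5) (.t (nat_lit
  15762633086992384) (nat_lit 4)))) (.add (.at (nat_lit 12384900061593600) (nat_lit 10) (.t (nat_lit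
  14073749928148992) (nat_lit 7))) (.at (nat_lit 10133099459379200) (nat_lit 14) (.t (nat_lit
  10696050195038208) (nat_lit 13)))))) (.at (nat_lit 10133099979472896) (nat_lit 14) (.t (nat_lit
  10696083487326208) (nat_lit 13)))) (.mw (nat_lit 128) (.mul (nat_lit 2) (.at (nat_lit
  5066549599666176) (nat_lit 19) (.add (.at (nat_lit 8444249332776960) (nat_lit 13) (.t (nat_lit
  11821949065887744) (nat_lit 7))) (.at (nat_lit 5629499815231488) (nat_lit 18) (.at (nat_lit
  9007199548342272) (nat_lit 12) (.t (nat_lit 12384899281453056) (nat_lit 6)))))))))))) (.mv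
  (nat_lit 2) (.add (.add (.add (.add (.at (nat_lit 20266267323662336) (nat_lit 2) (.t (nat_lit
  20829217539227648) (nat_lit 1))) (.mul (nat_lit 2) (.at (nat_lit 19703283815809024) (nat_lit 3)
  (.t (nat_lit 20266234031374336) (nat_lit 2))))) (.at (nat_lit 19140300307955712) (nat_lit 4) (.t
  (nat_lit 19703250523521024) (nat_lit 3)))) (.mw (nat_lit 128) (.at (nat_lit 14073749928148992)
  (nat_lit 9) (.at (nat_lit 14636733436002304) (nat_lit 8) (.add (.add (.at (nat_lit
  15762599794704384) (nat_lit 6) (.t (nat_lit 16325583302557696) (nat_lit 5))) (.at (nat_lit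
  15199683651567616) (nat_lit 7) (.t (nat_lit 16888533518123008) (nat_lit 4)))) (.at (nat_lit
  14636700143714304) (nat_lit 8) (.t (nat_lit 16325550010269696) (nat_lit 5)))))))) (.mw (nat_lit
  256) (.add (.add (.mul (nat_lit 2) (.at (nat_lit 10696049414897664) (nat_lit 11) (.t (nat_lit
  11258999630462976) (nat_lit 10)))) (.at (nat_lit 9570149763907584) (nat_lit 13) (.t (nat_lit
  12947849497018368) (nat_lit 7)))) (.at (nat_lit 9007199548342272) (nat_lit 14) (.t (nat_lit
  12384899281453056) (nat_lit 8))))))))) (.mv (nat_lit 9) (.add (.add (.at (nat_lit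
  11258999890509824) (nat_lit 11) (.add (.at (nat_lit 12384899801546752) (nat_lit 9) (.at (nat_lit
  12947849236971520) (nat_lit 8) (.at (nat_lit 13510833264918528) (nat_lit 7) (.fold (nat_lit 9)
  (.add (.add (.add (.mul (nat_lit 2) (.fold (nat_lit 9) (.at (nat_lit 7881300157399040) (nat_lit
  17) (.at (nat_lit 8444283665252352) (nat_lit 16) (.add (.add (.add (.at (nat_lit
  11821949846028288) (nat_lit 10) (.add (.at (nat_lit 12947849757065216) (nat_lit 8) (.at (nat_lit
  14073783220436992) (nat_lit 6) (.at (nat_lit 15199683131473920) (nat_lit 4) (.t (nat_lit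
  16325583042510848) (nat_lit 2))))) (.at (nat_lit 15762599534657536) (nat_lit 3) (.at (nat_lit
  12384899281453056) (nat_lit 9) (.t (nat_lit 12947849497018368) (nat_lit 8)))))) (.at (nat_lit
  10696049414897664) (nat_lit 12) (.t (nat_lit 11258999630462976) (nat_lit 11)))) (.at (nat_lit
  10133099979472896) (nat_lit 13) (.t (nat_lit 10696083487326208) (nat_lit 12)))) (.at (nat_lit
  9570183576289280) (nat_lit 14) (.at (nat_lit 9007200068435968) (nat_lit 15) (.at (nat_lit
  14073749668102144) (nat_lit 6) (.t (nat_lit 14636699623620608) (nat_lit 5)))))))))) (.add (.at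
  (nat_lit 15762599794704384) (nat_lit 3) (.at (nat_lit 14636699883667456) (nat_lit 5) (.at (nat_lit
  12947850017112064) (nat_lit 8) (.t (nat_lit 13510799972630528) (nat_lit 7))))) (.at (nat_lit
  13510799712583680) (nat_lit 7) (.at (nat_lit 14636699363573760) (nat_lit 5) (.at (nat_lit
  11821949065887744) (nat_lit 10) (.t (nat_lit 13510798932443136) (nat_lit 7))))))) (.add (.at
  (nat_lit 10696049154850816) (nat_lit 12) (.t (nat_lit 11258999110369280) (nat_lit 11))) (.at
  (nat_lit 9570149243813888) (nat_lit 14) (.t (nat_lit 12384899021406208) (nat_lit 9))))) (.mw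
  (nat_lit 128) (.add (.at (nat_lit 2814749777592320) (nat_lit 22) (.add (.at (nat_lit
  3940649688629248) (nat_lit 20) (.at (nat_lit 11258999110369280) (nat_lit 7) (.t (nat_lit
  12384899021406208) (nat_lit 5)))) (.at (nat_lit 3377699733110784) (nat_lit 21) (.t (nat_lit
  11821949065887744) (nat_lit 6))))) (.mul (nat_lit 2) (.add (.at (nat_lit 9007199288295424)
  (nat_lit 11) (.at (nat_lit 6192449510703104) (nat_lit 16) (.at (nat_lit 7318349421740032) (nat_lit
  14) (.t (nat_lit 7881299377258496) (nat_lit 13))))) (.at (nat_lit 1688849866555392) (nat_lit 24)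
  (.t (nat_lit 13510798932443136) (nat_lit 3)))))))))))) (.at (nat_lit 11821949325934592) (nat_lit
  10) (.t (nat_lit 14636733175955456) (nat_lit 5))))) (.add (.at (nat_lit 11821950106075136)
  (nat_lit 10) (.at (nat_lit 15199649579139072) (nat_lit 4) (.t (nat_lit 15762633086992384) (nat_lit
  3)))) (.add (.at (nat_lit 12384900061593600) (nat_lit 9) (.t (nat_lit 14073749928148992) (nat_lit
  6))) (.at (nat_lit 10133099459379200) (nat_lit 13) (.t (nat_lit 10696050195038208) (nat_lit
  12)))))) (.at (nat_lit 8444250112917504) (nat_lit 16) (.add (.at (nat_lit 9007233620770816)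
  (nat_lit 15) (.at (nat_lit 9570149763907584) (nat_lit 14) (.add (.at (nat_lit 11259033442844672)
  (nat_lit 11) (.at (nat_lit 10133099199332352) (nat_lit 13) (.t (nat_lit 10696049934991360)
  (nat_lit 12)))) (.at (nat_lit 9570150023954432) (nat_lit 14) (.t (nat_lit 10133133531807744)
  (nat_lit 13)))))) (.at (nat_lit 8444249332776960) (nat_lit 16) (.t (nat_lit 11258999370416128)
  (nat_lit 11))))))))) (.mv (nat_lit 3) (.add (.at (nat_lit 18014400396918784) (nat_lit 5) (.at
  (nat_lit 18577350092390400) (nat_lit 4) (.at (nat_lit 19140367412625408) (nat_lit 3) (.fold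
  (nat_lit 3) (.add (.at (nat_lit 19140334120337408) (nat_lit 3) (.at (nat_lit 19140333600243712)
  (nat_lit 3) (.at (nat_lit 19703317368143872) (nat_lit 2) (.fold (nat_lit 3) (.add (.at (nat_lit
  19703284075855872) (nat_lit 2) (.at (nat_lit 18577383644725248) (nat_lit 4) (.at (nat_lit
  18014433689206784) (nat_lit 5) (.t (nat_lit 18577350352437248) (nat_lit 4))))) (.mul (nat_lit 2)
  (.at (nat_lit 17451450181353472) (nat_lit 6) (.at (nat_lit 18014400136871936) (nat_lit 5) (.at
  (nat_lit 18014399876825088) (nat_lit 5) (.at (nat_lit 18577383904772096) (nat_lit 4) (.at (nat_lit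
  18577383384678400) (nat_lit 4) (.add (.at (nat_lit 19140333860290560) (nat_lit 3) (.at (nat_lit
  19140300307955712) (nat_lit 3) (.at (nat_lit 19703317628190720) (nat_lit 2) (.at (nat_lit
  19703283815809024) (nat_lit 2) (.t (nat_lit 20266267583709184) (nat_lit 1)))))) (.add (.at
  (nat_lit 19140367152578560) (nat_lit 3) (.t (nat_lit 19140300568002560) (nat_lit 3))) (.at
  (nat_lit 18577417197060096) (nat_lit 4) (.t (nat_lit 18577350612484096) (nat_lit 4))))))))))))))))
  (.mw (nat_lit 256) (.add (.add (.at (nat_lit 11258999370416128) (nat_lit 9) (.add (.at (nat_lit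
  10696049674944512) (nat_lit 10) (.at (nat_lit 10133099719426048) (nat_lit 11) (.t (nat_lit
  11821949325934592) (nat_lit 8)))) (.at (nat_lit 9007199288295424) (nat_lit 13) (.t (nat_lit
  9570149243813888) (nat_lit 12))))) (.at (nat_lit 7881299637305344) (nat_lit 15) (.t (nat_lit
  8444249592823808) (nat_lit 14)))) (.mul (nat_lit 2) (.add (.add (.add (.at (nat_lit
  10133099459379200) (nat_lit 11) (.t (nat_lit 11821949585981440) (nat_lit 8))) (.at (nat_lit
  9007199808389120) (nat_lit 13) (.at (nat_lit 10696049154850816) (nat_lit 10) (.t (nat_lit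
  11258999110369280) (nat_lit 9))))) (.at (nat_lit 8444249852870656) (nat_lit 14) (.at (nat_lit
  9570149503860736) (nat_lit 12) (.t (nat_lit 12384899541499904) (nat_lit 7))))) (.at (nat_lit
  7318349421740032) (nat_lit 16) (.t (nat_lit 7881299377258496) (nat_lit 15)))))))))))) (.mw
  (nat_lit 128) (.add (.at (nat_lit 12947849497018368) (nat_lit 10) (.add (.at (nat_lit
  14073749928148992) (nat_lit 8) (.at (nat_lit 15199649839185920) (nat_lit 6) (.at (nat_lit
  15199649579139072) (nat_lit 6) (.add (.fold (nat_lit 7) (.mul (nat_lit 2) (.add (.add (.add (.at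
  (nat_lit 14636733175955456) (nat_lit 7) (.t (nat_lit 15199683131473920) (nat_lit 6))) (.at
  (nat_lit 14073749668102144) (nat_lit 8) (.t (nat_lit 14636699623620608) (nat_lit 7)))) (.add (.add
  (.at (nat_lit 15762633607086080) (nat_lit 5) (.t (nat_lit 16325583562604544) (nat_lit 4))) (.at
  (nat_lit 14073783740530688) (nat_lit 8) (.t (nat_lit 14636733696049152) (nat_lit 7)))) (.add (.at
  (nat_lit 15199650099232768) (nat_lit 6) (.t (nat_lit 15762600054751232) (nat_lit 5))) (.at
  (nat_lit 13510800232677376) (nat_lit 9) (.t (nat_lit 14073750188195840) (nat_lit 8)))))) (.add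
  (.at (nat_lit 12947883309400064) (nat_lit 10) (.t (nat_lit 13510833264918528) (nat_lit 9))) (.at
  (nat_lit 12384899801546752) (nat_lit 11) (.t (nat_lit 12947849757065216) (nat_lit 10))))))) (.at
  (nat_lit 15199650359279616) (nat_lit 6) (.t (nat_lit 16888500225835008) (nat_lit 3))))))) (.at
  (nat_lit 15762633347039232) (nat_lit 5) (.at (nat_lit 15199683391520768) (nat_lit 6) (.at (nat_lit
  13510833524965376) (nat_lit 9) (.t (nat_lit 14073783480483840) (nat_lit 8))))))) (.add (.at
  (nat_lit 15762599794704384) (nat_lit 5) (.at (nat_lit 14636699883667456) (nat_lit 7) (.at (nat_lit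
  12947850017112064) (nat_lit 10) (.t (nat_lit 13510799972630528) (nat_lit 9))))) (.at (nat_lit
  13510799712583680) (nat_lit 9) (.at (nat_lit 14636699363573760) (nat_lit 7) (.at (nat_lit
  11821949065887744) (nat_lit 12) (.t (nat_lit 13510798932443136) (nat_lit 9)))))))))))) (.mv
  (nat_lit 10) (.add (.at (nat_lit 7318349941833728) (nat_lit 17) (.add (.add (.add (.add (.add (.at
  (nat_lit 9570150023954432) (nat_lit 13) (.at (nat_lit 13510799192489984) (nat_lit 6) (.at (nat_lit
  14636699103526912) (nat_lit 4) (.at (nat_lit 15199649319092224) (nat_lit 3) (.mul (nat_lit 2)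
  (.fold (nat_lit 10) (.at (nat_lit 7318349681786880) (nat_lit 17) (.add (.at (nat_lit
  8444249592823808) (nat_lit 15) (.add (.add (.add (.add (.at (nat_lit 10696049934991360) (nat_lit
  11) (.at (nat_lit 11258999890509824) (nat_lit 10) (.add (.at (nat_lit 14636699363573760) (nat_lit
  4) (.at (nat_lit 13510799452536832) (nat_lit 6) (.t (nat_lit 14073749148008448) (nat_lit 5))))
  (.at (nat_lit 12384899801546752) (nat_lit 8) (.t (nat_lit 12947849757065216) (nat_lit 7)))))) (.at
  (nat_lit 10133099719426048) (nat_lit 12) (.t (nat_lit 11821949325934592) (nat_lit 9)))) (.at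
  (nat_lit 9570149503860736) (nat_lit 13) (.t (nat_lit 12384899541499904) (nat_lit 8)))) (.at
  (nat_lit 9007199288295424) (nat_lit 14) (.t (nat_lit 9570149243813888) (nat_lit 13)))) (.at
  (nat_lit 9007199808389120) (nat_lit 14) (.at (nat_lit 10696049154850816) (nat_lit 11) (.t (nat_lit
  11258999110369280) (nat_lit 10)))))) (.at (nat_lit 7881299897352192) (nat_lit 16) (.t (nat_lit
  12947849236971520) (nat_lit 7))))))))))) (.at (nat_lit 9007199548342272) (nat_lit 14) (.t (nat_lit
  12384899281453056) (nat_lit 8)))) (.at (nat_lit 9007200068435968) (nat_lit 14) (.at (nat_lit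
  14073749668102144) (nat_lit 5) (.t (nat_lit 14636699623620608) (nat_lit 4))))) (.at (nat_lit
  8444249852870656) (nat_lit 15) (.t (nat_lit 14073749408055296) (nat_lit 5)))) (.at (nat_lit
  7881299637305344) (nat_lit 16) (.at (nat_lit 12384899021406208) (nat_lit 8) (.t (nat_lit
  12947848976924672) (nat_lit 7))))) (.at (nat_lit 7318349421740032) (nat_lit 17) (.t (nat_lit
  7881299377258496) (nat_lit 16))))) (.at (nat_lit 6755399726268416) (nat_lit 18) (.at (nat_lit
  9570149763907584) (nat_lit 13) (.t (nat_lit 12947849497018368) (nat_lit 7)))))))) (.mv (nat_lit 5)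
  (.add (.add (.at (nat_lit 16325550010269696) (nat_lit 6) (.add (.at (nat_lit 16888533518123008)
  (nat_lit 5) (.at (nat_lit 17451450441400320) (nat_lit 4) (.at (nat_lit 17451449921306624) (nat_lit
  4) (.add (.add (.fold (nat_lit 5) (.add (.add (.at (nat_lit 18014400396918784) (nat_lit 3) (.add
  (.add (.at (nat_lit 16325549750222848) (nat_lit 6) (.t (nat_lit 16888499705741312) (nat_lit 5)))
  (.at (nat_lit 15199717463949312) (nat_lit 8) (.t (nat_lit 15762667419467776) (nat_lit 7)))) (.add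
  (.at (nat_lit 14073748887961600) (nat_lit 10) (.t (nat_lit 14636698843480064) (nat_lit 9))) (.at
  (nat_lit 14073750448242688) (nat_lit 10) (.t (nat_lit 14636700403761152) (nat_lit 9)))))) (.mw
  (nat_lit 128) (.add (.at (nat_lit 10696049674944512) (nat_lit 12) (.at (nat_lit 11821950106075136)
  (nat_lit 10) (.add (.add (.at (nat_lit 13510799452536832) (nat_lit 7) (.fold (nat_lit 9) (.add
  (.mul (nat_lit 2) (.add (.at (nat_lit 11258999630462976) (nat_lit 11) (.add (.add (.at (nat_lit
  12384900061593600) (nat_lit 9) (.t (nat_lit 14073749928148992) (nat_lit 6))) (.at (nat_lit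
  11821949065887744) (nat_lit 10) (.t (nat_lit 12947849497018368) (nat_lit 8)))) (.add (.add (.at
  (nat_lit 12947883309400064) (nat_lit 8) (.t (nat_lit 13510833264918528) (nat_lit 7))) (.at
  (nat_lit 12384899801546752) (nat_lit 9) (.t (nat_lit 12947849757065216) (nat_lit 8)))) (.at
  (nat_lit 11258999890509824) (nat_lit 11) (.t (nat_lit 11821983398363136) (nat_lit 10)))))) (.at
  (nat_lit 11259033442844672) (nat_lit 11) (.at (nat_lit 10133099199332352) (nat_lit 13) (.t
  (nat_lit 10696049934991360) (nat_lit 12)))))) (.add (.at (nat_lit 10696049154850816) (nat_lit 12)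
  (.t (nat_lit 11258999110369280) (nat_lit 11))) (.at (nat_lit 9570149243813888) (nat_lit 14) (.t
  (nat_lit 12384899021406208) (nat_lit 9))))))) (.at (nat_lit 14636699883667456) (nat_lit 5) (.at
  (nat_lit 12947850017112064) (nat_lit 8) (.t (nat_lit 13510799972630528) (nat_lit 7))))) (.at
  (nat_lit 11821949585981440) (nat_lit 10) (.t (nat_lit 12384899541499904) (nat_lit 9)))))) (.add
  (.add (.at (nat_lit 14636733175955456) (nat_lit 5) (.t (nat_lit 15199683131473920) (nat_lit 4)))
  (.at (nat_lit 9570150023954432) (nat_lit 14) (.t (nat_lit 10133133531807744) (nat_lit 13)))) (.at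
  (nat_lit 9570183576289280) (nat_lit 14) (.at (nat_lit 9007200068435968) (nat_lit 15) (.at (nat_lit
  14073749668102144) (nat_lit 6) (.t (nat_lit 14636699623620608) (nat_lit 5))))))))) (.mw (nat_lit
  256) (.add (.add (.at (nat_lit 10696049154850816) (nat_lit 8) (.t (nat_lit 11258999110369280)
  (nat_lit 7))) (.at (nat_lit 7318349421740032) (nat_lit 14) (.t (nat_lit 7881299377258496) (nat_lit
  13)))) (.at (nat_lit 3940649688629248) (nat_lit 20) (.t (nat_lit 4503599644147712) (nat_lit
  19))))))) (.mul (nat_lit 2) (.fold (nat_lit 5) (.at (nat_lit 14636699623620608) (nat_lit 9) (.add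
  (.add (.at (nat_lit 15762600054751232) (nat_lit 7) (.at (nat_lit 16325583562604544) (nat_lit 6)
  (.add (.add (.at (nat_lit 17451483993735168) (nat_lit 4) (.t (nat_lit 17451483473641472) (nat_lit
  4))) (.at (nat_lit 16888500485881856) (nat_lit 5) (.t (nat_lit 18577383904772096) (nat_lit 2))))
  (.at (nat_lit 16325583822651392) (nat_lit 6) (.t (nat_lit 16888533778169856) (nat_lit 5)))))) (.at
  (nat_lit 15199683131473920) (nat_lit 8) (.t (nat_lit 16325583042510848) (nat_lit 6)))) (.add (.at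
  (nat_lit 18577383644725248) (nat_lit 2) (.at (nat_lit 18014433689206784) (nat_lit 3) (.t (nat_lit
  18577350352437248) (nat_lit 2)))) (.add (.at (nat_lit 15199683911614464) (nat_lit 8) (.t (nat_lit
  15199649059045376) (nat_lit 8))) (.at (nat_lit 14636733956096000) (nat_lit 9) (.t (nat_lit
  14636699103526912) (nat_lit 9)))))))))) (.add (.at (nat_lit 19140367152578560) (nat_lit 1) (.t
  (nat_lit 19140300568002560) (nat_lit 1))) (.at (nat_lit 18577417197060096) (nat_lit 2) (.t
  (nat_lit 18577350612484096) (nat_lit 2)))))))) (.at (nat_lit 18014433949253632) (nat_lit 3) (.at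
  (nat_lit 17451517286023168) (nat_lit 4) (.at (nat_lit 16325550270316544) (nat_lit 6) (.t (nat_lit
  17451450181353472) (nat_lit 4))))))) (.add (.at (nat_lit 16888567330504704) (nat_lit 5) (.t
  (nat_lit 18014400136871936) (nat_lit 3))) (.at (nat_lit 15762600314798080) (nat_lit 7) (.t
  (nat_lit 16325549490176000) (nat_lit 6))))) (.at (nat_lit 15199649579139072) (nat_lit 8) (.t
  (nat_lit 15762633086992384) (nat_lit 7))))))) (.mv (nat_lit 7) (.add (.add (.at (nat_lit
  12384933613928448) (nat_lit 11) (.at (nat_lit 12947850277158912) (nat_lit 10) (.add (.at (nat_lit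
  13510833785012224) (nat_lit 9) (.add (.add (.add (.at (nat_lit 16888533258076160) (nat_lit 3)
  (.add (.fold (nat_lit 7) (.add (.add (.add (.add (.at (nat_lit 16888499705741312) (nat_lit 3)
  (.add (.add (.at (nat_lit 15762633607086080) (nat_lit 5) (.t (nat_lit 16325583562604544) (nat_lit
  4))) (.at (nat_lit 14073783740530688) (nat_lit 8) (.t (nat_lit 14636733696049152) (nat_lit 7))))
  (.add (.at (nat_lit 15199650099232768) (nat_lit 6) (.t (nat_lit 15762600054751232) (nat_lit 5)))
  (.at (nat_lit 13510800232677376) (nat_lit 9) (.t (nat_lit 14073750188195840) (nat_lit 8)))))) (.at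
  (nat_lit 14636699363573760) (nat_lit 7) (.at (nat_lit 13510799452536832) (nat_lit 9) (.t (nat_lit
  14073749148008448) (nat_lit 8))))) (.at (nat_lit 15762599534657536) (nat_lit 5) (.at (nat_lit
  12384899281453056) (nat_lit 11) (.t (nat_lit 12947849497018368) (nat_lit 10))))) (.add (.at
  (nat_lit 13510799712583680) (nat_lit 9) (.t (nat_lit 14073783220436992) (nat_lit 8))) (.at
  (nat_lit 11821949846028288) (nat_lit 12) (.t (nat_lit 12384933353881600) (nat_lit 11))))) (.mw
  (nat_lit 128) (.add (.at (nat_lit 8444249332776960) (nat_lit 14) (.add (.at (nat_lit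
  9570149763907584) (nat_lit 12) (.at (nat_lit 11258999630462976) (nat_lit 9) (.at (nat_lit
  12384899281453056) (nat_lit 7) (.at (nat_lit 13510799452536832) (nat_lit 5) (.fold (nat_lit 11)
  (.add (.mul (nat_lit 2) (.add (.add (.add (.at (nat_lit 11821949065887744) (nat_lit 8) (.t
  (nat_lit 12947849497018368) (nat_lit 6))) (.add (.add (.at (nat_lit 8444249852870656) (nat_lit 14)
  (.at (nat_lit 9570149503860736) (nat_lit 12) (.t (nat_lit 12384899541499904) (nat_lit 7)))) (.at
  (nat_lit 7881299897352192) (nat_lit 15) (.t (nat_lit 12947849236971520) (nat_lit 6)))) (.at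
  (nat_lit 11258999110369280) (nat_lit 9) (.at (nat_lit 7318349421740032) (nat_lit 16) (.t (nat_lit
  10133099459379200) (nat_lit 11)))))) (.at (nat_lit 6755399466221568) (nat_lit 17) (.t (nat_lit
  10696049414897664) (nat_lit 10)))) (.at (nat_lit 6755399726268416) (nat_lit 17) (.t (nat_lit
  9007199548342272) (nat_lit 13))))) (.add (.at (nat_lit 7318349941833728) (nat_lit 16) (.t (nat_lit
  12384899021406208) (nat_lit 7))) (.at (nat_lit 6192449510703104) (nat_lit 18) (.t (nat_lit
  7881299637305344) (nat_lit 15)))))))))) (.add (.at (nat_lit 10696049674944512) (nat_lit 10) (.at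
  (nat_lit 10133099719426048) (nat_lit 11) (.t (nat_lit 11821949325934592) (nat_lit 8)))) (.at
  (nat_lit 9007199288295424) (nat_lit 13) (.t (nat_lit 9570149243813888) (nat_lit 12)))))) (.at
  (nat_lit 7318349681786880) (nat_lit 16) (.t (nat_lit 10133099199332352) (nat_lit 11))))))) (.mul
  (nat_lit 2) (.fold (nat_lit 7) (.add (.at (nat_lit 12384900321640448) (nat_lit 11) (.at (nat_lit
  12384900061593600) (nat_lit 11) (.at (nat_lit 12947883829493760) (nat_lit 10) (.add (.add (.add
  (.at (nat_lit 16325583042510848) (nat_lit 4) (.at (nat_lit 16325549490176000) (nat_lit 4) (.at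
  (nat_lit 16888499965788160) (nat_lit 3) (.at (nat_lit 16325583302557696) (nat_lit 4) (.t (nat_lit
  16325549750222848) (nat_lit 4)))))) (.at (nat_lit 14636700143714304) (nat_lit 7) (.t (nat_lit
  16325550010269696) (nat_lit 4)))) (.at (nat_lit 17451483473641472) (nat_lit 2) (.at (nat_lit
  15762633347039232) (nat_lit 5) (.at (nat_lit 15199683391520768) (nat_lit 6) (.at (nat_lit
  13510833524965376) (nat_lit 9) (.t (nat_lit 14073783480483840) (nat_lit 8))))))) (.at (nat_lit
  12947883569446912) (nat_lit 10) (.t (nat_lit 14636733436002304) (nat_lit 7))))))) (.at (nat_lit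
  11258999890509824) (nat_lit 13) (.t (nat_lit 11821983398363136) (nat_lit 12)))))))) (.at (nat_lit
  15199649319092224) (nat_lit 6) (.t (nat_lit 15762599274610688) (nat_lit 5)))) (.at (nat_lit
  15199683651567616) (nat_lit 6) (.t (nat_lit 16888533518123008) (nat_lit 3)))) (.at (nat_lit
  14636733175955456) (nat_lit 7) (.t (nat_lit 15199683131473920) (nat_lit 6))))) (.at (nat_lit
  12947883309400064) (nat_lit 10) (.t (nat_lit 13510833264918528) (nat_lit 9)))))) (.at (nat_lit
  11821950106075136) (nat_lit 12) (.at (nat_lit 15199649579139072) (nat_lit 6) (.t (nat_lit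
  15762633086992384) (nat_lit 5))))) (.at (nat_lit 14073749408055296) (nat_lit 8) (.at (nat_lit
  11821949585981440) (nat_lit 12) (.t (nat_lit 12384899541499904) (nat_lit 11))))))))) (.mv (nat_lit
  6) (.add (.at (nat_lit 13510798932443136) (nat_lit 10) (.at (nat_lit 16888499705741312) (nat_lit
  4) (.add (.add (.add (.fold (nat_lit 6) (.add (.add (.add (.at (nat_lit 15762633607086080)
  (nat_lit 6) (.t (nat_lit 16325583562604544) (nat_lit 5))) (.at (nat_lit 14073783740530688)
  (nat_lit 9) (.t (nat_lit 14636733696049152) (nat_lit 8)))) (.add (.at (nat_lit 15199650099232768)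
  (nat_lit 7) (.t (nat_lit 15762600054751232) (nat_lit 6))) (.at (nat_lit 13510800232677376)
  (nat_lit 10) (.t (nat_lit 14073750188195840) (nat_lit 9))))) (.mw (nat_lit 128) (.add (.add (.add
  (.at (nat_lit 11258999370416128) (nat_lit 10) (.at (nat_lit 10133099459379200) (nat_lit 12) (.t
  (nat_lit 11821949585981440) (nat_lit 9)))) (.at (nat_lit 10696049674944512) (nat_lit 11) (.at
  (nat_lit 10133099719426048) (nat_lit 12) (.t (nat_lit 11821949325934592) (nat_lit 9))))) (.at
  (nat_lit 9570149503860736) (nat_lit 13) (.t (nat_lit 12384899541499904) (nat_lit 8)))) (.mul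
  (nat_lit 2) (.add (.add (.at (nat_lit 9007199808389120) (nat_lit 14) (.at (nat_lit
  13510799452536832) (nat_lit 6) (.at (nat_lit 12947849236971520) (nat_lit 7) (.t (nat_lit
  13510799192489984) (nat_lit 6))))) (.at (nat_lit 8444249852870656) (nat_lit 15) (.t (nat_lit
  14073749408055296) (nat_lit 5)))) (.at (nat_lit 7881299637305344) (nat_lit 16) (.t (nat_lit
  8444249592823808) (nat_lit 15))))))))) (.fold (nat_lit 6) (.add (.at (nat_lit 18014433429159936)
  (nat_lit 2) (.at (nat_lit 17451483473641472) (nat_lit 3) (.at (nat_lit 15762633347039232) (nat_lit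
  6) (.at (nat_lit 15199683391520768) (nat_lit 7) (.at (nat_lit 13510833524965376) (nat_lit 10) (.t
  (nat_lit 14073783480483840) (nat_lit 9))))))) (.mul (nat_lit 2) (.at (nat_lit 12947848976924672)
  (nat_lit 11) (.add (.at (nat_lit 14073748887961600) (nat_lit 9) (.at (nat_lit 14636699623620608)
  (nat_lit 8) (.add (.at (nat_lit 15762633086992384) (nat_lit 6) (.add (.at (nat_lit
  16888500485881856) (nat_lit 4) (.at (nat_lit 15762599534657536) (nat_lit 6) (.t (nat_lit
  18014400396918784) (nat_lit 2)))) (.at (nat_lit 15762633867132928) (nat_lit 6) (.t (nat_lit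
  17451483733688320) (nat_lit 3))))) (.at (nat_lit 15199650359279616) (nat_lit 7) (.t (nat_lit
  16888500225835008) (nat_lit 4)))))) (.at (nat_lit 13510799712583680) (nat_lit 10) (.t (nat_lit
  14073783220436992) (nat_lit 9))))))))) (.at (nat_lit 16888499965788160) (nat_lit 4) (.t (nat_lit
  17451449921306624) (nat_lit 3)))) (.at (nat_lit 17451483213594624) (nat_lit 3) (.at (nat_lit
  16888533258076160) (nat_lit 4) (.t (nat_lit 17451450441400320) (nat_lit 3))))))) (.at (nat_lit
  15762599794704384) (nat_lit 6) (.at (nat_lit 14636699883667456) (nat_lit 8) (.at (nat_lit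
  12947850017112064) (nat_lit 11) (.t (nat_lit 13510799972630528) (nat_lit 10)))))))) (.mv (nat_lit
  4) (.add (.add (.at (nat_lit 17451483733688320) (nat_lit 5) (.at (nat_lit 18014467501588480)
  (nat_lit 4) (.at (nat_lit 18577417197060096) (nat_lit 3) (.at (nat_lit 19140367412625408) (nat_lit
  2) (.fold (nat_lit 4) (.add (.add (.mul (nat_lit 2) (.fold (nat_lit 4) (.add (.add (.at (nat_lit
  16888533778169856) (nat_lit 6) (.at (nat_lit 16888500225835008) (nat_lit 6) (.add (.at (nat_lit
  17451483993735168) (nat_lit 5) (.add (.at (nat_lit 18014467241541632) (nat_lit 4) (.add (.at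
  (nat_lit 18577417457106944) (nat_lit 3) (.t (nat_lit 19140333860290560) (nat_lit 2))) (.at
  (nat_lit 18014433689206784) (nat_lit 4) (.t (nat_lit 18577350352437248) (nat_lit 3))))) (.at
  (nat_lit 17451449661259776) (nat_lit 5) (.t (nat_lit 18014399876825088) (nat_lit 4))))) (.at
  (nat_lit 17451483213594624) (nat_lit 5) (.at (nat_lit 16888533258076160) (nat_lit 6) (.t (nat_lit
  17451450441400320) (nat_lit 5))))))) (.at (nat_lit 16325549750222848) (nat_lit 7) (.t (nat_lit
  16888499705741312) (nat_lit 6)))) (.add (.at (nat_lit 19140300307955712) (nat_lit 2) (.t (nat_lit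
  19703250523521024) (nat_lit 1))) (.at (nat_lit 15762599014563840) (nat_lit 8) (.t (nat_lit
  16325549230129152) (nat_lit 7))))))) (.at (nat_lit 18014433949253632) (nat_lit 4) (.at (nat_lit
  17451517286023168) (nat_lit 5) (.at (nat_lit 16325550270316544) (nat_lit 7) (.t (nat_lit
  17451450181353472) (nat_lit 5)))))) (.mw (nat_lit 256) (.add (.add (.add (.at (nat_lit
  9570149243813888) (nat_lit 11) (.at (nat_lit 7318349421740032) (nat_lit 15) (.t (nat_lit
  10133099459379200) (nat_lit 10)))) (.add (.at (nat_lit 8444249332776960) (nat_lit 13) (.t (nat_lit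
  11258999370416128) (nat_lit 8))) (.at (nat_lit 10696049154850816) (nat_lit 9) (.at (nat_lit
  6755399726268416) (nat_lit 16) (.t (nat_lit 9007199548342272) (nat_lit 12)))))) (.mul (nat_lit 2)
  (.add (.at (nat_lit 7881299377258496) (nat_lit 14) (.at (nat_lit 8444249592823808) (nat_lit 13)
  (.at (nat_lit 9007199288295424) (nat_lit 12) (.t (nat_lit 9570149503860736) (nat_lit 11))))) (.add
  (.at (nat_lit 7318349681786880) (nat_lit 15) (.t (nat_lit 10133099199332352) (nat_lit 10))) (.at
  (nat_lit 6755399466221568) (nat_lit 16) (.t (nat_lit 10696049414897664) (nat_lit 9))))))) (.at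
  (nat_lit 6192449510703104) (nat_lit 17) (.t (nat_lit 7881299637305344) (nat_lit 14))))))))))) (.at
  (nat_lit 16888500485881856) (nat_lit 6) (.t (nat_lit 18577383904772096) (nat_lit 3)))) (.mw
  (nat_lit 128) (.at (nat_lit 11258999370416128) (nat_lit 12) (.at (nat_lit 11821950106075136)
  (nat_lit 11) (.add (.at (nat_lit 12384933613928448) (nat_lit 10) (.add (.at (nat_lit
  14073749668102144) (nat_lit 7) (.fold (nat_lit 8) (.add (.add (.at (nat_lit 15199649839185920)
  (nat_lit 5) (.at (nat_lit 15199683391520768) (nat_lit 5) (.at (nat_lit 13510833524965376) (nat_lit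
  8) (.t (nat_lit 14073783480483840) (nat_lit 7))))) (.mul (nat_lit 2) (.add (.add (.at (nat_lit
  14636699883667456) (nat_lit 6) (.at (nat_lit 12947850017112064) (nat_lit 9) (.t (nat_lit
  13510799972630528) (nat_lit 8)))) (.at (nat_lit 12384900061593600) (nat_lit 10) (.t (nat_lit
  14073749928148992) (nat_lit 7)))) (.add (.at (nat_lit 12947883569446912) (nat_lit 9) (.t (nat_lit
  14636733436002304) (nat_lit 6))) (.add (.at (nat_lit 13510799712583680) (nat_lit 8) (.t (nat_lit
  14073783220436992) (nat_lit 7))) (.at (nat_lit 11821949846028288) (nat_lit 11) (.t (nat_lit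
  12384933353881600) (nat_lit 10)))))))) (.add (.add (.at (nat_lit 12947883309400064) (nat_lit 9)
  (.t (nat_lit 13510833264918528) (nat_lit 8))) (.at (nat_lit 12384899801546752) (nat_lit 10) (.t
  (nat_lit 12947849757065216) (nat_lit 9)))) (.at (nat_lit 11258999890509824) (nat_lit 12) (.t
  (nat_lit 11821983398363136) (nat_lit 11))))))) (.at (nat_lit 12947849236971520) (nat_lit 9) (.t
  (nat_lit 13510799192489984) (nat_lit 8))))) (.at (nat_lit 11821949325934592) (nat_lit 11) (.t
  (nat_lit 14636733175955456) (nat_lit 6)))))))))))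

/-- compiled program -/
def b14_13 : Prog := fun Y Z c d =>
  (fo Y d (nat_lit 0) (Nat.add (Nat.add (Nat.add (fo Y d (nat_lit 0) (Nat.add (Nat.add (fo Y d
  (nat_lit 0) (Nat.add (mw Y (nat_lit 128) (Nat.add (Nat.mul (nat_lit 8) (fo Y d (nat_lit 4)
  (Nat.add (ad Z c (nat_lit 16888499445694464) (tm Z c (nat_lit 18577350092390400))) (Nat.mul
  (nat_lit 3) (Nat.add (ad Z c (nat_lit 19140300307955712) (tm Z c (nat_lit 19703250523521024))) (ad
  Z c (nat_lit 15762599014563840) (tm Z c (nat_lit 16325549230129152)))))))) (Nat.mul (nat_lit 3)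
  (ad Z c (nat_lit 17451449661259776) (tm Z c (nat_lit 18014399876825088)))))) (mv Y (nat_lit 11)
  (Nat.add (Nat.add (ad Z c (nat_lit 7318349681786880) (Nat.add (Nat.add (Nat.mul (nat_lit 2) (fo Y
  d (nat_lit 11) (Nat.add (ad Z c (nat_lit 6192450030796800) (Nat.add (Nat.add (Nat.add (ad Z c
  (nat_lit 11258999630462976) (ad Z c (nat_lit 14636699363573760) (ad Z c (nat_lit
  11821949065887744) (tm Z c (nat_lit 13510798932443136))))) (Nat.add (Nat.add (ad Z c (nat_lit
  8444249852870656) (ad Z c (nat_lit 9570149503860736) (tm Z c (nat_lit 12384899541499904)))) (ad Z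
  c (nat_lit 7881299897352192) (tm Z c (nat_lit 12947849236971520)))) (ad Z c (nat_lit
  11258999110369280) (ad Z c (nat_lit 7318349421740032) (tm Z c (nat_lit 10133099459379200)))))) (ad
  Z c (nat_lit 6755399466221568) (tm Z c (nat_lit 8444249332776960)))) (ad Z c (nat_lit
  6755399726268416) (ad Z c (nat_lit 9570149763907584) (tm Z c (nat_lit 12947849497018368)))))) (ad
  Z c (nat_lit 5066549599666176) (tm Z c (nat_lit 10133099199332352)))))) (ad Z c (nat_lit
  10696049414897664) (ad Z c (nat_lit 13510799452536832) (tm Z c (nat_lit 14073749148008448)))))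
  (Nat.add (ad Z c (nat_lit 10696049674944512) (ad Z c (nat_lit 10133099719426048) (tm Z c (nat_lit
  11821949325934592)))) (ad Z c (nat_lit 9007199288295424) (tm Z c (nat_lit 9570149243813888))))))
  (Nat.add (ad Z c (nat_lit 7318349941833728) (tm Z c (nat_lit 12384899021406208))) (ad Z c (nat_lit
  6192449510703104) (tm Z c (nat_lit 7881299637305344))))) (ad Z c (nat_lit 5629499815231488) (ad Z
  c (nat_lit 9007199548342272) (tm Z c (nat_lit 12384899281453056)))))))) (mv Y (nat_lit 1) (Nat.add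
  (fo Y d (nat_lit 1) (Nat.add (Nat.add (fo Y d (nat_lit 1) (mw Y (nat_lit 256) (Nat.add (Nat.mul
  (nat_lit 8) (fo Y d (nat_lit 9) (Nat.add (Nat.add (ad Z c (nat_lit 13510799712583680) (tm Z c
  (nat_lit 14073783220436992))) (Nat.mul (nat_lit 2) (ad Z c (nat_lit 11821949846028288) (tm Z c
  (nat_lit 12384933353881600))))) (ad Z c (nat_lit 10133099979472896) (tm Z c (nat_lit
  10696083487326208)))))) (Nat.mul (nat_lit 3) (Nat.add (Nat.add (ad Z c (nat_lit 14636733175955456)
  (tm Z c (nat_lit 15199683131473920))) (ad Z c (nat_lit 9570150023954432) (tm Z c (nat_lit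
  10133133531807744)))) (ad Z c (nat_lit 9570183576289280) (ad Z c (nat_lit 9007200068435968) (ad Z
  c (nat_lit 14073749668102144) (tm Z c (nat_lit 14636699623620608)))))))))) (mw Y (nat_lit 384)
  (Nat.add (fo Y d (nat_lit 13) (Nat.add (Nat.mul (nat_lit 5) (Nat.add (ad Z c (nat_lit
  6755399466221568) (tm Z c (nat_lit 8444249332776960))) (ad Z c (nat_lit 3377699733110784) (tm Z c
  (nat_lit 11821949065887744))))) (Nat.mul (nat_lit 3) (ad Z c (nat_lit 2251799822073856) (ad Z c
  (nat_lit 2814749777592320) (ad Z c (nat_lit 12384899021406208) (tm Z c (nat_lit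
  12947848976924672)))))))) (Nat.mul (nat_lit 8) (fo Y d (nat_lit 13) (Nat.add (ad Z c (nat_lit
  1688849866555392) (tm Z c (nat_lit 13510798932443136))) (Nat.mul (nat_lit 3) (ad Z c (nat_lit
  562949955518464) (ad Z c (nat_lit 1125899911036928) (ad Z c (nat_lit 5629499555184640) (Nat.add
  (Nat.add (ad Z c (nat_lit 14073748887961600) (tm Z c (nat_lit 14636698843480064))) (ad Z c
  (nat_lit 9007199288295424) (tm Z c (nat_lit 9570149243813888)))) (ad Z c (nat_lit
  6192449510703104) (ad Z c (nat_lit 7318349421740032) (tm Z c (nat_lit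
  7881299377258496))))))))))))))) (mw Y (nat_lit 128) (Nat.add (Nat.add (ad Z c (nat_lit
  16325617374986240) (ad Z c (nat_lit 18014467241541632) (Nat.add (Nat.mul (nat_lit 3) (fo Y d
  (nat_lit 5) (Nat.add (Nat.add (Nat.add (Nat.add (ad Z c (nat_lit 19140367152578560) (tm Z c
  (nat_lit 19140300568002560))) (ad Z c (nat_lit 18577417197060096) (tm Z c (nat_lit
  18577350612484096)))) (ad Z c (nat_lit 16325583822651392) (tm Z c (nat_lit 16888533778169856))))
  (ad Z c (nat_lit 15199649319092224) (tm Z c (nat_lit 15762599274610688)))) (Nat.add (Nat.add (ad Z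
  c (nat_lit 16325549750222848) (tm Z c (nat_lit 16888499705741312))) (ad Z c (nat_lit
  15199717463949312) (tm Z c (nat_lit 15762667419467776)))) (Nat.add (ad Z c (nat_lit
  14073748887961600) (tm Z c (nat_lit 14636698843480064))) (ad Z c (nat_lit 14073750448242688) (tm Z
  c (nat_lit 14636700403761152)))))))) (Nat.mul (nat_lit 6) (fo Y d (nat_lit 5) (Nat.add (Nat.add
  (Nat.add (Nat.add (ad Z c (nat_lit 16888499965788160) (tm Z c (nat_lit 17451449921306624))) (ad Z
  c (nat_lit 17451517286023168) (ad Z c (nat_lit 16325550270316544) (tm Z c (nat_lit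
  17451450181353472))))) (Nat.add (ad Z c (nat_lit 16888567330504704) (tm Z c (nat_lit
  18014400136871936))) (ad Z c (nat_lit 15762600314798080) (tm Z c (nat_lit 16325549490176000)))))
  (ad Z c (nat_lit 15762599534657536) (tm Z c (nat_lit 18014400396918784)))) (Nat.add (ad Z c
  (nat_lit 18577383644725248) (ad Z c (nat_lit 18014433689206784) (tm Z c (nat_lit
  18577350352437248)))) (Nat.add (ad Z c (nat_lit 15199683911614464) (tm Z c (nat_lit
  15199649059045376))) (ad Z c (nat_lit 14636733956096000) (tm Z c (nat_lit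
  14636699103526912))))))))))) (Nat.mul (nat_lit 2) (ad Z c (nat_lit 15762633867132928) (tm Z c
  (nat_lit 17451483733688320))))) (ad Z c (nat_lit 15199650359279616) (tm Z c (nat_lit
  16888500225835008))))))) (Nat.mul (nat_lit 8) (ad Z c (nat_lit 20829184246939648) (tm Z c (nat_lit
  21392167754792960))))))) (mv Y (nat_lit 16384) (Nat.add (Nat.mul (nat_lit 8) (fo Y d (nat_lit 13)
  (Nat.add (ad Z c (nat_lit 5066549599666176) (tm Z c (nat_lit 10133099199332352))) (Nat.mul
  (nat_lit 3) (ad Z c (nat_lit 1688849866555392) (ad Z c (nat_lit 3377699733110784) (ad Z c (nat_lit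
  11821949065887744) (tm Z c (nat_lit 13510798932443136))))))))) (Nat.mul (nat_lit 3) (ad Z c
  (nat_lit 6755399466221568) (tm Z c (nat_lit 8444249332776960)))))))) (fo Y d (nat_lit 0) (Nat.add
  (fo Y d (nat_lit 0) (Nat.add (fo Y d (nat_lit 0) (Nat.add (fo Y d (nat_lit 0) (Nat.add (fo Y d
  (nat_lit 0) (Nat.add (fo Y d (nat_lit 0) (Nat.add (fo Y d (nat_lit 0) (Nat.add (fo Y d (nat_lit 0)
  (Nat.add (ad Z c (nat_lit 21955151262646272) (tm Z c (nat_lit 22522396183363584))) (mv Y (nat_lit
  12) (Nat.add (ad Z c (nat_lit 4503599904194560) (ad Z c (nat_lit 5066549859713024) (Nat.add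
  (Nat.add (Nat.add (Nat.add (ad Z c (nat_lit 12947849236971520) (tm Z c (nat_lit
  13510799192489984))) (ad Z c (nat_lit 7881299637305344) (ad Z c (nat_lit 12384899021406208) (tm Z
  c (nat_lit 12947848976924672))))) (ad Z c (nat_lit 9570149243813888) (ad Z c (nat_lit
  7318349421740032) (tm Z c (nat_lit 10133099459379200))))) (Nat.add (ad Z c (nat_lit
  7318349681786880) (tm Z c (nat_lit 10133099199332352))) (ad Z c (nat_lit 6755399466221568) (tm Z c
  (nat_lit 10696049414897664))))) (Nat.mul (nat_lit 2) (ad Z c (nat_lit 6192449510703104) (Nat.add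
  (ad Z c (nat_lit 8444249332776960) (tm Z c (nat_lit 11258999370416128))) (ad Z c (nat_lit
  10696049154850816) (ad Z c (nat_lit 6755399726268416) (tm Z c (nat_lit 9007199548342272))))))))))
  (ad Z c (nat_lit 3940649688629248) (tm Z c (nat_lit 4503599644147712))))))) (mv Y (nat_lit 8)
  (Nat.add (Nat.add (Nat.add (ad Z c (nat_lit 11259033702891520) (ad Z c (nat_lit 14636699103526912)
  (Nat.add (Nat.mul (nat_lit 2) (fo Y d (nat_lit 8) (Nat.add (Nat.add (Nat.add (Nat.add (ad Z c
  (nat_lit 12384899281453056) (Nat.add (Nat.add (Nat.add (ad Z c (nat_lit 14073749668102144) (tm Z c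
  (nat_lit 14636699623620608))) (Nat.add (ad Z c (nat_lit 15199650099232768) (tm Z c (nat_lit
  15762600054751232))) (ad Z c (nat_lit 13510800232677376) (tm Z c (nat_lit 14073750188195840)))))
  (ad Z c (nat_lit 12384899021406208) (tm Z c (nat_lit 12947848976924672)))) (ad Z c (nat_lit
  12384899801546752) (tm Z c (nat_lit 12947849757065216))))) (Nat.add (ad Z c (nat_lit
  12947883569446912) (tm Z c (nat_lit 14636733436002304))) (Nat.add (ad Z c (nat_lit
  13510799712583680) (tm Z c (nat_lit 14073783220436992))) (ad Z c (nat_lit 11821949846028288) (tm Z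
  c (nat_lit 12384933353881600)))))) (ad Z c (nat_lit 14073749408055296) (ad Z c (nat_lit
  11821949585981440) (tm Z c (nat_lit 12384899541499904))))) (ad Z c (nat_lit 10696049154850816) (tm
  Z c (nat_lit 11258999110369280)))) (ad Z c (nat_lit 10696049414897664) (ad Z c (nat_lit
  13510799452536832) (tm Z c (nat_lit 14073749148008448))))))) (ad Z c (nat_lit 16325583302557696)
  (tm Z c (nat_lit 16325549750222848)))))) (Nat.add (ad Z c (nat_lit 11821950106075136) (ad Z c
  (nat_lit 15199649579139072) (tm Z c (nat_lit 15762633086992384)))) (Nat.add (ad Z c (nat_lit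
  12384900061593600) (tm Z c (nat_lit 14073749928148992))) (ad Z c (nat_lit 10133099459379200) (tm Z
  c (nat_lit 10696050195038208)))))) (ad Z c (nat_lit 10133099979472896) (tm Z c (nat_lit
  10696083487326208)))) (mw Y (nat_lit 128) (Nat.mul (nat_lit 2) (ad Z c (nat_lit 5066549599666176)
  (Nat.add (ad Z c (nat_lit 8444249332776960) (tm Z c (nat_lit 11821949065887744))) (ad Z c (nat_lit
  5629499815231488) (ad Z c (nat_lit 9007199548342272) (tm Z c (nat_lit
  12384899281453056)))))))))))) (mv Y (nat_lit 2) (Nat.add (Nat.add (Nat.add (Nat.add (ad Z c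
  (nat_lit 20266267323662336) (tm Z c (nat_lit 20829217539227648))) (Nat.mul (nat_lit 2) (ad Z c
  (nat_lit 19703283815809024) (tm Z c (nat_lit 20266234031374336))))) (ad Z c (nat_lit
  19140300307955712) (tm Z c (nat_lit 19703250523521024)))) (mw Y (nat_lit 128) (ad Z c (nat_lit
  14073749928148992) (ad Z c (nat_lit 14636733436002304) (Nat.add (Nat.add (ad Z c (nat_lit
  15762599794704384) (tm Z c (nat_lit 16325583302557696))) (ad Z c (nat_lit 15199683651567616) (tm Z
  c (nat_lit 16888533518123008)))) (ad Z c (nat_lit 14636700143714304) (tm Z c (nat_lit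
  16325550010269696)))))))) (mw Y (nat_lit 256) (Nat.add (Nat.add (Nat.mul (nat_lit 2) (ad Z c
  (nat_lit 10696049414897664) (tm Z c (nat_lit 11258999630462976)))) (ad Z c (nat_lit
  9570149763907584) (tm Z c (nat_lit 12947849497018368)))) (ad Z c (nat_lit 9007199548342272) (tm Z
  c (nat_lit 12384899281453056))))))))) (mv Y (nat_lit 9) (Nat.add (Nat.add (ad Z c (nat_lit
  11258999890509824) (Nat.add (ad Z c (nat_lit 12384899801546752) (ad Z c (nat_lit
  12947849236971520) (ad Z c (nat_lit 13510833264918528) (fo Y d (nat_lit 9) (Nat.add (Nat.add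
  (Nat.add (Nat.mul (nat_lit 2) (fo Y d (nat_lit 9) (ad Z c (nat_lit 7881300157399040) (ad Z c
  (nat_lit 8444283665252352) (Nat.add (Nat.add (Nat.add (ad Z c (nat_lit 11821949846028288) (Nat.add
  (ad Z c (nat_lit 12947849757065216) (ad Z c (nat_lit 14073783220436992) (ad Z c (nat_lit
  15199683131473920) (tm Z c (nat_lit 16325583042510848))))) (ad Z c (nat_lit 15762599534657536) (ad
  Z c (nat_lit 12384899281453056) (tm Z c (nat_lit 12947849497018368)))))) (ad Z c (nat_lit
  10696049414897664) (tm Z c (nat_lit 11258999630462976)))) (ad Z c (nat_lit 10133099979472896) (tm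
  Z c (nat_lit 10696083487326208)))) (ad Z c (nat_lit 9570183576289280) (ad Z c (nat_lit
  9007200068435968) (ad Z c (nat_lit 14073749668102144) (tm Z c (nat_lit 14636699623620608))))))))))
  (Nat.add (ad Z c (nat_lit 15762599794704384) (ad Z c (nat_lit 14636699883667456) (ad Z c (nat_lit
  12947850017112064) (tm Z c (nat_lit 13510799972630528))))) (ad Z c (nat_lit 13510799712583680) (ad
  Z c (nat_lit 14636699363573760) (ad Z c (nat_lit 11821949065887744) (tm Z c (nat_lit
  13510798932443136))))))) (Nat.add (ad Z c (nat_lit 10696049154850816) (tm Z c (nat_lit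
  11258999110369280))) (ad Z c (nat_lit 9570149243813888) (tm Z c (nat_lit 12384899021406208)))))
  (mw Y (nat_lit 128) (Nat.add (ad Z c (nat_lit 2814749777592320) (Nat.add (ad Z c (nat_lit
  3940649688629248) (ad Z c (nat_lit 11258999110369280) (tm Z c (nat_lit 12384899021406208)))) (ad Z
  c (nat_lit 3377699733110784) (tm Z c (nat_lit 11821949065887744))))) (Nat.mul (nat_lit 2) (Nat.add
  (ad Z c (nat_lit 9007199288295424) (ad Z c (nat_lit 6192449510703104) (ad Z c (nat_lit
  7318349421740032) (tm Z c (nat_lit 7881299377258496))))) (ad Z c (nat_lit 1688849866555392) (tm Z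
  c (nat_lit 13510798932443136)))))))))))) (ad Z c (nat_lit 11821949325934592) (tm Z c (nat_lit
  14636733175955456))))) (Nat.add (ad Z c (nat_lit 11821950106075136) (ad Z c (nat_lit
  15199649579139072) (tm Z c (nat_lit 15762633086992384)))) (Nat.add (ad Z c (nat_lit
  12384900061593600) (tm Z c (nat_lit 14073749928148992))) (ad Z c (nat_lit 10133099459379200) (tm Z
  c (nat_lit 10696050195038208)))))) (ad Z c (nat_lit 8444250112917504) (Nat.add (ad Z c (nat_lit
  9007233620770816) (ad Z c (nat_lit 9570149763907584) (Nat.add (ad Z c (nat_lit 11259033442844672)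
  (ad Z c (nat_lit 10133099199332352) (tm Z c (nat_lit 10696049934991360)))) (ad Z c (nat_lit
  9570150023954432) (tm Z c (nat_lit 10133133531807744)))))) (ad Z c (nat_lit 8444249332776960) (tm
  Z c (nat_lit 11258999370416128))))))))) (mv Y (nat_lit 3) (Nat.add (ad Z c (nat_lit
  18014400396918784) (ad Z c (nat_lit 18577350092390400) (ad Z c (nat_lit 19140367412625408) (fo Y d
  (nat_lit 3) (Nat.add (ad Z c (nat_lit 19140334120337408) (ad Z c (nat_lit 19140333600243712) (ad Z
  c (nat_lit 19703317368143872) (fo Y d (nat_lit 3) (Nat.add (ad Z c (nat_lit 19703284075855872) (ad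
  Z c (nat_lit 18577383644725248) (ad Z c (nat_lit 18014433689206784) (tm Z c (nat_lit
  18577350352437248))))) (Nat.mul (nat_lit 2) (ad Z c (nat_lit 17451450181353472) (ad Z c (nat_lit
  18014400136871936) (ad Z c (nat_lit 18014399876825088) (ad Z c (nat_lit 18577383904772096) (ad Z c
  (nat_lit 18577383384678400) (Nat.add (ad Z c (nat_lit 19140333860290560) (ad Z c (nat_lit
  19140300307955712) (ad Z c (nat_lit 19703317628190720) (ad Z c (nat_lit 19703283815809024) (tm Z c
  (nat_lit 20266267583709184)))))) (Nat.add (ad Z c (nat_lit 19140367152578560) (tm Z c (nat_lit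
  19140300568002560))) (ad Z c (nat_lit 18577417197060096) (tm Z c (nat_lit
  18577350612484096)))))))))))))))) (mw Y (nat_lit 256) (Nat.add (Nat.add (ad Z c (nat_lit
  11258999370416128) (Nat.add (ad Z c (nat_lit 10696049674944512) (ad Z c (nat_lit
  10133099719426048) (tm Z c (nat_lit 11821949325934592)))) (ad Z c (nat_lit 9007199288295424) (tm Z
  c (nat_lit 9570149243813888))))) (ad Z c (nat_lit 7881299637305344) (tm Z c (nat_lit
  8444249592823808)))) (Nat.mul (nat_lit 2) (Nat.add (Nat.add (Nat.add (ad Z c (nat_lit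
  10133099459379200) (tm Z c (nat_lit 11821949585981440))) (ad Z c (nat_lit 9007199808389120) (ad Z
  c (nat_lit 10696049154850816) (tm Z c (nat_lit 11258999110369280))))) (ad Z c (nat_lit
  8444249852870656) (ad Z c (nat_lit 9570149503860736) (tm Z c (nat_lit 12384899541499904))))) (ad Z
  c (nat_lit 7318349421740032) (tm Z c (nat_lit 7881299377258496)))))))))))) (mw Y (nat_lit 128)
  (Nat.add (ad Z c (nat_lit 12947849497018368) (Nat.add (ad Z c (nat_lit 14073749928148992) (ad Z c
  (nat_lit 15199649839185920) (ad Z c (nat_lit 15199649579139072) (Nat.add (fo Y d (nat_lit 7)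
  (Nat.mul (nat_lit 2) (Nat.add (Nat.add (Nat.add (ad Z c (nat_lit 14636733175955456) (tm Z c
  (nat_lit 15199683131473920))) (ad Z c (nat_lit 14073749668102144) (tm Z c (nat_lit
  14636699623620608)))) (Nat.add (Nat.add (ad Z c (nat_lit 15762633607086080) (tm Z c (nat_lit
  16325583562604544))) (ad Z c (nat_lit 14073783740530688) (tm Z c (nat_lit 14636733696049152))))
  (Nat.add (ad Z c (nat_lit 15199650099232768) (tm Z c (nat_lit 15762600054751232))) (ad Z c
  (nat_lit 13510800232677376) (tm Z c (nat_lit 14073750188195840)))))) (Nat.add (ad Z c (nat_lit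
  12947883309400064) (tm Z c (nat_lit 13510833264918528))) (ad Z c (nat_lit 12384899801546752) (tm Z
  c (nat_lit 12947849757065216))))))) (ad Z c (nat_lit 15199650359279616) (tm Z c (nat_lit
  16888500225835008))))))) (ad Z c (nat_lit 15762633347039232) (ad Z c (nat_lit 15199683391520768)
  (ad Z c (nat_lit 13510833524965376) (tm Z c (nat_lit 14073783480483840))))))) (Nat.add (ad Z c
  (nat_lit 15762599794704384) (ad Z c (nat_lit 14636699883667456) (ad Z c (nat_lit
  12947850017112064) (tm Z c (nat_lit 13510799972630528))))) (ad Z c (nat_lit 13510799712583680) (ad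
  Z c (nat_lit 14636699363573760) (ad Z c (nat_lit 11821949065887744) (tm Z c (nat_lit
  13510798932443136)))))))))))) (mv Y (nat_lit 10) (Nat.add (ad Z c (nat_lit 7318349941833728)
  (Nat.add (Nat.add (Nat.add (Nat.add (Nat.add (ad Z c (nat_lit 9570150023954432) (ad Z c (nat_lit
  13510799192489984) (ad Z c (nat_lit 14636699103526912) (ad Z c (nat_lit 15199649319092224)
  (Nat.mul (nat_lit 2) (fo Y d (nat_lit 10) (ad Z c (nat_lit 7318349681786880) (Nat.add (ad Z c
  (nat_lit 8444249592823808) (Nat.add (Nat.add (Nat.add (Nat.add (ad Z c (nat_lit 10696049934991360)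
  (ad Z c (nat_lit 11258999890509824) (Nat.add (ad Z c (nat_lit 14636699363573760) (ad Z c (nat_lit
  13510799452536832) (tm Z c (nat_lit 14073749148008448)))) (ad Z c (nat_lit 12384899801546752) (tm
  Z c (nat_lit 12947849757065216)))))) (ad Z c (nat_lit 10133099719426048) (tm Z c (nat_lit
  11821949325934592)))) (ad Z c (nat_lit 9570149503860736) (tm Z c (nat_lit 12384899541499904))))
  (ad Z c (nat_lit 9007199288295424) (tm Z c (nat_lit 9570149243813888)))) (ad Z c (nat_lit
  9007199808389120) (ad Z c (nat_lit 10696049154850816) (tm Z c (nat_lit 11258999110369280)))))) (ad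
  Z c (nat_lit 7881299897352192) (tm Z c (nat_lit 12947849236971520))))))))))) (ad Z c (nat_lit
  9007199548342272) (tm Z c (nat_lit 12384899281453056)))) (ad Z c (nat_lit 9007200068435968) (ad Z
  c (nat_lit 14073749668102144) (tm Z c (nat_lit 14636699623620608))))) (ad Z c (nat_lit
  8444249852870656) (tm Z c (nat_lit 14073749408055296)))) (ad Z c (nat_lit 7881299637305344) (ad Z
  c (nat_lit 12384899021406208) (tm Z c (nat_lit 12947848976924672))))) (ad Z c (nat_lit
  7318349421740032) (tm Z c (nat_lit 7881299377258496))))) (ad Z c (nat_lit 6755399726268416) (ad Z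
  c (nat_lit 9570149763907584) (tm Z c (nat_lit 12947849497018368)))))))) (mv Y (nat_lit 5) (Nat.add
  (Nat.add (ad Z c (nat_lit 16325550010269696) (Nat.add (ad Z c (nat_lit 16888533518123008) (ad Z c
  (nat_lit 17451450441400320) (ad Z c (nat_lit 17451449921306624) (Nat.add (Nat.add (fo Y d (nat_lit
  5) (Nat.add (Nat.add (ad Z c (nat_lit 18014400396918784) (Nat.add (Nat.add (ad Z c (nat_lit
  16325549750222848) (tm Z c (nat_lit 16888499705741312))) (ad Z c (nat_lit 15199717463949312) (tm Z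
  c (nat_lit 15762667419467776)))) (Nat.add (ad Z c (nat_lit 14073748887961600) (tm Z c (nat_lit
  14636698843480064))) (ad Z c (nat_lit 14073750448242688) (tm Z c (nat_lit 14636700403761152))))))
  (mw Y (nat_lit 128) (Nat.add (ad Z c (nat_lit 10696049674944512) (ad Z c (nat_lit
  11821950106075136) (Nat.add (Nat.add (ad Z c (nat_lit 13510799452536832) (fo Y d (nat_lit 9)
  (Nat.add (Nat.mul (nat_lit 2) (Nat.add (ad Z c (nat_lit 11258999630462976) (Nat.add (Nat.add (ad Z
  c (nat_lit 12384900061593600) (tm Z c (nat_lit 14073749928148992))) (ad Z c (nat_lit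
  11821949065887744) (tm Z c (nat_lit 12947849497018368)))) (Nat.add (Nat.add (ad Z c (nat_lit
  12947883309400064) (tm Z c (nat_lit 13510833264918528))) (ad Z c (nat_lit 12384899801546752) (tm Z
  c (nat_lit 12947849757065216)))) (ad Z c (nat_lit 11258999890509824) (tm Z c (nat_lit
  11821983398363136)))))) (ad Z c (nat_lit 11259033442844672) (ad Z c (nat_lit 10133099199332352)
  (tm Z c (nat_lit 10696049934991360)))))) (Nat.add (ad Z c (nat_lit 10696049154850816) (tm Z c
  (nat_lit 11258999110369280))) (ad Z c (nat_lit 9570149243813888) (tm Z c (nat_lit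
  12384899021406208))))))) (ad Z c (nat_lit 14636699883667456) (ad Z c (nat_lit 12947850017112064)
  (tm Z c (nat_lit 13510799972630528))))) (ad Z c (nat_lit 11821949585981440) (tm Z c (nat_lit
  12384899541499904)))))) (Nat.add (Nat.add (ad Z c (nat_lit 14636733175955456) (tm Z c (nat_lit
  15199683131473920))) (ad Z c (nat_lit 9570150023954432) (tm Z c (nat_lit 10133133531807744)))) (ad
  Z c (nat_lit 9570183576289280) (ad Z c (nat_lit 9007200068435968) (ad Z c (nat_lit
  14073749668102144) (tm Z c (nat_lit 14636699623620608))))))))) (mw Y (nat_lit 256) (Nat.add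
  (Nat.add (ad Z c (nat_lit 10696049154850816) (tm Z c (nat_lit 11258999110369280))) (ad Z c
  (nat_lit 7318349421740032) (tm Z c (nat_lit 7881299377258496)))) (ad Z c (nat_lit
  3940649688629248) (tm Z c (nat_lit 4503599644147712))))))) (Nat.mul (nat_lit 2) (fo Y d (nat_lit
  5) (ad Z c (nat_lit 14636699623620608) (Nat.add (Nat.add (ad Z c (nat_lit 15762600054751232) (ad Z
  c (nat_lit 16325583562604544) (Nat.add (Nat.add (ad Z c (nat_lit 17451483993735168) (tm Z c
  (nat_lit 17451483473641472))) (ad Z c (nat_lit 16888500485881856) (tm Z c (nat_lit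
  18577383904772096)))) (ad Z c (nat_lit 16325583822651392) (tm Z c (nat_lit 16888533778169856))))))
  (ad Z c (nat_lit 15199683131473920) (tm Z c (nat_lit 16325583042510848)))) (Nat.add (ad Z c
  (nat_lit 18577383644725248) (ad Z c (nat_lit 18014433689206784) (tm Z c (nat_lit
  18577350352437248)))) (Nat.add (ad Z c (nat_lit 15199683911614464) (tm Z c (nat_lit
  15199649059045376))) (ad Z c (nat_lit 14636733956096000) (tm Z c (nat_lit
  14636699103526912)))))))))) (Nat.add (ad Z c (nat_lit 19140367152578560) (tm Z c (nat_lit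
  19140300568002560))) (ad Z c (nat_lit 18577417197060096) (tm Z c (nat_lit
  18577350612484096)))))))) (ad Z c (nat_lit 18014433949253632) (ad Z c (nat_lit 17451517286023168)
  (ad Z c (nat_lit 16325550270316544) (tm Z c (nat_lit 17451450181353472))))))) (Nat.add (ad Z c
  (nat_lit 16888567330504704) (tm Z c (nat_lit 18014400136871936))) (ad Z c (nat_lit
  15762600314798080) (tm Z c (nat_lit 16325549490176000))))) (ad Z c (nat_lit 15199649579139072) (tm
  Z c (nat_lit 15762633086992384))))))) (mv Y (nat_lit 7) (Nat.add (Nat.add (ad Z c (nat_lit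
  12384933613928448) (ad Z c (nat_lit 12947850277158912) (Nat.add (ad Z c (nat_lit
  13510833785012224) (Nat.add (Nat.add (Nat.add (ad Z c (nat_lit 16888533258076160) (Nat.add (fo Y d
  (nat_lit 7) (Nat.add (Nat.add (Nat.add (Nat.add (ad Z c (nat_lit 16888499705741312) (Nat.add
  (Nat.add (ad Z c (nat_lit 15762633607086080) (tm Z c (nat_lit 16325583562604544))) (ad Z c
  (nat_lit 14073783740530688) (tm Z c (nat_lit 14636733696049152)))) (Nat.add (ad Z c (nat_lit
  15199650099232768) (tm Z c (nat_lit 15762600054751232))) (ad Z c (nat_lit 13510800232677376) (tm Z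
  c (nat_lit 14073750188195840)))))) (ad Z c (nat_lit 14636699363573760) (ad Z c (nat_lit
  13510799452536832) (tm Z c (nat_lit 14073749148008448))))) (ad Z c (nat_lit 15762599534657536) (ad
  Z c (nat_lit 12384899281453056) (tm Z c (nat_lit 12947849497018368))))) (Nat.add (ad Z c (nat_lit
  13510799712583680) (tm Z c (nat_lit 14073783220436992))) (ad Z c (nat_lit 11821949846028288) (tm Z
  c (nat_lit 12384933353881600))))) (mw Y (nat_lit 128) (Nat.add (ad Z c (nat_lit 8444249332776960)
  (Nat.add (ad Z c (nat_lit 9570149763907584) (ad Z c (nat_lit 11258999630462976) (ad Z c (nat_lit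
  12384899281453056) (ad Z c (nat_lit 13510799452536832) (fo Y d (nat_lit 11) (Nat.add (Nat.mul
  (nat_lit 2) (Nat.add (Nat.add (Nat.add (ad Z c (nat_lit 11821949065887744) (tm Z c (nat_lit
  12947849497018368))) (Nat.add (Nat.add (ad Z c (nat_lit 8444249852870656) (ad Z c (nat_lit
  9570149503860736) (tm Z c (nat_lit 12384899541499904)))) (ad Z c (nat_lit 7881299897352192) (tm Z
  c (nat_lit 12947849236971520)))) (ad Z c (nat_lit 11258999110369280) (ad Z c (nat_lit
  7318349421740032) (tm Z c (nat_lit 10133099459379200)))))) (ad Z c (nat_lit 6755399466221568) (tm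
  Z c (nat_lit 10696049414897664)))) (ad Z c (nat_lit 6755399726268416) (tm Z c (nat_lit
  9007199548342272))))) (Nat.add (ad Z c (nat_lit 7318349941833728) (tm Z c (nat_lit
  12384899021406208))) (ad Z c (nat_lit 6192449510703104) (tm Z c (nat_lit
  7881299637305344)))))))))) (Nat.add (ad Z c (nat_lit 10696049674944512) (ad Z c (nat_lit
  10133099719426048) (tm Z c (nat_lit 11821949325934592)))) (ad Z c (nat_lit 9007199288295424) (tm Z
  c (nat_lit 9570149243813888)))))) (ad Z c (nat_lit 7318349681786880) (tm Z c (nat_lit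
  10133099199332352))))))) (Nat.mul (nat_lit 2) (fo Y d (nat_lit 7) (Nat.add (ad Z c (nat_lit
  12384900321640448) (ad Z c (nat_lit 12384900061593600) (ad Z c (nat_lit 12947883829493760)
  (Nat.add (Nat.add (Nat.add (ad Z c (nat_lit 16325583042510848) (ad Z c (nat_lit 16325549490176000)
  (ad Z c (nat_lit 16888499965788160) (ad Z c (nat_lit 16325583302557696) (tm Z c (nat_lit
  16325549750222848)))))) (ad Z c (nat_lit 14636700143714304) (tm Z c (nat_lit 16325550010269696))))
  (ad Z c (nat_lit 17451483473641472) (ad Z c (nat_lit 15762633347039232) (ad Z c (nat_lit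
  15199683391520768) (ad Z c (nat_lit 13510833524965376) (tm Z c (nat_lit 14073783480483840)))))))
  (ad Z c (nat_lit 12947883569446912) (tm Z c (nat_lit 14636733436002304))))))) (ad Z c (nat_lit
  11258999890509824) (tm Z c (nat_lit 11821983398363136)))))))) (ad Z c (nat_lit 15199649319092224)
  (tm Z c (nat_lit 15762599274610688)))) (ad Z c (nat_lit 15199683651567616) (tm Z c (nat_lit
  16888533518123008)))) (ad Z c (nat_lit 14636733175955456) (tm Z c (nat_lit 15199683131473920)))))
  (ad Z c (nat_lit 12947883309400064) (tm Z c (nat_lit 13510833264918528)))))) (ad Z c (nat_lit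
  11821950106075136) (ad Z c (nat_lit 15199649579139072) (tm Z c (nat_lit 15762633086992384))))) (ad
  Z c (nat_lit 14073749408055296) (ad Z c (nat_lit 11821949585981440) (tm Z c (nat_lit
  12384899541499904))))))))) (mv Y (nat_lit 6) (Nat.add (ad Z c (nat_lit 13510798932443136) (ad Z c
  (nat_lit 16888499705741312) (Nat.add (Nat.add (Nat.add (fo Y d (nat_lit 6) (Nat.add (Nat.add
  (Nat.add (ad Z c (nat_lit 15762633607086080) (tm Z c (nat_lit 16325583562604544))) (ad Z c
  (nat_lit 14073783740530688) (tm Z c (nat_lit 14636733696049152)))) (Nat.add (ad Z c (nat_lit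
  15199650099232768) (tm Z c (nat_lit 15762600054751232))) (ad Z c (nat_lit 13510800232677376) (tm Z
  c (nat_lit 14073750188195840))))) (mw Y (nat_lit 128) (Nat.add (Nat.add (Nat.add (ad Z c (nat_lit
  11258999370416128) (ad Z c (nat_lit 10133099459379200) (tm Z c (nat_lit 11821949585981440)))) (ad
  Z c (nat_lit 10696049674944512) (ad Z c (nat_lit 10133099719426048) (tm Z c (nat_lit
  11821949325934592))))) (ad Z c (nat_lit 9570149503860736) (tm Z c (nat_lit 12384899541499904))))
  (Nat.mul (nat_lit 2) (Nat.add (Nat.add (ad Z c (nat_lit 9007199808389120) (ad Z c (nat_lit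
  13510799452536832) (ad Z c (nat_lit 12947849236971520) (tm Z c (nat_lit 13510799192489984))))) (ad
  Z c (nat_lit 8444249852870656) (tm Z c (nat_lit 14073749408055296)))) (ad Z c (nat_lit
  7881299637305344) (tm Z c (nat_lit 8444249592823808))))))))) (fo Y d (nat_lit 6) (Nat.add (ad Z c
  (nat_lit 18014433429159936) (ad Z c (nat_lit 17451483473641472) (ad Z c (nat_lit
  15762633347039232) (ad Z c (nat_lit 15199683391520768) (ad Z c (nat_lit 13510833524965376) (tm Z c
  (nat_lit 14073783480483840))))))) (Nat.mul (nat_lit 2) (ad Z c (nat_lit 12947848976924672)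
  (Nat.add (ad Z c (nat_lit 14073748887961600) (ad Z c (nat_lit 14636699623620608) (Nat.add (ad Z c
  (nat_lit 15762633086992384) (Nat.add (ad Z c (nat_lit 16888500485881856) (ad Z c (nat_lit
  15762599534657536) (tm Z c (nat_lit 18014400396918784)))) (ad Z c (nat_lit 15762633867132928) (tm
  Z c (nat_lit 17451483733688320))))) (ad Z c (nat_lit 15199650359279616) (tm Z c (nat_lit
  16888500225835008)))))) (ad Z c (nat_lit 13510799712583680) (tm Z c (nat_lit
  14073783220436992))))))))) (ad Z c (nat_lit 16888499965788160) (tm Z c (nat_lit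
  17451449921306624)))) (ad Z c (nat_lit 17451483213594624) (ad Z c (nat_lit 16888533258076160) (tm
  Z c (nat_lit 17451450441400320))))))) (ad Z c (nat_lit 15762599794704384) (ad Z c (nat_lit
  14636699883667456) (ad Z c (nat_lit 12947850017112064) (tm Z c (nat_lit 13510799972630528))))))))
  (mv Y (nat_lit 4) (Nat.add (Nat.add (ad Z c (nat_lit 17451483733688320) (ad Z c (nat_lit
  18014467501588480) (ad Z c (nat_lit 18577417197060096) (ad Z c (nat_lit 19140367412625408) (fo Y d
  (nat_lit 4) (Nat.add (Nat.add (Nat.mul (nat_lit 2) (fo Y d (nat_lit 4) (Nat.add (Nat.add (ad Z c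
  (nat_lit 16888533778169856) (ad Z c (nat_lit 16888500225835008) (Nat.add (ad Z c (nat_lit
  17451483993735168) (Nat.add (ad Z c (nat_lit 18014467241541632) (Nat.add (ad Z c (nat_lit
  18577417457106944) (tm Z c (nat_lit 19140333860290560))) (ad Z c (nat_lit 18014433689206784) (tm Z
  c (nat_lit 18577350352437248))))) (ad Z c (nat_lit 17451449661259776) (tm Z c (nat_lit
  18014399876825088))))) (ad Z c (nat_lit 17451483213594624) (ad Z c (nat_lit 16888533258076160) (tm
  Z c (nat_lit 17451450441400320))))))) (ad Z c (nat_lit 16325549750222848) (tm Z c (nat_lit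
  16888499705741312)))) (Nat.add (ad Z c (nat_lit 19140300307955712) (tm Z c (nat_lit
  19703250523521024))) (ad Z c (nat_lit 15762599014563840) (tm Z c (nat_lit 16325549230129152)))))))
  (ad Z c (nat_lit 18014433949253632) (ad Z c (nat_lit 17451517286023168) (ad Z c (nat_lit
  16325550270316544) (tm Z c (nat_lit 17451450181353472)))))) (mw Y (nat_lit 256) (Nat.add (Nat.add
  (Nat.add (ad Z c (nat_lit 9570149243813888) (ad Z c (nat_lit 7318349421740032) (tm Z c (nat_lit
  10133099459379200)))) (Nat.add (ad Z c (nat_lit 8444249332776960) (tm Z c (nat_lit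
  11258999370416128))) (ad Z c (nat_lit 10696049154850816) (ad Z c (nat_lit 6755399726268416) (tm Z
  c (nat_lit 9007199548342272)))))) (Nat.mul (nat_lit 2) (Nat.add (ad Z c (nat_lit 7881299377258496)
  (ad Z c (nat_lit 8444249592823808) (ad Z c (nat_lit 9007199288295424) (tm Z c (nat_lit
  9570149503860736))))) (Nat.add (ad Z c (nat_lit 7318349681786880) (tm Z c (nat_lit
  10133099199332352))) (ad Z c (nat_lit 6755399466221568) (tm Z c (nat_lit 10696049414897664)))))))
  (ad Z c (nat_lit 6192449510703104) (tm Z c (nat_lit 7881299637305344))))))))))) (ad Z c (nat_lit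
  16888500485881856) (tm Z c (nat_lit 18577383904772096)))) (mw Y (nat_lit 128) (ad Z c (nat_lit
  11258999370416128) (ad Z c (nat_lit 11821950106075136) (Nat.add (ad Z c (nat_lit
  12384933613928448) (Nat.add (ad Z c (nat_lit 14073749668102144) (fo Y d (nat_lit 8) (Nat.add
  (Nat.add (ad Z c (nat_lit 15199649839185920) (ad Z c (nat_lit 15199683391520768) (ad Z c (nat_lit
  13510833524965376) (tm Z c (nat_lit 14073783480483840))))) (Nat.mul (nat_lit 2) (Nat.add (Nat.add
  (ad Z c (nat_lit 14636699883667456) (ad Z c (nat_lit 12947850017112064) (tm Z c (nat_lit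
  13510799972630528)))) (ad Z c (nat_lit 12384900061593600) (tm Z c (nat_lit 14073749928148992))))
  (Nat.add (ad Z c (nat_lit 12947883569446912) (tm Z c (nat_lit 14636733436002304))) (Nat.add (ad Z
  c (nat_lit 13510799712583680) (tm Z c (nat_lit 14073783220436992))) (ad Z c (nat_lit
  11821949846028288) (tm Z c (nat_lit 12384933353881600)))))))) (Nat.add (Nat.add (ad Z c (nat_lit
  12947883309400064) (tm Z c (nat_lit 13510833264918528))) (ad Z c (nat_lit 12384899801546752) (tm Z
  c (nat_lit 12947849757065216)))) (ad Z c (nat_lit 11258999890509824) (tm Z c (nat_lit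
  11821983398363136))))))) (ad Z c (nat_lit 12947849236971520) (tm Z c (nat_lit
  13510799192489984))))) (ad Z c (nat_lit 11821949325934592) (tm Z c (nat_lit
  14636733175955456)))))))))))

end Vale.Agent.P236B
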