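import Vale.Agent.P236X.Defs

/-!
# P236 / B : programs (N = 4)
-/

noncomputable section

namespace Vale.Agent.P236B

open Vale.Agent.P236X

/-- program -/
def w1_4_1P : Pg :=
  (.qs (nat_lit 0) (.add (.mv (nat_lit 1) (.t (nat_lit 0) (nat_lit 0))) (.mul (nat_lit 3) (.t
  (nat_lit 0) (nat_lit 1)))))

/-- compiled program -/
def w1_4_1 : Prog := fun Y Z c d =>
  (qo Y d (nat_lit 0) (Nat.add (mv Y (nat_lit 1) (tm Z c (nat_lit 0))) (Nat.mul (nat_lit 3) (tm Z c
  (nat_lit 0)))))

/-- program -/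
def w1_4_2P : Pg :=
  (.qs (nat_lit 0) (.mv (nat_lit 1) (.add (.mv (nat_lit 1) (.t (nat_lit 0) (nat_lit 0))) (.mul
  (nat_lit 6) (.t (nat_lit 0) (nat_lit 1))))))

/-- compiled program -/
def w1_4_2 : Prog := fun Y Z c d =>
  (qo Y d (nat_lit 0) (mv Y (nat_lit 1) (Nat.add (mv Y (nat_lit 1) (tm Z c (nat_lit 0))) (Nat.mul
  (nat_lit 6) (tm Z c (nat_lit 0))))))

/-- program -/
def w1_4_3P : Pg :=
  (.mv (nat_lit 3) (.t (nat_lit 0) (nat_lit 0)))

/-- compiled program -/
def w1_4_3 : Prog := fun Y Z c _ =>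
  (mv Y (nat_lit 3) (tm Z c (nat_lit 0)))

/-- programs -/
def w1_4P : List Pg :=
  [.zero, w1_4_1P, w1_4_2P, w1_4_3P]

/-- compiled programs -/
def w1_4 : List Prog :=
  [zeroP, w1_4_1, w1_4_2, w1_4_3]

/-- program -/
def w4_4P : Pg :=
  (.fold (nat_lit 0) (.add (.add (.add (.add (.add (.add (.add (.add (.add (.fold (nat_lit 0) (.add
  (.add (.add (.mv (nat_lit 49152) (.mul (nat_lit 8) (.t (nat_lit 0) (nat_lit 1)))) (.mv (nat_lit
  32768) (.add (.mul (nat_lit 3) (.mw (nat_lit 384) (.t (nat_lit 0) (nat_lit 2)))) (.mul (nat_lit 6)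
  (.mw (nat_lit 128) (.t (nat_lit 0) (nat_lit 10))))))) (.mul (nat_lit 6) (.mw (nat_lit 896) (.t
  (nat_lit 0) (nat_lit 12))))) (.mul (nat_lit 3) (.at (nat_lit 22517998136868864) (nat_lit 0) (.at
  (nat_lit 21955048183431552) (nat_lit 1) (.mw (nat_lit 640) (.t (nat_lit 0) (nat_lit 20))))))))
  (.fold (nat_lit 0) (.add (.mv (nat_lit 1) (.add (.add (.fold (nat_lit 1) (.add (.add (.add (.at
  (nat_lit 20266198323167241) (nat_lit 3) (.mw (nat_lit 768) (.mul (nat_lit 3) (.at (nat_lit
  6755399441055747) (nat_lit 3) (.mul (nat_lit 2) (.t (nat_lit 7318349394477184) (nat_lit 2)))))))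
  (.mw (nat_lit 512) (.mul (nat_lit 3) (.at (nat_lit 6755399441055747) (nat_lit 11) (.mul (nat_lit
  2) (.t (nat_lit 7318349394477184) (nat_lit 10))))))) (.at (nat_lit 21955048183431552) (nat_lit 0)
  (.mw (nat_lit 640) (.t (nat_lit 0) (nat_lit 19))))) (.mw (nat_lit 256) (.mul (nat_lit 3) (.at
  (nat_lit 6755399441055747) (nat_lit 19) (.mul (nat_lit 2) (.t (nat_lit 7318349394477184) (nat_lit
  18)))))))) (.mul (nat_lit 6) (.mw (nat_lit 1152) (.t (nat_lit 0) (nat_lit 3))))) (.mul (nat_lit 8)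
  (.mw (nat_lit 896) (.t (nat_lit 0) (nat_lit 11)))))) (.mv (nat_lit 16385) (.add (.fold (nat_lit
  14) (.add (.add (.mw (nat_lit 384) (.mul (nat_lit 3) (.at (nat_lit 6755399441055747) (nat_lit 2)
  (.mul (nat_lit 2) (.t (nat_lit 7318349394477184) (nat_lit 1)))))) (.mul (nat_lit 2) (.mw (nat_lit
  512) (.t (nat_lit 0) (nat_lit 10))))) (.mw (nat_lit 128) (.mul (nat_lit 6) (.at (nat_lit
  6755399441055747) (nat_lit 10) (.mul (nat_lit 2) (.t (nat_lit 7318349394477184) (nat_lit 9))))))))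
  (.mul (nat_lit 8) (.add (.mw (nat_lit 768) (.t (nat_lit 0) (nat_lit 2))) (.mw (nat_lit 256) (.t
  (nat_lit 0) (nat_lit 18)))))))))) (.fold (nat_lit 0) (.add (.add (.mw (nat_lit 1152) (.at (nat_lit
  0) (nat_lit 4) (.mul (nat_lit 8) (.t (nat_lit 2251799813685249) (nat_lit 0))))) (.mv (nat_lit
  32769) (.add (.add (.mul (nat_lit 3) (.at (nat_lit 6755399441055747) (nat_lit 1) (.mul (nat_lit 2)
  (.t (nat_lit 7318349394477184) (nat_lit 0))))) (.mw (nat_lit 384) (.t (nat_lit 0) (nat_lit 1))))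
  (.mul (nat_lit 8) (.mw (nat_lit 128) (.t (nat_lit 0) (nat_lit 9))))))) (.mv (nat_lit 16387) (.add
  (.mw (nat_lit 640) (.t (nat_lit 0) (nat_lit 4))) (.mul (nat_lit 2) (.at (nat_lit
  13510798882111494) (nat_lit 0) (.mw (nat_lit 384) (.t (nat_lit 0) (nat_lit 12)))))))))) (.fold
  (nat_lit 0) (.add (.add (.mv (nat_lit 16386) (.add (.mul (nat_lit 2) (.mw (nat_lit 384) (.t
  (nat_lit 6755399441055747) (nat_lit 1)))) (.mw (nat_lit 128) (.t (nat_lit 6755399441055747)
  (nat_lit 9))))) (.mv (nat_lit 3) (.add (.add (.add (.add (.mw (nat_lit 384) (.t (nat_lit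
  13510798882111494) (nat_lit 1))) (.mw (nat_lit 1024) (.t (nat_lit 0) (nat_lit 5)))) (.mul (nat_lit
  2) (.add (.at (nat_lit 20266198323167241) (nat_lit 1) (.mw (nat_lit 128) (.t (nat_lit
  13510798882111494) (nat_lit 9)))) (.mw (nat_lit 896) (.t (nat_lit 0) (nat_lit 9)))))) (.mw
  (nat_lit 768) (.t (nat_lit 0) (nat_lit 13)))) (.mw (nat_lit 512) (.t (nat_lit 0) (nat_lit 21))))))
  (.mv (nat_lit 16384) (.at (nat_lit 0) (nat_lit 27) (.mul (nat_lit 6) (.add (.mw (nat_lit 512) (.t
  (nat_lit 0) (nat_lit 11))) (.add (.mw (nat_lit 768) (.t (nat_lit 0) (nat_lit 3))) (.mw (nat_lit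
  256) (.t (nat_lit 0) (nat_lit 19))))))))))) (.mv (nat_lit 32770) (.mul (nat_lit 2) (.t (nat_lit
  6755399441055747) (nat_lit 0))))) (.mv (nat_lit 2097152) (.t (nat_lit 0) (nat_lit 0)))) (.mw
  (nat_lit 128) (.t (nat_lit 20266198323167241) (nat_lit 0)))) (.mv (nat_lit 32771) (.mw (nat_lit
  256) (.t (nat_lit 0) (nat_lit 3))))) (.mv (nat_lit 2) (.mul (nat_lit 2) (.add (.add (.mw (nat_lit
  768) (.t (nat_lit 6755399441055747) (nat_lit 2))) (.mw (nat_lit 512) (.t (nat_lit
  6755399441055747) (nat_lit 10)))) (.mw (nat_lit 256) (.t (nat_lit 6755399441055747) (nat_lit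
  18))))))) (.mul (nat_lit 8) (.mw (nat_lit 384) (.t (nat_lit 0) (nat_lit 28))))))

/-- compiled program -/
def w4_4 : Prog := fun Y Z c d =>
  (fo Y d (nat_lit 0) (Nat.add (Nat.add (Nat.add (Nat.add (Nat.add (Nat.add (Nat.add (Nat.add
  (Nat.add (fo Y d (nat_lit 0) (Nat.add (Nat.add (Nat.add (mv Y (nat_lit 49152) (Nat.mul (nat_lit 8)
  (tm Z c (nat_lit 0)))) (mv Y (nat_lit 32768) (Nat.add (Nat.mul (nat_lit 3) (mw Y (nat_lit 384) (tm
  Z c (nat_lit 0)))) (Nat.mul (nat_lit 6) (mw Y (nat_lit 128) (tm Z c (nat_lit 0))))))) (Nat.mul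
  (nat_lit 6) (mw Y (nat_lit 896) (tm Z c (nat_lit 0))))) (Nat.mul (nat_lit 3) (ad Z c (nat_lit
  22517998136868864) (ad Z c (nat_lit 21955048183431552) (mw Y (nat_lit 640) (tm Z c (nat_lit
  0)))))))) (fo Y d (nat_lit 0) (Nat.add (mv Y (nat_lit 1) (Nat.add (Nat.add (fo Y d (nat_lit 1)
  (Nat.add (Nat.add (Nat.add (ad Z c (nat_lit 20266198323167241) (mw Y (nat_lit 768) (Nat.mul
  (nat_lit 3) (ad Z c (nat_lit 6755399441055747) (Nat.mul (nat_lit 2) (tm Z c (nat_lit
  7318349394477184))))))) (mw Y (nat_lit 512) (Nat.mul (nat_lit 3) (ad Z c (nat_lit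
  6755399441055747) (Nat.mul (nat_lit 2) (tm Z c (nat_lit 7318349394477184))))))) (ad Z c (nat_lit
  21955048183431552) (mw Y (nat_lit 640) (tm Z c (nat_lit 0))))) (mw Y (nat_lit 256) (Nat.mul
  (nat_lit 3) (ad Z c (nat_lit 6755399441055747) (Nat.mul (nat_lit 2) (tm Z c (nat_lit
  7318349394477184)))))))) (Nat.mul (nat_lit 6) (mw Y (nat_lit 1152) (tm Z c (nat_lit 0)))))
  (Nat.mul (nat_lit 8) (mw Y (nat_lit 896) (tm Z c (nat_lit 0)))))) (mv Y (nat_lit 16385) (Nat.add
  (fo Y d (nat_lit 14) (Nat.add (Nat.add (mw Y (nat_lit 384) (Nat.mul (nat_lit 3) (ad Z c (nat_lit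
  6755399441055747) (Nat.mul (nat_lit 2) (tm Z c (nat_lit 7318349394477184)))))) (Nat.mul (nat_lit
  2) (mw Y (nat_lit 512) (tm Z c (nat_lit 0))))) (mw Y (nat_lit 128) (Nat.mul (nat_lit 6) (ad Z c
  (nat_lit 6755399441055747) (Nat.mul (nat_lit 2) (tm Z c (nat_lit 7318349394477184)))))))) (Nat.mul
  (nat_lit 8) (Nat.add (mw Y (nat_lit 768) (tm Z c (nat_lit 0))) (mw Y (nat_lit 256) (tm Z c
  (nat_lit 0)))))))))) (fo Y d (nat_lit 0) (Nat.add (Nat.add (mw Y (nat_lit 1152) (ad Z c (nat_lit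
  0) (Nat.mul (nat_lit 8) (tm Z c (nat_lit 2251799813685249))))) (mv Y (nat_lit 32769) (Nat.add
  (Nat.add (Nat.mul (nat_lit 3) (ad Z c (nat_lit 6755399441055747) (Nat.mul (nat_lit 2) (tm Z c
  (nat_lit 7318349394477184))))) (mw Y (nat_lit 384) (tm Z c (nat_lit 0)))) (Nat.mul (nat_lit 8) (mw
  Y (nat_lit 128) (tm Z c (nat_lit 0))))))) (mv Y (nat_lit 16387) (Nat.add (mw Y (nat_lit 640) (tm Z
  c (nat_lit 0))) (Nat.mul (nat_lit 2) (ad Z c (nat_lit 13510798882111494) (mw Y (nat_lit 384) (tm Z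
  c (nat_lit 0)))))))))) (fo Y d (nat_lit 0) (Nat.add (Nat.add (mv Y (nat_lit 16386) (Nat.add
  (Nat.mul (nat_lit 2) (mw Y (nat_lit 384) (tm Z c (nat_lit 6755399441055747)))) (mw Y (nat_lit 128)
  (tm Z c (nat_lit 6755399441055747))))) (mv Y (nat_lit 3) (Nat.add (Nat.add (Nat.add (Nat.add (mw Y
  (nat_lit 384) (tm Z c (nat_lit 13510798882111494))) (mw Y (nat_lit 1024) (tm Z c (nat_lit 0))))
  (Nat.mul (nat_lit 2) (Nat.add (ad Z c (nat_lit 20266198323167241) (mw Y (nat_lit 128) (tm Z c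
  (nat_lit 13510798882111494)))) (mw Y (nat_lit 896) (tm Z c (nat_lit 0)))))) (mw Y (nat_lit 768)
  (tm Z c (nat_lit 0)))) (mw Y (nat_lit 512) (tm Z c (nat_lit 0)))))) (mv Y (nat_lit 16384) (ad Z c
  (nat_lit 0) (Nat.mul (nat_lit 6) (Nat.add (mw Y (nat_lit 512) (tm Z c (nat_lit 0))) (Nat.add (mw Y
  (nat_lit 768) (tm Z c (nat_lit 0))) (mw Y (nat_lit 256) (tm Z c (nat_lit 0))))))))))) (mv Y
  (nat_lit 32770) (Nat.mul (nat_lit 2) (tm Z c (nat_lit 6755399441055747))))) (mv Y (nat_lit
  2097152) (tm Z c (nat_lit 0)))) (mw Y (nat_lit 128) (tm Z c (nat_lit 20266198323167241)))) (mv Y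
  (nat_lit 32771) (mw Y (nat_lit 256) (tm Z c (nat_lit 0))))) (mv Y (nat_lit 2) (Nat.mul (nat_lit 2)
  (Nat.add (Nat.add (mw Y (nat_lit 768) (tm Z c (nat_lit 6755399441055747))) (mw Y (nat_lit 512) (tm
  Z c (nat_lit 6755399441055747)))) (mw Y (nat_lit 256) (tm Z c (nat_lit 6755399441055747)))))))
  (Nat.mul (nat_lit 8) (mw Y (nat_lit 384) (tm Z c (nat_lit 0))))))

/-- program -/
def b14_4P : Pg :=
  (.fold (nat_lit 0) (.add (.fold (nat_lit 0) (.add (.add (.fold (nat_lit 0) (.add (.fold (nat_lit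
  0) (.add (.at (nat_lit 21955151262646272) (nat_lit 1) (.t (nat_lit 22522396183363584) (nat_lit
  0))) (.mv (nat_lit 2) (.add (.add (.add (.add (.at (nat_lit 20266267323662336) (nat_lit 2) (.t
  (nat_lit 20829217539227648) (nat_lit 1))) (.mul (nat_lit 2) (.at (nat_lit 19703283815809024)
  (nat_lit 3) (.t (nat_lit 20266234031374336) (nat_lit 2))))) (.at (nat_lit 19140300307955712)
  (nat_lit 4) (.t (nat_lit 19703250523521024) (nat_lit 3)))) (.mw (nat_lit 128) (.add (.at (nat_lit
  14636733436002304) (nat_lit 8) (.at (nat_lit 14636700143714304) (nat_lit 8) (.at (nat_lit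
  15199683651567616) (nat_lit 7) (.at (nat_lit 16325583302557696) (nat_lit 5) (.at (nat_lit
  16325550010269696) (nat_lit 5) (.t (nat_lit 16888533518123008) (nat_lit 4))))))) (.at (nat_lit
  14073749928148992) (nat_lit 9) (.t (nat_lit 15762599794704384) (nat_lit 6)))))) (.mw (nat_lit 256)
  (.at (nat_lit 9007199548342272) (nat_lit 14) (.at (nat_lit 9570149763907584) (nat_lit 13) (.add
  (.at (nat_lit 12384899281453056) (nat_lit 8) (.t (nat_lit 12947849497018368) (nat_lit 7))) (.mul
  (nat_lit 2) (.at (nat_lit 10696049414897664) (nat_lit 11) (.t (nat_lit 11258999630462976) (nat_lit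
  10)))))))))))) (.mv (nat_lit 3) (.add (.at (nat_lit 18577350092390400) (nat_lit 4) (.at (nat_lit
  19140367412625408) (nat_lit 3) (.at (nat_lit 19140334120337408) (nat_lit 3) (.fold (nat_lit 3)
  (.add (.at (nat_lit 19140333600243712) (nat_lit 3) (.at (nat_lit 19703317368143872) (nat_lit 2)
  (.at (nat_lit 19703284075855872) (nat_lit 2) (.fold (nat_lit 3) (.add (.add (.at (nat_lit
  18577383644725248) (nat_lit 4) (.t (nat_lit 18577350352437248) (nat_lit 4))) (.at (nat_lit
  18014433689206784) (nat_lit 5) (.t (nat_lit 18014400396918784) (nat_lit 5)))) (.mul (nat_lit 2)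
  (.add (.at (nat_lit 18014399876825088) (nat_lit 5) (.at (nat_lit 18577383904772096) (nat_lit 4)
  (.at (nat_lit 18577383384678400) (nat_lit 4) (.add (.at (nat_lit 19140333860290560) (nat_lit 3)
  (.at (nat_lit 19140300307955712) (nat_lit 3) (.at (nat_lit 19703317628190720) (nat_lit 2) (.at
  (nat_lit 19703283815809024) (nat_lit 2) (.t (nat_lit 20266267583709184) (nat_lit 1)))))) (.add
  (.at (nat_lit 19140367152578560) (nat_lit 3) (.t (nat_lit 19140300568002560) (nat_lit 3))) (.at
  (nat_lit 18577417197060096) (nat_lit 4) (.t (nat_lit 18577350612484096) (nat_lit 4)))))))) (.at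
  (nat_lit 17451450181353472) (nat_lit 6) (.t (nat_lit 18014400136871936) (nat_lit 5)))))))))) (.mw
  (nat_lit 256) (.add (.at (nat_lit 7881299637305344) (nat_lit 15) (.at (nat_lit 8444249592823808)
  (nat_lit 14) (.add (.at (nat_lit 10133099719426048) (nat_lit 11) (.at (nat_lit 10696049674944512)
  (nat_lit 10) (.at (nat_lit 11258999370416128) (nat_lit 9) (.t (nat_lit 11821949325934592) (nat_lit
  8))))) (.at (nat_lit 9007199288295424) (nat_lit 13) (.t (nat_lit 9570149243813888) (nat_lit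
  12)))))) (.mul (nat_lit 2) (.add (.at (nat_lit 8444249852870656) (nat_lit 14) (.at (nat_lit
  9007199808389120) (nat_lit 13) (.at (nat_lit 9570149503860736) (nat_lit 12) (.at (nat_lit
  10133099459379200) (nat_lit 11) (.at (nat_lit 10696049154850816) (nat_lit 10) (.at (nat_lit
  11258999110369280) (nat_lit 9) (.at (nat_lit 11821949585981440) (nat_lit 8) (.t (nat_lit
  12384899541499904) (nat_lit 7))))))))) (.at (nat_lit 7318349421740032) (nat_lit 16) (.t (nat_lit
  7881299377258496) (nat_lit 15)))))))))))) (.mw (nat_lit 128) (.add (.add (.at (nat_lit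
  14636699883667456) (nat_lit 7) (.at (nat_lit 14636699363573760) (nat_lit 7) (.at (nat_lit
  15199683391520768) (nat_lit 6) (.at (nat_lit 15199649839185920) (nat_lit 6) (.at (nat_lit
  15199649579139072) (nat_lit 6) (.add (.at (nat_lit 15762633347039232) (nat_lit 5) (.fold (nat_lit
  7) (.mul (nat_lit 2) (.add (.at (nat_lit 14073750188195840) (nat_lit 8) (.add (.at (nat_lit
  14636733696049152) (nat_lit 7) (.at (nat_lit 15199650099232768) (nat_lit 6) (.at (nat_lit
  15762633607086080) (nat_lit 5) (.at (nat_lit 15762600054751232) (nat_lit 5) (.t (nat_lit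
  16325583562604544) (nat_lit 4)))))) (.add (.at (nat_lit 14636733175955456) (nat_lit 7) (.t
  (nat_lit 15199683131473920) (nat_lit 6))) (.at (nat_lit 14073749668102144) (nat_lit 8) (.t
  (nat_lit 14636699623620608) (nat_lit 7)))))) (.at (nat_lit 12384899801546752) (nat_lit 11) (.at
  (nat_lit 12947883309400064) (nat_lit 10) (.at (nat_lit 12947849757065216) (nat_lit 10) (.at
  (nat_lit 13510833264918528) (nat_lit 9) (.at (nat_lit 13510800232677376) (nat_lit 9) (.t (nat_lit
  14073783740530688) (nat_lit 8))))))))))) (.at (nat_lit 15199650359279616) (nat_lit 6) (.t (nat_lit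
  16888500225835008) (nat_lit 3))))))))) (.at (nat_lit 14073749928148992) (nat_lit 8) (.t (nat_lit
  15762599794704384) (nat_lit 5)))) (.at (nat_lit 11821949065887744) (nat_lit 12) (.at (nat_lit
  12947850017112064) (nat_lit 10) (.at (nat_lit 12947849497018368) (nat_lit 10) (.at (nat_lit
  13510833524965376) (nat_lit 9) (.at (nat_lit 13510799972630528) (nat_lit 9) (.at (nat_lit
  13510799712583680) (nat_lit 9) (.at (nat_lit 13510798932443136) (nat_lit 9) (.t (nat_lit
  14073783480483840) (nat_lit 8))))))))))))))) (.mv (nat_lit 1) (.add (.fold (nat_lit 1) (.add (.add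
  (.fold (nat_lit 1) (.mw (nat_lit 256) (.add (.mul (nat_lit 8) (.fold (nat_lit 9) (.at (nat_lit
  10133099979472896) (nat_lit 13) (.at (nat_lit 10696083487326208) (nat_lit 12) (.add (.at (nat_lit
  13510799712583680) (nat_lit 7) (.t (nat_lit 14073783220436992) (nat_lit 6))) (.mul (nat_lit 2)
  (.at (nat_lit 11821949846028288) (nat_lit 10) (.t (nat_lit 12384933353881600) (nat_lit 9)))))))))
  (.mul (nat_lit 3) (.at (nat_lit 9007200068435968) (nat_lit 15) (.at (nat_lit 9570183576289280)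
  (nat_lit 14) (.at (nat_lit 9570150023954432) (nat_lit 14) (.at (nat_lit 10133133531807744)
  (nat_lit 13) (.add (.at (nat_lit 14636733175955456) (nat_lit 5) (.t (nat_lit 15199683131473920)
  (nat_lit 4))) (.at (nat_lit 14073749668102144) (nat_lit 6) (.t (nat_lit 14636699623620608)
  (nat_lit 5)))))))))))) (.mw (nat_lit 384) (.add (.fold (nat_lit 13) (.add (.mul (nat_lit 5) (.add
  (.at (nat_lit 6755399466221568) (nat_lit 15) (.t (nat_lit 8444249332776960) (nat_lit 12))) (.at
  (nat_lit 3377699733110784) (nat_lit 21) (.t (nat_lit 11821949065887744) (nat_lit 6))))) (.mul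
  (nat_lit 3) (.at (nat_lit 2251799822073856) (nat_lit 23) (.at (nat_lit 2814749777592320) (nat_lit
  22) (.at (nat_lit 12384899021406208) (nat_lit 5) (.t (nat_lit 12947848976924672) (nat_lit
  4)))))))) (.mul (nat_lit 8) (.fold (nat_lit 13) (.add (.at (nat_lit 1688849866555392) (nat_lit 24)
  (.t (nat_lit 13510798932443136) (nat_lit 3))) (.mul (nat_lit 3) (.at (nat_lit 562949955518464)
  (nat_lit 26) (.at (nat_lit 1125899911036928) (nat_lit 25) (.at (nat_lit 5629499555184640) (nat_lit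
  17) (.at (nat_lit 6192449510703104) (nat_lit 16) (.add (.add (.at (nat_lit 14073748887961600)
  (nat_lit 2) (.t (nat_lit 14636698843480064) (nat_lit 1))) (.at (nat_lit 9007199288295424) (nat_lit
  11) (.t (nat_lit 9570149243813888) (nat_lit 10)))) (.at (nat_lit 7318349421740032) (nat_lit 14)
  (.t (nat_lit 7881299377258496) (nat_lit 13))))))))))))))) (.mw (nat_lit 128) (.add (.add (.at
  (nat_lit 16325617374986240) (nat_lit 6) (.at (nat_lit 18014467241541632) (nat_lit 3) (.add (.mul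
  (nat_lit 3) (.fold (nat_lit 5) (.at (nat_lit 14073750448242688) (nat_lit 10) (.add (.at (nat_lit
  14636700403761152) (nat_lit 9) (.at (nat_lit 15199717463949312) (nat_lit 8) (.at (nat_lit
  15199649319092224) (nat_lit 8) (.at (nat_lit 15762667419467776) (nat_lit 7) (.at (nat_lit
  15762599274610688) (nat_lit 7) (.at (nat_lit 16325583822651392) (nat_lit 6) (.at (nat_lit
  16325549750222848) (nat_lit 6) (.at (nat_lit 16888533778169856) (nat_lit 5) (.at (nat_lit
  16888499705741312) (nat_lit 5) (.add (.at (nat_lit 19140367152578560) (nat_lit 1) (.t (nat_lit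
  19140300568002560) (nat_lit 1))) (.at (nat_lit 18577417197060096) (nat_lit 2) (.t (nat_lit
  18577350612484096) (nat_lit 2))))))))))))) (.at (nat_lit 14073748887961600) (nat_lit 10) (.t
  (nat_lit 14636698843480064) (nat_lit 9))))))) (.mul (nat_lit 6) (.fold (nat_lit 5) (.add (.at
  (nat_lit 16325549490176000) (nat_lit 6) (.at (nat_lit 16888567330504704) (nat_lit 5) (.at (nat_lit
  16888499965788160) (nat_lit 5) (.at (nat_lit 17451517286023168) (nat_lit 4) (.at (nat_lit
  17451449921306624) (nat_lit 4) (.add (.add (.at (nat_lit 18577383644725248) (nat_lit 2) (.t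
  (nat_lit 18577350352437248) (nat_lit 2))) (.at (nat_lit 18014433689206784) (nat_lit 3) (.t
  (nat_lit 18014400396918784) (nat_lit 3)))) (.at (nat_lit 17451450181353472) (nat_lit 4) (.t
  (nat_lit 18014400136871936) (nat_lit 3))))))))) (.at (nat_lit 14636733956096000) (nat_lit 9) (.at
  (nat_lit 14636699103526912) (nat_lit 9) (.at (nat_lit 15199683911614464) (nat_lit 8) (.at (nat_lit
  15199649059045376) (nat_lit 8) (.at (nat_lit 15762600314798080) (nat_lit 7) (.at (nat_lit
  15762599534657536) (nat_lit 7) (.t (nat_lit 16325550270316544) (nat_lit 6)))))))))))))) (.mul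
  (nat_lit 2) (.at (nat_lit 15762633867132928) (nat_lit 7) (.t (nat_lit 17451483733688320) (nat_lit
  4))))) (.at (nat_lit 15199650359279616) (nat_lit 8) (.t (nat_lit 16888500225835008) (nat_lit
  5))))))) (.mul (nat_lit 8) (.at (nat_lit 20829184246939648) (nat_lit 2) (.t (nat_lit
  21392167754792960) (nat_lit 1))))))) (.mw (nat_lit 128) (.add (.mul (nat_lit 8) (.fold (nat_lit 4)
  (.add (.at (nat_lit 16888499445694464) (nat_lit 6) (.t (nat_lit 18577350092390400) (nat_lit 3)))
  (.mul (nat_lit 3) (.at (nat_lit 15762599014563840) (nat_lit 8) (.at (nat_lit 16325549230129152)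
  (nat_lit 7) (.at (nat_lit 19140300307955712) (nat_lit 2) (.t (nat_lit 19703250523521024) (nat_lit
  1))))))))) (.mul (nat_lit 3) (.at (nat_lit 17451449661259776) (nat_lit 5) (.t (nat_lit
  18014399876825088) (nat_lit 4)))))))) (.mv (nat_lit 16384) (.add (.mul (nat_lit 8) (.fold (nat_lit
  13) (.add (.at (nat_lit 5066549599666176) (nat_lit 18) (.t (nat_lit 10133099199332352) (nat_lit
  9))) (.mul (nat_lit 3) (.add (.at (nat_lit 3377699733110784) (nat_lit 21) (.t (nat_lit
  11821949065887744) (nat_lit 6))) (.at (nat_lit 1688849866555392) (nat_lit 24) (.t (nat_lit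
  13510798932443136) (nat_lit 3)))))))) (.mul (nat_lit 3) (.at (nat_lit 6755399466221568) (nat_lit
  15) (.t (nat_lit 8444249332776960) (nat_lit 12))))))))

/-- compiled program -/
def b14_4 : Prog := fun Y Z c d =>
  (fo Y d (nat_lit 0) (Nat.add (fo Y d (nat_lit 0) (Nat.add (Nat.add (fo Y d (nat_lit 0) (Nat.add
  (fo Y d (nat_lit 0) (Nat.add (ad Z c (nat_lit 21955151262646272) (tm Z c (nat_lit
  22522396183363584))) (mv Y (nat_lit 2) (Nat.add (Nat.add (Nat.add (Nat.add (ad Z c (nat_lit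
  20266267323662336) (tm Z c (nat_lit 20829217539227648))) (Nat.mul (nat_lit 2) (ad Z c (nat_lit
  19703283815809024) (tm Z c (nat_lit 20266234031374336))))) (ad Z c (nat_lit 19140300307955712) (tm
  Z c (nat_lit 19703250523521024)))) (mw Y (nat_lit 128) (Nat.add (ad Z c (nat_lit
  14636733436002304) (ad Z c (nat_lit 14636700143714304) (ad Z c (nat_lit 15199683651567616) (ad Z c
  (nat_lit 16325583302557696) (ad Z c (nat_lit 16325550010269696) (tm Z c (nat_lit
  16888533518123008))))))) (ad Z c (nat_lit 14073749928148992) (tm Z c (nat_lit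
  15762599794704384)))))) (mw Y (nat_lit 256) (ad Z c (nat_lit 9007199548342272) (ad Z c (nat_lit
  9570149763907584) (Nat.add (ad Z c (nat_lit 12384899281453056) (tm Z c (nat_lit
  12947849497018368))) (Nat.mul (nat_lit 2) (ad Z c (nat_lit 10696049414897664) (tm Z c (nat_lit
  11258999630462976)))))))))))) (mv Y (nat_lit 3) (Nat.add (ad Z c (nat_lit 18577350092390400) (ad Z
  c (nat_lit 19140367412625408) (ad Z c (nat_lit 19140334120337408) (fo Y d (nat_lit 3) (Nat.add (ad
  Z c (nat_lit 19140333600243712) (ad Z c (nat_lit 19703317368143872) (ad Z c (nat_lit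
  19703284075855872) (fo Y d (nat_lit 3) (Nat.add (Nat.add (ad Z c (nat_lit 18577383644725248) (tm Z
  c (nat_lit 18577350352437248))) (ad Z c (nat_lit 18014433689206784) (tm Z c (nat_lit
  18014400396918784)))) (Nat.mul (nat_lit 2) (Nat.add (ad Z c (nat_lit 18014399876825088) (ad Z c
  (nat_lit 18577383904772096) (ad Z c (nat_lit 18577383384678400) (Nat.add (ad Z c (nat_lit
  19140333860290560) (ad Z c (nat_lit 19140300307955712) (ad Z c (nat_lit 19703317628190720) (ad Z c
  (nat_lit 19703283815809024) (tm Z c (nat_lit 20266267583709184)))))) (Nat.add (ad Z c (nat_lit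
  19140367152578560) (tm Z c (nat_lit 19140300568002560))) (ad Z c (nat_lit 18577417197060096) (tm Z
  c (nat_lit 18577350612484096)))))))) (ad Z c (nat_lit 17451450181353472) (tm Z c (nat_lit
  18014400136871936)))))))))) (mw Y (nat_lit 256) (Nat.add (ad Z c (nat_lit 7881299637305344) (ad Z
  c (nat_lit 8444249592823808) (Nat.add (ad Z c (nat_lit 10133099719426048) (ad Z c (nat_lit
  10696049674944512) (ad Z c (nat_lit 11258999370416128) (tm Z c (nat_lit 11821949325934592))))) (ad
  Z c (nat_lit 9007199288295424) (tm Z c (nat_lit 9570149243813888)))))) (Nat.mul (nat_lit 2)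
  (Nat.add (ad Z c (nat_lit 8444249852870656) (ad Z c (nat_lit 9007199808389120) (ad Z c (nat_lit
  9570149503860736) (ad Z c (nat_lit 10133099459379200) (ad Z c (nat_lit 10696049154850816) (ad Z c
  (nat_lit 11258999110369280) (ad Z c (nat_lit 11821949585981440) (tm Z c (nat_lit
  12384899541499904))))))))) (ad Z c (nat_lit 7318349421740032) (tm Z c (nat_lit
  7881299377258496)))))))))))) (mw Y (nat_lit 128) (Nat.add (Nat.add (ad Z c (nat_lit
  14636699883667456) (ad Z c (nat_lit 14636699363573760) (ad Z c (nat_lit 15199683391520768) (ad Z c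
  (nat_lit 15199649839185920) (ad Z c (nat_lit 15199649579139072) (Nat.add (ad Z c (nat_lit
  15762633347039232) (fo Y d (nat_lit 7) (Nat.mul (nat_lit 2) (Nat.add (ad Z c (nat_lit
  14073750188195840) (Nat.add (ad Z c (nat_lit 14636733696049152) (ad Z c (nat_lit
  15199650099232768) (ad Z c (nat_lit 15762633607086080) (ad Z c (nat_lit 15762600054751232) (tm Z c
  (nat_lit 16325583562604544)))))) (Nat.add (ad Z c (nat_lit 14636733175955456) (tm Z c (nat_lit
  15199683131473920))) (ad Z c (nat_lit 14073749668102144) (tm Z c (nat_lit 14636699623620608))))))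
  (ad Z c (nat_lit 12384899801546752) (ad Z c (nat_lit 12947883309400064) (ad Z c (nat_lit
  12947849757065216) (ad Z c (nat_lit 13510833264918528) (ad Z c (nat_lit 13510800232677376) (tm Z c
  (nat_lit 14073783740530688))))))))))) (ad Z c (nat_lit 15199650359279616) (tm Z c (nat_lit
  16888500225835008))))))))) (ad Z c (nat_lit 14073749928148992) (tm Z c (nat_lit
  15762599794704384)))) (ad Z c (nat_lit 11821949065887744) (ad Z c (nat_lit 12947850017112064) (ad
  Z c (nat_lit 12947849497018368) (ad Z c (nat_lit 13510833524965376) (ad Z c (nat_lit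
  13510799972630528) (ad Z c (nat_lit 13510799712583680) (ad Z c (nat_lit 13510798932443136) (tm Z c
  (nat_lit 14073783480483840))))))))))))))) (mv Y (nat_lit 1) (Nat.add (fo Y d (nat_lit 1) (Nat.add
  (Nat.add (fo Y d (nat_lit 1) (mw Y (nat_lit 256) (Nat.add (Nat.mul (nat_lit 8) (fo Y d (nat_lit 9)
  (ad Z c (nat_lit 10133099979472896) (ad Z c (nat_lit 10696083487326208) (Nat.add (ad Z c (nat_lit
  13510799712583680) (tm Z c (nat_lit 14073783220436992))) (Nat.mul (nat_lit 2) (ad Z c (nat_lit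
  11821949846028288) (tm Z c (nat_lit 12384933353881600))))))))) (Nat.mul (nat_lit 3) (ad Z c
  (nat_lit 9007200068435968) (ad Z c (nat_lit 9570183576289280) (ad Z c (nat_lit 9570150023954432)
  (ad Z c (nat_lit 10133133531807744) (Nat.add (ad Z c (nat_lit 14636733175955456) (tm Z c (nat_lit
  15199683131473920))) (ad Z c (nat_lit 14073749668102144) (tm Z c (nat_lit
  14636699623620608)))))))))))) (mw Y (nat_lit 384) (Nat.add (fo Y d (nat_lit 13) (Nat.add (Nat.mul
  (nat_lit 5) (Nat.add (ad Z c (nat_lit 6755399466221568) (tm Z c (nat_lit 8444249332776960))) (ad Z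
  c (nat_lit 3377699733110784) (tm Z c (nat_lit 11821949065887744))))) (Nat.mul (nat_lit 3) (ad Z c
  (nat_lit 2251799822073856) (ad Z c (nat_lit 2814749777592320) (ad Z c (nat_lit 12384899021406208)
  (tm Z c (nat_lit 12947848976924672)))))))) (Nat.mul (nat_lit 8) (fo Y d (nat_lit 13) (Nat.add (ad
  Z c (nat_lit 1688849866555392) (tm Z c (nat_lit 13510798932443136))) (Nat.mul (nat_lit 3) (ad Z c
  (nat_lit 562949955518464) (ad Z c (nat_lit 1125899911036928) (ad Z c (nat_lit 5629499555184640)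
  (ad Z c (nat_lit 6192449510703104) (Nat.add (Nat.add (ad Z c (nat_lit 14073748887961600) (tm Z c
  (nat_lit 14636698843480064))) (ad Z c (nat_lit 9007199288295424) (tm Z c (nat_lit
  9570149243813888)))) (ad Z c (nat_lit 7318349421740032) (tm Z c (nat_lit
  7881299377258496))))))))))))))) (mw Y (nat_lit 128) (Nat.add (Nat.add (ad Z c (nat_lit
  16325617374986240) (ad Z c (nat_lit 18014467241541632) (Nat.add (Nat.mul (nat_lit 3) (fo Y d
  (nat_lit 5) (ad Z c (nat_lit 14073750448242688) (Nat.add (ad Z c (nat_lit 14636700403761152) (ad Z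
  c (nat_lit 15199717463949312) (ad Z c (nat_lit 15199649319092224) (ad Z c (nat_lit
  15762667419467776) (ad Z c (nat_lit 15762599274610688) (ad Z c (nat_lit 16325583822651392) (ad Z c
  (nat_lit 16325549750222848) (ad Z c (nat_lit 16888533778169856) (ad Z c (nat_lit
  16888499705741312) (Nat.add (ad Z c (nat_lit 19140367152578560) (tm Z c (nat_lit
  19140300568002560))) (ad Z c (nat_lit 18577417197060096) (tm Z c (nat_lit
  18577350612484096))))))))))))) (ad Z c (nat_lit 14073748887961600) (tm Z c (nat_lit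
  14636698843480064))))))) (Nat.mul (nat_lit 6) (fo Y d (nat_lit 5) (Nat.add (ad Z c (nat_lit
  16325549490176000) (ad Z c (nat_lit 16888567330504704) (ad Z c (nat_lit 16888499965788160) (ad Z c
  (nat_lit 17451517286023168) (ad Z c (nat_lit 17451449921306624) (Nat.add (Nat.add (ad Z c (nat_lit
  18577383644725248) (tm Z c (nat_lit 18577350352437248))) (ad Z c (nat_lit 18014433689206784) (tm Z
  c (nat_lit 18014400396918784)))) (ad Z c (nat_lit 17451450181353472) (tm Z c (nat_lit
  18014400136871936))))))))) (ad Z c (nat_lit 14636733956096000) (ad Z c (nat_lit 14636699103526912)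
  (ad Z c (nat_lit 15199683911614464) (ad Z c (nat_lit 15199649059045376) (ad Z c (nat_lit
  15762600314798080) (ad Z c (nat_lit 15762599534657536) (tm Z c (nat_lit
  16325550270316544)))))))))))))) (Nat.mul (nat_lit 2) (ad Z c (nat_lit 15762633867132928) (tm Z c
  (nat_lit 17451483733688320))))) (ad Z c (nat_lit 15199650359279616) (tm Z c (nat_lit
  16888500225835008))))))) (Nat.mul (nat_lit 8) (ad Z c (nat_lit 20829184246939648) (tm Z c (nat_lit
  21392167754792960))))))) (mw Y (nat_lit 128) (Nat.add (Nat.mul (nat_lit 8) (fo Y d (nat_lit 4)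
  (Nat.add (ad Z c (nat_lit 16888499445694464) (tm Z c (nat_lit 18577350092390400))) (Nat.mul
  (nat_lit 3) (ad Z c (nat_lit 15762599014563840) (ad Z c (nat_lit 16325549230129152) (ad Z c
  (nat_lit 19140300307955712) (tm Z c (nat_lit 19703250523521024))))))))) (Nat.mul (nat_lit 3) (ad Z
  c (nat_lit 17451449661259776) (tm Z c (nat_lit 18014399876825088)))))))) (mv Y (nat_lit 16384)
  (Nat.add (Nat.mul (nat_lit 8) (fo Y d (nat_lit 13) (Nat.add (ad Z c (nat_lit 5066549599666176) (tm
  Z c (nat_lit 10133099199332352))) (Nat.mul (nat_lit 3) (Nat.add (ad Z c (nat_lit 3377699733110784)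
  (tm Z c (nat_lit 11821949065887744))) (ad Z c (nat_lit 1688849866555392) (tm Z c (nat_lit
  13510798932443136)))))))) (Nat.mul (nat_lit 3) (ad Z c (nat_lit 6755399466221568) (tm Z c (nat_lit
  8444249332776960))))))))

end Vale.Agent.P236B
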