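import Vale.Agent.P236B.PgT
import Vale.Agent.P236B.Pg5

/-!
# P236 / B : the programs are correct (N = 5)
-/

noncomputable section

namespace Vale.Agent.P236B

open Vale.Agent.P236M Vale.Agent.P236X

theorem w1_5_run : w1_5 = w1_5P.map run := rfl

theorem w1_5_t : allP (w1T 2 5) w1_5P 94 = true := by decide +kernel

theorem w1_5_ok {a N : ℕ} (ha : a ≤ 2) (hN : N ≤ 5) :
    DiOK a N w1_5 1 10 (VV 3 (xq a N) 4 0) :=
  w1OK_of w1_5_t w1_5_run ha hN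

theorem w4_5_run : w4_5 = run w4_5P := rfl

theorem w4_5_t : itT [1, 10, 1, 4, 1, 2, 1, 10, 4, 2, 5]
    [0, 1, 1, 10, 10, 40, 40, 80, 80, 800, 3200, 6400] 7 65 2 5 40 w4_5P (vL 4 3) = true := by
  decide +kernel

theorem w4_5_ok {a N : ℕ} (ha : a ≤ 2) (hN : N ≤ 5) :
    ItOK a N w4_5 40 (VV 3 (xq a N) 4 3) :=
  itOK_of w4_5_t w4_5_run ha hN (VV_four _ (nine_Ab a N) _ (by omega))

theorem b14_5_run : b14_5 = run b14_5P := rfl

theorem b14_5_t : itT [27, 1, 9, 1, 4, 1, 2, 4, 2, 1, 5]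
    [0, 1, 27, 27, 243, 243, 972, 972, 1944, 7776, 15552, 15552] 8 208 2 5 40 b14_5P (bL 0 3) = true := by
  decide +kernel

theorem b14_5_ok {a N : ℕ} (ha : a ≤ 2) (hN : N ≤ 5) :
    ItOK a N b14_5 40 (bb 3 (xq a N) 0 3) :=
  itOK_of b14_5_t b14_5_run ha hN (bb_zero _ (nine_Ab a N) _ (by omega))

end Vale.Agent.P236B
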