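import Vale.Agent.P236X.Defs

/-!
# P236 / B : programs (powers)
-/

noncomputable section

namespace Vale.Agent.P236B

open Vale.Agent.P236X

/-- program -/
def b11_1P : Pg :=
  (.fold (nat_lit 0) (.at (nat_lit 0) (nat_lit 1) (.t (nat_lit 562949955518464) (nat_lit 0))))

/-- compiled program -/
def b11_1 : Prog := fun Y Z c d =>
  (fo Y d (nat_lit 0) (ad Z c (nat_lit 0) (tm Z c (nat_lit 562949955518464))))

/-- program -/
def b11_2P : Pg :=
  (.fold (nat_lit 0) (.at (nat_lit 0) (nat_lit 2) (.at (nat_lit 1125899911036928) (nat_lit 0) (.mul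
  (nat_lit 2) (.t (nat_lit 562949955518464) (nat_lit 1))))))

/-- compiled program -/
def b11_2 : Prog := fun Y Z c d =>
  (fo Y d (nat_lit 0) (ad Z c (nat_lit 0) (ad Z c (nat_lit 1125899911036928) (Nat.mul (nat_lit 2)
  (tm Z c (nat_lit 562949955518464))))))

/-- program -/
def b11_3P : Pg :=
  (.fold (nat_lit 0) (.at (nat_lit 0) (nat_lit 3) (.at (nat_lit 1688849866555392) (nat_lit 0) (.mul
  (nat_lit 3) (.at (nat_lit 562949955518464) (nat_lit 2) (.t (nat_lit 1125899911036928) (nat_lit
  1)))))))

/-- compiled program -/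
def b11_3 : Prog := fun Y Z c d =>
  (fo Y d (nat_lit 0) (ad Z c (nat_lit 0) (ad Z c (nat_lit 1688849866555392) (Nat.mul (nat_lit 3)
  (ad Z c (nat_lit 562949955518464) (tm Z c (nat_lit 1125899911036928)))))))

/-- program -/
def b11_4P : Pg :=
  (.fold (nat_lit 0) (.at (nat_lit 0) (nat_lit 4) (.add (.at (nat_lit 2251799822073856) (nat_lit 0)
  (.mul (nat_lit 6) (.t (nat_lit 1125899911036928) (nat_lit 2)))) (.mul (nat_lit 4) (.at (nat_lit
  562949955518464) (nat_lit 3) (.t (nat_lit 1688849866555392) (nat_lit 1)))))))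

/-- compiled program -/
def b11_4 : Prog := fun Y Z c d =>
  (fo Y d (nat_lit 0) (ad Z c (nat_lit 0) (Nat.add (ad Z c (nat_lit 2251799822073856) (Nat.mul
  (nat_lit 6) (tm Z c (nat_lit 1125899911036928)))) (Nat.mul (nat_lit 4) (ad Z c (nat_lit
  562949955518464) (tm Z c (nat_lit 1688849866555392)))))))

/-- program -/
def b11_5P : Pg :=
  (.fold (nat_lit 0) (.at (nat_lit 0) (nat_lit 5) (.add (.at (nat_lit 1125899911036928) (nat_lit 3)
  (.at (nat_lit 1688849866555392) (nat_lit 2) (.t (nat_lit 2814749777592320) (nat_lit 0)))) (.mul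
  (nat_lit 5) (.at (nat_lit 562949955518464) (nat_lit 4) (.t (nat_lit 2251799822073856) (nat_lit
  1)))))))

/-- compiled program -/
def b11_5 : Prog := fun Y Z c d =>
  (fo Y d (nat_lit 0) (ad Z c (nat_lit 0) (Nat.add (ad Z c (nat_lit 1125899911036928) (ad Z c
  (nat_lit 1688849866555392) (tm Z c (nat_lit 2814749777592320)))) (Nat.mul (nat_lit 5) (ad Z c
  (nat_lit 562949955518464) (tm Z c (nat_lit 2251799822073856)))))))

/-- program -/
def b11_6P : Pg :=
  (.fold (nat_lit 0) (.at (nat_lit 0) (nat_lit 6) (.add (.at (nat_lit 3377699733110784) (nat_lit 0)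
  (.mul (nat_lit 2) (.t (nat_lit 1688849866555392) (nat_lit 3)))) (.mul (nat_lit 6) (.at (nat_lit
  562949955518464) (nat_lit 5) (.at (nat_lit 1125899911036928) (nat_lit 4) (.at (nat_lit
  2251799822073856) (nat_lit 2) (.t (nat_lit 2814749777592320) (nat_lit 1)))))))))

/-- compiled program -/
def b11_6 : Prog := fun Y Z c d =>
  (fo Y d (nat_lit 0) (ad Z c (nat_lit 0) (Nat.add (ad Z c (nat_lit 3377699733110784) (Nat.mul
  (nat_lit 2) (tm Z c (nat_lit 1688849866555392)))) (Nat.mul (nat_lit 6) (ad Z c (nat_lit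
  562949955518464) (ad Z c (nat_lit 1125899911036928) (ad Z c (nat_lit 2251799822073856) (tm Z c
  (nat_lit 2814749777592320)))))))))

/-- program -/
def b11_7P : Pg :=
  (.fold (nat_lit 0) (.add (.fold (nat_lit 0) (.at (nat_lit 0) (nat_lit 7) (.add (.at (nat_lit
  3940649688629248) (nat_lit 0) (.mul (nat_lit 8) (.at (nat_lit 1688849866555392) (nat_lit 4) (.t
  (nat_lit 2251799822073856) (nat_lit 3))))) (.mul (nat_lit 7) (.at (nat_lit 562949955518464)
  (nat_lit 6) (.t (nat_lit 3377699733110784) (nat_lit 1))))))) (.mul (nat_lit 3) (.at (nat_lit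
  1125899911036928) (nat_lit 5) (.t (nat_lit 2814749777592320) (nat_lit 2))))))

/-- compiled program -/
def b11_7 : Prog := fun Y Z c d =>
  (fo Y d (nat_lit 0) (Nat.add (fo Y d (nat_lit 0) (ad Z c (nat_lit 0) (Nat.add (ad Z c (nat_lit
  3940649688629248) (Nat.mul (nat_lit 8) (ad Z c (nat_lit 1688849866555392) (tm Z c (nat_lit
  2251799822073856))))) (Nat.mul (nat_lit 7) (ad Z c (nat_lit 562949955518464) (tm Z c (nat_lit
  3377699733110784))))))) (Nat.mul (nat_lit 3) (ad Z c (nat_lit 1125899911036928) (tm Z c (nat_lit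
  2814749777592320))))))

/-- program -/
def b11_8P : Pg :=
  (.fold (nat_lit 0) (.at (nat_lit 0) (nat_lit 8) (.add (.at (nat_lit 1125899911036928) (nat_lit 6)
  (.add (.add (.at (nat_lit 3377699733110784) (nat_lit 2) (.t (nat_lit 4503599644147712) (nat_lit
  0))) (.mul (nat_lit 7) (.t (nat_lit 2251799822073856) (nat_lit 4)))) (.mul (nat_lit 2) (.at
  (nat_lit 1688849866555392) (nat_lit 5) (.t (nat_lit 2814749777592320) (nat_lit 3)))))) (.mul
  (nat_lit 8) (.at (nat_lit 562949955518464) (nat_lit 7) (.t (nat_lit 3940649688629248) (nat_lit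
  1)))))))

/-- compiled program -/
def b11_8 : Prog := fun Y Z c d =>
  (fo Y d (nat_lit 0) (ad Z c (nat_lit 0) (Nat.add (ad Z c (nat_lit 1125899911036928) (Nat.add
  (Nat.add (ad Z c (nat_lit 3377699733110784) (tm Z c (nat_lit 4503599644147712))) (Nat.mul (nat_lit
  7) (tm Z c (nat_lit 2251799822073856)))) (Nat.mul (nat_lit 2) (ad Z c (nat_lit 1688849866555392)
  (tm Z c (nat_lit 2814749777592320)))))) (Nat.mul (nat_lit 8) (ad Z c (nat_lit 562949955518464) (tm
  Z c (nat_lit 3940649688629248)))))))

/-- program -/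
def b11_9P : Pg :=
  (.fold (nat_lit 0) (.at (nat_lit 0) (nat_lit 9) (.at (nat_lit 5066549599666176) (nat_lit 0) (.mul
  (nat_lit 3) (.at (nat_lit 1688849866555392) (nat_lit 6) (.t (nat_lit 3377699733110784) (nat_lit
  3)))))))

/-- compiled program -/
def b11_9 : Prog := fun Y Z c d =>
  (fo Y d (nat_lit 0) (ad Z c (nat_lit 0) (ad Z c (nat_lit 5066549599666176) (Nat.mul (nat_lit 3)
  (ad Z c (nat_lit 1688849866555392) (tm Z c (nat_lit 3377699733110784)))))))

/-- program -/
def b11_10P : Pg :=
  (.fold (nat_lit 0) (.at (nat_lit 0) (nat_lit 10) (.at (nat_lit 562949955518464) (nat_lit 9) (.add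
  (.at (nat_lit 5066549599666176) (nat_lit 1) (.t (nat_lit 5629499555184640) (nat_lit 0))) (.mul
  (nat_lit 3) (.at (nat_lit 1688849866555392) (nat_lit 7) (.at (nat_lit 2251799822073856) (nat_lit
  6) (.at (nat_lit 3377699733110784) (nat_lit 4) (.t (nat_lit 3940649688629248) (nat_lit 3))))))))))

/-- compiled program -/
def b11_10 : Prog := fun Y Z c d =>
  (fo Y d (nat_lit 0) (ad Z c (nat_lit 0) (ad Z c (nat_lit 562949955518464) (Nat.add (ad Z c
  (nat_lit 5066549599666176) (tm Z c (nat_lit 5629499555184640))) (Nat.mul (nat_lit 3) (ad Z c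
  (nat_lit 1688849866555392) (ad Z c (nat_lit 2251799822073856) (ad Z c (nat_lit 3377699733110784)
  (tm Z c (nat_lit 3940649688629248))))))))))

/-- program -/
def b11_11P : Pg :=
  (.fold (nat_lit 0) (.at (nat_lit 0) (nat_lit 11) (.add (.at (nat_lit 1125899911036928) (nat_lit 9)
  (.add (.add (.at (nat_lit 5066549599666176) (nat_lit 2) (.t (nat_lit 6192449510703104) (nat_lit
  0))) (.mul (nat_lit 6) (.at (nat_lit 2251799822073856) (nat_lit 7) (.t (nat_lit 3940649688629248)
  (nat_lit 4))))) (.mul (nat_lit 3) (.at (nat_lit 1688849866555392) (nat_lit 8) (.at (nat_lit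
  2814749777592320) (nat_lit 6) (.at (nat_lit 3377699733110784) (nat_lit 5) (.t (nat_lit
  4503599644147712) (nat_lit 3)))))))) (.mul (nat_lit 2) (.at (nat_lit 562949955518464) (nat_lit 10)
  (.t (nat_lit 5629499555184640) (nat_lit 1)))))))

/-- compiled program -/
def b11_11 : Prog := fun Y Z c d =>
  (fo Y d (nat_lit 0) (ad Z c (nat_lit 0) (Nat.add (ad Z c (nat_lit 1125899911036928) (Nat.add
  (Nat.add (ad Z c (nat_lit 5066549599666176) (tm Z c (nat_lit 6192449510703104))) (Nat.mul (nat_lit
  6) (ad Z c (nat_lit 2251799822073856) (tm Z c (nat_lit 3940649688629248))))) (Nat.mul (nat_lit 3)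
  (ad Z c (nat_lit 1688849866555392) (ad Z c (nat_lit 2814749777592320) (ad Z c (nat_lit
  3377699733110784) (tm Z c (nat_lit 4503599644147712)))))))) (Nat.mul (nat_lit 2) (ad Z c (nat_lit
  562949955518464) (tm Z c (nat_lit 5629499555184640)))))))

/-- program -/
def b11_12P : Pg :=
  (.fold (nat_lit 0) (.at (nat_lit 0) (nat_lit 12) (.add (.add (.at (nat_lit 6755399466221568)
  (nat_lit 0) (.mul (nat_lit 6) (.t (nat_lit 3377699733110784) (nat_lit 6)))) (.mul (nat_lit 4) (.at
  (nat_lit 1688849866555392) (nat_lit 9) (.t (nat_lit 5066549599666176) (nat_lit 3))))) (.mul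
  (nat_lit 3) (.at (nat_lit 562949955518464) (nat_lit 11) (.at (nat_lit 1125899911036928) (nat_lit
  10) (.at (nat_lit 5629499555184640) (nat_lit 2) (.t (nat_lit 6192449510703104) (nat_lit 1)))))))))

/-- compiled program -/
def b11_12 : Prog := fun Y Z c d =>
  (fo Y d (nat_lit 0) (ad Z c (nat_lit 0) (Nat.add (Nat.add (ad Z c (nat_lit 6755399466221568)
  (Nat.mul (nat_lit 6) (tm Z c (nat_lit 3377699733110784)))) (Nat.mul (nat_lit 4) (ad Z c (nat_lit
  1688849866555392) (tm Z c (nat_lit 5066549599666176))))) (Nat.mul (nat_lit 3) (ad Z c (nat_lit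
  562949955518464) (ad Z c (nat_lit 1125899911036928) (ad Z c (nat_lit 5629499555184640) (tm Z c
  (nat_lit 6192449510703104)))))))))

/-- program -/
def b11_13P : Pg :=
  (.fold (nat_lit 0) (.add (.add (.fold (nat_lit 0) (.at (nat_lit 0) (nat_lit 13) (.at (nat_lit
  7318349421740032) (nat_lit 0) (.mul (nat_lit 6) (.at (nat_lit 1125899911036928) (nat_lit 11) (.at
  (nat_lit 3377699733110784) (nat_lit 7) (.at (nat_lit 3940649688629248) (nat_lit 6) (.t (nat_lit
  6192449510703104) (nat_lit 2))))))))) (.mul (nat_lit 7) (.at (nat_lit 1688849866555392) (nat_lit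
  10) (.t (nat_lit 5629499555184640) (nat_lit 3))))) (.mul (nat_lit 4) (.at (nat_lit
  562949955518464) (nat_lit 12) (.at (nat_lit 2251799822073856) (nat_lit 9) (.at (nat_lit
  5066549599666176) (nat_lit 4) (.t (nat_lit 6755399466221568) (nat_lit 1))))))))

/-- compiled program -/
def b11_13 : Prog := fun Y Z c d =>
  (fo Y d (nat_lit 0) (Nat.add (Nat.add (fo Y d (nat_lit 0) (ad Z c (nat_lit 0) (ad Z c (nat_lit
  7318349421740032) (Nat.mul (nat_lit 6) (ad Z c (nat_lit 1125899911036928) (ad Z c (nat_lit
  3377699733110784) (ad Z c (nat_lit 3940649688629248) (tm Z c (nat_lit 6192449510703104)))))))))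
  (Nat.mul (nat_lit 7) (ad Z c (nat_lit 1688849866555392) (tm Z c (nat_lit 5629499555184640)))))
  (Nat.mul (nat_lit 4) (ad Z c (nat_lit 562949955518464) (ad Z c (nat_lit 2251799822073856) (ad Z c
  (nat_lit 5066549599666176) (tm Z c (nat_lit 6755399466221568))))))))

/-- program -/
def b11_14P : Pg :=
  (.fold (nat_lit 0) (.at (nat_lit 0) (nat_lit 14) (.add (.at (nat_lit 1125899911036928) (nat_lit
  12) (.add (.at (nat_lit 6755399466221568) (nat_lit 2) (.at (nat_lit 7881299377258496) (nat_lit 0)
  (.fold (nat_lit 0) (.add (.add (.mul (nat_lit 6) (.at (nat_lit 3377699733110784) (nat_lit 8) (.t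
  (nat_lit 4503599644147712) (nat_lit 6)))) (.mul (nat_lit 2) (.at (nat_lit 2251799822073856)
  (nat_lit 10) (.t (nat_lit 5629499555184640) (nat_lit 4))))) (.mul (nat_lit 4) (.at (nat_lit
  1688849866555392) (nat_lit 11) (.at (nat_lit 2814749777592320) (nat_lit 9) (.at (nat_lit
  5066549599666176) (nat_lit 5) (.t (nat_lit 6192449510703104) (nat_lit 3)))))))))) (.mul (nat_lit
  3) (.t (nat_lit 3940649688629248) (nat_lit 7))))) (.mul (nat_lit 5) (.at (nat_lit 562949955518464)
  (nat_lit 13) (.t (nat_lit 7318349421740032) (nat_lit 1)))))))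

/-- compiled program -/
def b11_14 : Prog := fun Y Z c d =>
  (fo Y d (nat_lit 0) (ad Z c (nat_lit 0) (Nat.add (ad Z c (nat_lit 1125899911036928) (Nat.add (ad Z
  c (nat_lit 6755399466221568) (ad Z c (nat_lit 7881299377258496) (fo Y d (nat_lit 0) (Nat.add
  (Nat.add (Nat.mul (nat_lit 6) (ad Z c (nat_lit 3377699733110784) (tm Z c (nat_lit
  4503599644147712)))) (Nat.mul (nat_lit 2) (ad Z c (nat_lit 2251799822073856) (tm Z c (nat_lit
  5629499555184640))))) (Nat.mul (nat_lit 4) (ad Z c (nat_lit 1688849866555392) (ad Z c (nat_lit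
  2814749777592320) (ad Z c (nat_lit 5066549599666176) (tm Z c (nat_lit 6192449510703104))))))))))
  (Nat.mul (nat_lit 3) (tm Z c (nat_lit 3940649688629248))))) (Nat.mul (nat_lit 5) (ad Z c (nat_lit
  562949955518464) (tm Z c (nat_lit 7318349421740032)))))))

/-- program -/
def b11_15P : Pg :=
  (.fold (nat_lit 0) (.at (nat_lit 0) (nat_lit 15) (.at (nat_lit 3377699733110784) (nat_lit 9) (.at
  (nat_lit 5066549599666176) (nat_lit 6) (.at (nat_lit 8444249332776960) (nat_lit 0) (.mul (nat_lit
  8) (.fold (nat_lit 0) (.add (.mul (nat_lit 4) (.at (nat_lit 1688849866555392) (nat_lit 12) (.t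
  (nat_lit 6755399466221568) (nat_lit 3)))) (.mul (nat_lit 3) (.at (nat_lit 562949955518464)
  (nat_lit 14) (.at (nat_lit 1125899911036928) (nat_lit 13) (.at (nat_lit 2251799822073856) (nat_lit
  11) (.at (nat_lit 2814749777592320) (nat_lit 10) (.at (nat_lit 5629499555184640) (nat_lit 5) (.at
  (nat_lit 6192449510703104) (nat_lit 4) (.at (nat_lit 7318349421740032) (nat_lit 2) (.t (nat_lit
  7881299377258496) (nat_lit 1))))))))))))))))))

/-- compiled program -/
def b11_15 : Prog := fun Y Z c d =>
  (fo Y d (nat_lit 0) (ad Z c (nat_lit 0) (ad Z c (nat_lit 3377699733110784) (ad Z c (nat_lit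
  5066549599666176) (ad Z c (nat_lit 8444249332776960) (Nat.mul (nat_lit 8) (fo Y d (nat_lit 0)
  (Nat.add (Nat.mul (nat_lit 4) (ad Z c (nat_lit 1688849866555392) (tm Z c (nat_lit
  6755399466221568)))) (Nat.mul (nat_lit 3) (ad Z c (nat_lit 562949955518464) (ad Z c (nat_lit
  1125899911036928) (ad Z c (nat_lit 2251799822073856) (ad Z c (nat_lit 2814749777592320) (ad Z c
  (nat_lit 5629499555184640) (ad Z c (nat_lit 6192449510703104) (ad Z c (nat_lit 7318349421740032)
  (tm Z c (nat_lit 7881299377258496))))))))))))))))))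

/-- program -/
def b11_16P : Pg :=
  (.fold (nat_lit 0) (.add (.add (.fold (nat_lit 0) (.at (nat_lit 0) (nat_lit 16) (.add (.at
  (nat_lit 3940649688629248) (nat_lit 9) (.at (nat_lit 5066549599666176) (nat_lit 7) (.t (nat_lit
  9007199288295424) (nat_lit 0)))) (.mul (nat_lit 7) (.at (nat_lit 562949955518464) (nat_lit 15)
  (.at (nat_lit 3377699733110784) (nat_lit 10) (.at (nat_lit 5629499555184640) (nat_lit 6) (.t
  (nat_lit 8444249332776960) (nat_lit 1))))))))) (.mul (nat_lit 2) (.at (nat_lit 1688849866555392)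
  (nat_lit 13) (.at (nat_lit 2251799822073856) (nat_lit 12) (.at (nat_lit 6755399466221568) (nat_lit
  4) (.t (nat_lit 7318349421740032) (nat_lit 3))))))) (.mul (nat_lit 3) (.at (nat_lit
  1125899911036928) (nat_lit 14) (.at (nat_lit 2814749777592320) (nat_lit 11) (.at (nat_lit
  6192449510703104) (nat_lit 5) (.t (nat_lit 7881299377258496) (nat_lit 2))))))))

/-- compiled program -/
def b11_16 : Prog := fun Y Z c d =>
  (fo Y d (nat_lit 0) (Nat.add (Nat.add (fo Y d (nat_lit 0) (ad Z c (nat_lit 0) (Nat.add (ad Z c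
  (nat_lit 3940649688629248) (ad Z c (nat_lit 5066549599666176) (tm Z c (nat_lit
  9007199288295424)))) (Nat.mul (nat_lit 7) (ad Z c (nat_lit 562949955518464) (ad Z c (nat_lit
  3377699733110784) (ad Z c (nat_lit 5629499555184640) (tm Z c (nat_lit 8444249332776960)))))))))
  (Nat.mul (nat_lit 2) (ad Z c (nat_lit 1688849866555392) (ad Z c (nat_lit 2251799822073856) (ad Z c
  (nat_lit 6755399466221568) (tm Z c (nat_lit 7318349421740032))))))) (Nat.mul (nat_lit 3) (ad Z c
  (nat_lit 1125899911036928) (ad Z c (nat_lit 2814749777592320) (ad Z c (nat_lit 6192449510703104)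
  (tm Z c (nat_lit 7881299377258496))))))))

/-- program -/
def b11_17P : Pg :=
  (.fold (nat_lit 0) (.at (nat_lit 0) (nat_lit 17) (.at (nat_lit 1125899911036928) (nat_lit 15)
  (.add (.at (nat_lit 3377699733110784) (nat_lit 11) (.at (nat_lit 4503599644147712) (nat_lit 9)
  (.at (nat_lit 5066549599666176) (nat_lit 8) (.at (nat_lit 6192449510703104) (nat_lit 6) (.at
  (nat_lit 8444249332776960) (nat_lit 2) (.at (nat_lit 9570149243813888) (nat_lit 0) (.mul (nat_lit
  8) (.fold (nat_lit 0) (.at (nat_lit 562949955518464) (nat_lit 16) (.add (.at (nat_lit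
  3940649688629248) (nat_lit 10) (.at (nat_lit 5629499555184640) (nat_lit 7) (.t (nat_lit
  9007199288295424) (nat_lit 1)))) (.mul (nat_lit 4) (.at (nat_lit 1688849866555392) (nat_lit 14)
  (.at (nat_lit 2814749777592320) (nat_lit 12) (.at (nat_lit 6755399466221568) (nat_lit 5) (.t
  (nat_lit 7881299377258496) (nat_lit 3)))))))))))))))) (.mul (nat_lit 4) (.at (nat_lit
  2251799822073856) (nat_lit 13) (.t (nat_lit 7318349421740032) (nat_lit 4))))))))

/-- compiled program -/
def b11_17 : Prog := fun Y Z c d =>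
  (fo Y d (nat_lit 0) (ad Z c (nat_lit 0) (ad Z c (nat_lit 1125899911036928) (Nat.add (ad Z c
  (nat_lit 3377699733110784) (ad Z c (nat_lit 4503599644147712) (ad Z c (nat_lit 5066549599666176)
  (ad Z c (nat_lit 6192449510703104) (ad Z c (nat_lit 8444249332776960) (ad Z c (nat_lit
  9570149243813888) (Nat.mul (nat_lit 8) (fo Y d (nat_lit 0) (ad Z c (nat_lit 562949955518464)
  (Nat.add (ad Z c (nat_lit 3940649688629248) (ad Z c (nat_lit 5629499555184640) (tm Z c (nat_lit
  9007199288295424)))) (Nat.mul (nat_lit 4) (ad Z c (nat_lit 1688849866555392) (ad Z c (nat_lit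
  2814749777592320) (ad Z c (nat_lit 6755399466221568) (tm Z c (nat_lit
  7881299377258496)))))))))))))))) (Nat.mul (nat_lit 4) (ad Z c (nat_lit 2251799822073856) (tm Z c
  (nat_lit 7318349421740032))))))))

/-- program -/
def b11_18P : Pg :=
  (.fold (nat_lit 0) (.at (nat_lit 0) (nat_lit 18) (.add (.at (nat_lit 10133099199332352) (nat_lit
  0) (.mul (nat_lit 2) (.t (nat_lit 5066549599666176) (nat_lit 9)))) (.mul (nat_lit 6) (.at (nat_lit
  1688849866555392) (nat_lit 15) (.at (nat_lit 3377699733110784) (nat_lit 12) (.at (nat_lit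
  6755399466221568) (nat_lit 6) (.t (nat_lit 8444249332776960) (nat_lit 3)))))))))

/-- compiled program -/
def b11_18 : Prog := fun Y Z c d =>
  (fo Y d (nat_lit 0) (ad Z c (nat_lit 0) (Nat.add (ad Z c (nat_lit 10133099199332352) (Nat.mul
  (nat_lit 2) (tm Z c (nat_lit 5066549599666176)))) (Nat.mul (nat_lit 6) (ad Z c (nat_lit
  1688849866555392) (ad Z c (nat_lit 3377699733110784) (ad Z c (nat_lit 6755399466221568) (tm Z c
  (nat_lit 8444249332776960)))))))))

/-- program -/
def b11_19P : Pg :=
  (.fold (nat_lit 0) (.at (nat_lit 0) (nat_lit 19) (.at (nat_lit 562949955518464) (nat_lit 18) (.add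
  (.at (nat_lit 10133099199332352) (nat_lit 1) (.at (nat_lit 10696049154850816) (nat_lit 0) (.mul
  (nat_lit 6) (.fold (nat_lit 0) (.at (nat_lit 1688849866555392) (nat_lit 16) (.at (nat_lit
  2251799822073856) (nat_lit 15) (.at (nat_lit 3377699733110784) (nat_lit 13) (.at (nat_lit
  3940649688629248) (nat_lit 12) (.at (nat_lit 6755399466221568) (nat_lit 7) (.at (nat_lit
  7318349421740032) (nat_lit 6) (.at (nat_lit 8444249332776960) (nat_lit 4) (.t (nat_lit
  9007199288295424) (nat_lit 3))))))))))))) (.mul (nat_lit 2) (.at (nat_lit 5066549599666176)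
  (nat_lit 10) (.t (nat_lit 5629499555184640) (nat_lit 9))))))))

/-- compiled program -/
def b11_19 : Prog := fun Y Z c d =>
  (fo Y d (nat_lit 0) (ad Z c (nat_lit 0) (ad Z c (nat_lit 562949955518464) (Nat.add (ad Z c
  (nat_lit 10133099199332352) (ad Z c (nat_lit 10696049154850816) (Nat.mul (nat_lit 6) (fo Y d
  (nat_lit 0) (ad Z c (nat_lit 1688849866555392) (ad Z c (nat_lit 2251799822073856) (ad Z c (nat_lit
  3377699733110784) (ad Z c (nat_lit 3940649688629248) (ad Z c (nat_lit 6755399466221568) (ad Z c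
  (nat_lit 7318349421740032) (ad Z c (nat_lit 8444249332776960) (tm Z c (nat_lit
  9007199288295424))))))))))))) (Nat.mul (nat_lit 2) (ad Z c (nat_lit 5066549599666176) (tm Z c
  (nat_lit 5629499555184640))))))))

/-- program -/
def b11_20P : Pg :=
  (.fold (nat_lit 0) (.at (nat_lit 0) (nat_lit 20) (.at (nat_lit 1125899911036928) (nat_lit 18)
  (.fold (nat_lit 0) (.add (.add (.add (.at (nat_lit 10133099199332352) (nat_lit 2) (.at (nat_lit
  11258999110369280) (nat_lit 0) (.mul (nat_lit 6) (.fold (nat_lit 0) (.at (nat_lit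
  1688849866555392) (nat_lit 17) (.at (nat_lit 2814749777592320) (nat_lit 15) (.at (nat_lit
  3377699733110784) (nat_lit 14) (.at (nat_lit 4503599644147712) (nat_lit 12) (.at (nat_lit
  6755399466221568) (nat_lit 8) (.at (nat_lit 7881299377258496) (nat_lit 6) (.at (nat_lit
  8444249332776960) (nat_lit 5) (.t (nat_lit 9570149243813888) (nat_lit 3))))))))))))) (.mul
  (nat_lit 4) (.t (nat_lit 5629499555184640) (nat_lit 10)))) (.mul (nat_lit 3) (.at (nat_lit
  2251799822073856) (nat_lit 16) (.at (nat_lit 3940649688629248) (nat_lit 13) (.at (nat_lit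
  7318349421740032) (nat_lit 7) (.t (nat_lit 9007199288295424) (nat_lit 4))))))) (.mul (nat_lit 2)
  (.at (nat_lit 562949955518464) (nat_lit 19) (.at (nat_lit 5066549599666176) (nat_lit 11) (.at
  (nat_lit 6192449510703104) (nat_lit 9) (.t (nat_lit 10696049154850816) (nat_lit 1)))))))))))

/-- compiled program -/
def b11_20 : Prog := fun Y Z c d =>
  (fo Y d (nat_lit 0) (ad Z c (nat_lit 0) (ad Z c (nat_lit 1125899911036928) (fo Y d (nat_lit 0)
  (Nat.add (Nat.add (Nat.add (ad Z c (nat_lit 10133099199332352) (ad Z c (nat_lit 11258999110369280)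
  (Nat.mul (nat_lit 6) (fo Y d (nat_lit 0) (ad Z c (nat_lit 1688849866555392) (ad Z c (nat_lit
  2814749777592320) (ad Z c (nat_lit 3377699733110784) (ad Z c (nat_lit 4503599644147712) (ad Z c
  (nat_lit 6755399466221568) (ad Z c (nat_lit 7881299377258496) (ad Z c (nat_lit 8444249332776960)
  (tm Z c (nat_lit 9570149243813888))))))))))))) (Nat.mul (nat_lit 4) (tm Z c (nat_lit
  5629499555184640)))) (Nat.mul (nat_lit 3) (ad Z c (nat_lit 2251799822073856) (ad Z c (nat_lit
  3940649688629248) (ad Z c (nat_lit 7318349421740032) (tm Z c (nat_lit 9007199288295424)))))))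
  (Nat.mul (nat_lit 2) (ad Z c (nat_lit 562949955518464) (ad Z c (nat_lit 5066549599666176) (ad Z c
  (nat_lit 6192449510703104) (tm Z c (nat_lit 10696049154850816)))))))))))

/-- program -/
def b11_21P : Pg :=
  (.fold (nat_lit 0) (.at (nat_lit 0) (nat_lit 21) (.add (.at (nat_lit 11821949065887744) (nat_lit
  0) (.mul (nat_lit 8) (.fold (nat_lit 0) (.add (.at (nat_lit 5066549599666176) (nat_lit 12) (.at
  (nat_lit 6755399466221568) (nat_lit 9) (.mul (nat_lit 3) (.at (nat_lit 5629499555184640) (nat_lit
  11) (.t (nat_lit 6192449510703104) (nat_lit 10)))))) (.mul (nat_lit 2) (.at (nat_lit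
  1688849866555392) (nat_lit 18) (.t (nat_lit 10133099199332352) (nat_lit 3)))))))) (.mul (nat_lit
  3) (.at (nat_lit 562949955518464) (nat_lit 20) (.at (nat_lit 1125899911036928) (nat_lit 19) (.at
  (nat_lit 3377699733110784) (nat_lit 15) (.at (nat_lit 8444249332776960) (nat_lit 6) (.at (nat_lit
  10696049154850816) (nat_lit 2) (.t (nat_lit 11258999110369280) (nat_lit 1)))))))))))

/-- compiled program -/
def b11_21 : Prog := fun Y Z c d =>
  (fo Y d (nat_lit 0) (ad Z c (nat_lit 0) (Nat.add (ad Z c (nat_lit 11821949065887744) (Nat.mul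
  (nat_lit 8) (fo Y d (nat_lit 0) (Nat.add (ad Z c (nat_lit 5066549599666176) (ad Z c (nat_lit
  6755399466221568) (Nat.mul (nat_lit 3) (ad Z c (nat_lit 5629499555184640) (tm Z c (nat_lit
  6192449510703104)))))) (Nat.mul (nat_lit 2) (ad Z c (nat_lit 1688849866555392) (tm Z c (nat_lit
  10133099199332352)))))))) (Nat.mul (nat_lit 3) (ad Z c (nat_lit 562949955518464) (ad Z c (nat_lit
  1125899911036928) (ad Z c (nat_lit 3377699733110784) (ad Z c (nat_lit 8444249332776960) (ad Z c
  (nat_lit 10696049154850816) (tm Z c (nat_lit 11258999110369280)))))))))))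

/-- program -/
def b11_22P : Pg :=
  (.fold (nat_lit 0) (.at (nat_lit 0) (nat_lit 22) (.at (nat_lit 1688849866555392) (nat_lit 19) (.at
  (nat_lit 10696049154850816) (nat_lit 3) (.fold (nat_lit 0) (.add (.add (.at (nat_lit
  12384899021406208) (nat_lit 0) (.mul (nat_lit 8) (.fold (nat_lit 0) (.add (.add (.at (nat_lit
  5066549599666176) (nat_lit 13) (.at (nat_lit 7318349421740032) (nat_lit 9) (.mul (nat_lit 4) (.at
  (nat_lit 5629499555184640) (nat_lit 12) (.t (nat_lit 6755399466221568) (nat_lit 10)))))) (.mul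
  (nat_lit 2) (.at (nat_lit 2251799822073856) (nat_lit 18) (.t (nat_lit 10133099199332352) (nat_lit
  4))))) (.mul (nat_lit 3) (.at (nat_lit 1125899911036928) (nat_lit 20) (.t (nat_lit
  11258999110369280) (nat_lit 2)))))))) (.mul (nat_lit 3) (.at (nat_lit 3377699733110784) (nat_lit
  16) (.at (nat_lit 3940649688629248) (nat_lit 15) (.at (nat_lit 6192449510703104) (nat_lit 11) (.at
  (nat_lit 8444249332776960) (nat_lit 7) (.t (nat_lit 9007199288295424) (nat_lit 6)))))))) (.mul
  (nat_lit 4) (.at (nat_lit 562949955518464) (nat_lit 21) (.t (nat_lit 11821949065887744) (nat_lit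
  1))))))))))

/-- compiled program -/
def b11_22 : Prog := fun Y Z c d =>
  (fo Y d (nat_lit 0) (ad Z c (nat_lit 0) (ad Z c (nat_lit 1688849866555392) (ad Z c (nat_lit
  10696049154850816) (fo Y d (nat_lit 0) (Nat.add (Nat.add (ad Z c (nat_lit 12384899021406208)
  (Nat.mul (nat_lit 8) (fo Y d (nat_lit 0) (Nat.add (Nat.add (ad Z c (nat_lit 5066549599666176) (ad
  Z c (nat_lit 7318349421740032) (Nat.mul (nat_lit 4) (ad Z c (nat_lit 5629499555184640) (tm Z c
  (nat_lit 6755399466221568)))))) (Nat.mul (nat_lit 2) (ad Z c (nat_lit 2251799822073856) (tm Z c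
  (nat_lit 10133099199332352))))) (Nat.mul (nat_lit 3) (ad Z c (nat_lit 1125899911036928) (tm Z c
  (nat_lit 11258999110369280)))))))) (Nat.mul (nat_lit 3) (ad Z c (nat_lit 3377699733110784) (ad Z c
  (nat_lit 3940649688629248) (ad Z c (nat_lit 6192449510703104) (ad Z c (nat_lit 8444249332776960)
  (tm Z c (nat_lit 9007199288295424)))))))) (Nat.mul (nat_lit 4) (ad Z c (nat_lit 562949955518464)
  (tm Z c (nat_lit 11821949065887744))))))))))

/-- program -/
def b11_23P : Pg :=
  (.fold (nat_lit 0) (.at (nat_lit 0) (nat_lit 23) (.at (nat_lit 1125899911036928) (nat_lit 21)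
  (.add (.add (.at (nat_lit 11821949065887744) (nat_lit 2) (.at (nat_lit 12947848976924672) (nat_lit
  0) (.mul (nat_lit 8) (.fold (nat_lit 0) (.add (.add (.at (nat_lit 2251799822073856) (nat_lit 19)
  (.add (.at (nat_lit 5066549599666176) (nat_lit 14) (.at (nat_lit 6192449510703104) (nat_lit 12)
  (.at (nat_lit 6755399466221568) (nat_lit 11) (.at (nat_lit 7881299377258496) (nat_lit 9) (.t
  (nat_lit 10696049154850816) (nat_lit 4)))))) (.mul (nat_lit 3) (.at (nat_lit 3940649688629248)
  (nat_lit 16) (.t (nat_lit 9007199288295424) (nat_lit 7)))))) (.mul (nat_lit 2) (.at (nat_lit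
  1688849866555392) (nat_lit 20) (.at (nat_lit 2814749777592320) (nat_lit 18) (.at (nat_lit
  10133099199332352) (nat_lit 5) (.t (nat_lit 11258999110369280) (nat_lit 3))))))) (.mul (nat_lit 4)
  (.at (nat_lit 562949955518464) (nat_lit 22) (.t (nat_lit 12384899021406208) (nat_lit 1)))))))))
  (.mul (nat_lit 4) (.at (nat_lit 5629499555184640) (nat_lit 13) (.t (nat_lit 7318349421740032)
  (nat_lit 10))))) (.mul (nat_lit 3) (.at (nat_lit 3377699733110784) (nat_lit 17) (.at (nat_lit
  4503599644147712) (nat_lit 15) (.at (nat_lit 8444249332776960) (nat_lit 8) (.t (nat_lit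
  9570149243813888) (nat_lit 6))))))))))

/-- compiled program -/
def b11_23 : Prog := fun Y Z c d =>
  (fo Y d (nat_lit 0) (ad Z c (nat_lit 0) (ad Z c (nat_lit 1125899911036928) (Nat.add (Nat.add (ad Z
  c (nat_lit 11821949065887744) (ad Z c (nat_lit 12947848976924672) (Nat.mul (nat_lit 8) (fo Y d
  (nat_lit 0) (Nat.add (Nat.add (ad Z c (nat_lit 2251799822073856) (Nat.add (ad Z c (nat_lit
  5066549599666176) (ad Z c (nat_lit 6192449510703104) (ad Z c (nat_lit 6755399466221568) (ad Z c
  (nat_lit 7881299377258496) (tm Z c (nat_lit 10696049154850816)))))) (Nat.mul (nat_lit 3) (ad Z c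
  (nat_lit 3940649688629248) (tm Z c (nat_lit 9007199288295424)))))) (Nat.mul (nat_lit 2) (ad Z c
  (nat_lit 1688849866555392) (ad Z c (nat_lit 2814749777592320) (ad Z c (nat_lit 10133099199332352)
  (tm Z c (nat_lit 11258999110369280))))))) (Nat.mul (nat_lit 4) (ad Z c (nat_lit 562949955518464)
  (tm Z c (nat_lit 12384899021406208))))))))) (Nat.mul (nat_lit 4) (ad Z c (nat_lit
  5629499555184640) (tm Z c (nat_lit 7318349421740032))))) (Nat.mul (nat_lit 3) (ad Z c (nat_lit
  3377699733110784) (ad Z c (nat_lit 4503599644147712) (ad Z c (nat_lit 8444249332776960) (tm Z c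
  (nat_lit 9570149243813888))))))))))

/-- program -/
def b11_24P : Pg :=
  (.fold (nat_lit 0) (.at (nat_lit 0) (nat_lit 24) (.at (nat_lit 3377699733110784) (nat_lit 18)
  (.add (.add (.at (nat_lit 10133099199332352) (nat_lit 6) (.at (nat_lit 13510798932443136) (nat_lit
  0) (.mul (nat_lit 8) (.fold (nat_lit 0) (.add (.at (nat_lit 1688849866555392) (nat_lit 21) (.at
  (nat_lit 11821949065887744) (nat_lit 3) (.mul (nat_lit 2) (.t (nat_lit 6755399466221568) (nat_lit
  12))))) (.mul (nat_lit 3) (.at (nat_lit 562949955518464) (nat_lit 23) (.at (nat_lit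
  1125899911036928) (nat_lit 22) (.at (nat_lit 2251799822073856) (nat_lit 20) (.at (nat_lit
  2814749777592320) (nat_lit 19) (.at (nat_lit 10696049154850816) (nat_lit 5) (.at (nat_lit
  11258999110369280) (nat_lit 4) (.at (nat_lit 12384899021406208) (nat_lit 2) (.t (nat_lit
  12947848976924672) (nat_lit 1))))))))))))))) (.mul (nat_lit 3) (.at (nat_lit 5629499555184640)
  (nat_lit 14) (.at (nat_lit 6192449510703104) (nat_lit 13) (.at (nat_lit 7318349421740032) (nat_lit
  11) (.t (nat_lit 7881299377258496) (nat_lit 10))))))) (.mul (nat_lit 2) (.at (nat_lit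
  5066549599666176) (nat_lit 15) (.t (nat_lit 8444249332776960) (nat_lit 9))))))))

/-- compiled program -/
def b11_24 : Prog := fun Y Z c d =>
  (fo Y d (nat_lit 0) (ad Z c (nat_lit 0) (ad Z c (nat_lit 3377699733110784) (Nat.add (Nat.add (ad Z
  c (nat_lit 10133099199332352) (ad Z c (nat_lit 13510798932443136) (Nat.mul (nat_lit 8) (fo Y d
  (nat_lit 0) (Nat.add (ad Z c (nat_lit 1688849866555392) (ad Z c (nat_lit 11821949065887744)
  (Nat.mul (nat_lit 2) (tm Z c (nat_lit 6755399466221568))))) (Nat.mul (nat_lit 3) (ad Z c (nat_lit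
  562949955518464) (ad Z c (nat_lit 1125899911036928) (ad Z c (nat_lit 2251799822073856) (ad Z c
  (nat_lit 2814749777592320) (ad Z c (nat_lit 10696049154850816) (ad Z c (nat_lit 11258999110369280)
  (ad Z c (nat_lit 12384899021406208) (tm Z c (nat_lit 12947848976924672))))))))))))))) (Nat.mul
  (nat_lit 3) (ad Z c (nat_lit 5629499555184640) (ad Z c (nat_lit 6192449510703104) (ad Z c (nat_lit
  7318349421740032) (tm Z c (nat_lit 7881299377258496))))))) (Nat.mul (nat_lit 2) (ad Z c (nat_lit
  5066549599666176) (tm Z c (nat_lit 8444249332776960))))))))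

/-- program -/
def b11_25P : Pg :=
  (.fold (nat_lit 0) (.at (nat_lit 0) (nat_lit 25) (.at (nat_lit 3940649688629248) (nat_lit 18)
  (.add (.at (nat_lit 6755399466221568) (nat_lit 13) (.at (nat_lit 7318349421740032) (nat_lit 12)
  (.at (nat_lit 10133099199332352) (nat_lit 7) (.at (nat_lit 14073748887961600) (nat_lit 0) (.fold
  (nat_lit 0) (.add (.add (.mul (nat_lit 8) (.fold (nat_lit 0) (.add (.mul (nat_lit 4) (.at (nat_lit
  1688849866555392) (nat_lit 22) (.at (nat_lit 2251799822073856) (nat_lit 21) (.at (nat_lit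
  5629499555184640) (nat_lit 15) (.at (nat_lit 8444249332776960) (nat_lit 10) (.at (nat_lit
  11821949065887744) (nat_lit 4) (.t (nat_lit 12384899021406208) (nat_lit 3)))))))) (.mul (nat_lit
  2) (.at (nat_lit 562949955518464) (nat_lit 24) (.at (nat_lit 3377699733110784) (nat_lit 19) (.at
  (nat_lit 10696049154850816) (nat_lit 6) (.t (nat_lit 13510798932443136) (nat_lit 1))))))))) (.mul
  (nat_lit 6) (.at (nat_lit 6192449510703104) (nat_lit 14) (.t (nat_lit 7881299377258496) (nat_lit
  11))))) (.mul (nat_lit 3) (.at (nat_lit 1125899911036928) (nat_lit 23) (.at (nat_lit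
  2814749777592320) (nat_lit 20) (.at (nat_lit 11258999110369280) (nat_lit 5) (.t (nat_lit
  12947848976924672) (nat_lit 2)))))))))))) (.mul (nat_lit 2) (.at (nat_lit 5066549599666176)
  (nat_lit 16) (.t (nat_lit 9007199288295424) (nat_lit 9))))))))

/-- compiled program -/
def b11_25 : Prog := fun Y Z c d =>
  (fo Y d (nat_lit 0) (ad Z c (nat_lit 0) (ad Z c (nat_lit 3940649688629248) (Nat.add (ad Z c
  (nat_lit 6755399466221568) (ad Z c (nat_lit 7318349421740032) (ad Z c (nat_lit 10133099199332352)
  (ad Z c (nat_lit 14073748887961600) (fo Y d (nat_lit 0) (Nat.add (Nat.add (Nat.mul (nat_lit 8) (fo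
  Y d (nat_lit 0) (Nat.add (Nat.mul (nat_lit 4) (ad Z c (nat_lit 1688849866555392) (ad Z c (nat_lit
  2251799822073856) (ad Z c (nat_lit 5629499555184640) (ad Z c (nat_lit 8444249332776960) (ad Z c
  (nat_lit 11821949065887744) (tm Z c (nat_lit 12384899021406208)))))))) (Nat.mul (nat_lit 2) (ad Z
  c (nat_lit 562949955518464) (ad Z c (nat_lit 3377699733110784) (ad Z c (nat_lit 10696049154850816)
  (tm Z c (nat_lit 13510798932443136))))))))) (Nat.mul (nat_lit 6) (ad Z c (nat_lit
  6192449510703104) (tm Z c (nat_lit 7881299377258496))))) (Nat.mul (nat_lit 3) (ad Z c (nat_lit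
  1125899911036928) (ad Z c (nat_lit 2814749777592320) (ad Z c (nat_lit 11258999110369280) (tm Z c
  (nat_lit 12947848976924672)))))))))))) (Nat.mul (nat_lit 2) (ad Z c (nat_lit 5066549599666176) (tm
  Z c (nat_lit 9007199288295424))))))))

/-- program -/
def b11_26P : Pg :=
  (.fold (nat_lit 0) (.at (nat_lit 0) (nat_lit 26) (.at (nat_lit 1125899911036928) (nat_lit 24) (.at
  (nat_lit 2251799822073856) (nat_lit 22) (.at (nat_lit 3377699733110784) (nat_lit 20) (.at (nat_lit
  4503599644147712) (nat_lit 18) (.add (.at (nat_lit 10133099199332352) (nat_lit 8) (.at (nat_lit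
  11258999110369280) (nat_lit 6) (.at (nat_lit 12384899021406208) (nat_lit 4) (.at (nat_lit
  13510798932443136) (nat_lit 2) (.at (nat_lit 14636698843480064) (nat_lit 0) (.mul (nat_lit 8)
  (.fold (nat_lit 0) (.at (nat_lit 562949955518464) (nat_lit 25) (.at (nat_lit 1688849866555392)
  (nat_lit 23) (.at (nat_lit 2814749777592320) (nat_lit 21) (.at (nat_lit 3940649688629248) (nat_lit
  19) (.add (.at (nat_lit 10696049154850816) (nat_lit 7) (.at (nat_lit 11821949065887744) (nat_lit
  5) (.at (nat_lit 12947848976924672) (nat_lit 3) (.t (nat_lit 14073748887961600) (nat_lit 1)))))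
  (.mul (nat_lit 2) (.at (nat_lit 5629499555184640) (nat_lit 16) (.at (nat_lit 6755399466221568)
  (nat_lit 14) (.at (nat_lit 7881299377258496) (nat_lit 12) (.t (nat_lit 9007199288295424) (nat_lit
  10)))))))))))))))))) (.mul (nat_lit 2) (.at (nat_lit 5066549599666176) (nat_lit 17) (.at (nat_lit
  6192449510703104) (nat_lit 15) (.at (nat_lit 7318349421740032) (nat_lit 13) (.at (nat_lit
  8444249332776960) (nat_lit 11) (.t (nat_lit 9570149243813888) (nat_lit 9))))))))))))))

/-- compiled program -/
def b11_26 : Prog := fun Y Z c d =>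
  (fo Y d (nat_lit 0) (ad Z c (nat_lit 0) (ad Z c (nat_lit 1125899911036928) (ad Z c (nat_lit
  2251799822073856) (ad Z c (nat_lit 3377699733110784) (ad Z c (nat_lit 4503599644147712) (Nat.add
  (ad Z c (nat_lit 10133099199332352) (ad Z c (nat_lit 11258999110369280) (ad Z c (nat_lit
  12384899021406208) (ad Z c (nat_lit 13510798932443136) (ad Z c (nat_lit 14636698843480064)
  (Nat.mul (nat_lit 8) (fo Y d (nat_lit 0) (ad Z c (nat_lit 562949955518464) (ad Z c (nat_lit
  1688849866555392) (ad Z c (nat_lit 2814749777592320) (ad Z c (nat_lit 3940649688629248) (Nat.add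
  (ad Z c (nat_lit 10696049154850816) (ad Z c (nat_lit 11821949065887744) (ad Z c (nat_lit
  12947848976924672) (tm Z c (nat_lit 14073748887961600))))) (Nat.mul (nat_lit 2) (ad Z c (nat_lit
  5629499555184640) (ad Z c (nat_lit 6755399466221568) (ad Z c (nat_lit 7881299377258496) (tm Z c
  (nat_lit 9007199288295424)))))))))))))))))) (Nat.mul (nat_lit 2) (ad Z c (nat_lit
  5066549599666176) (ad Z c (nat_lit 6192449510703104) (ad Z c (nat_lit 7318349421740032) (ad Z c
  (nat_lit 8444249332776960) (tm Z c (nat_lit 9570149243813888))))))))))))))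

/-- program -/
def b11_27P : Pg :=
  (.fold (nat_lit 0) (.at (nat_lit 0) (nat_lit 27) (.at (nat_lit 15199648798998528) (nat_lit 0)
  (.mul (nat_lit 3) (.at (nat_lit 5066549599666176) (nat_lit 18) (.t (nat_lit 10133099199332352)
  (nat_lit 9)))))))

/-- compiled program -/
def b11_27 : Prog := fun Y Z c d =>
  (fo Y d (nat_lit 0) (ad Z c (nat_lit 0) (ad Z c (nat_lit 15199648798998528) (Nat.mul (nat_lit 3)
  (ad Z c (nat_lit 5066549599666176) (tm Z c (nat_lit 10133099199332352)))))))

/-- program -/
def b11_28P : Pg :=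
  (.fold (nat_lit 0) (.at (nat_lit 0) (nat_lit 28) (.at (nat_lit 562949955518464) (nat_lit 27) (.add
  (.at (nat_lit 15199648798998528) (nat_lit 1) (.t (nat_lit 15762598754516992) (nat_lit 0))) (.mul
  (nat_lit 3) (.at (nat_lit 5066549599666176) (nat_lit 19) (.at (nat_lit 5629499555184640) (nat_lit
  18) (.at (nat_lit 10133099199332352) (nat_lit 10) (.t (nat_lit 10696049154850816) (nat_lit
  9))))))))))

/-- compiled program -/
def b11_28 : Prog := fun Y Z c d =>
  (fo Y d (nat_lit 0) (ad Z c (nat_lit 0) (ad Z c (nat_lit 562949955518464) (Nat.add (ad Z c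
  (nat_lit 15199648798998528) (tm Z c (nat_lit 15762598754516992))) (Nat.mul (nat_lit 3) (ad Z c
  (nat_lit 5066549599666176) (ad Z c (nat_lit 5629499555184640) (ad Z c (nat_lit 10133099199332352)
  (tm Z c (nat_lit 10696049154850816))))))))))

/-- program -/
def b11_29P : Pg :=
  (.fold (nat_lit 0) (.at (nat_lit 0) (nat_lit 29) (.add (.at (nat_lit 1125899911036928) (nat_lit
  27) (.add (.add (.at (nat_lit 15199648798998528) (nat_lit 2) (.t (nat_lit 16325548710035456)
  (nat_lit 0))) (.mul (nat_lit 6) (.at (nat_lit 5629499555184640) (nat_lit 19) (.t (nat_lit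
  10696049154850816) (nat_lit 10))))) (.mul (nat_lit 3) (.at (nat_lit 5066549599666176) (nat_lit 20)
  (.at (nat_lit 6192449510703104) (nat_lit 18) (.at (nat_lit 10133099199332352) (nat_lit 11) (.t
  (nat_lit 11258999110369280) (nat_lit 9)))))))) (.mul (nat_lit 2) (.at (nat_lit 562949955518464)
  (nat_lit 28) (.t (nat_lit 15762598754516992) (nat_lit 1)))))))

/-- compiled program -/
def b11_29 : Prog := fun Y Z c d =>
  (fo Y d (nat_lit 0) (ad Z c (nat_lit 0) (Nat.add (ad Z c (nat_lit 1125899911036928) (Nat.add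
  (Nat.add (ad Z c (nat_lit 15199648798998528) (tm Z c (nat_lit 16325548710035456))) (Nat.mul
  (nat_lit 6) (ad Z c (nat_lit 5629499555184640) (tm Z c (nat_lit 10696049154850816))))) (Nat.mul
  (nat_lit 3) (ad Z c (nat_lit 5066549599666176) (ad Z c (nat_lit 6192449510703104) (ad Z c (nat_lit
  10133099199332352) (tm Z c (nat_lit 11258999110369280)))))))) (Nat.mul (nat_lit 2) (ad Z c
  (nat_lit 562949955518464) (tm Z c (nat_lit 15762598754516992)))))))

/-- program -/
def b11_30P : Pg :=
  (.fold (nat_lit 0) (.at (nat_lit 0) (nat_lit 30) (.add (.at (nat_lit 1688849866555392) (nat_lit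
  27) (.at (nat_lit 15199648798998528) (nat_lit 3) (.t (nat_lit 16888498665553920) (nat_lit 0))))
  (.mul (nat_lit 3) (.at (nat_lit 562949955518464) (nat_lit 29) (.at (nat_lit 1125899911036928)
  (nat_lit 28) (.at (nat_lit 5066549599666176) (nat_lit 21) (.at (nat_lit 6755399466221568) (nat_lit
  18) (.at (nat_lit 10133099199332352) (nat_lit 12) (.at (nat_lit 11821949065887744) (nat_lit 9)
  (.at (nat_lit 15762598754516992) (nat_lit 2) (.t (nat_lit 16325548710035456) (nat_lit
  1)))))))))))))

/-- compiled program -/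
def b11_30 : Prog := fun Y Z c d =>
  (fo Y d (nat_lit 0) (ad Z c (nat_lit 0) (Nat.add (ad Z c (nat_lit 1688849866555392) (ad Z c
  (nat_lit 15199648798998528) (tm Z c (nat_lit 16888498665553920)))) (Nat.mul (nat_lit 3) (ad Z c
  (nat_lit 562949955518464) (ad Z c (nat_lit 1125899911036928) (ad Z c (nat_lit 5066549599666176)
  (ad Z c (nat_lit 6755399466221568) (ad Z c (nat_lit 10133099199332352) (ad Z c (nat_lit
  11821949065887744) (ad Z c (nat_lit 15762598754516992) (tm Z c (nat_lit
  16325548710035456)))))))))))))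

/-- program -/
def b11_31P : Pg :=
  (.fold (nat_lit 0) (.add (.add (.fold (nat_lit 0) (.at (nat_lit 0) (nat_lit 31) (.at (nat_lit
  2251799822073856) (nat_lit 27) (.add (.at (nat_lit 15199648798998528) (nat_lit 4) (.t (nat_lit
  17451448621072384) (nat_lit 0))) (.mul (nat_lit 3) (.at (nat_lit 5066549599666176) (nat_lit 22)
  (.at (nat_lit 5629499555184640) (nat_lit 21) (.at (nat_lit 6755399466221568) (nat_lit 19) (.at
  (nat_lit 7318349421740032) (nat_lit 18) (.at (nat_lit 10133099199332352) (nat_lit 13) (.at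
  (nat_lit 10696049154850816) (nat_lit 12) (.at (nat_lit 11821949065887744) (nat_lit 10) (.t
  (nat_lit 12384899021406208) (nat_lit 9)))))))))))))) (.mul (nat_lit 6) (.at (nat_lit
  1125899911036928) (nat_lit 29) (.t (nat_lit 16325548710035456) (nat_lit 2))))) (.mul (nat_lit 4)
  (.at (nat_lit 562949955518464) (nat_lit 30) (.at (nat_lit 1688849866555392) (nat_lit 28) (.at
  (nat_lit 15762598754516992) (nat_lit 3) (.t (nat_lit 16888498665553920) (nat_lit 1))))))))

/-- compiled program -/
def b11_31 : Prog := fun Y Z c d =>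
  (fo Y d (nat_lit 0) (Nat.add (Nat.add (fo Y d (nat_lit 0) (ad Z c (nat_lit 0) (ad Z c (nat_lit
  2251799822073856) (Nat.add (ad Z c (nat_lit 15199648798998528) (tm Z c (nat_lit
  17451448621072384))) (Nat.mul (nat_lit 3) (ad Z c (nat_lit 5066549599666176) (ad Z c (nat_lit
  5629499555184640) (ad Z c (nat_lit 6755399466221568) (ad Z c (nat_lit 7318349421740032) (ad Z c
  (nat_lit 10133099199332352) (ad Z c (nat_lit 10696049154850816) (ad Z c (nat_lit
  11821949065887744) (tm Z c (nat_lit 12384899021406208)))))))))))))) (Nat.mul (nat_lit 6) (ad Z c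
  (nat_lit 1125899911036928) (tm Z c (nat_lit 16325548710035456))))) (Nat.mul (nat_lit 4) (ad Z c
  (nat_lit 562949955518464) (ad Z c (nat_lit 1688849866555392) (ad Z c (nat_lit 15762598754516992)
  (tm Z c (nat_lit 16888498665553920))))))))

/-- program -/
def b11_32P : Pg :=
  (.fold (nat_lit 0) (.add (.fold (nat_lit 0) (.add (.fold (nat_lit 0) (.at (nat_lit 0) (nat_lit 32)
  (.at (nat_lit 1125899911036928) (nat_lit 30) (.at (nat_lit 1688849866555392) (nat_lit 29) (.at
  (nat_lit 2814749777592320) (nat_lit 27) (.add (.at (nat_lit 15199648798998528) (nat_lit 5) (.at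
  (nat_lit 16325548710035456) (nat_lit 3) (.at (nat_lit 16888498665553920) (nat_lit 2) (.t (nat_lit
  18014398576590848) (nat_lit 0))))) (.mul (nat_lit 6) (.at (nat_lit 5629499555184640) (nat_lit 22)
  (.at (nat_lit 7318349421740032) (nat_lit 19) (.at (nat_lit 10696049154850816) (nat_lit 13) (.t
  (nat_lit 12384899021406208) (nat_lit 10)))))))))))) (.mul (nat_lit 3) (.at (nat_lit
  5066549599666176) (nat_lit 23) (.at (nat_lit 6192449510703104) (nat_lit 21) (.at (nat_lit
  6755399466221568) (nat_lit 20) (.at (nat_lit 7881299377258496) (nat_lit 18) (.at (nat_lit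
  10133099199332352) (nat_lit 14) (.at (nat_lit 11258999110369280) (nat_lit 12) (.at (nat_lit
  11821949065887744) (nat_lit 11) (.t (nat_lit 12947848976924672) (nat_lit 9)))))))))))) (.mul
  (nat_lit 5) (.at (nat_lit 562949955518464) (nat_lit 31) (.at (nat_lit 2251799822073856) (nat_lit
  28) (.at (nat_lit 15762598754516992) (nat_lit 4) (.t (nat_lit 17451448621072384) (nat_lit
  1))))))))

/-- compiled program -/
def b11_32 : Prog := fun Y Z c d =>
  (fo Y d (nat_lit 0) (Nat.add (fo Y d (nat_lit 0) (Nat.add (fo Y d (nat_lit 0) (ad Z c (nat_lit 0)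
  (ad Z c (nat_lit 1125899911036928) (ad Z c (nat_lit 1688849866555392) (ad Z c (nat_lit
  2814749777592320) (Nat.add (ad Z c (nat_lit 15199648798998528) (ad Z c (nat_lit 16325548710035456)
  (ad Z c (nat_lit 16888498665553920) (tm Z c (nat_lit 18014398576590848))))) (Nat.mul (nat_lit 6)
  (ad Z c (nat_lit 5629499555184640) (ad Z c (nat_lit 7318349421740032) (ad Z c (nat_lit
  10696049154850816) (tm Z c (nat_lit 12384899021406208)))))))))))) (Nat.mul (nat_lit 3) (ad Z c
  (nat_lit 5066549599666176) (ad Z c (nat_lit 6192449510703104) (ad Z c (nat_lit 6755399466221568)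
  (ad Z c (nat_lit 7881299377258496) (ad Z c (nat_lit 10133099199332352) (ad Z c (nat_lit
  11258999110369280) (ad Z c (nat_lit 11821949065887744) (tm Z c (nat_lit
  12947848976924672)))))))))))) (Nat.mul (nat_lit 5) (ad Z c (nat_lit 562949955518464) (ad Z c
  (nat_lit 2251799822073856) (ad Z c (nat_lit 15762598754516992) (tm Z c (nat_lit
  17451448621072384))))))))

/-- program -/
def b11_33P : Pg :=
  (.fold (nat_lit 0) (.at (nat_lit 0) (nat_lit 33) (.add (.at (nat_lit 3377699733110784) (nat_lit
  27) (.add (.at (nat_lit 15199648798998528) (nat_lit 6) (.at (nat_lit 18577348532109312) (nat_lit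
  0) (.mul (nat_lit 6) (.fold (nat_lit 0) (.at (nat_lit 562949955518464) (nat_lit 32) (.at (nat_lit
  1125899911036928) (nat_lit 31) (.at (nat_lit 2251799822073856) (nat_lit 29) (.at (nat_lit
  2814749777592320) (nat_lit 28) (.at (nat_lit 6755399466221568) (nat_lit 21) (.at (nat_lit
  11821949065887744) (nat_lit 12) (.at (nat_lit 15762598754516992) (nat_lit 5) (.at (nat_lit
  16325548710035456) (nat_lit 4) (.at (nat_lit 17451448621072384) (nat_lit 2) (.t (nat_lit
  18014398576590848) (nat_lit 1))))))))))))))) (.mul (nat_lit 3) (.at (nat_lit 5066549599666176)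
  (nat_lit 24) (.at (nat_lit 8444249332776960) (nat_lit 18) (.at (nat_lit 10133099199332352)
  (nat_lit 15) (.t (nat_lit 13510798932443136) (nat_lit 9)))))))) (.mul (nat_lit 2) (.at (nat_lit
  1688849866555392) (nat_lit 30) (.t (nat_lit 16888498665553920) (nat_lit 3)))))))

/-- compiled program -/
def b11_33 : Prog := fun Y Z c d =>
  (fo Y d (nat_lit 0) (ad Z c (nat_lit 0) (Nat.add (ad Z c (nat_lit 3377699733110784) (Nat.add (ad Z
  c (nat_lit 15199648798998528) (ad Z c (nat_lit 18577348532109312) (Nat.mul (nat_lit 6) (fo Y d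
  (nat_lit 0) (ad Z c (nat_lit 562949955518464) (ad Z c (nat_lit 1125899911036928) (ad Z c (nat_lit
  2251799822073856) (ad Z c (nat_lit 2814749777592320) (ad Z c (nat_lit 6755399466221568) (ad Z c
  (nat_lit 11821949065887744) (ad Z c (nat_lit 15762598754516992) (ad Z c (nat_lit
  16325548710035456) (ad Z c (nat_lit 17451448621072384) (tm Z c (nat_lit
  18014398576590848))))))))))))))) (Nat.mul (nat_lit 3) (ad Z c (nat_lit 5066549599666176) (ad Z c
  (nat_lit 8444249332776960) (ad Z c (nat_lit 10133099199332352) (tm Z c (nat_lit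
  13510798932443136)))))))) (Nat.mul (nat_lit 2) (ad Z c (nat_lit 1688849866555392) (tm Z c (nat_lit
  16888498665553920)))))))

/-- program -/
def b11_34P : Pg :=
  (.fold (nat_lit 0) (.at (nat_lit 0) (nat_lit 34) (.at (nat_lit 3940649688629248) (nat_lit 27) (.at
  (nat_lit 15199648798998528) (nat_lit 7) (.at (nat_lit 19140298487627776) (nat_lit 0) (.add (.mul
  (nat_lit 3) (.fold (nat_lit 0) (.at (nat_lit 1125899911036928) (nat_lit 32) (.at (nat_lit
  2814749777592320) (nat_lit 29) (.at (nat_lit 5066549599666176) (nat_lit 25) (.at (nat_lit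
  5629499555184640) (nat_lit 24) (.at (nat_lit 8444249332776960) (nat_lit 19) (.at (nat_lit
  9007199288295424) (nat_lit 18) (.at (nat_lit 10133099199332352) (nat_lit 16) (.at (nat_lit
  10696049154850816) (nat_lit 15) (.at (nat_lit 13510798932443136) (nat_lit 10) (.at (nat_lit
  14073748887961600) (nat_lit 9) (.at (nat_lit 16325548710035456) (nat_lit 5) (.t (nat_lit
  18014398576590848) (nat_lit 2))))))))))))))) (.mul (nat_lit 8) (.fold (nat_lit 0) (.add (.at
  (nat_lit 1688849866555392) (nat_lit 31) (.at (nat_lit 2251799822073856) (nat_lit 30) (.add (.at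
  (nat_lit 16888498665553920) (nat_lit 4) (.t (nat_lit 17451448621072384) (nat_lit 3))) (.mul
  (nat_lit 3) (.at (nat_lit 6755399466221568) (nat_lit 22) (.at (nat_lit 7318349421740032) (nat_lit
  21) (.at (nat_lit 11821949065887744) (nat_lit 13) (.t (nat_lit 12384899021406208) (nat_lit
  12))))))))) (.mul (nat_lit 2) (.at (nat_lit 562949955518464) (nat_lit 33) (.at (nat_lit
  3377699733110784) (nat_lit 28) (.at (nat_lit 15762598754516992) (nat_lit 6) (.t (nat_lit
  18577348532109312) (nat_lit 1)))))))))))))))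

/-- compiled program -/
def b11_34 : Prog := fun Y Z c d =>
  (fo Y d (nat_lit 0) (ad Z c (nat_lit 0) (ad Z c (nat_lit 3940649688629248) (ad Z c (nat_lit
  15199648798998528) (ad Z c (nat_lit 19140298487627776) (Nat.add (Nat.mul (nat_lit 3) (fo Y d
  (nat_lit 0) (ad Z c (nat_lit 1125899911036928) (ad Z c (nat_lit 2814749777592320) (ad Z c (nat_lit
  5066549599666176) (ad Z c (nat_lit 5629499555184640) (ad Z c (nat_lit 8444249332776960) (ad Z c
  (nat_lit 9007199288295424) (ad Z c (nat_lit 10133099199332352) (ad Z c (nat_lit 10696049154850816)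
  (ad Z c (nat_lit 13510798932443136) (ad Z c (nat_lit 14073748887961600) (ad Z c (nat_lit
  16325548710035456) (tm Z c (nat_lit 18014398576590848))))))))))))))) (Nat.mul (nat_lit 8) (fo Y d
  (nat_lit 0) (Nat.add (ad Z c (nat_lit 1688849866555392) (ad Z c (nat_lit 2251799822073856)
  (Nat.add (ad Z c (nat_lit 16888498665553920) (tm Z c (nat_lit 17451448621072384))) (Nat.mul
  (nat_lit 3) (ad Z c (nat_lit 6755399466221568) (ad Z c (nat_lit 7318349421740032) (ad Z c (nat_lit
  11821949065887744) (tm Z c (nat_lit 12384899021406208))))))))) (Nat.mul (nat_lit 2) (ad Z c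
  (nat_lit 562949955518464) (ad Z c (nat_lit 3377699733110784) (ad Z c (nat_lit 15762598754516992)
  (tm Z c (nat_lit 18577348532109312)))))))))))))))

/-- program -/
def b11_35P : Pg :=
  (.fold (nat_lit 0) (.at (nat_lit 0) (nat_lit 35) (.at (nat_lit 1125899911036928) (nat_lit 33)
  (.add (.at (nat_lit 3377699733110784) (nat_lit 29) (.at (nat_lit 4503599644147712) (nat_lit 27)
  (.at (nat_lit 15199648798998528) (nat_lit 8) (.at (nat_lit 16325548710035456) (nat_lit 6) (.add
  (.fold (nat_lit 0) (.add (.at (nat_lit 18577348532109312) (nat_lit 2) (.t (nat_lit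
  19703248443146240) (nat_lit 0))) (.mul (nat_lit 3) (.at (nat_lit 5066549599666176) (nat_lit 26)
  (.at (nat_lit 6192449510703104) (nat_lit 24) (.at (nat_lit 7318349421740032) (nat_lit 22) (.at
  (nat_lit 8444249332776960) (nat_lit 20) (.at (nat_lit 9570149243813888) (nat_lit 18) (.at (nat_lit
  10133099199332352) (nat_lit 17) (.at (nat_lit 11258999110369280) (nat_lit 15) (.at (nat_lit
  12384899021406208) (nat_lit 13) (.at (nat_lit 13510798932443136) (nat_lit 11) (.t (nat_lit
  14636698843480064) (nat_lit 9)))))))))))))) (.mul (nat_lit 8) (.fold (nat_lit 0) (.at (nat_lit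
  562949955518464) (nat_lit 34) (.add (.at (nat_lit 3940649688629248) (nat_lit 28) (.add (.at
  (nat_lit 15762598754516992) (nat_lit 7) (.t (nat_lit 19140298487627776) (nat_lit 1))) (.mul
  (nat_lit 3) (.at (nat_lit 5629499555184640) (nat_lit 25) (.at (nat_lit 6755399466221568) (nat_lit
  23) (.at (nat_lit 7881299377258496) (nat_lit 21) (.at (nat_lit 9007199288295424) (nat_lit 19) (.at
  (nat_lit 10696049154850816) (nat_lit 16) (.at (nat_lit 11821949065887744) (nat_lit 14) (.at
  (nat_lit 12947848976924672) (nat_lit 12) (.t (nat_lit 14073748887961600) (nat_lit 10))))))))))))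
  (.mul (nat_lit 2) (.at (nat_lit 2251799822073856) (nat_lit 31) (.t (nat_lit 17451448621072384)
  (nat_lit 4))))))))))))) (.mul (nat_lit 2) (.at (nat_lit 1688849866555392) (nat_lit 32) (.at
  (nat_lit 2814749777592320) (nat_lit 30) (.at (nat_lit 16888498665553920) (nat_lit 5) (.t (nat_lit
  18014398576590848) (nat_lit 3))))))))))

/-- compiled program -/
def b11_35 : Prog := fun Y Z c d =>
  (fo Y d (nat_lit 0) (ad Z c (nat_lit 0) (ad Z c (nat_lit 1125899911036928) (Nat.add (ad Z c
  (nat_lit 3377699733110784) (ad Z c (nat_lit 4503599644147712) (ad Z c (nat_lit 15199648798998528)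
  (ad Z c (nat_lit 16325548710035456) (Nat.add (fo Y d (nat_lit 0) (Nat.add (ad Z c (nat_lit
  18577348532109312) (tm Z c (nat_lit 19703248443146240))) (Nat.mul (nat_lit 3) (ad Z c (nat_lit
  5066549599666176) (ad Z c (nat_lit 6192449510703104) (ad Z c (nat_lit 7318349421740032) (ad Z c
  (nat_lit 8444249332776960) (ad Z c (nat_lit 9570149243813888) (ad Z c (nat_lit 10133099199332352)
  (ad Z c (nat_lit 11258999110369280) (ad Z c (nat_lit 12384899021406208) (ad Z c (nat_lit
  13510798932443136) (tm Z c (nat_lit 14636698843480064)))))))))))))) (Nat.mul (nat_lit 8) (fo Y d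
  (nat_lit 0) (ad Z c (nat_lit 562949955518464) (Nat.add (ad Z c (nat_lit 3940649688629248) (Nat.add
  (ad Z c (nat_lit 15762598754516992) (tm Z c (nat_lit 19140298487627776))) (Nat.mul (nat_lit 3) (ad
  Z c (nat_lit 5629499555184640) (ad Z c (nat_lit 6755399466221568) (ad Z c (nat_lit
  7881299377258496) (ad Z c (nat_lit 9007199288295424) (ad Z c (nat_lit 10696049154850816) (ad Z c
  (nat_lit 11821949065887744) (ad Z c (nat_lit 12947848976924672) (tm Z c (nat_lit
  14073748887961600)))))))))))) (Nat.mul (nat_lit 2) (ad Z c (nat_lit 2251799822073856) (tm Z c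
  (nat_lit 17451448621072384))))))))))))) (Nat.mul (nat_lit 2) (ad Z c (nat_lit 1688849866555392)
  (ad Z c (nat_lit 2814749777592320) (ad Z c (nat_lit 16888498665553920) (tm Z c (nat_lit
  18014398576590848))))))))))

/-- program -/
def b11_36P : Pg :=
  (.fold (nat_lit 0) (.at (nat_lit 0) (nat_lit 36) (.add (.add (.at (nat_lit 20266198398664704)
  (nat_lit 0) (.mul (nat_lit 6) (.t (nat_lit 10133099199332352) (nat_lit 18)))) (.mul (nat_lit 4)
  (.at (nat_lit 5066549599666176) (nat_lit 27) (.t (nat_lit 15199648798998528) (nat_lit 9))))) (.mul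
  (nat_lit 3) (.at (nat_lit 1688849866555392) (nat_lit 33) (.at (nat_lit 3377699733110784) (nat_lit
  30) (.at (nat_lit 16888498665553920) (nat_lit 6) (.t (nat_lit 18577348532109312) (nat_lit
  3)))))))))

/-- compiled program -/
def b11_36 : Prog := fun Y Z c d =>
  (fo Y d (nat_lit 0) (ad Z c (nat_lit 0) (Nat.add (Nat.add (ad Z c (nat_lit 20266198398664704)
  (Nat.mul (nat_lit 6) (tm Z c (nat_lit 10133099199332352)))) (Nat.mul (nat_lit 4) (ad Z c (nat_lit
  5066549599666176) (tm Z c (nat_lit 15199648798998528))))) (Nat.mul (nat_lit 3) (ad Z c (nat_lit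
  1688849866555392) (ad Z c (nat_lit 3377699733110784) (ad Z c (nat_lit 16888498665553920) (tm Z c
  (nat_lit 18577348532109312)))))))))

/-- program -/
def b11_37P : Pg :=
  (.fold (nat_lit 0) (.add (.add (.fold (nat_lit 0) (.at (nat_lit 0) (nat_lit 37) (.at (nat_lit
  562949955518464) (nat_lit 36) (.add (.at (nat_lit 20266198398664704) (nat_lit 1) (.t (nat_lit
  20829148354183168) (nat_lit 0))) (.mul (nat_lit 3) (.at (nat_lit 1688849866555392) (nat_lit 34)
  (.at (nat_lit 2251799822073856) (nat_lit 33) (.at (nat_lit 3377699733110784) (nat_lit 31) (.at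
  (nat_lit 3940649688629248) (nat_lit 30) (.at (nat_lit 16888498665553920) (nat_lit 7) (.at (nat_lit
  17451448621072384) (nat_lit 6) (.at (nat_lit 18577348532109312) (nat_lit 4) (.t (nat_lit
  19140298487627776) (nat_lit 3)))))))))))))) (.mul (nat_lit 6) (.at (nat_lit 10133099199332352)
  (nat_lit 19) (.t (nat_lit 10696049154850816) (nat_lit 18))))) (.mul (nat_lit 4) (.at (nat_lit
  5066549599666176) (nat_lit 28) (.at (nat_lit 5629499555184640) (nat_lit 27) (.at (nat_lit
  15199648798998528) (nat_lit 10) (.t (nat_lit 15762598754516992) (nat_lit 9))))))))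

/-- compiled program -/
def b11_37 : Prog := fun Y Z c d =>
  (fo Y d (nat_lit 0) (Nat.add (Nat.add (fo Y d (nat_lit 0) (ad Z c (nat_lit 0) (ad Z c (nat_lit
  562949955518464) (Nat.add (ad Z c (nat_lit 20266198398664704) (tm Z c (nat_lit
  20829148354183168))) (Nat.mul (nat_lit 3) (ad Z c (nat_lit 1688849866555392) (ad Z c (nat_lit
  2251799822073856) (ad Z c (nat_lit 3377699733110784) (ad Z c (nat_lit 3940649688629248) (ad Z c
  (nat_lit 16888498665553920) (ad Z c (nat_lit 17451448621072384) (ad Z c (nat_lit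
  18577348532109312) (tm Z c (nat_lit 19140298487627776)))))))))))))) (Nat.mul (nat_lit 6) (ad Z c
  (nat_lit 10133099199332352) (tm Z c (nat_lit 10696049154850816))))) (Nat.mul (nat_lit 4) (ad Z c
  (nat_lit 5066549599666176) (ad Z c (nat_lit 5629499555184640) (ad Z c (nat_lit 15199648798998528)
  (tm Z c (nat_lit 15762598754516992))))))))

/-- program -/
def b11_38P : Pg :=
  (.fold (nat_lit 0) (.at (nat_lit 0) (nat_lit 38) (.at (nat_lit 1125899911036928) (nat_lit 36)
  (.add (.at (nat_lit 20266198398664704) (nat_lit 2) (.add (.fold (nat_lit 0) (.add (.at (nat_lit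
  21392098309701632) (nat_lit 0) (.mul (nat_lit 3) (.at (nat_lit 1688849866555392) (nat_lit 35) (.at
  (nat_lit 2814749777592320) (nat_lit 33) (.at (nat_lit 3377699733110784) (nat_lit 32) (.at (nat_lit
  4503599644147712) (nat_lit 30) (.at (nat_lit 10696049154850816) (nat_lit 19) (.at (nat_lit
  16888498665553920) (nat_lit 8) (.at (nat_lit 18014398576590848) (nat_lit 6) (.at (nat_lit
  18577348532109312) (nat_lit 5) (.t (nat_lit 19703248443146240) (nat_lit 3)))))))))))) (.mul
  (nat_lit 2) (.at (nat_lit 562949955518464) (nat_lit 37) (.t (nat_lit 20829148354183168) (nat_lit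
  1)))))) (.mul (nat_lit 8) (.fold (nat_lit 0) (.add (.at (nat_lit 5629499555184640) (nat_lit 28)
  (.t (nat_lit 15762598754516992) (nat_lit 10))) (.mul (nat_lit 3) (.at (nat_lit 2251799822073856)
  (nat_lit 34) (.at (nat_lit 3940649688629248) (nat_lit 31) (.at (nat_lit 10133099199332352)
  (nat_lit 20) (.at (nat_lit 11258999110369280) (nat_lit 18) (.at (nat_lit 17451448621072384)
  (nat_lit 7) (.t (nat_lit 19140298487627776) (nat_lit 4))))))))))))) (.mul (nat_lit 4) (.at
  (nat_lit 5066549599666176) (nat_lit 29) (.at (nat_lit 6192449510703104) (nat_lit 27) (.at (nat_lit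
  15199648798998528) (nat_lit 11) (.t (nat_lit 16325548710035456) (nat_lit 9))))))))))

/-- compiled program -/
def b11_38 : Prog := fun Y Z c d =>
  (fo Y d (nat_lit 0) (ad Z c (nat_lit 0) (ad Z c (nat_lit 1125899911036928) (Nat.add (ad Z c
  (nat_lit 20266198398664704) (Nat.add (fo Y d (nat_lit 0) (Nat.add (ad Z c (nat_lit
  21392098309701632) (Nat.mul (nat_lit 3) (ad Z c (nat_lit 1688849866555392) (ad Z c (nat_lit
  2814749777592320) (ad Z c (nat_lit 3377699733110784) (ad Z c (nat_lit 4503599644147712) (ad Z c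
  (nat_lit 10696049154850816) (ad Z c (nat_lit 16888498665553920) (ad Z c (nat_lit
  18014398576590848) (ad Z c (nat_lit 18577348532109312) (tm Z c (nat_lit
  19703248443146240)))))))))))) (Nat.mul (nat_lit 2) (ad Z c (nat_lit 562949955518464) (tm Z c
  (nat_lit 20829148354183168)))))) (Nat.mul (nat_lit 8) (fo Y d (nat_lit 0) (Nat.add (ad Z c
  (nat_lit 5629499555184640) (tm Z c (nat_lit 15762598754516992))) (Nat.mul (nat_lit 3) (ad Z c
  (nat_lit 2251799822073856) (ad Z c (nat_lit 3940649688629248) (ad Z c (nat_lit 10133099199332352)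
  (ad Z c (nat_lit 11258999110369280) (ad Z c (nat_lit 17451448621072384) (tm Z c (nat_lit
  19140298487627776))))))))))))) (Nat.mul (nat_lit 4) (ad Z c (nat_lit 5066549599666176) (ad Z c
  (nat_lit 6192449510703104) (ad Z c (nat_lit 15199648798998528) (tm Z c (nat_lit
  16325548710035456))))))))))

/-- program -/
def b11_39P : Pg :=
  (.fold (nat_lit 0) (.add (.add (.fold (nat_lit 0) (.add (.fold (nat_lit 0) (.at (nat_lit 0)
  (nat_lit 39) (.at (nat_lit 21955048265220096) (nat_lit 0) (.mul (nat_lit 6) (.at (nat_lit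
  3377699733110784) (nat_lit 33) (.at (nat_lit 10133099199332352) (nat_lit 21) (.at (nat_lit
  11821949065887744) (nat_lit 18) (.t (nat_lit 18577348532109312) (nat_lit 6))))))))) (.mul (nat_lit
  3) (.at (nat_lit 562949955518464) (nat_lit 38) (.at (nat_lit 1125899911036928) (nat_lit 37) (.at
  (nat_lit 5629499555184640) (nat_lit 29) (.at (nat_lit 6192449510703104) (nat_lit 28) (.at (nat_lit
  15762598754516992) (nat_lit 11) (.at (nat_lit 16325548710035456) (nat_lit 10) (.at (nat_lit
  20829148354183168) (nat_lit 2) (.t (nat_lit 21392098309701632) (nat_lit 1)))))))))))) (.mul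
  (nat_lit 7) (.at (nat_lit 5066549599666176) (nat_lit 30) (.t (nat_lit 16888498665553920) (nat_lit
  9))))) (.mul (nat_lit 4) (.at (nat_lit 1688849866555392) (nat_lit 36) (.at (nat_lit
  6755399466221568) (nat_lit 27) (.at (nat_lit 15199648798998528) (nat_lit 12) (.t (nat_lit
  20266198398664704) (nat_lit 3))))))))

/-- compiled program -/
def b11_39 : Prog := fun Y Z c d =>
  (fo Y d (nat_lit 0) (Nat.add (Nat.add (fo Y d (nat_lit 0) (Nat.add (fo Y d (nat_lit 0) (ad Z c
  (nat_lit 0) (ad Z c (nat_lit 21955048265220096) (Nat.mul (nat_lit 6) (ad Z c (nat_lit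
  3377699733110784) (ad Z c (nat_lit 10133099199332352) (ad Z c (nat_lit 11821949065887744) (tm Z c
  (nat_lit 18577348532109312))))))))) (Nat.mul (nat_lit 3) (ad Z c (nat_lit 562949955518464) (ad Z c
  (nat_lit 1125899911036928) (ad Z c (nat_lit 5629499555184640) (ad Z c (nat_lit 6192449510703104)
  (ad Z c (nat_lit 15762598754516992) (ad Z c (nat_lit 16325548710035456) (ad Z c (nat_lit
  20829148354183168) (tm Z c (nat_lit 21392098309701632)))))))))))) (Nat.mul (nat_lit 7) (ad Z c
  (nat_lit 5066549599666176) (tm Z c (nat_lit 16888498665553920))))) (Nat.mul (nat_lit 4) (ad Z c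
  (nat_lit 1688849866555392) (ad Z c (nat_lit 6755399466221568) (ad Z c (nat_lit 15199648798998528)
  (tm Z c (nat_lit 20266198398664704))))))))

/-- program -/
def b11_40P : Pg :=
  (.fold (nat_lit 0) (.at (nat_lit 0) (nat_lit 40) (.at (nat_lit 5629499555184640) (nat_lit 30) (.at
  (nat_lit 16888498665553920) (nat_lit 10) (.add (.fold (nat_lit 0) (.add (.at (nat_lit
  22517998220738560) (nat_lit 0) (.mul (nat_lit 7) (.fold (nat_lit 0) (.at (nat_lit
  1688849866555392) (nat_lit 37) (.at (nat_lit 5066549599666176) (nat_lit 31) (.at (nat_lit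
  6755399466221568) (nat_lit 28) (.at (nat_lit 15762598754516992) (nat_lit 12) (.at (nat_lit
  17451448621072384) (nat_lit 9) (.t (nat_lit 20829148354183168) (nat_lit 3)))))))))) (.mul (nat_lit
  4) (.at (nat_lit 562949955518464) (nat_lit 39) (.at (nat_lit 2251799822073856) (nat_lit 36) (.at
  (nat_lit 7318349421740032) (nat_lit 27) (.at (nat_lit 15199648798998528) (nat_lit 13) (.at
  (nat_lit 20266198398664704) (nat_lit 4) (.t (nat_lit 21955048265220096) (nat_lit 1)))))))))) (.mul
  (nat_lit 6) (.fold (nat_lit 0) (.at (nat_lit 1125899911036928) (nat_lit 38) (.at (nat_lit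
  3377699733110784) (nat_lit 34) (.at (nat_lit 3940649688629248) (nat_lit 33) (.at (nat_lit
  6192449510703104) (nat_lit 29) (.at (nat_lit 10133099199332352) (nat_lit 22) (.at (nat_lit
  10696049154850816) (nat_lit 21) (.at (nat_lit 11821949065887744) (nat_lit 19) (.at (nat_lit
  12384899021406208) (nat_lit 18) (.at (nat_lit 16325548710035456) (nat_lit 11) (.at (nat_lit
  18577348532109312) (nat_lit 7) (.at (nat_lit 19140298487627776) (nat_lit 6) (.t (nat_lit
  21392098309701632) (nat_lit 2))))))))))))))))))))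

/-- compiled program -/
def b11_40 : Prog := fun Y Z c d =>
  (fo Y d (nat_lit 0) (ad Z c (nat_lit 0) (ad Z c (nat_lit 5629499555184640) (ad Z c (nat_lit
  16888498665553920) (Nat.add (fo Y d (nat_lit 0) (Nat.add (ad Z c (nat_lit 22517998220738560)
  (Nat.mul (nat_lit 7) (fo Y d (nat_lit 0) (ad Z c (nat_lit 1688849866555392) (ad Z c (nat_lit
  5066549599666176) (ad Z c (nat_lit 6755399466221568) (ad Z c (nat_lit 15762598754516992) (ad Z c
  (nat_lit 17451448621072384) (tm Z c (nat_lit 20829148354183168)))))))))) (Nat.mul (nat_lit 4) (ad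
  Z c (nat_lit 562949955518464) (ad Z c (nat_lit 2251799822073856) (ad Z c (nat_lit
  7318349421740032) (ad Z c (nat_lit 15199648798998528) (ad Z c (nat_lit 20266198398664704) (tm Z c
  (nat_lit 21955048265220096)))))))))) (Nat.mul (nat_lit 6) (fo Y d (nat_lit 0) (ad Z c (nat_lit
  1125899911036928) (ad Z c (nat_lit 3377699733110784) (ad Z c (nat_lit 3940649688629248) (ad Z c
  (nat_lit 6192449510703104) (ad Z c (nat_lit 10133099199332352) (ad Z c (nat_lit 10696049154850816)
  (ad Z c (nat_lit 11821949065887744) (ad Z c (nat_lit 12384899021406208) (ad Z c (nat_lit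
  16325548710035456) (ad Z c (nat_lit 18577348532109312) (ad Z c (nat_lit 19140298487627776) (tm Z c
  (nat_lit 21392098309701632))))))))))))))))))))

/-- program -/
def b11_41P : Pg :=
  (.fold (nat_lit 0) (.at (nat_lit 0) (nat_lit 41) (.add (.at (nat_lit 1125899911036928) (nat_lit
  39) (.add (.at (nat_lit 21955048265220096) (nat_lit 2) (.at (nat_lit 23080948176257024) (nat_lit
  0) (.add (.fold (nat_lit 0) (.add (.mul (nat_lit 8) (.at (nat_lit 5629499555184640) (nat_lit 31)
  (.at (nat_lit 17451448621072384) (nat_lit 10) (.fold (nat_lit 0) (.add (.mul (nat_lit 2) (.at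
  (nat_lit 5066549599666176) (nat_lit 32) (.at (nat_lit 6192449510703104) (nat_lit 30) (.at (nat_lit
  16888498665553920) (nat_lit 11) (.t (nat_lit 18014398576590848) (nat_lit 9)))))) (.mul (nat_lit 3)
  (.at (nat_lit 3377699733110784) (nat_lit 35) (.at (nat_lit 4503599644147712) (nat_lit 33) (.at
  (nat_lit 10133099199332352) (nat_lit 23) (.at (nat_lit 11258999110369280) (nat_lit 21) (.at
  (nat_lit 11821949065887744) (nat_lit 20) (.at (nat_lit 12947848976924672) (nat_lit 18) (.at
  (nat_lit 18577348532109312) (nat_lit 8) (.t (nat_lit 19703248443146240) (nat_lit 6)))))))))))))))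
  (.mul (nat_lit 2) (.at (nat_lit 2251799822073856) (nat_lit 37) (.at (nat_lit 7318349421740032)
  (nat_lit 28) (.at (nat_lit 15762598754516992) (nat_lit 13) (.t (nat_lit 20829148354183168)
  (nat_lit 4)))))))) (.fold (nat_lit 0) (.mul (nat_lit 4) (.at (nat_lit 1688849866555392) (nat_lit
  38) (.at (nat_lit 2814749777592320) (nat_lit 36) (.at (nat_lit 6755399466221568) (nat_lit 29) (.at
  (nat_lit 7881299377258496) (nat_lit 27) (.at (nat_lit 15199648798998528) (nat_lit 14) (.at
  (nat_lit 16325548710035456) (nat_lit 12) (.at (nat_lit 20266198398664704) (nat_lit 5) (.t (nat_lit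
  21392098309701632) (nat_lit 3)))))))))))))) (.mul (nat_lit 3) (.at (nat_lit 3940649688629248)
  (nat_lit 34) (.at (nat_lit 10696049154850816) (nat_lit 22) (.at (nat_lit 12384899021406208)
  (nat_lit 19) (.t (nat_lit 19140298487627776) (nat_lit 7)))))))) (.mul (nat_lit 5) (.at (nat_lit
  562949955518464) (nat_lit 40) (.t (nat_lit 22517998220738560) (nat_lit 1)))))))

/-- compiled program -/
def b11_41 : Prog := fun Y Z c d =>
  (fo Y d (nat_lit 0) (ad Z c (nat_lit 0) (Nat.add (ad Z c (nat_lit 1125899911036928) (Nat.add (ad Z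
  c (nat_lit 21955048265220096) (ad Z c (nat_lit 23080948176257024) (Nat.add (fo Y d (nat_lit 0)
  (Nat.add (Nat.mul (nat_lit 8) (ad Z c (nat_lit 5629499555184640) (ad Z c (nat_lit
  17451448621072384) (fo Y d (nat_lit 0) (Nat.add (Nat.mul (nat_lit 2) (ad Z c (nat_lit
  5066549599666176) (ad Z c (nat_lit 6192449510703104) (ad Z c (nat_lit 16888498665553920) (tm Z c
  (nat_lit 18014398576590848)))))) (Nat.mul (nat_lit 3) (ad Z c (nat_lit 3377699733110784) (ad Z c
  (nat_lit 4503599644147712) (ad Z c (nat_lit 10133099199332352) (ad Z c (nat_lit 11258999110369280)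
  (ad Z c (nat_lit 11821949065887744) (ad Z c (nat_lit 12947848976924672) (ad Z c (nat_lit
  18577348532109312) (tm Z c (nat_lit 19703248443146240))))))))))))))) (Nat.mul (nat_lit 2) (ad Z c
  (nat_lit 2251799822073856) (ad Z c (nat_lit 7318349421740032) (ad Z c (nat_lit 15762598754516992)
  (tm Z c (nat_lit 20829148354183168)))))))) (fo Y d (nat_lit 0) (Nat.mul (nat_lit 4) (ad Z c
  (nat_lit 1688849866555392) (ad Z c (nat_lit 2814749777592320) (ad Z c (nat_lit 6755399466221568)
  (ad Z c (nat_lit 7881299377258496) (ad Z c (nat_lit 15199648798998528) (ad Z c (nat_lit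
  16325548710035456) (ad Z c (nat_lit 20266198398664704) (tm Z c (nat_lit
  21392098309701632)))))))))))))) (Nat.mul (nat_lit 3) (ad Z c (nat_lit 3940649688629248) (ad Z c
  (nat_lit 10696049154850816) (ad Z c (nat_lit 12384899021406208) (tm Z c (nat_lit
  19140298487627776)))))))) (Nat.mul (nat_lit 5) (ad Z c (nat_lit 562949955518464) (tm Z c (nat_lit
  22517998220738560)))))))

/-- program -/
def b11_42P : Pg :=
  (.fold (nat_lit 0) (.at (nat_lit 0) (nat_lit 42) (.at (nat_lit 3377699733110784) (nat_lit 36)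
  (.add (.add (.at (nat_lit 20266198398664704) (nat_lit 6) (.at (nat_lit 23643898131775488) (nat_lit
  0) (.fold (nat_lit 0) (.add (.add (.mul (nat_lit 6) (.fold (nat_lit 0) (.add (.at (nat_lit
  13510798932443136) (nat_lit 18) (.at (nat_lit 15762598754516992) (nat_lit 14) (.at (nat_lit
  16325548710035456) (nat_lit 13) (.at (nat_lit 17451448621072384) (nat_lit 11) (.at (nat_lit
  18014398576590848) (nat_lit 10) (.at (nat_lit 20829148354183168) (nat_lit 5) (.at (nat_lit
  21392098309701632) (nat_lit 4) (.at (nat_lit 22517998220738560) (nat_lit 2) (.t (nat_lit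
  23080948176257024) (nat_lit 1)))))))))) (.at (nat_lit 562949955518464) (nat_lit 41) (.at (nat_lit
  1125899911036928) (nat_lit 40) (.at (nat_lit 2251799822073856) (nat_lit 38) (.at (nat_lit
  2814749777592320) (nat_lit 37) (.at (nat_lit 5629499555184640) (nat_lit 32) (.at (nat_lit
  6192449510703104) (nat_lit 31) (.at (nat_lit 7318349421740032) (nat_lit 29) (.at (nat_lit
  7881299377258496) (nat_lit 28) (.t (nat_lit 10133099199332352) (nat_lit 24))))))))))))) (.mul
  (nat_lit 4) (.at (nat_lit 5066549599666176) (nat_lit 33) (.at (nat_lit 8444249332776960) (nat_lit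
  27) (.at (nat_lit 15199648798998528) (nat_lit 15) (.t (nat_lit 18577348532109312) (nat_lit
  9))))))) (.mul (nat_lit 5) (.at (nat_lit 1688849866555392) (nat_lit 39) (.t (nat_lit
  21955048265220096) (nat_lit 3)))))))) (.mul (nat_lit 3) (.t (nat_lit 11821949065887744) (nat_lit
  21)))) (.mul (nat_lit 2) (.at (nat_lit 6755399466221568) (nat_lit 30) (.t (nat_lit
  16888498665553920) (nat_lit 12))))))))

/-- compiled program -/
def b11_42 : Prog := fun Y Z c d =>
  (fo Y d (nat_lit 0) (ad Z c (nat_lit 0) (ad Z c (nat_lit 3377699733110784) (Nat.add (Nat.add (ad Z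
  c (nat_lit 20266198398664704) (ad Z c (nat_lit 23643898131775488) (fo Y d (nat_lit 0) (Nat.add
  (Nat.add (Nat.mul (nat_lit 6) (fo Y d (nat_lit 0) (Nat.add (ad Z c (nat_lit 13510798932443136) (ad
  Z c (nat_lit 15762598754516992) (ad Z c (nat_lit 16325548710035456) (ad Z c (nat_lit
  17451448621072384) (ad Z c (nat_lit 18014398576590848) (ad Z c (nat_lit 20829148354183168) (ad Z c
  (nat_lit 21392098309701632) (ad Z c (nat_lit 22517998220738560) (tm Z c (nat_lit
  23080948176257024)))))))))) (ad Z c (nat_lit 562949955518464) (ad Z c (nat_lit 1125899911036928)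
  (ad Z c (nat_lit 2251799822073856) (ad Z c (nat_lit 2814749777592320) (ad Z c (nat_lit
  5629499555184640) (ad Z c (nat_lit 6192449510703104) (ad Z c (nat_lit 7318349421740032) (ad Z c
  (nat_lit 7881299377258496) (tm Z c (nat_lit 10133099199332352))))))))))))) (Nat.mul (nat_lit 4)
  (ad Z c (nat_lit 5066549599666176) (ad Z c (nat_lit 8444249332776960) (ad Z c (nat_lit
  15199648798998528) (tm Z c (nat_lit 18577348532109312))))))) (Nat.mul (nat_lit 5) (ad Z c (nat_lit
  1688849866555392) (tm Z c (nat_lit 21955048265220096)))))))) (Nat.mul (nat_lit 3) (tm Z c (nat_lit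
  11821949065887744)))) (Nat.mul (nat_lit 2) (ad Z c (nat_lit 6755399466221568) (tm Z c (nat_lit
  16888498665553920))))))))

/-- program -/
def b11_43P : Pg :=
  (.fold (nat_lit 0) (.at (nat_lit 0) (nat_lit 43) (.at (nat_lit 3940649688629248) (nat_lit 36) (.at
  (nat_lit 5629499555184640) (nat_lit 33) (.at (nat_lit 8444249332776960) (nat_lit 28) (.at (nat_lit
  15762598754516992) (nat_lit 15) (.at (nat_lit 18577348532109312) (nat_lit 10) (.add (.fold
  (nat_lit 0) (.add (.add (.mul (nat_lit 8) (.fold (nat_lit 0) (.add (.at (nat_lit 6755399466221568)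
  (nat_lit 31) (.at (nat_lit 7318349421740032) (nat_lit 30) (.add (.at (nat_lit 16888498665553920)
  (nat_lit 13) (.t (nat_lit 17451448621072384) (nat_lit 12))) (.mul (nat_lit 3) (.at (nat_lit
  10133099199332352) (nat_lit 25) (.at (nat_lit 10696049154850816) (nat_lit 24) (.at (nat_lit
  13510798932443136) (nat_lit 19) (.t (nat_lit 14073748887961600) (nat_lit 18))))))))) (.mul
  (nat_lit 2) (.at (nat_lit 562949955518464) (nat_lit 42) (.at (nat_lit 3377699733110784) (nat_lit
  37) (.at (nat_lit 20829148354183168) (nat_lit 6) (.t (nat_lit 23643898131775488) (nat_lit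
  1))))))))) (.mul (nat_lit 4) (.at (nat_lit 5066549599666176) (nat_lit 34) (.at (nat_lit
  9007199288295424) (nat_lit 27) (.at (nat_lit 15199648798998528) (nat_lit 16) (.t (nat_lit
  19140298487627776) (nat_lit 9))))))) (.mul (nat_lit 2) (.at (nat_lit 1688849866555392) (nat_lit
  40) (.at (nat_lit 2251799822073856) (nat_lit 39) (.at (nat_lit 21955048265220096) (nat_lit 4) (.t
  (nat_lit 22517998220738560) (nat_lit 3)))))))) (.fold (nat_lit 0) (.add (.at (nat_lit
  20266198398664704) (nat_lit 7) (.t (nat_lit 24206848087293952) (nat_lit 0))) (.mul (nat_lit 3)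
  (.at (nat_lit 1125899911036928) (nat_lit 41) (.at (nat_lit 2814749777592320) (nat_lit 38) (.at
  (nat_lit 6192449510703104) (nat_lit 32) (.at (nat_lit 7881299377258496) (nat_lit 29) (.at (nat_lit
  11821949065887744) (nat_lit 22) (.at (nat_lit 12384899021406208) (nat_lit 21) (.at (nat_lit
  16325548710035456) (nat_lit 14) (.at (nat_lit 18014398576590848) (nat_lit 11) (.at (nat_lit
  21392098309701632) (nat_lit 5) (.t (nat_lit 23080948176257024) (nat_lit 2))))))))))))))))))))))

/-- compiled program -/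
def b11_43 : Prog := fun Y Z c d =>
  (fo Y d (nat_lit 0) (ad Z c (nat_lit 0) (ad Z c (nat_lit 3940649688629248) (ad Z c (nat_lit
  5629499555184640) (ad Z c (nat_lit 8444249332776960) (ad Z c (nat_lit 15762598754516992) (ad Z c
  (nat_lit 18577348532109312) (Nat.add (fo Y d (nat_lit 0) (Nat.add (Nat.add (Nat.mul (nat_lit 8)
  (fo Y d (nat_lit 0) (Nat.add (ad Z c (nat_lit 6755399466221568) (ad Z c (nat_lit 7318349421740032)
  (Nat.add (ad Z c (nat_lit 16888498665553920) (tm Z c (nat_lit 17451448621072384))) (Nat.mul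
  (nat_lit 3) (ad Z c (nat_lit 10133099199332352) (ad Z c (nat_lit 10696049154850816) (ad Z c
  (nat_lit 13510798932443136) (tm Z c (nat_lit 14073748887961600))))))))) (Nat.mul (nat_lit 2) (ad Z
  c (nat_lit 562949955518464) (ad Z c (nat_lit 3377699733110784) (ad Z c (nat_lit 20829148354183168)
  (tm Z c (nat_lit 23643898131775488))))))))) (Nat.mul (nat_lit 4) (ad Z c (nat_lit
  5066549599666176) (ad Z c (nat_lit 9007199288295424) (ad Z c (nat_lit 15199648798998528) (tm Z c
  (nat_lit 19140298487627776))))))) (Nat.mul (nat_lit 2) (ad Z c (nat_lit 1688849866555392) (ad Z c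
  (nat_lit 2251799822073856) (ad Z c (nat_lit 21955048265220096) (tm Z c (nat_lit
  22517998220738560)))))))) (fo Y d (nat_lit 0) (Nat.add (ad Z c (nat_lit 20266198398664704) (tm Z c
  (nat_lit 24206848087293952))) (Nat.mul (nat_lit 3) (ad Z c (nat_lit 1125899911036928) (ad Z c
  (nat_lit 2814749777592320) (ad Z c (nat_lit 6192449510703104) (ad Z c (nat_lit 7881299377258496)
  (ad Z c (nat_lit 11821949065887744) (ad Z c (nat_lit 12384899021406208) (ad Z c (nat_lit
  16325548710035456) (ad Z c (nat_lit 18014398576590848) (ad Z c (nat_lit 21392098309701632) (tm Z c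
  (nat_lit 23080948176257024))))))))))))))))))))))

/-- program -/
def b11_44P : Pg :=
  (.fold (nat_lit 0) (.at (nat_lit 0) (nat_lit 44) (.at (nat_lit 1125899911036928) (nat_lit 42) (.at
  (nat_lit 3377699733110784) (nat_lit 38) (.at (nat_lit 4503599644147712) (nat_lit 36) (.at (nat_lit
  20266198398664704) (nat_lit 8) (.at (nat_lit 21392098309701632) (nat_lit 6) (.at (nat_lit
  23643898131775488) (nat_lit 2) (.at (nat_lit 24769798042812416) (nat_lit 0) (.fold (nat_lit 0)
  (.add (.add (.add (.mul (nat_lit 4) (.fold (nat_lit 0) (.at (nat_lit 2251799822073856) (nat_lit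
  40) (.at (nat_lit 5066549599666176) (nat_lit 35) (.at (nat_lit 6192449510703104) (nat_lit 33) (.at
  (nat_lit 8444249332776960) (nat_lit 29) (.at (nat_lit 9570149243813888) (nat_lit 27) (.at (nat_lit
  15199648798998528) (nat_lit 17) (.at (nat_lit 16325548710035456) (nat_lit 15) (.at (nat_lit
  18577348532109312) (nat_lit 11) (.at (nat_lit 19703248443146240) (nat_lit 9) (.t (nat_lit
  22517998220738560) (nat_lit 4))))))))))))) (.mul (nat_lit 8) (.fold (nat_lit 0) (.at (nat_lit
  562949955518464) (nat_lit 43) (.at (nat_lit 3940649688629248) (nat_lit 37) (.add (.add (.at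
  (nat_lit 20829148354183168) (nat_lit 7) (.at (nat_lit 24206848087293952) (nat_lit 1) (.fold
  (nat_lit 0) (.mul (nat_lit 4) (.at (nat_lit 1688849866555392) (nat_lit 41) (.at (nat_lit
  2814749777592320) (nat_lit 39) (.at (nat_lit 5629499555184640) (nat_lit 34) (.at (nat_lit
  9007199288295424) (nat_lit 28) (.at (nat_lit 15762598754516992) (nat_lit 16) (.at (nat_lit
  19140298487627776) (nat_lit 10) (.at (nat_lit 21955048265220096) (nat_lit 5) (.t (nat_lit
  23080948176257024) (nat_lit 3))))))))))))) (.mul (nat_lit 3) (.at (nat_lit 10133099199332352)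
  (nat_lit 26) (.at (nat_lit 11258999110369280) (nat_lit 24) (.at (nat_lit 12384899021406208)
  (nat_lit 22) (.at (nat_lit 13510798932443136) (nat_lit 20) (.t (nat_lit 14636698843480064)
  (nat_lit 18)))))))) (.mul (nat_lit 2) (.at (nat_lit 7318349421740032) (nat_lit 31) (.t (nat_lit
  17451448621072384) (nat_lit 13)))))))))) (.mul (nat_lit 3) (.at (nat_lit 10696049154850816)
  (nat_lit 25) (.at (nat_lit 11821949065887744) (nat_lit 23) (.at (nat_lit 12947848976924672)
  (nat_lit 21) (.t (nat_lit 14073748887961600) (nat_lit 19))))))) (.mul (nat_lit 2) (.at (nat_lit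
  6755399466221568) (nat_lit 32) (.at (nat_lit 7881299377258496) (nat_lit 30) (.at (nat_lit
  16888498665553920) (nat_lit 14) (.t (nat_lit 18014398576590848) (nat_lit 12)))))))))))))))))

/-- compiled program -/
def b11_44 : Prog := fun Y Z c d =>
  (fo Y d (nat_lit 0) (ad Z c (nat_lit 0) (ad Z c (nat_lit 1125899911036928) (ad Z c (nat_lit
  3377699733110784) (ad Z c (nat_lit 4503599644147712) (ad Z c (nat_lit 20266198398664704) (ad Z c
  (nat_lit 21392098309701632) (ad Z c (nat_lit 23643898131775488) (ad Z c (nat_lit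
  24769798042812416) (fo Y d (nat_lit 0) (Nat.add (Nat.add (Nat.add (Nat.mul (nat_lit 4) (fo Y d
  (nat_lit 0) (ad Z c (nat_lit 2251799822073856) (ad Z c (nat_lit 5066549599666176) (ad Z c (nat_lit
  6192449510703104) (ad Z c (nat_lit 8444249332776960) (ad Z c (nat_lit 9570149243813888) (ad Z c
  (nat_lit 15199648798998528) (ad Z c (nat_lit 16325548710035456) (ad Z c (nat_lit
  18577348532109312) (ad Z c (nat_lit 19703248443146240) (tm Z c (nat_lit
  22517998220738560))))))))))))) (Nat.mul (nat_lit 8) (fo Y d (nat_lit 0) (ad Z c (nat_lit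
  562949955518464) (ad Z c (nat_lit 3940649688629248) (Nat.add (Nat.add (ad Z c (nat_lit
  20829148354183168) (ad Z c (nat_lit 24206848087293952) (fo Y d (nat_lit 0) (Nat.mul (nat_lit 4)
  (ad Z c (nat_lit 1688849866555392) (ad Z c (nat_lit 2814749777592320) (ad Z c (nat_lit
  5629499555184640) (ad Z c (nat_lit 9007199288295424) (ad Z c (nat_lit 15762598754516992) (ad Z c
  (nat_lit 19140298487627776) (ad Z c (nat_lit 21955048265220096) (tm Z c (nat_lit
  23080948176257024))))))))))))) (Nat.mul (nat_lit 3) (ad Z c (nat_lit 10133099199332352) (ad Z c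
  (nat_lit 11258999110369280) (ad Z c (nat_lit 12384899021406208) (ad Z c (nat_lit
  13510798932443136) (tm Z c (nat_lit 14636698843480064)))))))) (Nat.mul (nat_lit 2) (ad Z c
  (nat_lit 7318349421740032) (tm Z c (nat_lit 17451448621072384)))))))))) (Nat.mul (nat_lit 3) (ad Z
  c (nat_lit 10696049154850816) (ad Z c (nat_lit 11821949065887744) (ad Z c (nat_lit
  12947848976924672) (tm Z c (nat_lit 14073748887961600))))))) (Nat.mul (nat_lit 2) (ad Z c (nat_lit
  6755399466221568) (ad Z c (nat_lit 7881299377258496) (ad Z c (nat_lit 16888498665553920) (tm Z c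
  (nat_lit 18014398576590848)))))))))))))))))

/-- program -/
def b11_45P : Pg :=
  (.fold (nat_lit 0) (.at (nat_lit 0) (nat_lit 45) (.at (nat_lit 10133099199332352) (nat_lit 27)
  (.at (nat_lit 15199648798998528) (nat_lit 18) (.at (nat_lit 25332747998330880) (nat_lit 0) (.mul
  (nat_lit 8) (.fold (nat_lit 0) (.add (.mul (nat_lit 4) (.at (nat_lit 5066549599666176) (nat_lit
  36) (.t (nat_lit 20266198398664704) (nat_lit 9)))) (.mul (nat_lit 3) (.at (nat_lit
  1688849866555392) (nat_lit 42) (.at (nat_lit 3377699733110784) (nat_lit 39) (.at (nat_lit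
  6755399466221568) (nat_lit 33) (.at (nat_lit 8444249332776960) (nat_lit 30) (.at (nat_lit
  16888498665553920) (nat_lit 15) (.at (nat_lit 18577348532109312) (nat_lit 12) (.at (nat_lit
  21955048265220096) (nat_lit 6) (.t (nat_lit 23643898131775488) (nat_lit 3))))))))))))))))))

/-- compiled program -/
def b11_45 : Prog := fun Y Z c d =>
  (fo Y d (nat_lit 0) (ad Z c (nat_lit 0) (ad Z c (nat_lit 10133099199332352) (ad Z c (nat_lit
  15199648798998528) (ad Z c (nat_lit 25332747998330880) (Nat.mul (nat_lit 8) (fo Y d (nat_lit 0)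
  (Nat.add (Nat.mul (nat_lit 4) (ad Z c (nat_lit 5066549599666176) (tm Z c (nat_lit
  20266198398664704)))) (Nat.mul (nat_lit 3) (ad Z c (nat_lit 1688849866555392) (ad Z c (nat_lit
  3377699733110784) (ad Z c (nat_lit 6755399466221568) (ad Z c (nat_lit 8444249332776960) (ad Z c
  (nat_lit 16888498665553920) (ad Z c (nat_lit 18577348532109312) (ad Z c (nat_lit
  21955048265220096) (tm Z c (nat_lit 23643898131775488))))))))))))))))))

/-- program -/
def b11_46P : Pg :=
  (.fold (nat_lit 0) (.at (nat_lit 0) (nat_lit 46) (.at (nat_lit 562949955518464) (nat_lit 45)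
  (.fold (nat_lit 0) (.add (.at (nat_lit 10133099199332352) (nat_lit 28) (.at (nat_lit
  10696049154850816) (nat_lit 27) (.at (nat_lit 15199648798998528) (nat_lit 19) (.at (nat_lit
  15762598754516992) (nat_lit 18) (.at (nat_lit 25332747998330880) (nat_lit 1) (.at (nat_lit
  25895697953849344) (nat_lit 0) (.mul (nat_lit 6) (.fold (nat_lit 0) (.add (.at (nat_lit
  16888498665553920) (nat_lit 16) (.at (nat_lit 17451448621072384) (nat_lit 15) (.at (nat_lit
  18577348532109312) (nat_lit 13) (.at (nat_lit 19140298487627776) (nat_lit 12) (.at (nat_lit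
  21955048265220096) (nat_lit 7) (.at (nat_lit 22517998220738560) (nat_lit 6) (.at (nat_lit
  23643898131775488) (nat_lit 4) (.t (nat_lit 24206848087293952) (nat_lit 3))))))))) (.at (nat_lit
  1688849866555392) (nat_lit 43) (.at (nat_lit 2251799822073856) (nat_lit 42) (.at (nat_lit
  3377699733110784) (nat_lit 40) (.at (nat_lit 3940649688629248) (nat_lit 39) (.at (nat_lit
  6755399466221568) (nat_lit 34) (.at (nat_lit 7318349421740032) (nat_lit 33) (.at (nat_lit
  8444249332776960) (nat_lit 31) (.t (nat_lit 9007199288295424) (nat_lit 30)))))))))))))))))) (.mul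
  (nat_lit 5) (.at (nat_lit 5066549599666176) (nat_lit 37) (.at (nat_lit 5629499555184640) (nat_lit
  36) (.at (nat_lit 20266198398664704) (nat_lit 10) (.t (nat_lit 20829148354183168) (nat_lit
  9)))))))))))

/-- compiled program -/
def b11_46 : Prog := fun Y Z c d =>
  (fo Y d (nat_lit 0) (ad Z c (nat_lit 0) (ad Z c (nat_lit 562949955518464) (fo Y d (nat_lit 0)
  (Nat.add (ad Z c (nat_lit 10133099199332352) (ad Z c (nat_lit 10696049154850816) (ad Z c (nat_lit
  15199648798998528) (ad Z c (nat_lit 15762598754516992) (ad Z c (nat_lit 25332747998330880) (ad Z c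
  (nat_lit 25895697953849344) (Nat.mul (nat_lit 6) (fo Y d (nat_lit 0) (Nat.add (ad Z c (nat_lit
  16888498665553920) (ad Z c (nat_lit 17451448621072384) (ad Z c (nat_lit 18577348532109312) (ad Z c
  (nat_lit 19140298487627776) (ad Z c (nat_lit 21955048265220096) (ad Z c (nat_lit
  22517998220738560) (ad Z c (nat_lit 23643898131775488) (tm Z c (nat_lit 24206848087293952)))))))))
  (ad Z c (nat_lit 1688849866555392) (ad Z c (nat_lit 2251799822073856) (ad Z c (nat_lit
  3377699733110784) (ad Z c (nat_lit 3940649688629248) (ad Z c (nat_lit 6755399466221568) (ad Z c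
  (nat_lit 7318349421740032) (ad Z c (nat_lit 8444249332776960) (tm Z c (nat_lit
  9007199288295424)))))))))))))))))) (Nat.mul (nat_lit 5) (ad Z c (nat_lit 5066549599666176) (ad Z c
  (nat_lit 5629499555184640) (ad Z c (nat_lit 20266198398664704) (tm Z c (nat_lit
  20829148354183168)))))))))))

/-- program -/
def b11_47P : Pg :=
  (.fold (nat_lit 0) (.at (nat_lit 0) (nat_lit 47) (.at (nat_lit 1125899911036928) (nat_lit 45) (.at
  (nat_lit 5629499555184640) (nat_lit 37) (.at (nat_lit 10133099199332352) (nat_lit 29) (.at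
  (nat_lit 11258999110369280) (nat_lit 27) (.fold (nat_lit 0) (.add (.at (nat_lit 15199648798998528)
  (nat_lit 20) (.at (nat_lit 16325548710035456) (nat_lit 18) (.at (nat_lit 20829148354183168)
  (nat_lit 10) (.at (nat_lit 25332747998330880) (nat_lit 2) (.at (nat_lit 26458647909367808)
  (nat_lit 0) (.add (.fold (nat_lit 0) (.add (.mul (nat_lit 3) (.at (nat_lit 2251799822073856)
  (nat_lit 43) (.at (nat_lit 3940649688629248) (nat_lit 40) (.at (nat_lit 7318349421740032) (nat_lit
  34) (.at (nat_lit 9007199288295424) (nat_lit 31) (.at (nat_lit 17451448621072384) (nat_lit 16)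
  (.at (nat_lit 19140298487627776) (nat_lit 13) (.at (nat_lit 22517998220738560) (nat_lit 7) (.t
  (nat_lit 24206848087293952) (nat_lit 4)))))))))) (.mul (nat_lit 2) (.at (nat_lit 562949955518464)
  (nat_lit 46) (.at (nat_lit 10696049154850816) (nat_lit 28) (.at (nat_lit 15762598754516992)
  (nat_lit 19) (.t (nat_lit 25895697953849344) (nat_lit 1)))))))) (.mul (nat_lit 6) (.fold (nat_lit
  0) (.add (.at (nat_lit 16888498665553920) (nat_lit 17) (.at (nat_lit 18014398576590848) (nat_lit
  15) (.at (nat_lit 18577348532109312) (nat_lit 14) (.at (nat_lit 19703248443146240) (nat_lit 12)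
  (.at (nat_lit 21955048265220096) (nat_lit 8) (.at (nat_lit 23080948176257024) (nat_lit 6) (.at
  (nat_lit 23643898131775488) (nat_lit 5) (.t (nat_lit 24769798042812416) (nat_lit 3))))))))) (.at
  (nat_lit 1688849866555392) (nat_lit 44) (.at (nat_lit 2814749777592320) (nat_lit 42) (.at (nat_lit
  3377699733110784) (nat_lit 41) (.at (nat_lit 4503599644147712) (nat_lit 39) (.at (nat_lit
  6755399466221568) (nat_lit 35) (.at (nat_lit 7881299377258496) (nat_lit 33) (.at (nat_lit
  8444249332776960) (nat_lit 32) (.t (nat_lit 9570149243813888) (nat_lit 30)))))))))))))))))) (.mul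
  (nat_lit 5) (.at (nat_lit 5066549599666176) (nat_lit 38) (.at (nat_lit 6192449510703104) (nat_lit
  36) (.at (nat_lit 20266198398664704) (nat_lit 11) (.t (nat_lit 21392098309701632) (nat_lit
  9))))))))))))))

/-- compiled program -/
def b11_47 : Prog := fun Y Z c d =>
  (fo Y d (nat_lit 0) (ad Z c (nat_lit 0) (ad Z c (nat_lit 1125899911036928) (ad Z c (nat_lit
  5629499555184640) (ad Z c (nat_lit 10133099199332352) (ad Z c (nat_lit 11258999110369280) (fo Y d
  (nat_lit 0) (Nat.add (ad Z c (nat_lit 15199648798998528) (ad Z c (nat_lit 16325548710035456) (ad Z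
  c (nat_lit 20829148354183168) (ad Z c (nat_lit 25332747998330880) (ad Z c (nat_lit
  26458647909367808) (Nat.add (fo Y d (nat_lit 0) (Nat.add (Nat.mul (nat_lit 3) (ad Z c (nat_lit
  2251799822073856) (ad Z c (nat_lit 3940649688629248) (ad Z c (nat_lit 7318349421740032) (ad Z c
  (nat_lit 9007199288295424) (ad Z c (nat_lit 17451448621072384) (ad Z c (nat_lit 19140298487627776)
  (ad Z c (nat_lit 22517998220738560) (tm Z c (nat_lit 24206848087293952)))))))))) (Nat.mul (nat_lit
  2) (ad Z c (nat_lit 562949955518464) (ad Z c (nat_lit 10696049154850816) (ad Z c (nat_lit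
  15762598754516992) (tm Z c (nat_lit 25895697953849344)))))))) (Nat.mul (nat_lit 6) (fo Y d
  (nat_lit 0) (Nat.add (ad Z c (nat_lit 16888498665553920) (ad Z c (nat_lit 18014398576590848) (ad Z
  c (nat_lit 18577348532109312) (ad Z c (nat_lit 19703248443146240) (ad Z c (nat_lit
  21955048265220096) (ad Z c (nat_lit 23080948176257024) (ad Z c (nat_lit 23643898131775488) (tm Z c
  (nat_lit 24769798042812416))))))))) (ad Z c (nat_lit 1688849866555392) (ad Z c (nat_lit
  2814749777592320) (ad Z c (nat_lit 3377699733110784) (ad Z c (nat_lit 4503599644147712) (ad Z c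
  (nat_lit 6755399466221568) (ad Z c (nat_lit 7881299377258496) (ad Z c (nat_lit 8444249332776960)
  (tm Z c (nat_lit 9570149243813888)))))))))))))))))) (Nat.mul (nat_lit 5) (ad Z c (nat_lit
  5066549599666176) (ad Z c (nat_lit 6192449510703104) (ad Z c (nat_lit 20266198398664704) (tm Z c
  (nat_lit 21392098309701632))))))))))))))

/-- program -/
def b11_48P : Pg :=
  (.fold (nat_lit 0) (.at (nat_lit 0) (nat_lit 48) (.add (.at (nat_lit 11821949065887744) (nat_lit
  27) (.at (nat_lit 15199648798998528) (nat_lit 21) (.at (nat_lit 27021597864886272) (nat_lit 0)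
  (.add (.mul (nat_lit 3) (.fold (nat_lit 0) (.at (nat_lit 562949955518464) (nat_lit 47) (.at
  (nat_lit 1125899911036928) (nat_lit 46) (.at (nat_lit 3377699733110784) (nat_lit 42) (.at (nat_lit
  8444249332776960) (nat_lit 33) (.at (nat_lit 10696049154850816) (nat_lit 29) (.at (nat_lit
  11258999110369280) (nat_lit 28) (.at (nat_lit 15762598754516992) (nat_lit 20) (.at (nat_lit
  16325548710035456) (nat_lit 19) (.at (nat_lit 18577348532109312) (nat_lit 15) (.at (nat_lit
  23643898131775488) (nat_lit 6) (.at (nat_lit 25895697953849344) (nat_lit 2) (.t (nat_lit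
  26458647909367808) (nat_lit 1))))))))))))))) (.mul (nat_lit 8) (.fold (nat_lit 0) (.add (.mul
  (nat_lit 3) (.at (nat_lit 5629499555184640) (nat_lit 38) (.at (nat_lit 6192449510703104) (nat_lit
  37) (.at (nat_lit 20829148354183168) (nat_lit 11) (.t (nat_lit 21392098309701632) (nat_lit
  10)))))) (.mul (nat_lit 2) (.at (nat_lit 1688849866555392) (nat_lit 45) (.at (nat_lit
  10133099199332352) (nat_lit 30) (.at (nat_lit 16888498665553920) (nat_lit 18) (.t (nat_lit
  25332747998330880) (nat_lit 3))))))))))))) (.mul (nat_lit 2) (.at (nat_lit 5066549599666176)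
  (nat_lit 39) (.at (nat_lit 6755399466221568) (nat_lit 36) (.at (nat_lit 20266198398664704)
  (nat_lit 12) (.t (nat_lit 21955048265220096) (nat_lit 9)))))))))

/-- compiled program -/
def b11_48 : Prog := fun Y Z c d =>
  (fo Y d (nat_lit 0) (ad Z c (nat_lit 0) (Nat.add (ad Z c (nat_lit 11821949065887744) (ad Z c
  (nat_lit 15199648798998528) (ad Z c (nat_lit 27021597864886272) (Nat.add (Nat.mul (nat_lit 3) (fo
  Y d (nat_lit 0) (ad Z c (nat_lit 562949955518464) (ad Z c (nat_lit 1125899911036928) (ad Z c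
  (nat_lit 3377699733110784) (ad Z c (nat_lit 8444249332776960) (ad Z c (nat_lit 10696049154850816)
  (ad Z c (nat_lit 11258999110369280) (ad Z c (nat_lit 15762598754516992) (ad Z c (nat_lit
  16325548710035456) (ad Z c (nat_lit 18577348532109312) (ad Z c (nat_lit 23643898131775488) (ad Z c
  (nat_lit 25895697953849344) (tm Z c (nat_lit 26458647909367808))))))))))))))) (Nat.mul (nat_lit 8)
  (fo Y d (nat_lit 0) (Nat.add (Nat.mul (nat_lit 3) (ad Z c (nat_lit 5629499555184640) (ad Z c
  (nat_lit 6192449510703104) (ad Z c (nat_lit 20829148354183168) (tm Z c (nat_lit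
  21392098309701632)))))) (Nat.mul (nat_lit 2) (ad Z c (nat_lit 1688849866555392) (ad Z c (nat_lit
  10133099199332352) (ad Z c (nat_lit 16888498665553920) (tm Z c (nat_lit
  25332747998330880))))))))))))) (Nat.mul (nat_lit 2) (ad Z c (nat_lit 5066549599666176) (ad Z c
  (nat_lit 6755399466221568) (ad Z c (nat_lit 20266198398664704) (tm Z c (nat_lit
  21955048265220096)))))))))

/-- program -/
def b11_49P : Pg :=
  (.fold (nat_lit 0) (.at (nat_lit 0) (nat_lit 49) (.at (nat_lit 1688849866555392) (nat_lit 46) (.at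
  (nat_lit 10696049154850816) (nat_lit 30) (.at (nat_lit 12384899021406208) (nat_lit 27) (.at
  (nat_lit 15199648798998528) (nat_lit 22) (.at (nat_lit 16888498665553920) (nat_lit 19) (.add
  (.fold (nat_lit 0) (.add (.add (.mul (nat_lit 8) (.fold (nat_lit 0) (.add (.add (.at (nat_lit
  5629499555184640) (nat_lit 39) (.at (nat_lit 6755399466221568) (nat_lit 37) (.at (nat_lit
  20829148354183168) (nat_lit 12) (.t (nat_lit 21955048265220096) (nat_lit 10))))) (.mul (nat_lit 2)
  (.at (nat_lit 2251799822073856) (nat_lit 45) (.at (nat_lit 10133099199332352) (nat_lit 31) (.at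
  (nat_lit 17451448621072384) (nat_lit 18) (.t (nat_lit 25332747998330880) (nat_lit 4))))))) (.mul
  (nat_lit 3) (.at (nat_lit 1125899911036928) (nat_lit 47) (.at (nat_lit 11258999110369280) (nat_lit
  29) (.at (nat_lit 16325548710035456) (nat_lit 20) (.t (nat_lit 26458647909367808) (nat_lit
  2))))))))) (.mul (nat_lit 2) (.at (nat_lit 5066549599666176) (nat_lit 40) (.at (nat_lit
  7318349421740032) (nat_lit 36) (.at (nat_lit 20266198398664704) (nat_lit 13) (.t (nat_lit
  22517998220738560) (nat_lit 9))))))) (.mul (nat_lit 4) (.at (nat_lit 562949955518464) (nat_lit 48)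
  (.at (nat_lit 11821949065887744) (nat_lit 28) (.at (nat_lit 15762598754516992) (nat_lit 21) (.t
  (nat_lit 27021597864886272) (nat_lit 1)))))))) (.fold (nat_lit 0) (.add (.at (nat_lit
  25895697953849344) (nat_lit 3) (.t (nat_lit 27584547820404736) (nat_lit 0))) (.mul (nat_lit 3)
  (.at (nat_lit 3377699733110784) (nat_lit 43) (.at (nat_lit 3940649688629248) (nat_lit 42) (.at
  (nat_lit 6192449510703104) (nat_lit 38) (.at (nat_lit 8444249332776960) (nat_lit 34) (.at (nat_lit
  9007199288295424) (nat_lit 33) (.at (nat_lit 18577348532109312) (nat_lit 16) (.at (nat_lit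
  19140298487627776) (nat_lit 15) (.at (nat_lit 21392098309701632) (nat_lit 11) (.at (nat_lit
  23643898131775488) (nat_lit 7) (.t (nat_lit 24206848087293952) (nat_lit 6))))))))))))))))))))))

/-- compiled program -/
def b11_49 : Prog := fun Y Z c d =>
  (fo Y d (nat_lit 0) (ad Z c (nat_lit 0) (ad Z c (nat_lit 1688849866555392) (ad Z c (nat_lit
  10696049154850816) (ad Z c (nat_lit 12384899021406208) (ad Z c (nat_lit 15199648798998528) (ad Z c
  (nat_lit 16888498665553920) (Nat.add (fo Y d (nat_lit 0) (Nat.add (Nat.add (Nat.mul (nat_lit 8)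
  (fo Y d (nat_lit 0) (Nat.add (Nat.add (ad Z c (nat_lit 5629499555184640) (ad Z c (nat_lit
  6755399466221568) (ad Z c (nat_lit 20829148354183168) (tm Z c (nat_lit 21955048265220096)))))
  (Nat.mul (nat_lit 2) (ad Z c (nat_lit 2251799822073856) (ad Z c (nat_lit 10133099199332352) (ad Z
  c (nat_lit 17451448621072384) (tm Z c (nat_lit 25332747998330880))))))) (Nat.mul (nat_lit 3) (ad Z
  c (nat_lit 1125899911036928) (ad Z c (nat_lit 11258999110369280) (ad Z c (nat_lit
  16325548710035456) (tm Z c (nat_lit 26458647909367808))))))))) (Nat.mul (nat_lit 2) (ad Z c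
  (nat_lit 5066549599666176) (ad Z c (nat_lit 7318349421740032) (ad Z c (nat_lit 20266198398664704)
  (tm Z c (nat_lit 22517998220738560))))))) (Nat.mul (nat_lit 4) (ad Z c (nat_lit 562949955518464)
  (ad Z c (nat_lit 11821949065887744) (ad Z c (nat_lit 15762598754516992) (tm Z c (nat_lit
  27021597864886272)))))))) (fo Y d (nat_lit 0) (Nat.add (ad Z c (nat_lit 25895697953849344) (tm Z c
  (nat_lit 27584547820404736))) (Nat.mul (nat_lit 3) (ad Z c (nat_lit 3377699733110784) (ad Z c
  (nat_lit 3940649688629248) (ad Z c (nat_lit 6192449510703104) (ad Z c (nat_lit 8444249332776960)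
  (ad Z c (nat_lit 9007199288295424) (ad Z c (nat_lit 18577348532109312) (ad Z c (nat_lit
  19140298487627776) (ad Z c (nat_lit 21392098309701632) (ad Z c (nat_lit 23643898131775488) (tm Z c
  (nat_lit 24206848087293952))))))))))))))))))))))

/-- program -/
def b11_50P : Pg :=
  (.fold (nat_lit 0) (.at (nat_lit 0) (nat_lit 50) (.add (.fold (nat_lit 0) (.add (.at (nat_lit
  15199648798998528) (nat_lit 23) (.at (nat_lit 16325548710035456) (nat_lit 21) (.at (nat_lit
  20829148354183168) (nat_lit 13) (.at (nat_lit 22517998220738560) (nat_lit 10) (.at (nat_lit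
  27021597864886272) (nat_lit 2) (.at (nat_lit 28147497775923200) (nat_lit 0) (.fold (nat_lit 0)
  (.add (.mul (nat_lit 8) (.fold (nat_lit 0) (.add (.at (nat_lit 2251799822073856) (nat_lit 46)
  (.add (.at (nat_lit 10696049154850816) (nat_lit 31) (.at (nat_lit 17451448621072384) (nat_lit 19)
  (.t (nat_lit 25895697953849344) (nat_lit 4)))) (.mul (nat_lit 3) (.at (nat_lit 3940649688629248)
  (nat_lit 43) (.at (nat_lit 9007199288295424) (nat_lit 34) (.at (nat_lit 19140298487627776)
  (nat_lit 16) (.t (nat_lit 24206848087293952) (nat_lit 7)))))))) (.mul (nat_lit 2) (.at (nat_lit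
  1688849866555392) (nat_lit 47) (.at (nat_lit 2814749777592320) (nat_lit 45) (.at (nat_lit
  10133099199332352) (nat_lit 32) (.at (nat_lit 11258999110369280) (nat_lit 30) (.at (nat_lit
  16888498665553920) (nat_lit 20) (.at (nat_lit 18014398576590848) (nat_lit 18) (.at (nat_lit
  25332747998330880) (nat_lit 5) (.t (nat_lit 26458647909367808) (nat_lit 3))))))))))))) (.mul
  (nat_lit 3) (.at (nat_lit 3377699733110784) (nat_lit 44) (.at (nat_lit 4503599644147712) (nat_lit
  42) (.at (nat_lit 8444249332776960) (nat_lit 35) (.at (nat_lit 9570149243813888) (nat_lit 33) (.at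
  (nat_lit 18577348532109312) (nat_lit 17) (.at (nat_lit 19703248443146240) (nat_lit 15) (.at
  (nat_lit 23643898131775488) (nat_lit 8) (.t (nat_lit 24769798042812416) (nat_lit
  6)))))))))))))))))) (.add (.at (nat_lit 1125899911036928) (nat_lit 48) (.at (nat_lit
  5629499555184640) (nat_lit 40) (.at (nat_lit 7318349421740032) (nat_lit 37) (.at (nat_lit
  11821949065887744) (nat_lit 29) (.t (nat_lit 12947848976924672) (nat_lit 27)))))) (.mul (nat_lit
  5) (.at (nat_lit 562949955518464) (nat_lit 49) (.at (nat_lit 12384899021406208) (nat_lit 28) (.at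
  (nat_lit 15762598754516992) (nat_lit 22) (.t (nat_lit 27584547820404736) (nat_lit 1))))))))) (.mul
  (nat_lit 2) (.at (nat_lit 5066549599666176) (nat_lit 41) (.at (nat_lit 6192449510703104) (nat_lit
  39) (.at (nat_lit 6755399466221568) (nat_lit 38) (.at (nat_lit 7881299377258496) (nat_lit 36) (.at
  (nat_lit 20266198398664704) (nat_lit 14) (.at (nat_lit 21392098309701632) (nat_lit 12) (.at
  (nat_lit 21955048265220096) (nat_lit 11) (.t (nat_lit 23080948176257024) (nat_lit 9)))))))))))))

/-- compiled program -/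
def b11_50 : Prog := fun Y Z c d =>
  (fo Y d (nat_lit 0) (ad Z c (nat_lit 0) (Nat.add (fo Y d (nat_lit 0) (Nat.add (ad Z c (nat_lit
  15199648798998528) (ad Z c (nat_lit 16325548710035456) (ad Z c (nat_lit 20829148354183168) (ad Z c
  (nat_lit 22517998220738560) (ad Z c (nat_lit 27021597864886272) (ad Z c (nat_lit
  28147497775923200) (fo Y d (nat_lit 0) (Nat.add (Nat.mul (nat_lit 8) (fo Y d (nat_lit 0) (Nat.add
  (ad Z c (nat_lit 2251799822073856) (Nat.add (ad Z c (nat_lit 10696049154850816) (ad Z c (nat_lit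
  17451448621072384) (tm Z c (nat_lit 25895697953849344)))) (Nat.mul (nat_lit 3) (ad Z c (nat_lit
  3940649688629248) (ad Z c (nat_lit 9007199288295424) (ad Z c (nat_lit 19140298487627776) (tm Z c
  (nat_lit 24206848087293952)))))))) (Nat.mul (nat_lit 2) (ad Z c (nat_lit 1688849866555392) (ad Z c
  (nat_lit 2814749777592320) (ad Z c (nat_lit 10133099199332352) (ad Z c (nat_lit 11258999110369280)
  (ad Z c (nat_lit 16888498665553920) (ad Z c (nat_lit 18014398576590848) (ad Z c (nat_lit
  25332747998330880) (tm Z c (nat_lit 26458647909367808))))))))))))) (Nat.mul (nat_lit 3) (ad Z c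
  (nat_lit 3377699733110784) (ad Z c (nat_lit 4503599644147712) (ad Z c (nat_lit 8444249332776960)
  (ad Z c (nat_lit 9570149243813888) (ad Z c (nat_lit 18577348532109312) (ad Z c (nat_lit
  19703248443146240) (ad Z c (nat_lit 23643898131775488) (tm Z c (nat_lit
  24769798042812416)))))))))))))))))) (Nat.add (ad Z c (nat_lit 1125899911036928) (ad Z c (nat_lit
  5629499555184640) (ad Z c (nat_lit 7318349421740032) (ad Z c (nat_lit 11821949065887744) (tm Z c
  (nat_lit 12947848976924672)))))) (Nat.mul (nat_lit 5) (ad Z c (nat_lit 562949955518464) (ad Z c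
  (nat_lit 12384899021406208) (ad Z c (nat_lit 15762598754516992) (tm Z c (nat_lit
  27584547820404736))))))))) (Nat.mul (nat_lit 2) (ad Z c (nat_lit 5066549599666176) (ad Z c
  (nat_lit 6192449510703104) (ad Z c (nat_lit 6755399466221568) (ad Z c (nat_lit 7881299377258496)
  (ad Z c (nat_lit 20266198398664704) (ad Z c (nat_lit 21392098309701632) (ad Z c (nat_lit
  21955048265220096) (tm Z c (nat_lit 23080948176257024)))))))))))))

/-- program -/
def b11_51P : Pg :=
  (.fold (nat_lit 0) (.at (nat_lit 0) (nat_lit 51) (.at (nat_lit 3377699733110784) (nat_lit 45)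
  (.add (.at (nat_lit 10133099199332352) (nat_lit 33) (.at (nat_lit 13510798932443136) (nat_lit 27)
  (.at (nat_lit 15199648798998528) (nat_lit 24) (.at (nat_lit 18577348532109312) (nat_lit 18) (.at
  (nat_lit 25332747998330880) (nat_lit 6) (.at (nat_lit 28710447731441664) (nat_lit 0) (.fold
  (nat_lit 0) (.add (.mul (nat_lit 8) (.fold (nat_lit 0) (.at (nat_lit 1688849866555392) (nat_lit
  48) (.add (.at (nat_lit 11821949065887744) (nat_lit 30) (.at (nat_lit 16888498665553920) (nat_lit
  21) (.at (nat_lit 27021597864886272) (nat_lit 3) (.mul (nat_lit 3) (.fold (nat_lit 0) (.add (.at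
  (nat_lit 15762598754516992) (nat_lit 23) (.at (nat_lit 16325548710035456) (nat_lit 22) (.at
  (nat_lit 17451448621072384) (nat_lit 20) (.at (nat_lit 18014398576590848) (nat_lit 19) (.at
  (nat_lit 25895697953849344) (nat_lit 5) (.at (nat_lit 26458647909367808) (nat_lit 4) (.at (nat_lit
  27584547820404736) (nat_lit 2) (.t (nat_lit 28147497775923200) (nat_lit 1))))))))) (.at (nat_lit
  562949955518464) (nat_lit 50) (.at (nat_lit 1125899911036928) (nat_lit 49) (.at (nat_lit
  2251799822073856) (nat_lit 47) (.at (nat_lit 2814749777592320) (nat_lit 46) (.at (nat_lit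
  10696049154850816) (nat_lit 32) (.at (nat_lit 11258999110369280) (nat_lit 31) (.at (nat_lit
  12384899021406208) (nat_lit 29) (.t (nat_lit 12947848976924672) (nat_lit 28))))))))))))))) (.mul
  (nat_lit 4) (.at (nat_lit 5066549599666176) (nat_lit 42) (.at (nat_lit 8444249332776960) (nat_lit
  36) (.at (nat_lit 20266198398664704) (nat_lit 15) (.t (nat_lit 23643898131775488) (nat_lit
  9)))))))))) (.mul (nat_lit 3) (.at (nat_lit 5629499555184640) (nat_lit 41) (.at (nat_lit
  6192449510703104) (nat_lit 40) (.at (nat_lit 7318349421740032) (nat_lit 38) (.at (nat_lit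
  7881299377258496) (nat_lit 37) (.at (nat_lit 20829148354183168) (nat_lit 14) (.at (nat_lit
  21392098309701632) (nat_lit 13) (.at (nat_lit 22517998220738560) (nat_lit 11) (.t (nat_lit
  23080948176257024) (nat_lit 10)))))))))))))))))) (.mul (nat_lit 4) (.at (nat_lit 6755399466221568)
  (nat_lit 39) (.t (nat_lit 21955048265220096) (nat_lit 12))))))))

/-- compiled program -/
def b11_51 : Prog := fun Y Z c d =>
  (fo Y d (nat_lit 0) (ad Z c (nat_lit 0) (ad Z c (nat_lit 3377699733110784) (Nat.add (ad Z c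
  (nat_lit 10133099199332352) (ad Z c (nat_lit 13510798932443136) (ad Z c (nat_lit
  15199648798998528) (ad Z c (nat_lit 18577348532109312) (ad Z c (nat_lit 25332747998330880) (ad Z c
  (nat_lit 28710447731441664) (fo Y d (nat_lit 0) (Nat.add (Nat.mul (nat_lit 8) (fo Y d (nat_lit 0)
  (ad Z c (nat_lit 1688849866555392) (Nat.add (ad Z c (nat_lit 11821949065887744) (ad Z c (nat_lit
  16888498665553920) (ad Z c (nat_lit 27021597864886272) (Nat.mul (nat_lit 3) (fo Y d (nat_lit 0)
  (Nat.add (ad Z c (nat_lit 15762598754516992) (ad Z c (nat_lit 16325548710035456) (ad Z c (nat_lit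
  17451448621072384) (ad Z c (nat_lit 18014398576590848) (ad Z c (nat_lit 25895697953849344) (ad Z c
  (nat_lit 26458647909367808) (ad Z c (nat_lit 27584547820404736) (tm Z c (nat_lit
  28147497775923200))))))))) (ad Z c (nat_lit 562949955518464) (ad Z c (nat_lit 1125899911036928)
  (ad Z c (nat_lit 2251799822073856) (ad Z c (nat_lit 2814749777592320) (ad Z c (nat_lit
  10696049154850816) (ad Z c (nat_lit 11258999110369280) (ad Z c (nat_lit 12384899021406208) (tm Z c
  (nat_lit 12947848976924672))))))))))))))) (Nat.mul (nat_lit 4) (ad Z c (nat_lit 5066549599666176)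
  (ad Z c (nat_lit 8444249332776960) (ad Z c (nat_lit 20266198398664704) (tm Z c (nat_lit
  23643898131775488)))))))))) (Nat.mul (nat_lit 3) (ad Z c (nat_lit 5629499555184640) (ad Z c
  (nat_lit 6192449510703104) (ad Z c (nat_lit 7318349421740032) (ad Z c (nat_lit 7881299377258496)
  (ad Z c (nat_lit 20829148354183168) (ad Z c (nat_lit 21392098309701632) (ad Z c (nat_lit
  22517998220738560) (tm Z c (nat_lit 23080948176257024)))))))))))))))))) (Nat.mul (nat_lit 4) (ad Z
  c (nat_lit 6755399466221568) (tm Z c (nat_lit 21955048265220096))))))))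

/-- program -/
def b11_52P : Pg :=
  (.fold (nat_lit 0) (.at (nat_lit 0) (nat_lit 52) (.fold (nat_lit 0) (.add (.at (nat_lit
  3940649688629248) (nat_lit 45) (.at (nat_lit 10133099199332352) (nat_lit 34) (.at (nat_lit
  14073748887961600) (nat_lit 27) (.at (nat_lit 15199648798998528) (nat_lit 25) (.at (nat_lit
  19140298487627776) (nat_lit 18) (.at (nat_lit 25332747998330880) (nat_lit 7) (.at (nat_lit
  29273397686960128) (nat_lit 0) (.fold (nat_lit 0) (.add (.mul (nat_lit 8) (.fold (nat_lit 0) (.add
  (.at (nat_lit 5629499555184640) (nat_lit 42) (.at (nat_lit 8444249332776960) (nat_lit 37) (.at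
  (nat_lit 20829148354183168) (nat_lit 15) (.at (nat_lit 23643898131775488) (nat_lit 10) (.mul
  (nat_lit 4) (.fold (nat_lit 0) (.at (nat_lit 1688849866555392) (nat_lit 49) (.at (nat_lit
  2251799822073856) (nat_lit 48) (.at (nat_lit 5066549599666176) (nat_lit 43) (.at (nat_lit
  9007199288295424) (nat_lit 36) (.at (nat_lit 11821949065887744) (nat_lit 31) (.at (nat_lit
  12384899021406208) (nat_lit 30) (.at (nat_lit 16888498665553920) (nat_lit 22) (.at (nat_lit
  17451448621072384) (nat_lit 21) (.at (nat_lit 20266198398664704) (nat_lit 16) (.at (nat_lit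
  24206848087293952) (nat_lit 9) (.at (nat_lit 27021597864886272) (nat_lit 4) (.t (nat_lit
  27584547820404736) (nat_lit 3))))))))))))))))))) (.mul (nat_lit 2) (.at (nat_lit 562949955518464)
  (nat_lit 51) (.at (nat_lit 3377699733110784) (nat_lit 46) (.at (nat_lit 6755399466221568) (nat_lit
  40) (.at (nat_lit 7318349421740032) (nat_lit 39) (.at (nat_lit 10696049154850816) (nat_lit 33)
  (.at (nat_lit 13510798932443136) (nat_lit 28) (.at (nat_lit 15762598754516992) (nat_lit 24) (.at
  (nat_lit 18577348532109312) (nat_lit 19) (.at (nat_lit 21955048265220096) (nat_lit 13) (.at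
  (nat_lit 22517998220738560) (nat_lit 12) (.at (nat_lit 25895697953849344) (nat_lit 6) (.t (nat_lit
  28710447731441664) (nat_lit 1))))))))))))))))) (.mul (nat_lit 6) (.at (nat_lit 6192449510703104)
  (nat_lit 41) (.at (nat_lit 7881299377258496) (nat_lit 38) (.at (nat_lit 21392098309701632)
  (nat_lit 14) (.t (nat_lit 23080948176257024) (nat_lit 11))))))))))))))) (.mul (nat_lit 3) (.at
  (nat_lit 1125899911036928) (nat_lit 50) (.at (nat_lit 2814749777592320) (nat_lit 47) (.at (nat_lit
  11258999110369280) (nat_lit 32) (.at (nat_lit 12947848976924672) (nat_lit 29) (.at (nat_lit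
  16325548710035456) (nat_lit 23) (.at (nat_lit 18014398576590848) (nat_lit 20) (.at (nat_lit
  26458647909367808) (nat_lit 5) (.t (nat_lit 28147497775923200) (nat_lit 2))))))))))))))

/-- compiled program -/
def b11_52 : Prog := fun Y Z c d =>
  (fo Y d (nat_lit 0) (ad Z c (nat_lit 0) (fo Y d (nat_lit 0) (Nat.add (ad Z c (nat_lit
  3940649688629248) (ad Z c (nat_lit 10133099199332352) (ad Z c (nat_lit 14073748887961600) (ad Z c
  (nat_lit 15199648798998528) (ad Z c (nat_lit 19140298487627776) (ad Z c (nat_lit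
  25332747998330880) (ad Z c (nat_lit 29273397686960128) (fo Y d (nat_lit 0) (Nat.add (Nat.mul
  (nat_lit 8) (fo Y d (nat_lit 0) (Nat.add (ad Z c (nat_lit 5629499555184640) (ad Z c (nat_lit
  8444249332776960) (ad Z c (nat_lit 20829148354183168) (ad Z c (nat_lit 23643898131775488) (Nat.mul
  (nat_lit 4) (fo Y d (nat_lit 0) (ad Z c (nat_lit 1688849866555392) (ad Z c (nat_lit
  2251799822073856) (ad Z c (nat_lit 5066549599666176) (ad Z c (nat_lit 9007199288295424) (ad Z c
  (nat_lit 11821949065887744) (ad Z c (nat_lit 12384899021406208) (ad Z c (nat_lit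
  16888498665553920) (ad Z c (nat_lit 17451448621072384) (ad Z c (nat_lit 20266198398664704) (ad Z c
  (nat_lit 24206848087293952) (ad Z c (nat_lit 27021597864886272) (tm Z c (nat_lit
  27584547820404736))))))))))))))))))) (Nat.mul (nat_lit 2) (ad Z c (nat_lit 562949955518464) (ad Z
  c (nat_lit 3377699733110784) (ad Z c (nat_lit 6755399466221568) (ad Z c (nat_lit 7318349421740032)
  (ad Z c (nat_lit 10696049154850816) (ad Z c (nat_lit 13510798932443136) (ad Z c (nat_lit
  15762598754516992) (ad Z c (nat_lit 18577348532109312) (ad Z c (nat_lit 21955048265220096) (ad Z c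
  (nat_lit 22517998220738560) (ad Z c (nat_lit 25895697953849344) (tm Z c (nat_lit
  28710447731441664))))))))))))))))) (Nat.mul (nat_lit 6) (ad Z c (nat_lit 6192449510703104) (ad Z c
  (nat_lit 7881299377258496) (ad Z c (nat_lit 21392098309701632) (tm Z c (nat_lit
  23080948176257024))))))))))))))) (Nat.mul (nat_lit 3) (ad Z c (nat_lit 1125899911036928) (ad Z c
  (nat_lit 2814749777592320) (ad Z c (nat_lit 11258999110369280) (ad Z c (nat_lit 12947848976924672)
  (ad Z c (nat_lit 16325548710035456) (ad Z c (nat_lit 18014398576590848) (ad Z c (nat_lit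
  26458647909367808) (tm Z c (nat_lit 28147497775923200))))))))))))))

/-- program -/
def b11_53P : Pg :=
  (.fold (nat_lit 0) (.add (.at (nat_lit 16325548710035456) (nat_lit 24) (.at (nat_lit
  17451448621072384) (nat_lit 22) (.at (nat_lit 18577348532109312) (nat_lit 20) (.at (nat_lit
  19703248443146240) (nat_lit 18) (.at (nat_lit 25332747998330880) (nat_lit 8) (.at (nat_lit
  26458647909367808) (nat_lit 6) (.at (nat_lit 27584547820404736) (nat_lit 4) (.at (nat_lit
  28710447731441664) (nat_lit 2) (.at (nat_lit 29836347642478592) (nat_lit 0) (.add (.fold (nat_lit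
  0) (.mul (nat_lit 4) (.at (nat_lit 5629499555184640) (nat_lit 43) (.at (nat_lit 6755399466221568)
  (nat_lit 41) (.at (nat_lit 7881299377258496) (nat_lit 39) (.at (nat_lit 9007199288295424) (nat_lit
  37) (.at (nat_lit 20829148354183168) (nat_lit 16) (.at (nat_lit 21955048265220096) (nat_lit 14)
  (.at (nat_lit 23080948176257024) (nat_lit 12) (.t (nat_lit 24206848087293952) (nat_lit
  10))))))))))) (.mul (nat_lit 8) (.fold (nat_lit 0) (.add (.at (nat_lit 15762598754516992) (nat_lit
  25) (.at (nat_lit 16888498665553920) (nat_lit 23) (.at (nat_lit 18014398576590848) (nat_lit 21)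
  (.at (nat_lit 19140298487627776) (nat_lit 19) (.at (nat_lit 25895697953849344) (nat_lit 7) (.at
  (nat_lit 27021597864886272) (nat_lit 5) (.at (nat_lit 28147497775923200) (nat_lit 3) (.at (nat_lit
  29273397686960128) (nat_lit 1) (.mul (nat_lit 4) (.fold (nat_lit 0) (.at (nat_lit
  5066549599666176) (nat_lit 44) (.at (nat_lit 6192449510703104) (nat_lit 42) (.at (nat_lit
  7318349421740032) (nat_lit 40) (.at (nat_lit 8444249332776960) (nat_lit 38) (.at (nat_lit
  9570149243813888) (nat_lit 36) (.at (nat_lit 20266198398664704) (nat_lit 17) (.at (nat_lit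
  21392098309701632) (nat_lit 15) (.at (nat_lit 22517998220738560) (nat_lit 13) (.at (nat_lit
  23643898131775488) (nat_lit 11) (.t (nat_lit 24769798042812416) (nat_lit 9)))))))))))))))))))))
  (.at (nat_lit 562949955518464) (nat_lit 52) (.at (nat_lit 1688849866555392) (nat_lit 50) (.at
  (nat_lit 2814749777592320) (nat_lit 48) (.at (nat_lit 3940649688629248) (nat_lit 46) (.at (nat_lit
  10696049154850816) (nat_lit 34) (.at (nat_lit 11821949065887744) (nat_lit 32) (.at (nat_lit
  12947848976924672) (nat_lit 30) (.t (nat_lit 14073748887961600) (nat_lit 28))))))))))))))))))))))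
  (.at (nat_lit 0) (nat_lit 53) (.at (nat_lit 1125899911036928) (nat_lit 51) (.at (nat_lit
  2251799822073856) (nat_lit 49) (.at (nat_lit 3377699733110784) (nat_lit 47) (.at (nat_lit
  4503599644147712) (nat_lit 45) (.at (nat_lit 10133099199332352) (nat_lit 35) (.at (nat_lit
  11258999110369280) (nat_lit 33) (.at (nat_lit 12384899021406208) (nat_lit 31) (.at (nat_lit
  13510798932443136) (nat_lit 29) (.at (nat_lit 14636698843480064) (nat_lit 27) (.t (nat_lit
  15199648798998528) (nat_lit 26))))))))))))))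

/-- compiled program -/
def b11_53 : Prog := fun Y Z c d =>
  (fo Y d (nat_lit 0) (Nat.add (ad Z c (nat_lit 16325548710035456) (ad Z c (nat_lit
  17451448621072384) (ad Z c (nat_lit 18577348532109312) (ad Z c (nat_lit 19703248443146240) (ad Z c
  (nat_lit 25332747998330880) (ad Z c (nat_lit 26458647909367808) (ad Z c (nat_lit
  27584547820404736) (ad Z c (nat_lit 28710447731441664) (ad Z c (nat_lit 29836347642478592)
  (Nat.add (fo Y d (nat_lit 0) (Nat.mul (nat_lit 4) (ad Z c (nat_lit 5629499555184640) (ad Z c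
  (nat_lit 6755399466221568) (ad Z c (nat_lit 7881299377258496) (ad Z c (nat_lit 9007199288295424)
  (ad Z c (nat_lit 20829148354183168) (ad Z c (nat_lit 21955048265220096) (ad Z c (nat_lit
  23080948176257024) (tm Z c (nat_lit 24206848087293952))))))))))) (Nat.mul (nat_lit 8) (fo Y d
  (nat_lit 0) (Nat.add (ad Z c (nat_lit 15762598754516992) (ad Z c (nat_lit 16888498665553920) (ad Z
  c (nat_lit 18014398576590848) (ad Z c (nat_lit 19140298487627776) (ad Z c (nat_lit
  25895697953849344) (ad Z c (nat_lit 27021597864886272) (ad Z c (nat_lit 28147497775923200) (ad Z c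
  (nat_lit 29273397686960128) (Nat.mul (nat_lit 4) (fo Y d (nat_lit 0) (ad Z c (nat_lit
  5066549599666176) (ad Z c (nat_lit 6192449510703104) (ad Z c (nat_lit 7318349421740032) (ad Z c
  (nat_lit 8444249332776960) (ad Z c (nat_lit 9570149243813888) (ad Z c (nat_lit 20266198398664704)
  (ad Z c (nat_lit 21392098309701632) (ad Z c (nat_lit 22517998220738560) (ad Z c (nat_lit
  23643898131775488) (tm Z c (nat_lit 24769798042812416))))))))))))))))))))) (ad Z c (nat_lit
  562949955518464) (ad Z c (nat_lit 1688849866555392) (ad Z c (nat_lit 2814749777592320) (ad Z c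
  (nat_lit 3940649688629248) (ad Z c (nat_lit 10696049154850816) (ad Z c (nat_lit 11821949065887744)
  (ad Z c (nat_lit 12947848976924672) (tm Z c (nat_lit 14073748887961600)))))))))))))))))))))) (ad Z
  c (nat_lit 0) (ad Z c (nat_lit 1125899911036928) (ad Z c (nat_lit 2251799822073856) (ad Z c
  (nat_lit 3377699733110784) (ad Z c (nat_lit 4503599644147712) (ad Z c (nat_lit 10133099199332352)
  (ad Z c (nat_lit 11258999110369280) (ad Z c (nat_lit 12384899021406208) (ad Z c (nat_lit
  13510798932443136) (ad Z c (nat_lit 14636698843480064) (tm Z c (nat_lit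
  15199648798998528))))))))))))))

/-- program -/
def b11_54P : Pg :=
  (.fold (nat_lit 0) (.at (nat_lit 0) (nat_lit 54) (.add (.at (nat_lit 30399297597997056) (nat_lit
  0) (.mul (nat_lit 2) (.t (nat_lit 15199648798998528) (nat_lit 27)))) (.mul (nat_lit 6) (.at
  (nat_lit 5066549599666176) (nat_lit 45) (.at (nat_lit 10133099199332352) (nat_lit 36) (.at
  (nat_lit 20266198398664704) (nat_lit 18) (.t (nat_lit 25332747998330880) (nat_lit 9)))))))))

/-- compiled program -/
def b11_54 : Prog := fun Y Z c d =>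
  (fo Y d (nat_lit 0) (ad Z c (nat_lit 0) (Nat.add (ad Z c (nat_lit 30399297597997056) (Nat.mul
  (nat_lit 2) (tm Z c (nat_lit 15199648798998528)))) (Nat.mul (nat_lit 6) (ad Z c (nat_lit
  5066549599666176) (ad Z c (nat_lit 10133099199332352) (ad Z c (nat_lit 20266198398664704) (tm Z c
  (nat_lit 25332747998330880)))))))))

/-- program -/
def b11_55P : Pg :=
  (.fold (nat_lit 0) (.at (nat_lit 0) (nat_lit 55) (.at (nat_lit 562949955518464) (nat_lit 54) (.add
  (.at (nat_lit 30399297597997056) (nat_lit 1) (.at (nat_lit 30962247553515520) (nat_lit 0) (.mul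
  (nat_lit 6) (.fold (nat_lit 0) (.at (nat_lit 5066549599666176) (nat_lit 46) (.at (nat_lit
  5629499555184640) (nat_lit 45) (.at (nat_lit 10133099199332352) (nat_lit 37) (.at (nat_lit
  10696049154850816) (nat_lit 36) (.at (nat_lit 20266198398664704) (nat_lit 19) (.at (nat_lit
  20829148354183168) (nat_lit 18) (.at (nat_lit 25332747998330880) (nat_lit 10) (.t (nat_lit
  25895697953849344) (nat_lit 9))))))))))))) (.mul (nat_lit 2) (.at (nat_lit 15199648798998528)
  (nat_lit 28) (.t (nat_lit 15762598754516992) (nat_lit 27))))))))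

/-- compiled program -/
def b11_55 : Prog := fun Y Z c d =>
  (fo Y d (nat_lit 0) (ad Z c (nat_lit 0) (ad Z c (nat_lit 562949955518464) (Nat.add (ad Z c
  (nat_lit 30399297597997056) (ad Z c (nat_lit 30962247553515520) (Nat.mul (nat_lit 6) (fo Y d
  (nat_lit 0) (ad Z c (nat_lit 5066549599666176) (ad Z c (nat_lit 5629499555184640) (ad Z c (nat_lit
  10133099199332352) (ad Z c (nat_lit 10696049154850816) (ad Z c (nat_lit 20266198398664704) (ad Z c
  (nat_lit 20829148354183168) (ad Z c (nat_lit 25332747998330880) (tm Z c (nat_lit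
  25895697953849344))))))))))))) (Nat.mul (nat_lit 2) (ad Z c (nat_lit 15199648798998528) (tm Z c
  (nat_lit 15762598754516992))))))))

/-- program -/
def b11_56P : Pg :=
  (.fold (nat_lit 0) (.at (nat_lit 0) (nat_lit 56) (.at (nat_lit 1125899911036928) (nat_lit 54)
  (.fold (nat_lit 0) (.add (.add (.add (.at (nat_lit 30399297597997056) (nat_lit 2) (.at (nat_lit
  31525197509033984) (nat_lit 0) (.mul (nat_lit 6) (.fold (nat_lit 0) (.at (nat_lit
  5066549599666176) (nat_lit 47) (.at (nat_lit 6192449510703104) (nat_lit 45) (.at (nat_lit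
  10133099199332352) (nat_lit 38) (.at (nat_lit 11258999110369280) (nat_lit 36) (.at (nat_lit
  20266198398664704) (nat_lit 20) (.at (nat_lit 21392098309701632) (nat_lit 18) (.at (nat_lit
  25332747998330880) (nat_lit 11) (.t (nat_lit 26458647909367808) (nat_lit 9))))))))))))) (.mul
  (nat_lit 4) (.t (nat_lit 15762598754516992) (nat_lit 28)))) (.mul (nat_lit 3) (.at (nat_lit
  5629499555184640) (nat_lit 46) (.at (nat_lit 10696049154850816) (nat_lit 37) (.at (nat_lit
  20829148354183168) (nat_lit 19) (.t (nat_lit 25895697953849344) (nat_lit 10))))))) (.mul (nat_lit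
  2) (.at (nat_lit 562949955518464) (nat_lit 55) (.at (nat_lit 15199648798998528) (nat_lit 29) (.at
  (nat_lit 16325548710035456) (nat_lit 27) (.t (nat_lit 30962247553515520) (nat_lit 1)))))))))))

/-- compiled program -/
def b11_56 : Prog := fun Y Z c d =>
  (fo Y d (nat_lit 0) (ad Z c (nat_lit 0) (ad Z c (nat_lit 1125899911036928) (fo Y d (nat_lit 0)
  (Nat.add (Nat.add (Nat.add (ad Z c (nat_lit 30399297597997056) (ad Z c (nat_lit 31525197509033984)
  (Nat.mul (nat_lit 6) (fo Y d (nat_lit 0) (ad Z c (nat_lit 5066549599666176) (ad Z c (nat_lit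
  6192449510703104) (ad Z c (nat_lit 10133099199332352) (ad Z c (nat_lit 11258999110369280) (ad Z c
  (nat_lit 20266198398664704) (ad Z c (nat_lit 21392098309701632) (ad Z c (nat_lit
  25332747998330880) (tm Z c (nat_lit 26458647909367808))))))))))))) (Nat.mul (nat_lit 4) (tm Z c
  (nat_lit 15762598754516992)))) (Nat.mul (nat_lit 3) (ad Z c (nat_lit 5629499555184640) (ad Z c
  (nat_lit 10696049154850816) (ad Z c (nat_lit 20829148354183168) (tm Z c (nat_lit
  25895697953849344))))))) (Nat.mul (nat_lit 2) (ad Z c (nat_lit 562949955518464) (ad Z c (nat_lit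
  15199648798998528) (ad Z c (nat_lit 16325548710035456) (tm Z c (nat_lit
  30962247553515520)))))))))))

/-- program -/
def b11_57P : Pg :=
  (.fold (nat_lit 0) (.at (nat_lit 0) (nat_lit 57) (.add (.at (nat_lit 1688849866555392) (nat_lit
  54) (.add (.at (nat_lit 30399297597997056) (nat_lit 3) (.at (nat_lit 32088147464552448) (nat_lit
  0) (.mul (nat_lit 6) (.fold (nat_lit 0) (.at (nat_lit 5066549599666176) (nat_lit 48) (.at (nat_lit
  6755399466221568) (nat_lit 45) (.at (nat_lit 10133099199332352) (nat_lit 39) (.at (nat_lit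
  11821949065887744) (nat_lit 36) (.at (nat_lit 15762598754516992) (nat_lit 29) (.at (nat_lit
  16325548710035456) (nat_lit 28) (.at (nat_lit 20266198398664704) (nat_lit 21) (.at (nat_lit
  21955048265220096) (nat_lit 18) (.at (nat_lit 25332747998330880) (nat_lit 12) (.t (nat_lit
  27021597864886272) (nat_lit 9))))))))))))))) (.mul (nat_lit 2) (.at (nat_lit 15199648798998528)
  (nat_lit 30) (.t (nat_lit 16888498665553920) (nat_lit 27)))))) (.mul (nat_lit 3) (.at (nat_lit
  562949955518464) (nat_lit 56) (.at (nat_lit 1125899911036928) (nat_lit 55) (.at (nat_lit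
  30962247553515520) (nat_lit 2) (.t (nat_lit 31525197509033984) (nat_lit 1)))))))))

/-- compiled program -/
def b11_57 : Prog := fun Y Z c d =>
  (fo Y d (nat_lit 0) (ad Z c (nat_lit 0) (Nat.add (ad Z c (nat_lit 1688849866555392) (Nat.add (ad Z
  c (nat_lit 30399297597997056) (ad Z c (nat_lit 32088147464552448) (Nat.mul (nat_lit 6) (fo Y d
  (nat_lit 0) (ad Z c (nat_lit 5066549599666176) (ad Z c (nat_lit 6755399466221568) (ad Z c (nat_lit
  10133099199332352) (ad Z c (nat_lit 11821949065887744) (ad Z c (nat_lit 15762598754516992) (ad Z c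
  (nat_lit 16325548710035456) (ad Z c (nat_lit 20266198398664704) (ad Z c (nat_lit
  21955048265220096) (ad Z c (nat_lit 25332747998330880) (tm Z c (nat_lit
  27021597864886272))))))))))))))) (Nat.mul (nat_lit 2) (ad Z c (nat_lit 15199648798998528) (tm Z c
  (nat_lit 16888498665553920)))))) (Nat.mul (nat_lit 3) (ad Z c (nat_lit 562949955518464) (ad Z c
  (nat_lit 1125899911036928) (ad Z c (nat_lit 30962247553515520) (tm Z c (nat_lit
  31525197509033984)))))))))

/-- program -/
def b11_58P : Pg :=
  (.fold (nat_lit 0) (.at (nat_lit 0) (nat_lit 58) (.at (nat_lit 2251799822073856) (nat_lit 54)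
  (.add (.add (.at (nat_lit 30399297597997056) (nat_lit 4) (.at (nat_lit 32651097420070912) (nat_lit
  0) (.add (.fold (nat_lit 0) (.add (.mul (nat_lit 8) (.at (nat_lit 15762598754516992) (nat_lit 30)
  (.t (nat_lit 16888498665553920) (nat_lit 28)))) (.mul (nat_lit 4) (.at (nat_lit 562949955518464)
  (nat_lit 57) (.at (nat_lit 1688849866555392) (nat_lit 55) (.at (nat_lit 30962247553515520)
  (nat_lit 3) (.t (nat_lit 32088147464552448) (nat_lit 1)))))))) (.mul (nat_lit 6) (.fold (nat_lit
  0) (.add (.at (nat_lit 20266198398664704) (nat_lit 22) (.at (nat_lit 20829148354183168) (nat_lit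
  21) (.at (nat_lit 21955048265220096) (nat_lit 19) (.at (nat_lit 22517998220738560) (nat_lit 18)
  (.at (nat_lit 25332747998330880) (nat_lit 13) (.at (nat_lit 25895697953849344) (nat_lit 12) (.at
  (nat_lit 27021597864886272) (nat_lit 10) (.at (nat_lit 27584547820404736) (nat_lit 9) (.t (nat_lit
  31525197509033984) (nat_lit 2)))))))))) (.at (nat_lit 1125899911036928) (nat_lit 56) (.at (nat_lit
  5066549599666176) (nat_lit 49) (.at (nat_lit 5629499555184640) (nat_lit 48) (.at (nat_lit
  6755399466221568) (nat_lit 46) (.at (nat_lit 7318349421740032) (nat_lit 45) (.at (nat_lit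
  10133099199332352) (nat_lit 40) (.at (nat_lit 10696049154850816) (nat_lit 39) (.at (nat_lit
  11821949065887744) (nat_lit 37) (.t (nat_lit 12384899021406208) (nat_lit 36)))))))))))))))) (.mul
  (nat_lit 3) (.t (nat_lit 16325548710035456) (nat_lit 29)))) (.mul (nat_lit 2) (.at (nat_lit
  15199648798998528) (nat_lit 31) (.t (nat_lit 17451448621072384) (nat_lit 27))))))))

/-- compiled program -/
def b11_58 : Prog := fun Y Z c d =>
  (fo Y d (nat_lit 0) (ad Z c (nat_lit 0) (ad Z c (nat_lit 2251799822073856) (Nat.add (Nat.add (ad Z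
  c (nat_lit 30399297597997056) (ad Z c (nat_lit 32651097420070912) (Nat.add (fo Y d (nat_lit 0)
  (Nat.add (Nat.mul (nat_lit 8) (ad Z c (nat_lit 15762598754516992) (tm Z c (nat_lit
  16888498665553920)))) (Nat.mul (nat_lit 4) (ad Z c (nat_lit 562949955518464) (ad Z c (nat_lit
  1688849866555392) (ad Z c (nat_lit 30962247553515520) (tm Z c (nat_lit 32088147464552448))))))))
  (Nat.mul (nat_lit 6) (fo Y d (nat_lit 0) (Nat.add (ad Z c (nat_lit 20266198398664704) (ad Z c
  (nat_lit 20829148354183168) (ad Z c (nat_lit 21955048265220096) (ad Z c (nat_lit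
  22517998220738560) (ad Z c (nat_lit 25332747998330880) (ad Z c (nat_lit 25895697953849344) (ad Z c
  (nat_lit 27021597864886272) (ad Z c (nat_lit 27584547820404736) (tm Z c (nat_lit
  31525197509033984)))))))))) (ad Z c (nat_lit 1125899911036928) (ad Z c (nat_lit 5066549599666176)
  (ad Z c (nat_lit 5629499555184640) (ad Z c (nat_lit 6755399466221568) (ad Z c (nat_lit
  7318349421740032) (ad Z c (nat_lit 10133099199332352) (ad Z c (nat_lit 10696049154850816) (ad Z c
  (nat_lit 11821949065887744) (tm Z c (nat_lit 12384899021406208)))))))))))))))) (Nat.mul (nat_lit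
  3) (tm Z c (nat_lit 16325548710035456)))) (Nat.mul (nat_lit 2) (ad Z c (nat_lit 15199648798998528)
  (tm Z c (nat_lit 17451448621072384))))))))

/-- program -/
def b11_59P : Pg :=
  (.fold (nat_lit 0) (.at (nat_lit 0) (nat_lit 59) (.at (nat_lit 1125899911036928) (nat_lit 57) (.at
  (nat_lit 1688849866555392) (nat_lit 56) (.at (nat_lit 2814749777592320) (nat_lit 54) (.at (nat_lit
  15762598754516992) (nat_lit 31) (.fold (nat_lit 0) (.add (.at (nat_lit 17451448621072384) (nat_lit
  28) (.at (nat_lit 30399297597997056) (nat_lit 5) (.at (nat_lit 31525197509033984) (nat_lit 3) (.at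
  (nat_lit 32088147464552448) (nat_lit 2) (.at (nat_lit 33214047375589376) (nat_lit 0) (.add (.fold
  (nat_lit 0) (.add (.mul (nat_lit 2) (.at (nat_lit 15199648798998528) (nat_lit 32) (.at (nat_lit
  16325548710035456) (nat_lit 30) (.at (nat_lit 16888498665553920) (nat_lit 29) (.t (nat_lit
  18014398576590848) (nat_lit 27)))))) (.mul (nat_lit 3) (.at (nat_lit 5629499555184640) (nat_lit
  49) (.at (nat_lit 7318349421740032) (nat_lit 46) (.at (nat_lit 10696049154850816) (nat_lit 40)
  (.at (nat_lit 12384899021406208) (nat_lit 37) (.at (nat_lit 20829148354183168) (nat_lit 22) (.at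
  (nat_lit 22517998220738560) (nat_lit 19) (.at (nat_lit 25895697953849344) (nat_lit 13) (.t
  (nat_lit 27584547820404736) (nat_lit 10)))))))))))) (.mul (nat_lit 6) (.fold (nat_lit 0) (.add
  (.at (nat_lit 20266198398664704) (nat_lit 23) (.at (nat_lit 21392098309701632) (nat_lit 21) (.at
  (nat_lit 21955048265220096) (nat_lit 20) (.at (nat_lit 23080948176257024) (nat_lit 18) (.at
  (nat_lit 25332747998330880) (nat_lit 14) (.at (nat_lit 26458647909367808) (nat_lit 12) (.at
  (nat_lit 27021597864886272) (nat_lit 11) (.t (nat_lit 28147497775923200) (nat_lit 9))))))))) (.at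
  (nat_lit 5066549599666176) (nat_lit 50) (.at (nat_lit 6192449510703104) (nat_lit 48) (.at (nat_lit
  6755399466221568) (nat_lit 47) (.at (nat_lit 7881299377258496) (nat_lit 45) (.at (nat_lit
  10133099199332352) (nat_lit 41) (.at (nat_lit 11258999110369280) (nat_lit 39) (.at (nat_lit
  11821949065887744) (nat_lit 38) (.t (nat_lit 12947848976924672) (nat_lit 36))))))))))))))))))
  (.mul (nat_lit 5) (.at (nat_lit 562949955518464) (nat_lit 58) (.at (nat_lit 2251799822073856)
  (nat_lit 55) (.at (nat_lit 30962247553515520) (nat_lit 4) (.t (nat_lit 32651097420070912) (nat_lit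
  1))))))))))))))

/-- compiled program -/
def b11_59 : Prog := fun Y Z c d =>
  (fo Y d (nat_lit 0) (ad Z c (nat_lit 0) (ad Z c (nat_lit 1125899911036928) (ad Z c (nat_lit
  1688849866555392) (ad Z c (nat_lit 2814749777592320) (ad Z c (nat_lit 15762598754516992) (fo Y d
  (nat_lit 0) (Nat.add (ad Z c (nat_lit 17451448621072384) (ad Z c (nat_lit 30399297597997056) (ad Z
  c (nat_lit 31525197509033984) (ad Z c (nat_lit 32088147464552448) (ad Z c (nat_lit
  33214047375589376) (Nat.add (fo Y d (nat_lit 0) (Nat.add (Nat.mul (nat_lit 2) (ad Z c (nat_lit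
  15199648798998528) (ad Z c (nat_lit 16325548710035456) (ad Z c (nat_lit 16888498665553920) (tm Z c
  (nat_lit 18014398576590848)))))) (Nat.mul (nat_lit 3) (ad Z c (nat_lit 5629499555184640) (ad Z c
  (nat_lit 7318349421740032) (ad Z c (nat_lit 10696049154850816) (ad Z c (nat_lit 12384899021406208)
  (ad Z c (nat_lit 20829148354183168) (ad Z c (nat_lit 22517998220738560) (ad Z c (nat_lit
  25895697953849344) (tm Z c (nat_lit 27584547820404736)))))))))))) (Nat.mul (nat_lit 6) (fo Y d
  (nat_lit 0) (Nat.add (ad Z c (nat_lit 20266198398664704) (ad Z c (nat_lit 21392098309701632) (ad Z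
  c (nat_lit 21955048265220096) (ad Z c (nat_lit 23080948176257024) (ad Z c (nat_lit
  25332747998330880) (ad Z c (nat_lit 26458647909367808) (ad Z c (nat_lit 27021597864886272) (tm Z c
  (nat_lit 28147497775923200))))))))) (ad Z c (nat_lit 5066549599666176) (ad Z c (nat_lit
  6192449510703104) (ad Z c (nat_lit 6755399466221568) (ad Z c (nat_lit 7881299377258496) (ad Z c
  (nat_lit 10133099199332352) (ad Z c (nat_lit 11258999110369280) (ad Z c (nat_lit
  11821949065887744) (tm Z c (nat_lit 12947848976924672)))))))))))))))))) (Nat.mul (nat_lit 5) (ad Z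
  c (nat_lit 562949955518464) (ad Z c (nat_lit 2251799822073856) (ad Z c (nat_lit 30962247553515520)
  (tm Z c (nat_lit 32651097420070912))))))))))))))

/-- program -/
def b11_60P : Pg :=
  (.fold (nat_lit 0) (.at (nat_lit 0) (nat_lit 60) (.at (nat_lit 3377699733110784) (nat_lit 54)
  (.add (.at (nat_lit 30399297597997056) (nat_lit 6) (.at (nat_lit 33776997331107840) (nat_lit 0)
  (.add (.fold (nat_lit 0) (.add (.mul (nat_lit 3) (.at (nat_lit 6755399466221568) (nat_lit 48) (.at
  (nat_lit 11821949065887744) (nat_lit 39) (.at (nat_lit 15762598754516992) (nat_lit 32) (.at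
  (nat_lit 16325548710035456) (nat_lit 31) (.at (nat_lit 17451448621072384) (nat_lit 29) (.at
  (nat_lit 18014398576590848) (nat_lit 28) (.at (nat_lit 21955048265220096) (nat_lit 21) (.t
  (nat_lit 27021597864886272) (nat_lit 12)))))))))) (.mul (nat_lit 2) (.at (nat_lit
  1688849866555392) (nat_lit 57) (.at (nat_lit 15199648798998528) (nat_lit 33) (.at (nat_lit
  18577348532109312) (nat_lit 27) (.t (nat_lit 32088147464552448) (nat_lit 3)))))))) (.mul (nat_lit
  6) (.fold (nat_lit 0) (.add (.at (nat_lit 20266198398664704) (nat_lit 24) (.at (nat_lit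
  23643898131775488) (nat_lit 18) (.at (nat_lit 25332747998330880) (nat_lit 15) (.at (nat_lit
  28710447731441664) (nat_lit 9) (.at (nat_lit 30962247553515520) (nat_lit 5) (.at (nat_lit
  31525197509033984) (nat_lit 4) (.at (nat_lit 32651097420070912) (nat_lit 2) (.t (nat_lit
  33214047375589376) (nat_lit 1))))))))) (.at (nat_lit 562949955518464) (nat_lit 59) (.at (nat_lit
  1125899911036928) (nat_lit 58) (.at (nat_lit 2251799822073856) (nat_lit 56) (.at (nat_lit
  2814749777592320) (nat_lit 55) (.at (nat_lit 5066549599666176) (nat_lit 51) (.at (nat_lit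
  8444249332776960) (nat_lit 45) (.at (nat_lit 10133099199332352) (nat_lit 42) (.t (nat_lit
  13510798932443136) (nat_lit 36))))))))))))))) (.mul (nat_lit 4) (.t (nat_lit 16888498665553920)
  (nat_lit 30)))))))

/-- compiled program -/
def b11_60 : Prog := fun Y Z c d =>
  (fo Y d (nat_lit 0) (ad Z c (nat_lit 0) (ad Z c (nat_lit 3377699733110784) (Nat.add (ad Z c
  (nat_lit 30399297597997056) (ad Z c (nat_lit 33776997331107840) (Nat.add (fo Y d (nat_lit 0)
  (Nat.add (Nat.mul (nat_lit 3) (ad Z c (nat_lit 6755399466221568) (ad Z c (nat_lit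
  11821949065887744) (ad Z c (nat_lit 15762598754516992) (ad Z c (nat_lit 16325548710035456) (ad Z c
  (nat_lit 17451448621072384) (ad Z c (nat_lit 18014398576590848) (ad Z c (nat_lit
  21955048265220096) (tm Z c (nat_lit 27021597864886272)))))))))) (Nat.mul (nat_lit 2) (ad Z c
  (nat_lit 1688849866555392) (ad Z c (nat_lit 15199648798998528) (ad Z c (nat_lit 18577348532109312)
  (tm Z c (nat_lit 32088147464552448)))))))) (Nat.mul (nat_lit 6) (fo Y d (nat_lit 0) (Nat.add (ad Z
  c (nat_lit 20266198398664704) (ad Z c (nat_lit 23643898131775488) (ad Z c (nat_lit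
  25332747998330880) (ad Z c (nat_lit 28710447731441664) (ad Z c (nat_lit 30962247553515520) (ad Z c
  (nat_lit 31525197509033984) (ad Z c (nat_lit 32651097420070912) (tm Z c (nat_lit
  33214047375589376))))))))) (ad Z c (nat_lit 562949955518464) (ad Z c (nat_lit 1125899911036928)
  (ad Z c (nat_lit 2251799822073856) (ad Z c (nat_lit 2814749777592320) (ad Z c (nat_lit
  5066549599666176) (ad Z c (nat_lit 8444249332776960) (ad Z c (nat_lit 10133099199332352) (tm Z c
  (nat_lit 13510798932443136))))))))))))))) (Nat.mul (nat_lit 4) (tm Z c (nat_lit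
  16888498665553920)))))))

/-- program -/
def b11_61P : Pg :=
  (.fold (nat_lit 0) (.at (nat_lit 0) (nat_lit 61) (.at (nat_lit 3940649688629248) (nat_lit 54)
  (.add (.at (nat_lit 30399297597997056) (nat_lit 7) (.at (nat_lit 34339947286626304) (nat_lit 0)
  (.add (.mul (nat_lit 3) (.fold (nat_lit 0) (.at (nat_lit 1125899911036928) (nat_lit 59) (.at
  (nat_lit 2814749777592320) (nat_lit 56) (.at (nat_lit 6755399466221568) (nat_lit 49) (.at (nat_lit
  7318349421740032) (nat_lit 48) (.at (nat_lit 11821949065887744) (nat_lit 40) (.at (nat_lit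
  12384899021406208) (nat_lit 39) (.at (nat_lit 21955048265220096) (nat_lit 22) (.at (nat_lit
  22517998220738560) (nat_lit 21) (.at (nat_lit 27021597864886272) (nat_lit 13) (.at (nat_lit
  27584547820404736) (nat_lit 12) (.at (nat_lit 31525197509033984) (nat_lit 5) (.t (nat_lit
  33214047375589376) (nat_lit 2))))))))))))))) (.mul (nat_lit 8) (.fold (nat_lit 0) (.add (.at
  (nat_lit 1688849866555392) (nat_lit 58) (.at (nat_lit 2251799822073856) (nat_lit 57) (.add (.at
  (nat_lit 32088147464552448) (nat_lit 4) (.at (nat_lit 32651097420070912) (nat_lit 3) (.mul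
  (nat_lit 3) (.fold (nat_lit 0) (.add (.at (nat_lit 18014398576590848) (nat_lit 29) (.at (nat_lit
  20266198398664704) (nat_lit 25) (.at (nat_lit 20829148354183168) (nat_lit 24) (.at (nat_lit
  23643898131775488) (nat_lit 19) (.at (nat_lit 24206848087293952) (nat_lit 18) (.at (nat_lit
  25332747998330880) (nat_lit 16) (.at (nat_lit 25895697953849344) (nat_lit 15) (.at (nat_lit
  28710447731441664) (nat_lit 10) (.t (nat_lit 29273397686960128) (nat_lit 9)))))))))) (.at (nat_lit
  5066549599666176) (nat_lit 52) (.at (nat_lit 5629499555184640) (nat_lit 51) (.at (nat_lit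
  8444249332776960) (nat_lit 46) (.at (nat_lit 9007199288295424) (nat_lit 45) (.at (nat_lit
  10133099199332352) (nat_lit 43) (.at (nat_lit 10696049154850816) (nat_lit 42) (.at (nat_lit
  13510798932443136) (nat_lit 37) (.at (nat_lit 14073748887961600) (nat_lit 36) (.t (nat_lit
  16325548710035456) (nat_lit 32))))))))))))))) (.mul (nat_lit 4) (.at (nat_lit 15762598754516992)
  (nat_lit 33) (.t (nat_lit 18577348532109312) (nat_lit 28))))))) (.mul (nat_lit 2) (.at (nat_lit
  562949955518464) (nat_lit 60) (.at (nat_lit 3377699733110784) (nat_lit 55) (.at (nat_lit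
  16888498665553920) (nat_lit 31) (.at (nat_lit 17451448621072384) (nat_lit 30) (.at (nat_lit
  30962247553515520) (nat_lit 6) (.t (nat_lit 33776997331107840) (nat_lit 1)))))))))))))) (.mul
  (nat_lit 2) (.at (nat_lit 15199648798998528) (nat_lit 34) (.t (nat_lit 19140298487627776) (nat_lit
  27))))))))

/-- compiled program -/
def b11_61 : Prog := fun Y Z c d =>
  (fo Y d (nat_lit 0) (ad Z c (nat_lit 0) (ad Z c (nat_lit 3940649688629248) (Nat.add (ad Z c
  (nat_lit 30399297597997056) (ad Z c (nat_lit 34339947286626304) (Nat.add (Nat.mul (nat_lit 3) (fo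
  Y d (nat_lit 0) (ad Z c (nat_lit 1125899911036928) (ad Z c (nat_lit 2814749777592320) (ad Z c
  (nat_lit 6755399466221568) (ad Z c (nat_lit 7318349421740032) (ad Z c (nat_lit 11821949065887744)
  (ad Z c (nat_lit 12384899021406208) (ad Z c (nat_lit 21955048265220096) (ad Z c (nat_lit
  22517998220738560) (ad Z c (nat_lit 27021597864886272) (ad Z c (nat_lit 27584547820404736) (ad Z c
  (nat_lit 31525197509033984) (tm Z c (nat_lit 33214047375589376))))))))))))))) (Nat.mul (nat_lit 8)
  (fo Y d (nat_lit 0) (Nat.add (ad Z c (nat_lit 1688849866555392) (ad Z c (nat_lit 2251799822073856)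
  (Nat.add (ad Z c (nat_lit 32088147464552448) (ad Z c (nat_lit 32651097420070912) (Nat.mul (nat_lit
  3) (fo Y d (nat_lit 0) (Nat.add (ad Z c (nat_lit 18014398576590848) (ad Z c (nat_lit
  20266198398664704) (ad Z c (nat_lit 20829148354183168) (ad Z c (nat_lit 23643898131775488) (ad Z c
  (nat_lit 24206848087293952) (ad Z c (nat_lit 25332747998330880) (ad Z c (nat_lit
  25895697953849344) (ad Z c (nat_lit 28710447731441664) (tm Z c (nat_lit
  29273397686960128)))))))))) (ad Z c (nat_lit 5066549599666176) (ad Z c (nat_lit 5629499555184640)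
  (ad Z c (nat_lit 8444249332776960) (ad Z c (nat_lit 9007199288295424) (ad Z c (nat_lit
  10133099199332352) (ad Z c (nat_lit 10696049154850816) (ad Z c (nat_lit 13510798932443136) (ad Z c
  (nat_lit 14073748887961600) (tm Z c (nat_lit 16325548710035456))))))))))))))) (Nat.mul (nat_lit 4)
  (ad Z c (nat_lit 15762598754516992) (tm Z c (nat_lit 18577348532109312))))))) (Nat.mul (nat_lit 2)
  (ad Z c (nat_lit 562949955518464) (ad Z c (nat_lit 3377699733110784) (ad Z c (nat_lit
  16888498665553920) (ad Z c (nat_lit 17451448621072384) (ad Z c (nat_lit 30962247553515520) (tm Z c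
  (nat_lit 33776997331107840)))))))))))))) (Nat.mul (nat_lit 2) (ad Z c (nat_lit 15199648798998528)
  (tm Z c (nat_lit 19140298487627776))))))))

/-- program -/
def b11_62P : Pg :=
  (.fold (nat_lit 0) (.at (nat_lit 0) (nat_lit 62) (.at (nat_lit 1125899911036928) (nat_lit 60) (.at
  (nat_lit 3377699733110784) (nat_lit 56) (.at (nat_lit 4503599644147712) (nat_lit 54) (.at (nat_lit
  30399297597997056) (nat_lit 8) (.at (nat_lit 31525197509033984) (nat_lit 6) (.at (nat_lit
  33776997331107840) (nat_lit 2) (.at (nat_lit 34902897242144768) (nat_lit 0) (.add (.fold (nat_lit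
  0) (.add (.add (.mul (nat_lit 8) (.fold (nat_lit 0) (.at (nat_lit 562949955518464) (nat_lit 61)
  (.add (.at (nat_lit 3940649688629248) (nat_lit 55) (.add (.at (nat_lit 30962247553515520) (nat_lit
  7) (.at (nat_lit 34339947286626304) (nat_lit 1) (.mul (nat_lit 3) (.fold (nat_lit 0) (.add (.at
  (nat_lit 20266198398664704) (nat_lit 26) (.at (nat_lit 21392098309701632) (nat_lit 24) (.at
  (nat_lit 22517998220738560) (nat_lit 22) (.at (nat_lit 23643898131775488) (nat_lit 20) (.at
  (nat_lit 24769798042812416) (nat_lit 18) (.at (nat_lit 25332747998330880) (nat_lit 17) (.at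
  (nat_lit 26458647909367808) (nat_lit 15) (.at (nat_lit 27584547820404736) (nat_lit 13) (.at
  (nat_lit 28710447731441664) (nat_lit 11) (.t (nat_lit 29836347642478592) (nat_lit 9)))))))))))
  (.at (nat_lit 5066549599666176) (nat_lit 53) (.at (nat_lit 6192449510703104) (nat_lit 51) (.at
  (nat_lit 7318349421740032) (nat_lit 49) (.at (nat_lit 8444249332776960) (nat_lit 47) (.at (nat_lit
  9570149243813888) (nat_lit 45) (.at (nat_lit 10133099199332352) (nat_lit 44) (.at (nat_lit
  11258999110369280) (nat_lit 42) (.at (nat_lit 12384899021406208) (nat_lit 40) (.at (nat_lit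
  13510798932443136) (nat_lit 38) (.t (nat_lit 14636698843480064) (nat_lit 36)))))))))))))))) (.mul
  (nat_lit 4) (.t (nat_lit 17451448621072384) (nat_lit 31))))) (.mul (nat_lit 2) (.at (nat_lit
  2251799822073856) (nat_lit 58) (.at (nat_lit 15762598754516992) (nat_lit 34) (.at (nat_lit
  19140298487627776) (nat_lit 28) (.t (nat_lit 32651097420070912) (nat_lit 4)))))))))) (.mul
  (nat_lit 4) (.at (nat_lit 16888498665553920) (nat_lit 32) (.t (nat_lit 18014398576590848) (nat_lit
  30))))) (.mul (nat_lit 2) (.at (nat_lit 1688849866555392) (nat_lit 59) (.at (nat_lit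
  2814749777592320) (nat_lit 57) (.at (nat_lit 15199648798998528) (nat_lit 35) (.at (nat_lit
  16325548710035456) (nat_lit 33) (.at (nat_lit 18577348532109312) (nat_lit 29) (.at (nat_lit
  19703248443146240) (nat_lit 27) (.at (nat_lit 32088147464552448) (nat_lit 5) (.t (nat_lit
  33214047375589376) (nat_lit 3)))))))))))) (.mul (nat_lit 3) (.fold (nat_lit 0) (.add (.at (nat_lit
  20829148354183168) (nat_lit 25) (.at (nat_lit 21955048265220096) (nat_lit 23) (.at (nat_lit
  23080948176257024) (nat_lit 21) (.at (nat_lit 24206848087293952) (nat_lit 19) (.at (nat_lit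
  25895697953849344) (nat_lit 16) (.at (nat_lit 27021597864886272) (nat_lit 14) (.at (nat_lit
  28147497775923200) (nat_lit 12) (.t (nat_lit 29273397686960128) (nat_lit 10))))))))) (.at (nat_lit
  5629499555184640) (nat_lit 52) (.at (nat_lit 6755399466221568) (nat_lit 50) (.at (nat_lit
  7881299377258496) (nat_lit 48) (.at (nat_lit 9007199288295424) (nat_lit 46) (.at (nat_lit
  10696049154850816) (nat_lit 43) (.at (nat_lit 11821949065887744) (nat_lit 41) (.at (nat_lit
  12947848976924672) (nat_lit 39) (.t (nat_lit 14073748887961600) (nat_lit 37))))))))))))))))))))))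

/-- compiled program -/
def b11_62 : Prog := fun Y Z c d =>
  (fo Y d (nat_lit 0) (ad Z c (nat_lit 0) (ad Z c (nat_lit 1125899911036928) (ad Z c (nat_lit
  3377699733110784) (ad Z c (nat_lit 4503599644147712) (ad Z c (nat_lit 30399297597997056) (ad Z c
  (nat_lit 31525197509033984) (ad Z c (nat_lit 33776997331107840) (ad Z c (nat_lit
  34902897242144768) (Nat.add (fo Y d (nat_lit 0) (Nat.add (Nat.add (Nat.mul (nat_lit 8) (fo Y d
  (nat_lit 0) (ad Z c (nat_lit 562949955518464) (Nat.add (ad Z c (nat_lit 3940649688629248) (Nat.add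
  (ad Z c (nat_lit 30962247553515520) (ad Z c (nat_lit 34339947286626304) (Nat.mul (nat_lit 3) (fo Y
  d (nat_lit 0) (Nat.add (ad Z c (nat_lit 20266198398664704) (ad Z c (nat_lit 21392098309701632) (ad
  Z c (nat_lit 22517998220738560) (ad Z c (nat_lit 23643898131775488) (ad Z c (nat_lit
  24769798042812416) (ad Z c (nat_lit 25332747998330880) (ad Z c (nat_lit 26458647909367808) (ad Z c
  (nat_lit 27584547820404736) (ad Z c (nat_lit 28710447731441664) (tm Z c (nat_lit
  29836347642478592))))))))))) (ad Z c (nat_lit 5066549599666176) (ad Z c (nat_lit 6192449510703104)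
  (ad Z c (nat_lit 7318349421740032) (ad Z c (nat_lit 8444249332776960) (ad Z c (nat_lit
  9570149243813888) (ad Z c (nat_lit 10133099199332352) (ad Z c (nat_lit 11258999110369280) (ad Z c
  (nat_lit 12384899021406208) (ad Z c (nat_lit 13510798932443136) (tm Z c (nat_lit
  14636698843480064)))))))))))))))) (Nat.mul (nat_lit 4) (tm Z c (nat_lit 17451448621072384)))))
  (Nat.mul (nat_lit 2) (ad Z c (nat_lit 2251799822073856) (ad Z c (nat_lit 15762598754516992) (ad Z
  c (nat_lit 19140298487627776) (tm Z c (nat_lit 32651097420070912)))))))))) (Nat.mul (nat_lit 4)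
  (ad Z c (nat_lit 16888498665553920) (tm Z c (nat_lit 18014398576590848))))) (Nat.mul (nat_lit 2)
  (ad Z c (nat_lit 1688849866555392) (ad Z c (nat_lit 2814749777592320) (ad Z c (nat_lit
  15199648798998528) (ad Z c (nat_lit 16325548710035456) (ad Z c (nat_lit 18577348532109312) (ad Z c
  (nat_lit 19703248443146240) (ad Z c (nat_lit 32088147464552448) (tm Z c (nat_lit
  33214047375589376)))))))))))) (Nat.mul (nat_lit 3) (fo Y d (nat_lit 0) (Nat.add (ad Z c (nat_lit
  20829148354183168) (ad Z c (nat_lit 21955048265220096) (ad Z c (nat_lit 23080948176257024) (ad Z c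
  (nat_lit 24206848087293952) (ad Z c (nat_lit 25895697953849344) (ad Z c (nat_lit
  27021597864886272) (ad Z c (nat_lit 28147497775923200) (tm Z c (nat_lit 29273397686960128)))))))))
  (ad Z c (nat_lit 5629499555184640) (ad Z c (nat_lit 6755399466221568) (ad Z c (nat_lit
  7881299377258496) (ad Z c (nat_lit 9007199288295424) (ad Z c (nat_lit 10696049154850816) (ad Z c
  (nat_lit 11821949065887744) (ad Z c (nat_lit 12947848976924672) (tm Z c (nat_lit
  14073748887961600))))))))))))))))))))))

/-- program -/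
def b11_63P : Pg :=
  (.fold (nat_lit 0) (.at (nat_lit 0) (nat_lit 63) (.add (.at (nat_lit 35465847197663232) (nat_lit
  0) (.mul (nat_lit 8) (.fold (nat_lit 0) (.add (.at (nat_lit 15199648798998528) (nat_lit 36) (.at
  (nat_lit 20266198398664704) (nat_lit 27) (.mul (nat_lit 3) (.at (nat_lit 16888498665553920)
  (nat_lit 33) (.t (nat_lit 18577348532109312) (nat_lit 30)))))) (.mul (nat_lit 2) (.at (nat_lit
  5066549599666176) (nat_lit 54) (.t (nat_lit 30399297597997056) (nat_lit 9)))))))) (.mul (nat_lit
  3) (.at (nat_lit 1688849866555392) (nat_lit 60) (.at (nat_lit 3377699733110784) (nat_lit 57) (.at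
  (nat_lit 10133099199332352) (nat_lit 45) (.at (nat_lit 25332747998330880) (nat_lit 18) (.at
  (nat_lit 32088147464552448) (nat_lit 6) (.t (nat_lit 33776997331107840) (nat_lit 3)))))))))))

/-- compiled program -/
def b11_63 : Prog := fun Y Z c d =>
  (fo Y d (nat_lit 0) (ad Z c (nat_lit 0) (Nat.add (ad Z c (nat_lit 35465847197663232) (Nat.mul
  (nat_lit 8) (fo Y d (nat_lit 0) (Nat.add (ad Z c (nat_lit 15199648798998528) (ad Z c (nat_lit
  20266198398664704) (Nat.mul (nat_lit 3) (ad Z c (nat_lit 16888498665553920) (tm Z c (nat_lit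
  18577348532109312)))))) (Nat.mul (nat_lit 2) (ad Z c (nat_lit 5066549599666176) (tm Z c (nat_lit
  30399297597997056)))))))) (Nat.mul (nat_lit 3) (ad Z c (nat_lit 1688849866555392) (ad Z c (nat_lit
  3377699733110784) (ad Z c (nat_lit 10133099199332352) (ad Z c (nat_lit 25332747998330880) (ad Z c
  (nat_lit 32088147464552448) (tm Z c (nat_lit 33776997331107840)))))))))))

/-- program -/
def b11_64P : Pg :=
  (.fold (nat_lit 0) (.at (nat_lit 0) (nat_lit 64) (.at (nat_lit 562949955518464) (nat_lit 63) (.at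
  (nat_lit 35465847197663232) (nat_lit 1) (.at (nat_lit 36028797153181696) (nat_lit 0) (.add (.mul
  (nat_lit 3) (.fold (nat_lit 0) (.at (nat_lit 1688849866555392) (nat_lit 61) (.at (nat_lit
  2251799822073856) (nat_lit 60) (.at (nat_lit 3377699733110784) (nat_lit 58) (.at (nat_lit
  3940649688629248) (nat_lit 57) (.at (nat_lit 10133099199332352) (nat_lit 46) (.at (nat_lit
  10696049154850816) (nat_lit 45) (.at (nat_lit 25332747998330880) (nat_lit 19) (.at (nat_lit
  25895697953849344) (nat_lit 18) (.at (nat_lit 32088147464552448) (nat_lit 7) (.at (nat_lit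
  32651097420070912) (nat_lit 6) (.at (nat_lit 33776997331107840) (nat_lit 4) (.t (nat_lit
  34339947286626304) (nat_lit 3))))))))))))))) (.mul (nat_lit 8) (.fold (nat_lit 0) (.add (.at
  (nat_lit 15199648798998528) (nat_lit 37) (.at (nat_lit 15762598754516992) (nat_lit 36) (.add (.at
  (nat_lit 20266198398664704) (nat_lit 28) (.t (nat_lit 20829148354183168) (nat_lit 27))) (.mul
  (nat_lit 3) (.at (nat_lit 16888498665553920) (nat_lit 34) (.at (nat_lit 17451448621072384)
  (nat_lit 33) (.at (nat_lit 18577348532109312) (nat_lit 31) (.t (nat_lit 19140298487627776)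
  (nat_lit 30))))))))) (.mul (nat_lit 2) (.at (nat_lit 5066549599666176) (nat_lit 55) (.at (nat_lit
  5629499555184640) (nat_lit 54) (.at (nat_lit 30399297597997056) (nat_lit 10) (.t (nat_lit
  30962247553515520) (nat_lit 9)))))))))))))))

/-- compiled program -/
def b11_64 : Prog := fun Y Z c d =>
  (fo Y d (nat_lit 0) (ad Z c (nat_lit 0) (ad Z c (nat_lit 562949955518464) (ad Z c (nat_lit
  35465847197663232) (ad Z c (nat_lit 36028797153181696) (Nat.add (Nat.mul (nat_lit 3) (fo Y d
  (nat_lit 0) (ad Z c (nat_lit 1688849866555392) (ad Z c (nat_lit 2251799822073856) (ad Z c (nat_lit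
  3377699733110784) (ad Z c (nat_lit 3940649688629248) (ad Z c (nat_lit 10133099199332352) (ad Z c
  (nat_lit 10696049154850816) (ad Z c (nat_lit 25332747998330880) (ad Z c (nat_lit
  25895697953849344) (ad Z c (nat_lit 32088147464552448) (ad Z c (nat_lit 32651097420070912) (ad Z c
  (nat_lit 33776997331107840) (tm Z c (nat_lit 34339947286626304))))))))))))))) (Nat.mul (nat_lit 8)
  (fo Y d (nat_lit 0) (Nat.add (ad Z c (nat_lit 15199648798998528) (ad Z c (nat_lit
  15762598754516992) (Nat.add (ad Z c (nat_lit 20266198398664704) (tm Z c (nat_lit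
  20829148354183168))) (Nat.mul (nat_lit 3) (ad Z c (nat_lit 16888498665553920) (ad Z c (nat_lit
  17451448621072384) (ad Z c (nat_lit 18577348532109312) (tm Z c (nat_lit 19140298487627776)))))))))
  (Nat.mul (nat_lit 2) (ad Z c (nat_lit 5066549599666176) (ad Z c (nat_lit 5629499555184640) (ad Z c
  (nat_lit 30399297597997056) (tm Z c (nat_lit 30962247553515520)))))))))))))))

/-- program -/
def b11_65P : Pg :=
  (.fold (nat_lit 0) (.at (nat_lit 0) (nat_lit 65) (.add (.at (nat_lit 1125899911036928) (nat_lit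
  63) (.at (nat_lit 35465847197663232) (nat_lit 2) (.at (nat_lit 36591747108700160) (nat_lit 0)
  (.add (.mul (nat_lit 3) (.fold (nat_lit 0) (.add (.at (nat_lit 19140298487627776) (nat_lit 31)
  (.at (nat_lit 25332747998330880) (nat_lit 20) (.at (nat_lit 26458647909367808) (nat_lit 18) (.at
  (nat_lit 32088147464552448) (nat_lit 8) (.at (nat_lit 33214047375589376) (nat_lit 6) (.at (nat_lit
  33776997331107840) (nat_lit 5) (.t (nat_lit 34902897242144768) (nat_lit 3)))))))) (.at (nat_lit
  1688849866555392) (nat_lit 62) (.at (nat_lit 2814749777592320) (nat_lit 60) (.at (nat_lit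
  3377699733110784) (nat_lit 59) (.at (nat_lit 4503599644147712) (nat_lit 57) (.at (nat_lit
  10133099199332352) (nat_lit 47) (.at (nat_lit 11258999110369280) (nat_lit 45) (.t (nat_lit
  17451448621072384) (nat_lit 34))))))))))) (.mul (nat_lit 8) (.fold (nat_lit 0) (.add (.add (.at
  (nat_lit 15199648798998528) (nat_lit 38) (.at (nat_lit 16325548710035456) (nat_lit 36) (.fold
  (nat_lit 0) (.add (.at (nat_lit 20266198398664704) (nat_lit 29) (.t (nat_lit 21392098309701632)
  (nat_lit 27))) (.mul (nat_lit 3) (.at (nat_lit 2251799822073856) (nat_lit 61) (.at (nat_lit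
  3940649688629248) (nat_lit 58) (.at (nat_lit 10696049154850816) (nat_lit 46) (.at (nat_lit
  16888498665553920) (nat_lit 35) (.at (nat_lit 18014398576590848) (nat_lit 33) (.at (nat_lit
  18577348532109312) (nat_lit 32) (.at (nat_lit 19703248443146240) (nat_lit 30) (.at (nat_lit
  25895697953849344) (nat_lit 19) (.at (nat_lit 32651097420070912) (nat_lit 7) (.t (nat_lit
  34339947286626304) (nat_lit 4)))))))))))))))) (.mul (nat_lit 4) (.at (nat_lit 5629499555184640)
  (nat_lit 55) (.t (nat_lit 30962247553515520) (nat_lit 10))))) (.mul (nat_lit 2) (.at (nat_lit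
  5066549599666176) (nat_lit 56) (.at (nat_lit 6192449510703104) (nat_lit 54) (.at (nat_lit
  15762598754516992) (nat_lit 37) (.at (nat_lit 20829148354183168) (nat_lit 28) (.at (nat_lit
  30399297597997056) (nat_lit 11) (.t (nat_lit 31525197509033984) (nat_lit 9))))))))))))))) (.mul
  (nat_lit 2) (.at (nat_lit 562949955518464) (nat_lit 64) (.t (nat_lit 36028797153181696) (nat_lit
  1)))))))

/-- compiled program -/
def b11_65 : Prog := fun Y Z c d =>
  (fo Y d (nat_lit 0) (ad Z c (nat_lit 0) (Nat.add (ad Z c (nat_lit 1125899911036928) (ad Z c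
  (nat_lit 35465847197663232) (ad Z c (nat_lit 36591747108700160) (Nat.add (Nat.mul (nat_lit 3) (fo
  Y d (nat_lit 0) (Nat.add (ad Z c (nat_lit 19140298487627776) (ad Z c (nat_lit 25332747998330880)
  (ad Z c (nat_lit 26458647909367808) (ad Z c (nat_lit 32088147464552448) (ad Z c (nat_lit
  33214047375589376) (ad Z c (nat_lit 33776997331107840) (tm Z c (nat_lit 34902897242144768))))))))
  (ad Z c (nat_lit 1688849866555392) (ad Z c (nat_lit 2814749777592320) (ad Z c (nat_lit
  3377699733110784) (ad Z c (nat_lit 4503599644147712) (ad Z c (nat_lit 10133099199332352) (ad Z c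
  (nat_lit 11258999110369280) (tm Z c (nat_lit 17451448621072384))))))))))) (Nat.mul (nat_lit 8) (fo
  Y d (nat_lit 0) (Nat.add (Nat.add (ad Z c (nat_lit 15199648798998528) (ad Z c (nat_lit
  16325548710035456) (fo Y d (nat_lit 0) (Nat.add (ad Z c (nat_lit 20266198398664704) (tm Z c
  (nat_lit 21392098309701632))) (Nat.mul (nat_lit 3) (ad Z c (nat_lit 2251799822073856) (ad Z c
  (nat_lit 3940649688629248) (ad Z c (nat_lit 10696049154850816) (ad Z c (nat_lit 16888498665553920)
  (ad Z c (nat_lit 18014398576590848) (ad Z c (nat_lit 18577348532109312) (ad Z c (nat_lit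
  19703248443146240) (ad Z c (nat_lit 25895697953849344) (ad Z c (nat_lit 32651097420070912) (tm Z c
  (nat_lit 34339947286626304)))))))))))))))) (Nat.mul (nat_lit 4) (ad Z c (nat_lit 5629499555184640)
  (tm Z c (nat_lit 30962247553515520))))) (Nat.mul (nat_lit 2) (ad Z c (nat_lit 5066549599666176)
  (ad Z c (nat_lit 6192449510703104) (ad Z c (nat_lit 15762598754516992) (ad Z c (nat_lit
  20829148354183168) (ad Z c (nat_lit 30399297597997056) (tm Z c (nat_lit
  31525197509033984))))))))))))))) (Nat.mul (nat_lit 2) (ad Z c (nat_lit 562949955518464) (tm Z c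
  (nat_lit 36028797153181696)))))))

/-- program -/
def b11_66P : Pg :=
  (.fold (nat_lit 0) (.at (nat_lit 0) (nat_lit 66) (.add (.at (nat_lit 5066549599666176) (nat_lit
  57) (.at (nat_lit 32088147464552448) (nat_lit 9) (.at (nat_lit 37154697064218624) (nat_lit 0)
  (.add (.mul (nat_lit 3) (.fold (nat_lit 0) (.add (.at (nat_lit 18577348532109312) (nat_lit 33)
  (.at (nat_lit 25332747998330880) (nat_lit 21) (.at (nat_lit 27021597864886272) (nat_lit 18) (.at
  (nat_lit 30962247553515520) (nat_lit 11) (.at (nat_lit 31525197509033984) (nat_lit 10) (.at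
  (nat_lit 36028797153181696) (nat_lit 2) (.t (nat_lit 36591747108700160) (nat_lit 1)))))))) (.at
  (nat_lit 562949955518464) (nat_lit 65) (.at (nat_lit 1125899911036928) (nat_lit 64) (.at (nat_lit
  5629499555184640) (nat_lit 56) (.at (nat_lit 6192449510703104) (nat_lit 55) (.at (nat_lit
  10133099199332352) (nat_lit 48) (.t (nat_lit 11821949065887744) (nat_lit 45)))))))))) (.mul
  (nat_lit 8) (.fold (nat_lit 0) (.add (.add (.at (nat_lit 15199648798998528) (nat_lit 39) (.at
  (nat_lit 21955048265220096) (nat_lit 27) (.mul (nat_lit 4) (.at (nat_lit 16888498665553920)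
  (nat_lit 36) (.t (nat_lit 20266198398664704) (nat_lit 30)))))) (.mul (nat_lit 2) (.at (nat_lit
  6755399466221568) (nat_lit 54) (.t (nat_lit 30399297597997056) (nat_lit 12))))) (.mul (nat_lit 3)
  (.at (nat_lit 3377699733110784) (nat_lit 60) (.at (nat_lit 15762598754516992) (nat_lit 38) (.at
  (nat_lit 16325548710035456) (nat_lit 37) (.at (nat_lit 20829148354183168) (nat_lit 29) (.at
  (nat_lit 21392098309701632) (nat_lit 28) (.t (nat_lit 33776997331107840) (nat_lit 6)))))))))))))))
  (.mul (nat_lit 4) (.at (nat_lit 1688849866555392) (nat_lit 63) (.t (nat_lit 35465847197663232)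
  (nat_lit 3)))))))

/-- compiled program -/
def b11_66 : Prog := fun Y Z c d =>
  (fo Y d (nat_lit 0) (ad Z c (nat_lit 0) (Nat.add (ad Z c (nat_lit 5066549599666176) (ad Z c
  (nat_lit 32088147464552448) (ad Z c (nat_lit 37154697064218624) (Nat.add (Nat.mul (nat_lit 3) (fo
  Y d (nat_lit 0) (Nat.add (ad Z c (nat_lit 18577348532109312) (ad Z c (nat_lit 25332747998330880)
  (ad Z c (nat_lit 27021597864886272) (ad Z c (nat_lit 30962247553515520) (ad Z c (nat_lit
  31525197509033984) (ad Z c (nat_lit 36028797153181696) (tm Z c (nat_lit 36591747108700160))))))))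
  (ad Z c (nat_lit 562949955518464) (ad Z c (nat_lit 1125899911036928) (ad Z c (nat_lit
  5629499555184640) (ad Z c (nat_lit 6192449510703104) (ad Z c (nat_lit 10133099199332352) (tm Z c
  (nat_lit 11821949065887744)))))))))) (Nat.mul (nat_lit 8) (fo Y d (nat_lit 0) (Nat.add (Nat.add
  (ad Z c (nat_lit 15199648798998528) (ad Z c (nat_lit 21955048265220096) (Nat.mul (nat_lit 4) (ad Z
  c (nat_lit 16888498665553920) (tm Z c (nat_lit 20266198398664704)))))) (Nat.mul (nat_lit 2) (ad Z
  c (nat_lit 6755399466221568) (tm Z c (nat_lit 30399297597997056))))) (Nat.mul (nat_lit 3) (ad Z c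
  (nat_lit 3377699733110784) (ad Z c (nat_lit 15762598754516992) (ad Z c (nat_lit 16325548710035456)
  (ad Z c (nat_lit 20829148354183168) (ad Z c (nat_lit 21392098309701632) (tm Z c (nat_lit
  33776997331107840))))))))))))))) (Nat.mul (nat_lit 4) (ad Z c (nat_lit 1688849866555392) (tm Z c
  (nat_lit 35465847197663232)))))))

/-- program -/
def b11_67P : Pg :=
  (.fold (nat_lit 0) (.at (nat_lit 0) (nat_lit 67) (.at (nat_lit 5066549599666176) (nat_lit 58) (.at
  (nat_lit 6755399466221568) (nat_lit 55) (.add (.at (nat_lit 30962247553515520) (nat_lit 12) (.at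
  (nat_lit 32651097420070912) (nat_lit 9) (.at (nat_lit 37717647019737088) (nat_lit 0) (.add (.fold
  (nat_lit 0) (.add (.mul (nat_lit 8) (.fold (nat_lit 0) (.at (nat_lit 15199648798998528) (nat_lit
  40) (.add (.at (nat_lit 22517998220738560) (nat_lit 27) (.fold (nat_lit 0) (.add (.mul (nat_lit 2)
  (.at (nat_lit 1688849866555392) (nat_lit 64) (.at (nat_lit 7318349421740032) (nat_lit 54) (.at
  (nat_lit 30399297597997056) (nat_lit 13) (.t (nat_lit 36028797153181696) (nat_lit 3)))))) (.mul
  (nat_lit 3) (.at (nat_lit 1125899911036928) (nat_lit 65) (.at (nat_lit 3377699733110784) (nat_lit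
  61) (.at (nat_lit 3940649688629248) (nat_lit 60) (.at (nat_lit 6192449510703104) (nat_lit 56) (.at
  (nat_lit 31525197509033984) (nat_lit 11) (.at (nat_lit 33776997331107840) (nat_lit 7) (.at
  (nat_lit 34339947286626304) (nat_lit 6) (.t (nat_lit 36591747108700160) (nat_lit 2)))))))))))))
  (.mul (nat_lit 4) (.at (nat_lit 15762598754516992) (nat_lit 39) (.at (nat_lit 17451448621072384)
  (nat_lit 36) (.at (nat_lit 20266198398664704) (nat_lit 31) (.t (nat_lit 21955048265220096)
  (nat_lit 28)))))))))) (.mul (nat_lit 4) (.at (nat_lit 562949955518464) (nat_lit 66) (.at (nat_lit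
  2251799822073856) (nat_lit 63) (.at (nat_lit 5629499555184640) (nat_lit 57) (.at (nat_lit
  32088147464552448) (nat_lit 10) (.at (nat_lit 35465847197663232) (nat_lit 4) (.t (nat_lit
  37154697064218624) (nat_lit 1)))))))))) (.mul (nat_lit 3) (.fold (nat_lit 0) (.at (nat_lit
  10133099199332352) (nat_lit 49) (.at (nat_lit 10696049154850816) (nat_lit 48) (.at (nat_lit
  11821949065887744) (nat_lit 46) (.at (nat_lit 12384899021406208) (nat_lit 45) (.at (nat_lit
  16325548710035456) (nat_lit 38) (.at (nat_lit 18577348532109312) (nat_lit 34) (.at (nat_lit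
  19140298487627776) (nat_lit 33) (.at (nat_lit 21392098309701632) (nat_lit 29) (.at (nat_lit
  25332747998330880) (nat_lit 22) (.at (nat_lit 25895697953849344) (nat_lit 21) (.at (nat_lit
  27021597864886272) (nat_lit 19) (.t (nat_lit 27584547820404736) (nat_lit 18)))))))))))))))))))
  (.mul (nat_lit 2) (.at (nat_lit 16888498665553920) (nat_lit 37) (.t (nat_lit 20829148354183168)
  (nat_lit 30)))))))))

/-- compiled program -/
def b11_67 : Prog := fun Y Z c d =>
  (fo Y d (nat_lit 0) (ad Z c (nat_lit 0) (ad Z c (nat_lit 5066549599666176) (ad Z c (nat_lit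
  6755399466221568) (Nat.add (ad Z c (nat_lit 30962247553515520) (ad Z c (nat_lit 32651097420070912)
  (ad Z c (nat_lit 37717647019737088) (Nat.add (fo Y d (nat_lit 0) (Nat.add (Nat.mul (nat_lit 8) (fo
  Y d (nat_lit 0) (ad Z c (nat_lit 15199648798998528) (Nat.add (ad Z c (nat_lit 22517998220738560)
  (fo Y d (nat_lit 0) (Nat.add (Nat.mul (nat_lit 2) (ad Z c (nat_lit 1688849866555392) (ad Z c
  (nat_lit 7318349421740032) (ad Z c (nat_lit 30399297597997056) (tm Z c (nat_lit
  36028797153181696)))))) (Nat.mul (nat_lit 3) (ad Z c (nat_lit 1125899911036928) (ad Z c (nat_lit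
  3377699733110784) (ad Z c (nat_lit 3940649688629248) (ad Z c (nat_lit 6192449510703104) (ad Z c
  (nat_lit 31525197509033984) (ad Z c (nat_lit 33776997331107840) (ad Z c (nat_lit
  34339947286626304) (tm Z c (nat_lit 36591747108700160))))))))))))) (Nat.mul (nat_lit 4) (ad Z c
  (nat_lit 15762598754516992) (ad Z c (nat_lit 17451448621072384) (ad Z c (nat_lit
  20266198398664704) (tm Z c (nat_lit 21955048265220096)))))))))) (Nat.mul (nat_lit 4) (ad Z c
  (nat_lit 562949955518464) (ad Z c (nat_lit 2251799822073856) (ad Z c (nat_lit 5629499555184640)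
  (ad Z c (nat_lit 32088147464552448) (ad Z c (nat_lit 35465847197663232) (tm Z c (nat_lit
  37154697064218624)))))))))) (Nat.mul (nat_lit 3) (fo Y d (nat_lit 0) (ad Z c (nat_lit
  10133099199332352) (ad Z c (nat_lit 10696049154850816) (ad Z c (nat_lit 11821949065887744) (ad Z c
  (nat_lit 12384899021406208) (ad Z c (nat_lit 16325548710035456) (ad Z c (nat_lit
  18577348532109312) (ad Z c (nat_lit 19140298487627776) (ad Z c (nat_lit 21392098309701632) (ad Z c
  (nat_lit 25332747998330880) (ad Z c (nat_lit 25895697953849344) (ad Z c (nat_lit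
  27021597864886272) (tm Z c (nat_lit 27584547820404736))))))))))))))))))) (Nat.mul (nat_lit 2) (ad
  Z c (nat_lit 16888498665553920) (tm Z c (nat_lit 20829148354183168)))))))))

/-- program -/
def b11_68P : Pg :=
  (.fold (nat_lit 0) (.at (nat_lit 0) (nat_lit 68) (.at (nat_lit 1125899911036928) (nat_lit 66)
  (.add (.at (nat_lit 5066549599666176) (nat_lit 59) (.at (nat_lit 6192449510703104) (nat_lit 57)
  (.at (nat_lit 32088147464552448) (nat_lit 11) (.at (nat_lit 33214047375589376) (nat_lit 9) (.at
  (nat_lit 37154697064218624) (nat_lit 2) (.at (nat_lit 38280596975255552) (nat_lit 0) (.add (.fold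
  (nat_lit 0) (.add (.mul (nat_lit 8) (.fold (nat_lit 0) (.add (.at (nat_lit 7318349421740032)
  (nat_lit 55) (.at (nat_lit 15199648798998528) (nat_lit 41) (.fold (nat_lit 0) (.add (.at (nat_lit
  16325548710035456) (nat_lit 39) (.at (nat_lit 21955048265220096) (nat_lit 29) (.at (nat_lit
  23080948176257024) (nat_lit 27) (.at (nat_lit 30962247553515520) (nat_lit 13) (.fold (nat_lit 0)
  (.mul (nat_lit 4) (.at (nat_lit 562949955518464) (nat_lit 67) (.at (nat_lit 5629499555184640)
  (nat_lit 58) (.at (nat_lit 16888498665553920) (nat_lit 38) (.at (nat_lit 18014398576590848)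
  (nat_lit 36) (.at (nat_lit 20266198398664704) (nat_lit 32) (.at (nat_lit 21392098309701632)
  (nat_lit 30) (.at (nat_lit 32651097420070912) (nat_lit 10) (.t (nat_lit 37717647019737088)
  (nat_lit 1))))))))))))))) (.mul (nat_lit 3) (.at (nat_lit 3377699733110784) (nat_lit 62) (.at
  (nat_lit 4503599644147712) (nat_lit 60) (.at (nat_lit 10696049154850816) (nat_lit 49) (.at
  (nat_lit 12384899021406208) (nat_lit 46) (.at (nat_lit 19140298487627776) (nat_lit 34) (.at
  (nat_lit 25895697953849344) (nat_lit 22) (.at (nat_lit 27584547820404736) (nat_lit 19) (.at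
  (nat_lit 33776997331107840) (nat_lit 8) (.t (nat_lit 34902897242144768) (nat_lit 6)))))))))))))))
  (.mul (nat_lit 2) (.at (nat_lit 6755399466221568) (nat_lit 56) (.at (nat_lit 7881299377258496)
  (nat_lit 54) (.at (nat_lit 17451448621072384) (nat_lit 37) (.at (nat_lit 20829148354183168)
  (nat_lit 31) (.at (nat_lit 30399297597997056) (nat_lit 14) (.t (nat_lit 31525197509033984)
  (nat_lit 12))))))))))) (.mul (nat_lit 4) (.at (nat_lit 1688849866555392) (nat_lit 65) (.at
  (nat_lit 2814749777592320) (nat_lit 63) (.at (nat_lit 15762598754516992) (nat_lit 40) (.at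
  (nat_lit 22517998220738560) (nat_lit 28) (.at (nat_lit 35465847197663232) (nat_lit 5) (.t (nat_lit
  36591747108700160) (nat_lit 3)))))))))) (.mul (nat_lit 3) (.fold (nat_lit 0) (.at (nat_lit
  3940649688629248) (nat_lit 61) (.at (nat_lit 10133099199332352) (nat_lit 50) (.at (nat_lit
  11258999110369280) (nat_lit 48) (.at (nat_lit 11821949065887744) (nat_lit 47) (.at (nat_lit
  12947848976924672) (nat_lit 45) (.at (nat_lit 18577348532109312) (nat_lit 35) (.at (nat_lit
  19703248443146240) (nat_lit 33) (.at (nat_lit 25332747998330880) (nat_lit 23) (.at (nat_lit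
  26458647909367808) (nat_lit 21) (.at (nat_lit 27021597864886272) (nat_lit 20) (.at (nat_lit
  28147497775923200) (nat_lit 18) (.t (nat_lit 34339947286626304) (nat_lit 7))))))))))))))))))))))
  (.mul (nat_lit 2) (.at (nat_lit 2251799822073856) (nat_lit 64) (.t (nat_lit 36028797153181696)
  (nat_lit 4))))))))

/-- compiled program -/
def b11_68 : Prog := fun Y Z c d =>
  (fo Y d (nat_lit 0) (ad Z c (nat_lit 0) (ad Z c (nat_lit 1125899911036928) (Nat.add (ad Z c
  (nat_lit 5066549599666176) (ad Z c (nat_lit 6192449510703104) (ad Z c (nat_lit 32088147464552448)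
  (ad Z c (nat_lit 33214047375589376) (ad Z c (nat_lit 37154697064218624) (ad Z c (nat_lit
  38280596975255552) (Nat.add (fo Y d (nat_lit 0) (Nat.add (Nat.mul (nat_lit 8) (fo Y d (nat_lit 0)
  (Nat.add (ad Z c (nat_lit 7318349421740032) (ad Z c (nat_lit 15199648798998528) (fo Y d (nat_lit
  0) (Nat.add (ad Z c (nat_lit 16325548710035456) (ad Z c (nat_lit 21955048265220096) (ad Z c
  (nat_lit 23080948176257024) (ad Z c (nat_lit 30962247553515520) (fo Y d (nat_lit 0) (Nat.mul
  (nat_lit 4) (ad Z c (nat_lit 562949955518464) (ad Z c (nat_lit 5629499555184640) (ad Z c (nat_lit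
  16888498665553920) (ad Z c (nat_lit 18014398576590848) (ad Z c (nat_lit 20266198398664704) (ad Z c
  (nat_lit 21392098309701632) (ad Z c (nat_lit 32651097420070912) (tm Z c (nat_lit
  37717647019737088))))))))))))))) (Nat.mul (nat_lit 3) (ad Z c (nat_lit 3377699733110784) (ad Z c
  (nat_lit 4503599644147712) (ad Z c (nat_lit 10696049154850816) (ad Z c (nat_lit 12384899021406208)
  (ad Z c (nat_lit 19140298487627776) (ad Z c (nat_lit 25895697953849344) (ad Z c (nat_lit
  27584547820404736) (ad Z c (nat_lit 33776997331107840) (tm Z c (nat_lit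
  34902897242144768))))))))))))))) (Nat.mul (nat_lit 2) (ad Z c (nat_lit 6755399466221568) (ad Z c
  (nat_lit 7881299377258496) (ad Z c (nat_lit 17451448621072384) (ad Z c (nat_lit 20829148354183168)
  (ad Z c (nat_lit 30399297597997056) (tm Z c (nat_lit 31525197509033984))))))))))) (Nat.mul
  (nat_lit 4) (ad Z c (nat_lit 1688849866555392) (ad Z c (nat_lit 2814749777592320) (ad Z c (nat_lit
  15762598754516992) (ad Z c (nat_lit 22517998220738560) (ad Z c (nat_lit 35465847197663232) (tm Z c
  (nat_lit 36591747108700160)))))))))) (Nat.mul (nat_lit 3) (fo Y d (nat_lit 0) (ad Z c (nat_lit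
  3940649688629248) (ad Z c (nat_lit 10133099199332352) (ad Z c (nat_lit 11258999110369280) (ad Z c
  (nat_lit 11821949065887744) (ad Z c (nat_lit 12947848976924672) (ad Z c (nat_lit
  18577348532109312) (ad Z c (nat_lit 19703248443146240) (ad Z c (nat_lit 25332747998330880) (ad Z c
  (nat_lit 26458647909367808) (ad Z c (nat_lit 27021597864886272) (ad Z c (nat_lit
  28147497775923200) (tm Z c (nat_lit 34339947286626304)))))))))))))))))))))) (Nat.mul (nat_lit 2)
  (ad Z c (nat_lit 2251799822073856) (tm Z c (nat_lit 36028797153181696))))))))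

/-- program -/
def b11_69P : Pg :=
  (.fold (nat_lit 0) (.at (nat_lit 0) (nat_lit 69) (.at (nat_lit 3377699733110784) (nat_lit 63)
  (.add (.at (nat_lit 35465847197663232) (nat_lit 6) (.at (nat_lit 38843546930774016) (nat_lit 0)
  (.add (.mul (nat_lit 3) (.fold (nat_lit 0) (.at (nat_lit 10133099199332352) (nat_lit 51) (.at
  (nat_lit 13510798932443136) (nat_lit 45) (.at (nat_lit 15762598754516992) (nat_lit 41) (.at
  (nat_lit 16325548710035456) (nat_lit 40) (.at (nat_lit 17451448621072384) (nat_lit 38) (.at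
  (nat_lit 18014398576590848) (nat_lit 37) (.at (nat_lit 20829148354183168) (nat_lit 32) (.at
  (nat_lit 21392098309701632) (nat_lit 31) (.at (nat_lit 22517998220738560) (nat_lit 29) (.at
  (nat_lit 23080948176257024) (nat_lit 28) (.at (nat_lit 25332747998330880) (nat_lit 24) (.t
  (nat_lit 28710447731441664) (nat_lit 18))))))))))))))) (.mul (nat_lit 8) (.fold (nat_lit 0) (.add
  (.add (.at (nat_lit 6755399466221568) (nat_lit 57) (.at (nat_lit 15199648798998528) (nat_lit 42)
  (.at (nat_lit 18577348532109312) (nat_lit 36) (.at (nat_lit 20266198398664704) (nat_lit 33) (.at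
  (nat_lit 23643898131775488) (nat_lit 27) (.at (nat_lit 32088147464552448) (nat_lit 12) (.mul
  (nat_lit 3) (.fold (nat_lit 0) (.add (.at (nat_lit 27021597864886272) (nat_lit 21) (.at (nat_lit
  30962247553515520) (nat_lit 14) (.at (nat_lit 31525197509033984) (nat_lit 13) (.at (nat_lit
  32651097420070912) (nat_lit 11) (.at (nat_lit 33214047375589376) (nat_lit 10) (.at (nat_lit
  36028797153181696) (nat_lit 5) (.at (nat_lit 36591747108700160) (nat_lit 4) (.at (nat_lit
  37717647019737088) (nat_lit 2) (.t (nat_lit 38280596975255552) (nat_lit 1)))))))))) (.at (nat_lit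
  562949955518464) (nat_lit 68) (.at (nat_lit 1125899911036928) (nat_lit 67) (.at (nat_lit
  2251799822073856) (nat_lit 65) (.at (nat_lit 2814749777592320) (nat_lit 64) (.at (nat_lit
  5629499555184640) (nat_lit 59) (.at (nat_lit 6192449510703104) (nat_lit 58) (.at (nat_lit
  7318349421740032) (nat_lit 56) (.at (nat_lit 7881299377258496) (nat_lit 55) (.t (nat_lit
  11821949065887744) (nat_lit 48))))))))))))))))))) (.mul (nat_lit 2) (.at (nat_lit
  5066549599666176) (nat_lit 60) (.at (nat_lit 8444249332776960) (nat_lit 54) (.at (nat_lit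
  30399297597997056) (nat_lit 15) (.t (nat_lit 33776997331107840) (nat_lit 9))))))) (.mul (nat_lit
  4) (.at (nat_lit 1688849866555392) (nat_lit 66) (.t (nat_lit 37154697064218624) (nat_lit
  3)))))))))) (.mul (nat_lit 4) (.at (nat_lit 16888498665553920) (nat_lit 39) (.t (nat_lit
  21955048265220096) (nat_lit 30))))))))

/-- compiled program -/
def b11_69 : Prog := fun Y Z c d =>
  (fo Y d (nat_lit 0) (ad Z c (nat_lit 0) (ad Z c (nat_lit 3377699733110784) (Nat.add (ad Z c
  (nat_lit 35465847197663232) (ad Z c (nat_lit 38843546930774016) (Nat.add (Nat.mul (nat_lit 3) (fo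
  Y d (nat_lit 0) (ad Z c (nat_lit 10133099199332352) (ad Z c (nat_lit 13510798932443136) (ad Z c
  (nat_lit 15762598754516992) (ad Z c (nat_lit 16325548710035456) (ad Z c (nat_lit
  17451448621072384) (ad Z c (nat_lit 18014398576590848) (ad Z c (nat_lit 20829148354183168) (ad Z c
  (nat_lit 21392098309701632) (ad Z c (nat_lit 22517998220738560) (ad Z c (nat_lit
  23080948176257024) (ad Z c (nat_lit 25332747998330880) (tm Z c (nat_lit
  28710447731441664))))))))))))))) (Nat.mul (nat_lit 8) (fo Y d (nat_lit 0) (Nat.add (Nat.add (ad Z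
  c (nat_lit 6755399466221568) (ad Z c (nat_lit 15199648798998528) (ad Z c (nat_lit
  18577348532109312) (ad Z c (nat_lit 20266198398664704) (ad Z c (nat_lit 23643898131775488) (ad Z c
  (nat_lit 32088147464552448) (Nat.mul (nat_lit 3) (fo Y d (nat_lit 0) (Nat.add (ad Z c (nat_lit
  27021597864886272) (ad Z c (nat_lit 30962247553515520) (ad Z c (nat_lit 31525197509033984) (ad Z c
  (nat_lit 32651097420070912) (ad Z c (nat_lit 33214047375589376) (ad Z c (nat_lit
  36028797153181696) (ad Z c (nat_lit 36591747108700160) (ad Z c (nat_lit 37717647019737088) (tm Z c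
  (nat_lit 38280596975255552)))))))))) (ad Z c (nat_lit 562949955518464) (ad Z c (nat_lit
  1125899911036928) (ad Z c (nat_lit 2251799822073856) (ad Z c (nat_lit 2814749777592320) (ad Z c
  (nat_lit 5629499555184640) (ad Z c (nat_lit 6192449510703104) (ad Z c (nat_lit 7318349421740032)
  (ad Z c (nat_lit 7881299377258496) (tm Z c (nat_lit 11821949065887744))))))))))))))))))) (Nat.mul
  (nat_lit 2) (ad Z c (nat_lit 5066549599666176) (ad Z c (nat_lit 8444249332776960) (ad Z c (nat_lit
  30399297597997056) (tm Z c (nat_lit 33776997331107840))))))) (Nat.mul (nat_lit 4) (ad Z c (nat_lit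
  1688849866555392) (tm Z c (nat_lit 37154697064218624)))))))))) (Nat.mul (nat_lit 4) (ad Z c
  (nat_lit 16888498665553920) (tm Z c (nat_lit 21955048265220096))))))))

/-- program -/
def b11_70P : Pg :=
  (.fold (nat_lit 0) (.at (nat_lit 0) (nat_lit 70) (.at (nat_lit 3940649688629248) (nat_lit 63) (.at
  (nat_lit 35465847197663232) (nat_lit 7) (.add (.fold (nat_lit 0) (.add (.mul (nat_lit 4) (.at
  (nat_lit 5629499555184640) (nat_lit 60) (.at (nat_lit 8444249332776960) (nat_lit 55) (.at (nat_lit
  30962247553515520) (nat_lit 15) (.t (nat_lit 33776997331107840) (nat_lit 10)))))) (.mul (nat_lit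
  2) (.at (nat_lit 1688849866555392) (nat_lit 67) (.at (nat_lit 2251799822073856) (nat_lit 66) (.at
  (nat_lit 15762598754516992) (nat_lit 42) (.at (nat_lit 18577348532109312) (nat_lit 37) (.at
  (nat_lit 20829148354183168) (nat_lit 33) (.at (nat_lit 23643898131775488) (nat_lit 28) (.at
  (nat_lit 37154697064218624) (nat_lit 4) (.t (nat_lit 37717647019737088) (nat_lit 3))))))))))))
  (.fold (nat_lit 0) (.add (.at (nat_lit 39406496886292480) (nat_lit 0) (.add (.mul (nat_lit 3)
  (.fold (nat_lit 0) (.add (.at (nat_lit 25332747998330880) (nat_lit 25) (.at (nat_lit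
  25895697953849344) (nat_lit 24) (.at (nat_lit 28710447731441664) (nat_lit 19) (.at (nat_lit
  29273397686960128) (nat_lit 18) (.at (nat_lit 31525197509033984) (nat_lit 14) (.at (nat_lit
  33214047375589376) (nat_lit 11) (.at (nat_lit 36591747108700160) (nat_lit 5) (.t (nat_lit
  38280596975255552) (nat_lit 2))))))))) (.at (nat_lit 1125899911036928) (nat_lit 68) (.at (nat_lit
  2814749777592320) (nat_lit 65) (.at (nat_lit 6192449510703104) (nat_lit 59) (.at (nat_lit
  7881299377258496) (nat_lit 56) (.at (nat_lit 10133099199332352) (nat_lit 52) (.at (nat_lit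
  10696049154850816) (nat_lit 51) (.at (nat_lit 13510798932443136) (nat_lit 46) (.t (nat_lit
  14073748887961600) (nat_lit 45)))))))))))) (.mul (nat_lit 8) (.fold (nat_lit 0) (.add (.fold
  (nat_lit 0) (.add (.at (nat_lit 15199648798998528) (nat_lit 43) (.at (nat_lit 19140298487627776)
  (nat_lit 36) (.at (nat_lit 20266198398664704) (nat_lit 34) (.t (nat_lit 24206848087293952)
  (nat_lit 27))))) (.mul (nat_lit 3) (.at (nat_lit 11821949065887744) (nat_lit 49) (.at (nat_lit
  12384899021406208) (nat_lit 48) (.at (nat_lit 16325548710035456) (nat_lit 41) (.at (nat_lit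
  18014398576590848) (nat_lit 38) (.at (nat_lit 21392098309701632) (nat_lit 32) (.at (nat_lit
  23080948176257024) (nat_lit 29) (.at (nat_lit 27021597864886272) (nat_lit 22) (.t (nat_lit
  27584547820404736) (nat_lit 21)))))))))))) (.mul (nat_lit 2) (.at (nat_lit 562949955518464)
  (nat_lit 69) (.at (nat_lit 3377699733110784) (nat_lit 64) (.at (nat_lit 5066549599666176) (nat_lit
  61) (.at (nat_lit 9007199288295424) (nat_lit 54) (.at (nat_lit 16888498665553920) (nat_lit 40)
  (.at (nat_lit 17451448621072384) (nat_lit 39) (.at (nat_lit 21955048265220096) (nat_lit 31) (.at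
  (nat_lit 22517998220738560) (nat_lit 30) (.at (nat_lit 30399297597997056) (nat_lit 16) (.at
  (nat_lit 34339947286626304) (nat_lit 9) (.at (nat_lit 36028797153181696) (nat_lit 6) (.t (nat_lit
  38843546930774016) (nat_lit 1))))))))))))))))))) (.mul (nat_lit 5) (.at (nat_lit 6755399466221568)
  (nat_lit 58) (.at (nat_lit 7318349421740032) (nat_lit 57) (.at (nat_lit 32088147464552448)
  (nat_lit 13) (.t (nat_lit 32651097420070912) (nat_lit 12)))))))))))))

/-- compiled program -/
def b11_70 : Prog := fun Y Z c d =>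
  (fo Y d (nat_lit 0) (ad Z c (nat_lit 0) (ad Z c (nat_lit 3940649688629248) (ad Z c (nat_lit
  35465847197663232) (Nat.add (fo Y d (nat_lit 0) (Nat.add (Nat.mul (nat_lit 4) (ad Z c (nat_lit
  5629499555184640) (ad Z c (nat_lit 8444249332776960) (ad Z c (nat_lit 30962247553515520) (tm Z c
  (nat_lit 33776997331107840)))))) (Nat.mul (nat_lit 2) (ad Z c (nat_lit 1688849866555392) (ad Z c
  (nat_lit 2251799822073856) (ad Z c (nat_lit 15762598754516992) (ad Z c (nat_lit 18577348532109312)
  (ad Z c (nat_lit 20829148354183168) (ad Z c (nat_lit 23643898131775488) (ad Z c (nat_lit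
  37154697064218624) (tm Z c (nat_lit 37717647019737088)))))))))))) (fo Y d (nat_lit 0) (Nat.add (ad
  Z c (nat_lit 39406496886292480) (Nat.add (Nat.mul (nat_lit 3) (fo Y d (nat_lit 0) (Nat.add (ad Z c
  (nat_lit 25332747998330880) (ad Z c (nat_lit 25895697953849344) (ad Z c (nat_lit
  28710447731441664) (ad Z c (nat_lit 29273397686960128) (ad Z c (nat_lit 31525197509033984) (ad Z c
  (nat_lit 33214047375589376) (ad Z c (nat_lit 36591747108700160) (tm Z c (nat_lit
  38280596975255552))))))))) (ad Z c (nat_lit 1125899911036928) (ad Z c (nat_lit 2814749777592320)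
  (ad Z c (nat_lit 6192449510703104) (ad Z c (nat_lit 7881299377258496) (ad Z c (nat_lit
  10133099199332352) (ad Z c (nat_lit 10696049154850816) (ad Z c (nat_lit 13510798932443136) (tm Z c
  (nat_lit 14073748887961600)))))))))))) (Nat.mul (nat_lit 8) (fo Y d (nat_lit 0) (Nat.add (fo Y d
  (nat_lit 0) (Nat.add (ad Z c (nat_lit 15199648798998528) (ad Z c (nat_lit 19140298487627776) (ad Z
  c (nat_lit 20266198398664704) (tm Z c (nat_lit 24206848087293952))))) (Nat.mul (nat_lit 3) (ad Z c
  (nat_lit 11821949065887744) (ad Z c (nat_lit 12384899021406208) (ad Z c (nat_lit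
  16325548710035456) (ad Z c (nat_lit 18014398576590848) (ad Z c (nat_lit 21392098309701632) (ad Z c
  (nat_lit 23080948176257024) (ad Z c (nat_lit 27021597864886272) (tm Z c (nat_lit
  27584547820404736)))))))))))) (Nat.mul (nat_lit 2) (ad Z c (nat_lit 562949955518464) (ad Z c
  (nat_lit 3377699733110784) (ad Z c (nat_lit 5066549599666176) (ad Z c (nat_lit 9007199288295424)
  (ad Z c (nat_lit 16888498665553920) (ad Z c (nat_lit 17451448621072384) (ad Z c (nat_lit
  21955048265220096) (ad Z c (nat_lit 22517998220738560) (ad Z c (nat_lit 30399297597997056) (ad Z c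
  (nat_lit 34339947286626304) (ad Z c (nat_lit 36028797153181696) (tm Z c (nat_lit
  38843546930774016))))))))))))))))))) (Nat.mul (nat_lit 5) (ad Z c (nat_lit 6755399466221568) (ad Z
  c (nat_lit 7318349421740032) (ad Z c (nat_lit 32088147464552448) (tm Z c (nat_lit
  32651097420070912)))))))))))))

/-- program -/
def b11_71P : Pg :=
  (.fold (nat_lit 0) (.add (.at (nat_lit 19140298487627776) (nat_lit 37) (.at (nat_lit
  20829148354183168) (nat_lit 34) (.at (nat_lit 24206848087293952) (nat_lit 28) (.at (nat_lit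
  32651097420070912) (nat_lit 13) (.at (nat_lit 35465847197663232) (nat_lit 8) (.add (.fold (nat_lit
  0) (.add (.mul (nat_lit 8) (.fold (nat_lit 0) (.at (nat_lit 562949955518464) (nat_lit 70) (.at
  (nat_lit 3940649688629248) (nat_lit 64) (.add (.at (nat_lit 6755399466221568) (nat_lit 59) (.at
  (nat_lit 7881299377258496) (nat_lit 57) (.at (nat_lit 15199648798998528) (nat_lit 44) (.at
  (nat_lit 16325548710035456) (nat_lit 42) (.at (nat_lit 18577348532109312) (nat_lit 38) (.at
  (nat_lit 19703248443146240) (nat_lit 36) (.fold (nat_lit 0) (.add (.at (nat_lit 20266198398664704)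
  (nat_lit 35) (.at (nat_lit 21392098309701632) (nat_lit 33) (.at (nat_lit 23643898131775488)
  (nat_lit 29) (.at (nat_lit 24769798042812416) (nat_lit 27) (.at (nat_lit 32088147464552448)
  (nat_lit 14) (.at (nat_lit 33214047375589376) (nat_lit 12) (.at (nat_lit 36028797153181696)
  (nat_lit 7) (.t (nat_lit 39406496886292480) (nat_lit 1))))))))) (.mul (nat_lit 3) (.at (nat_lit
  10696049154850816) (nat_lit 52) (.at (nat_lit 11821949065887744) (nat_lit 50) (.at (nat_lit
  12947848976924672) (nat_lit 48) (.at (nat_lit 14073748887961600) (nat_lit 46) (.at (nat_lit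
  25895697953849344) (nat_lit 25) (.at (nat_lit 27021597864886272) (nat_lit 23) (.at (nat_lit
  28147497775923200) (nat_lit 21) (.t (nat_lit 29273397686960128) (nat_lit 19))))))))))))))))))
  (.mul (nat_lit 2) (.at (nat_lit 5066549599666176) (nat_lit 62) (.at (nat_lit 6192449510703104)
  (nat_lit 60) (.at (nat_lit 8444249332776960) (nat_lit 56) (.at (nat_lit 9570149243813888) (nat_lit
  54) (.at (nat_lit 30399297597997056) (nat_lit 17) (.at (nat_lit 31525197509033984) (nat_lit 15)
  (.at (nat_lit 33776997331107840) (nat_lit 11) (.t (nat_lit 34902897242144768) (nat_lit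
  9))))))))))))))) (.mul (nat_lit 4) (.at (nat_lit 2251799822073856) (nat_lit 67) (.at (nat_lit
  16888498665553920) (nat_lit 41) (.at (nat_lit 18014398576590848) (nat_lit 39) (.at (nat_lit
  21955048265220096) (nat_lit 32) (.at (nat_lit 23080948176257024) (nat_lit 30) (.t (nat_lit
  37717647019737088) (nat_lit 4)))))))))) (.fold (nat_lit 0) (.add (.at (nat_lit 36591747108700160)
  (nat_lit 6) (.fold (nat_lit 0) (.add (.at (nat_lit 38843546930774016) (nat_lit 2) (.t (nat_lit
  39969446841810944) (nat_lit 0))) (.mul (nat_lit 3) (.at (nat_lit 10133099199332352) (nat_lit 53)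
  (.at (nat_lit 11258999110369280) (nat_lit 51) (.at (nat_lit 12384899021406208) (nat_lit 49) (.at
  (nat_lit 13510798932443136) (nat_lit 47) (.at (nat_lit 14636698843480064) (nat_lit 45) (.at
  (nat_lit 25332747998330880) (nat_lit 26) (.at (nat_lit 26458647909367808) (nat_lit 24) (.at
  (nat_lit 27584547820404736) (nat_lit 22) (.at (nat_lit 28710447731441664) (nat_lit 20) (.t
  (nat_lit 29836347642478592) (nat_lit 18))))))))))))))) (.mul (nat_lit 5) (.at (nat_lit
  1688849866555392) (nat_lit 68) (.at (nat_lit 2814749777592320) (nat_lit 66) (.at (nat_lit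
  17451448621072384) (nat_lit 40) (.at (nat_lit 22517998220738560) (nat_lit 31) (.at (nat_lit
  37154697064218624) (nat_lit 5) (.t (nat_lit 38280596975255552) (nat_lit 3)))))))))))))))) (.at
  (nat_lit 0) (nat_lit 71) (.at (nat_lit 1125899911036928) (nat_lit 69) (.at (nat_lit
  3377699733110784) (nat_lit 65) (.at (nat_lit 4503599644147712) (nat_lit 63) (.add (.at (nat_lit
  7318349421740032) (nat_lit 58) (.t (nat_lit 15762598754516992) (nat_lit 43))) (.mul (nat_lit 2)
  (.at (nat_lit 5629499555184640) (nat_lit 61) (.at (nat_lit 9007199288295424) (nat_lit 55) (.at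
  (nat_lit 30962247553515520) (nat_lit 16) (.t (nat_lit 34339947286626304) (nat_lit 10)))))))))))))

/-- compiled program -/
def b11_71 : Prog := fun Y Z c d =>
  (fo Y d (nat_lit 0) (Nat.add (ad Z c (nat_lit 19140298487627776) (ad Z c (nat_lit
  20829148354183168) (ad Z c (nat_lit 24206848087293952) (ad Z c (nat_lit 32651097420070912) (ad Z c
  (nat_lit 35465847197663232) (Nat.add (fo Y d (nat_lit 0) (Nat.add (Nat.mul (nat_lit 8) (fo Y d
  (nat_lit 0) (ad Z c (nat_lit 562949955518464) (ad Z c (nat_lit 3940649688629248) (Nat.add (ad Z c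
  (nat_lit 6755399466221568) (ad Z c (nat_lit 7881299377258496) (ad Z c (nat_lit 15199648798998528)
  (ad Z c (nat_lit 16325548710035456) (ad Z c (nat_lit 18577348532109312) (ad Z c (nat_lit
  19703248443146240) (fo Y d (nat_lit 0) (Nat.add (ad Z c (nat_lit 20266198398664704) (ad Z c
  (nat_lit 21392098309701632) (ad Z c (nat_lit 23643898131775488) (ad Z c (nat_lit
  24769798042812416) (ad Z c (nat_lit 32088147464552448) (ad Z c (nat_lit 33214047375589376) (ad Z c
  (nat_lit 36028797153181696) (tm Z c (nat_lit 39406496886292480))))))))) (Nat.mul (nat_lit 3) (ad Z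
  c (nat_lit 10696049154850816) (ad Z c (nat_lit 11821949065887744) (ad Z c (nat_lit
  12947848976924672) (ad Z c (nat_lit 14073748887961600) (ad Z c (nat_lit 25895697953849344) (ad Z c
  (nat_lit 27021597864886272) (ad Z c (nat_lit 28147497775923200) (tm Z c (nat_lit
  29273397686960128)))))))))))))))))) (Nat.mul (nat_lit 2) (ad Z c (nat_lit 5066549599666176) (ad Z
  c (nat_lit 6192449510703104) (ad Z c (nat_lit 8444249332776960) (ad Z c (nat_lit 9570149243813888)
  (ad Z c (nat_lit 30399297597997056) (ad Z c (nat_lit 31525197509033984) (ad Z c (nat_lit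
  33776997331107840) (tm Z c (nat_lit 34902897242144768))))))))))))))) (Nat.mul (nat_lit 4) (ad Z c
  (nat_lit 2251799822073856) (ad Z c (nat_lit 16888498665553920) (ad Z c (nat_lit 18014398576590848)
  (ad Z c (nat_lit 21955048265220096) (ad Z c (nat_lit 23080948176257024) (tm Z c (nat_lit
  37717647019737088)))))))))) (fo Y d (nat_lit 0) (Nat.add (ad Z c (nat_lit 36591747108700160) (fo Y
  d (nat_lit 0) (Nat.add (ad Z c (nat_lit 38843546930774016) (tm Z c (nat_lit 39969446841810944)))
  (Nat.mul (nat_lit 3) (ad Z c (nat_lit 10133099199332352) (ad Z c (nat_lit 11258999110369280) (ad Z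
  c (nat_lit 12384899021406208) (ad Z c (nat_lit 13510798932443136) (ad Z c (nat_lit
  14636698843480064) (ad Z c (nat_lit 25332747998330880) (ad Z c (nat_lit 26458647909367808) (ad Z c
  (nat_lit 27584547820404736) (ad Z c (nat_lit 28710447731441664) (tm Z c (nat_lit
  29836347642478592))))))))))))))) (Nat.mul (nat_lit 5) (ad Z c (nat_lit 1688849866555392) (ad Z c
  (nat_lit 2814749777592320) (ad Z c (nat_lit 17451448621072384) (ad Z c (nat_lit 22517998220738560)
  (ad Z c (nat_lit 37154697064218624) (tm Z c (nat_lit 38280596975255552)))))))))))))))) (ad Z c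
  (nat_lit 0) (ad Z c (nat_lit 1125899911036928) (ad Z c (nat_lit 3377699733110784) (ad Z c (nat_lit
  4503599644147712) (Nat.add (ad Z c (nat_lit 7318349421740032) (tm Z c (nat_lit
  15762598754516992))) (Nat.mul (nat_lit 2) (ad Z c (nat_lit 5629499555184640) (ad Z c (nat_lit
  9007199288295424) (ad Z c (nat_lit 30962247553515520) (tm Z c (nat_lit
  34339947286626304)))))))))))))

/-- program -/
def b11_72P : Pg :=
  (.fold (nat_lit 0) (.at (nat_lit 0) (nat_lit 72) (.at (nat_lit 10133099199332352) (nat_lit 54)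
  (.add (.add (.at (nat_lit 30399297597997056) (nat_lit 18) (.at (nat_lit 40532396797329408)
  (nat_lit 0) (.mul (nat_lit 8) (.fold (nat_lit 0) (.add (.at (nat_lit 5066549599666176) (nat_lit
  63) (.at (nat_lit 35465847197663232) (nat_lit 9) (.mul (nat_lit 2) (.t (nat_lit 20266198398664704)
  (nat_lit 36))))) (.mul (nat_lit 3) (.at (nat_lit 1688849866555392) (nat_lit 69) (.at (nat_lit
  3377699733110784) (nat_lit 66) (.at (nat_lit 6755399466221568) (nat_lit 60) (.at (nat_lit
  8444249332776960) (nat_lit 57) (.at (nat_lit 32088147464552448) (nat_lit 15) (.at (nat_lit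
  33776997331107840) (nat_lit 12) (.at (nat_lit 37154697064218624) (nat_lit 6) (.t (nat_lit
  38843546930774016) (nat_lit 3))))))))))))))) (.mul (nat_lit 3) (.at (nat_lit 16888498665553920)
  (nat_lit 42) (.at (nat_lit 18577348532109312) (nat_lit 39) (.at (nat_lit 21955048265220096)
  (nat_lit 33) (.t (nat_lit 23643898131775488) (nat_lit 30))))))) (.mul (nat_lit 2) (.at (nat_lit
  15199648798998528) (nat_lit 45) (.t (nat_lit 25332747998330880) (nat_lit 27))))))))

/-- compiled program -/
def b11_72 : Prog := fun Y Z c d =>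
  (fo Y d (nat_lit 0) (ad Z c (nat_lit 0) (ad Z c (nat_lit 10133099199332352) (Nat.add (Nat.add (ad
  Z c (nat_lit 30399297597997056) (ad Z c (nat_lit 40532396797329408) (Nat.mul (nat_lit 8) (fo Y d
  (nat_lit 0) (Nat.add (ad Z c (nat_lit 5066549599666176) (ad Z c (nat_lit 35465847197663232)
  (Nat.mul (nat_lit 2) (tm Z c (nat_lit 20266198398664704))))) (Nat.mul (nat_lit 3) (ad Z c (nat_lit
  1688849866555392) (ad Z c (nat_lit 3377699733110784) (ad Z c (nat_lit 6755399466221568) (ad Z c
  (nat_lit 8444249332776960) (ad Z c (nat_lit 32088147464552448) (ad Z c (nat_lit 33776997331107840)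
  (ad Z c (nat_lit 37154697064218624) (tm Z c (nat_lit 38843546930774016))))))))))))))) (Nat.mul
  (nat_lit 3) (ad Z c (nat_lit 16888498665553920) (ad Z c (nat_lit 18577348532109312) (ad Z c
  (nat_lit 21955048265220096) (tm Z c (nat_lit 23643898131775488))))))) (Nat.mul (nat_lit 2) (ad Z c
  (nat_lit 15199648798998528) (tm Z c (nat_lit 25332747998330880))))))))

/-- program -/
def b11_73P : Pg :=
  (.fold (nat_lit 0) (.at (nat_lit 0) (nat_lit 73) (.at (nat_lit 562949955518464) (nat_lit 72) (.at
  (nat_lit 10133099199332352) (nat_lit 55) (.at (nat_lit 10696049154850816) (nat_lit 54) (.add (.at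
  (nat_lit 30399297597997056) (nat_lit 19) (.at (nat_lit 30962247553515520) (nat_lit 18) (.at
  (nat_lit 40532396797329408) (nat_lit 1) (.at (nat_lit 41095346752847872) (nat_lit 0) (.fold
  (nat_lit 0) (.add (.mul (nat_lit 8) (.fold (nat_lit 0) (.at (nat_lit 5066549599666176) (nat_lit
  64) (.at (nat_lit 5629499555184640) (nat_lit 63) (.add (.at (nat_lit 35465847197663232) (nat_lit
  10) (.at (nat_lit 36028797153181696) (nat_lit 9) (.mul (nat_lit 3) (.fold (nat_lit 0) (.add (.at
  (nat_lit 32088147464552448) (nat_lit 16) (.at (nat_lit 32651097420070912) (nat_lit 15) (.at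
  (nat_lit 33776997331107840) (nat_lit 13) (.at (nat_lit 34339947286626304) (nat_lit 12) (.at
  (nat_lit 37154697064218624) (nat_lit 7) (.at (nat_lit 37717647019737088) (nat_lit 6) (.at (nat_lit
  38843546930774016) (nat_lit 4) (.t (nat_lit 39406496886292480) (nat_lit 3))))))))) (.at (nat_lit
  1688849866555392) (nat_lit 70) (.at (nat_lit 2251799822073856) (nat_lit 69) (.at (nat_lit
  3377699733110784) (nat_lit 67) (.at (nat_lit 3940649688629248) (nat_lit 66) (.at (nat_lit
  6755399466221568) (nat_lit 61) (.at (nat_lit 7318349421740032) (nat_lit 60) (.at (nat_lit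
  8444249332776960) (nat_lit 58) (.t (nat_lit 9007199288295424) (nat_lit 57)))))))))))))) (.mul
  (nat_lit 2) (.at (nat_lit 20266198398664704) (nat_lit 37) (.t (nat_lit 20829148354183168) (nat_lit
  36))))))))) (.mul (nat_lit 3) (.at (nat_lit 16888498665553920) (nat_lit 43) (.at (nat_lit
  17451448621072384) (nat_lit 42) (.at (nat_lit 18577348532109312) (nat_lit 40) (.at (nat_lit
  19140298487627776) (nat_lit 39) (.at (nat_lit 21955048265220096) (nat_lit 34) (.at (nat_lit
  22517998220738560) (nat_lit 33) (.at (nat_lit 23643898131775488) (nat_lit 31) (.t (nat_lit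
  24206848087293952) (nat_lit 30)))))))))))))))) (.mul (nat_lit 2) (.at (nat_lit 15199648798998528)
  (nat_lit 46) (.at (nat_lit 15762598754516992) (nat_lit 45) (.at (nat_lit 25332747998330880)
  (nat_lit 28) (.t (nat_lit 25895697953849344) (nat_lit 27))))))))))))

/-- compiled program -/
def b11_73 : Prog := fun Y Z c d =>
  (fo Y d (nat_lit 0) (ad Z c (nat_lit 0) (ad Z c (nat_lit 562949955518464) (ad Z c (nat_lit
  10133099199332352) (ad Z c (nat_lit 10696049154850816) (Nat.add (ad Z c (nat_lit
  30399297597997056) (ad Z c (nat_lit 30962247553515520) (ad Z c (nat_lit 40532396797329408) (ad Z c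
  (nat_lit 41095346752847872) (fo Y d (nat_lit 0) (Nat.add (Nat.mul (nat_lit 8) (fo Y d (nat_lit 0)
  (ad Z c (nat_lit 5066549599666176) (ad Z c (nat_lit 5629499555184640) (Nat.add (ad Z c (nat_lit
  35465847197663232) (ad Z c (nat_lit 36028797153181696) (Nat.mul (nat_lit 3) (fo Y d (nat_lit 0)
  (Nat.add (ad Z c (nat_lit 32088147464552448) (ad Z c (nat_lit 32651097420070912) (ad Z c (nat_lit
  33776997331107840) (ad Z c (nat_lit 34339947286626304) (ad Z c (nat_lit 37154697064218624) (ad Z c
  (nat_lit 37717647019737088) (ad Z c (nat_lit 38843546930774016) (tm Z c (nat_lit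
  39406496886292480))))))))) (ad Z c (nat_lit 1688849866555392) (ad Z c (nat_lit 2251799822073856)
  (ad Z c (nat_lit 3377699733110784) (ad Z c (nat_lit 3940649688629248) (ad Z c (nat_lit
  6755399466221568) (ad Z c (nat_lit 7318349421740032) (ad Z c (nat_lit 8444249332776960) (tm Z c
  (nat_lit 9007199288295424)))))))))))))) (Nat.mul (nat_lit 2) (ad Z c (nat_lit 20266198398664704)
  (tm Z c (nat_lit 20829148354183168))))))))) (Nat.mul (nat_lit 3) (ad Z c (nat_lit
  16888498665553920) (ad Z c (nat_lit 17451448621072384) (ad Z c (nat_lit 18577348532109312) (ad Z c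
  (nat_lit 19140298487627776) (ad Z c (nat_lit 21955048265220096) (ad Z c (nat_lit
  22517998220738560) (ad Z c (nat_lit 23643898131775488) (tm Z c (nat_lit
  24206848087293952)))))))))))))))) (Nat.mul (nat_lit 2) (ad Z c (nat_lit 15199648798998528) (ad Z c
  (nat_lit 15762598754516992) (ad Z c (nat_lit 25332747998330880) (tm Z c (nat_lit
  25895697953849344))))))))))))

/-- program -/
def b11_74P : Pg :=
  (.fold (nat_lit 0) (.at (nat_lit 0) (nat_lit 74) (.at (nat_lit 1125899911036928) (nat_lit 72) (.at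
  (nat_lit 10133099199332352) (nat_lit 56) (.at (nat_lit 11258999110369280) (nat_lit 54) (.at
  (nat_lit 30399297597997056) (nat_lit 20) (.at (nat_lit 31525197509033984) (nat_lit 18) (.at
  (nat_lit 40532396797329408) (nat_lit 2) (.at (nat_lit 41658296708366336) (nat_lit 0) (.add (.fold
  (nat_lit 0) (.add (.add (.mul (nat_lit 8) (.fold (nat_lit 0) (.at (nat_lit 5066549599666176)
  (nat_lit 65) (.add (.at (nat_lit 6192449510703104) (nat_lit 63) (.add (.at (nat_lit
  35465847197663232) (nat_lit 11) (.at (nat_lit 36591747108700160) (nat_lit 9) (.mul (nat_lit 3)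
  (.fold (nat_lit 0) (.add (.at (nat_lit 22517998220738560) (nat_lit 34) (.at (nat_lit
  24206848087293952) (nat_lit 31) (.at (nat_lit 32088147464552448) (nat_lit 17) (.at (nat_lit
  33214047375589376) (nat_lit 15) (.at (nat_lit 33776997331107840) (nat_lit 14) (.at (nat_lit
  34902897242144768) (nat_lit 12) (.at (nat_lit 37154697064218624) (nat_lit 8) (.at (nat_lit
  38280596975255552) (nat_lit 6) (.at (nat_lit 38843546930774016) (nat_lit 5) (.t (nat_lit
  39969446841810944) (nat_lit 3))))))))))) (.at (nat_lit 1688849866555392) (nat_lit 71) (.at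
  (nat_lit 2814749777592320) (nat_lit 69) (.at (nat_lit 3377699733110784) (nat_lit 68) (.at (nat_lit
  4503599644147712) (nat_lit 66) (.at (nat_lit 6755399466221568) (nat_lit 62) (.at (nat_lit
  7881299377258496) (nat_lit 60) (.at (nat_lit 8444249332776960) (nat_lit 59) (.at (nat_lit
  9570149243813888) (nat_lit 57) (.at (nat_lit 17451448621072384) (nat_lit 43) (.t (nat_lit
  19140298487627776) (nat_lit 40)))))))))))))))) (.mul (nat_lit 4) (.t (nat_lit 20829148354183168)
  (nat_lit 37))))) (.mul (nat_lit 2) (.at (nat_lit 5629499555184640) (nat_lit 64) (.at (nat_lit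
  20266198398664704) (nat_lit 38) (.at (nat_lit 21392098309701632) (nat_lit 36) (.t (nat_lit
  36028797153181696) (nat_lit 10)))))))))) (.mul (nat_lit 4) (.at (nat_lit 15762598754516992)
  (nat_lit 46) (.t (nat_lit 25895697953849344) (nat_lit 28))))) (.mul (nat_lit 2) (.at (nat_lit
  562949955518464) (nat_lit 73) (.at (nat_lit 10696049154850816) (nat_lit 55) (.at (nat_lit
  15199648798998528) (nat_lit 47) (.at (nat_lit 16325548710035456) (nat_lit 45) (.at (nat_lit
  25332747998330880) (nat_lit 29) (.at (nat_lit 26458647909367808) (nat_lit 27) (.at (nat_lit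
  30962247553515520) (nat_lit 19) (.t (nat_lit 41095346752847872) (nat_lit 1)))))))))))) (.mul
  (nat_lit 3) (.fold (nat_lit 0) (.add (.at (nat_lit 21955048265220096) (nat_lit 35) (.at (nat_lit
  23080948176257024) (nat_lit 33) (.at (nat_lit 23643898131775488) (nat_lit 32) (.at (nat_lit
  24769798042812416) (nat_lit 30) (.at (nat_lit 32651097420070912) (nat_lit 16) (.at (nat_lit
  34339947286626304) (nat_lit 13) (.at (nat_lit 37717647019737088) (nat_lit 7) (.t (nat_lit
  39406496886292480) (nat_lit 4))))))))) (.at (nat_lit 2251799822073856) (nat_lit 70) (.at (nat_lit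
  3940649688629248) (nat_lit 67) (.at (nat_lit 7318349421740032) (nat_lit 61) (.at (nat_lit
  9007199288295424) (nat_lit 58) (.at (nat_lit 16888498665553920) (nat_lit 44) (.at (nat_lit
  18014398576590848) (nat_lit 42) (.at (nat_lit 18577348532109312) (nat_lit 41) (.t (nat_lit
  19703248443146240) (nat_lit 39))))))))))))))))))))))

/-- compiled program -/
def b11_74 : Prog := fun Y Z c d =>
  (fo Y d (nat_lit 0) (ad Z c (nat_lit 0) (ad Z c (nat_lit 1125899911036928) (ad Z c (nat_lit
  10133099199332352) (ad Z c (nat_lit 11258999110369280) (ad Z c (nat_lit 30399297597997056) (ad Z c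
  (nat_lit 31525197509033984) (ad Z c (nat_lit 40532396797329408) (ad Z c (nat_lit
  41658296708366336) (Nat.add (fo Y d (nat_lit 0) (Nat.add (Nat.add (Nat.mul (nat_lit 8) (fo Y d
  (nat_lit 0) (ad Z c (nat_lit 5066549599666176) (Nat.add (ad Z c (nat_lit 6192449510703104)
  (Nat.add (ad Z c (nat_lit 35465847197663232) (ad Z c (nat_lit 36591747108700160) (Nat.mul (nat_lit
  3) (fo Y d (nat_lit 0) (Nat.add (ad Z c (nat_lit 22517998220738560) (ad Z c (nat_lit
  24206848087293952) (ad Z c (nat_lit 32088147464552448) (ad Z c (nat_lit 33214047375589376) (ad Z c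
  (nat_lit 33776997331107840) (ad Z c (nat_lit 34902897242144768) (ad Z c (nat_lit
  37154697064218624) (ad Z c (nat_lit 38280596975255552) (ad Z c (nat_lit 38843546930774016) (tm Z c
  (nat_lit 39969446841810944))))))))))) (ad Z c (nat_lit 1688849866555392) (ad Z c (nat_lit
  2814749777592320) (ad Z c (nat_lit 3377699733110784) (ad Z c (nat_lit 4503599644147712) (ad Z c
  (nat_lit 6755399466221568) (ad Z c (nat_lit 7881299377258496) (ad Z c (nat_lit 8444249332776960)
  (ad Z c (nat_lit 9570149243813888) (ad Z c (nat_lit 17451448621072384) (tm Z c (nat_lit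
  19140298487627776)))))))))))))))) (Nat.mul (nat_lit 4) (tm Z c (nat_lit 20829148354183168)))))
  (Nat.mul (nat_lit 2) (ad Z c (nat_lit 5629499555184640) (ad Z c (nat_lit 20266198398664704) (ad Z
  c (nat_lit 21392098309701632) (tm Z c (nat_lit 36028797153181696)))))))))) (Nat.mul (nat_lit 4)
  (ad Z c (nat_lit 15762598754516992) (tm Z c (nat_lit 25895697953849344))))) (Nat.mul (nat_lit 2)
  (ad Z c (nat_lit 562949955518464) (ad Z c (nat_lit 10696049154850816) (ad Z c (nat_lit
  15199648798998528) (ad Z c (nat_lit 16325548710035456) (ad Z c (nat_lit 25332747998330880) (ad Z c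
  (nat_lit 26458647909367808) (ad Z c (nat_lit 30962247553515520) (tm Z c (nat_lit
  41095346752847872)))))))))))) (Nat.mul (nat_lit 3) (fo Y d (nat_lit 0) (Nat.add (ad Z c (nat_lit
  21955048265220096) (ad Z c (nat_lit 23080948176257024) (ad Z c (nat_lit 23643898131775488) (ad Z c
  (nat_lit 24769798042812416) (ad Z c (nat_lit 32651097420070912) (ad Z c (nat_lit
  34339947286626304) (ad Z c (nat_lit 37717647019737088) (tm Z c (nat_lit 39406496886292480)))))))))
  (ad Z c (nat_lit 2251799822073856) (ad Z c (nat_lit 3940649688629248) (ad Z c (nat_lit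
  7318349421740032) (ad Z c (nat_lit 9007199288295424) (ad Z c (nat_lit 16888498665553920) (ad Z c
  (nat_lit 18014398576590848) (ad Z c (nat_lit 18577348532109312) (tm Z c (nat_lit
  19703248443146240))))))))))))))))))))))

/-- program -/
def b11_75P : Pg :=
  (.fold (nat_lit 0) (.at (nat_lit 0) (nat_lit 75) (.at (nat_lit 11821949065887744) (nat_lit 54)
  (.add (.at (nat_lit 20266198398664704) (nat_lit 39) (.at (nat_lit 21955048265220096) (nat_lit 36)
  (.at (nat_lit 30399297597997056) (nat_lit 21) (.at (nat_lit 42221246663884800) (nat_lit 0) (.add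
  (.add (.mul (nat_lit 3) (.fold (nat_lit 0) (.add (.at (nat_lit 21392098309701632) (nat_lit 37)
  (.at (nat_lit 30962247553515520) (nat_lit 20) (.at (nat_lit 31525197509033984) (nat_lit 19) (.at
  (nat_lit 33776997331107840) (nat_lit 15) (.at (nat_lit 38843546930774016) (nat_lit 6) (.at
  (nat_lit 41095346752847872) (nat_lit 2) (.t (nat_lit 41658296708366336) (nat_lit 1)))))))) (.at
  (nat_lit 562949955518464) (nat_lit 74) (.at (nat_lit 1125899911036928) (nat_lit 73) (.at (nat_lit
  3377699733110784) (nat_lit 69) (.at (nat_lit 8444249332776960) (nat_lit 60) (.at (nat_lit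
  10696049154850816) (nat_lit 56) (.at (nat_lit 11258999110369280) (nat_lit 55) (.t (nat_lit
  20829148354183168) (nat_lit 38))))))))))) (.mul (nat_lit 6) (.fold (nat_lit 0) (.at (nat_lit
  5629499555184640) (nat_lit 65) (.at (nat_lit 6192449510703104) (nat_lit 64) (.at (nat_lit
  15762598754516992) (nat_lit 47) (.at (nat_lit 16325548710035456) (nat_lit 46) (.at (nat_lit
  18577348532109312) (nat_lit 42) (.at (nat_lit 23643898131775488) (nat_lit 33) (.at (nat_lit
  25895697953849344) (nat_lit 29) (.at (nat_lit 26458647909367808) (nat_lit 28) (.at (nat_lit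
  36028797153181696) (nat_lit 11) (.t (nat_lit 36591747108700160) (nat_lit 10)))))))))))))) (.mul
  (nat_lit 8) (.fold (nat_lit 0) (.add (.mul (nat_lit 4) (.at (nat_lit 5066549599666176) (nat_lit
  66) (.at (nat_lit 6755399466221568) (nat_lit 63) (.at (nat_lit 16888498665553920) (nat_lit 45)
  (.at (nat_lit 25332747998330880) (nat_lit 30) (.at (nat_lit 35465847197663232) (nat_lit 12) (.t
  (nat_lit 37154697064218624) (nat_lit 9)))))))) (.mul (nat_lit 2) (.at (nat_lit 1688849866555392)
  (nat_lit 72) (.at (nat_lit 10133099199332352) (nat_lit 57) (.at (nat_lit 32088147464552448)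
  (nat_lit 18) (.t (nat_lit 40532396797329408) (nat_lit 3)))))))))))))) (.mul (nat_lit 2) (.at
  (nat_lit 15199648798998528) (nat_lit 48) (.t (nat_lit 27021597864886272) (nat_lit 27))))))))

/-- compiled program -/
def b11_75 : Prog := fun Y Z c d =>
  (fo Y d (nat_lit 0) (ad Z c (nat_lit 0) (ad Z c (nat_lit 11821949065887744) (Nat.add (ad Z c
  (nat_lit 20266198398664704) (ad Z c (nat_lit 21955048265220096) (ad Z c (nat_lit
  30399297597997056) (ad Z c (nat_lit 42221246663884800) (Nat.add (Nat.add (Nat.mul (nat_lit 3) (fo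
  Y d (nat_lit 0) (Nat.add (ad Z c (nat_lit 21392098309701632) (ad Z c (nat_lit 30962247553515520)
  (ad Z c (nat_lit 31525197509033984) (ad Z c (nat_lit 33776997331107840) (ad Z c (nat_lit
  38843546930774016) (ad Z c (nat_lit 41095346752847872) (tm Z c (nat_lit 41658296708366336))))))))
  (ad Z c (nat_lit 562949955518464) (ad Z c (nat_lit 1125899911036928) (ad Z c (nat_lit
  3377699733110784) (ad Z c (nat_lit 8444249332776960) (ad Z c (nat_lit 10696049154850816) (ad Z c
  (nat_lit 11258999110369280) (tm Z c (nat_lit 20829148354183168))))))))))) (Nat.mul (nat_lit 6) (fo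
  Y d (nat_lit 0) (ad Z c (nat_lit 5629499555184640) (ad Z c (nat_lit 6192449510703104) (ad Z c
  (nat_lit 15762598754516992) (ad Z c (nat_lit 16325548710035456) (ad Z c (nat_lit
  18577348532109312) (ad Z c (nat_lit 23643898131775488) (ad Z c (nat_lit 25895697953849344) (ad Z c
  (nat_lit 26458647909367808) (ad Z c (nat_lit 36028797153181696) (tm Z c (nat_lit
  36591747108700160)))))))))))))) (Nat.mul (nat_lit 8) (fo Y d (nat_lit 0) (Nat.add (Nat.mul
  (nat_lit 4) (ad Z c (nat_lit 5066549599666176) (ad Z c (nat_lit 6755399466221568) (ad Z c (nat_lit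
  16888498665553920) (ad Z c (nat_lit 25332747998330880) (ad Z c (nat_lit 35465847197663232) (tm Z c
  (nat_lit 37154697064218624)))))))) (Nat.mul (nat_lit 2) (ad Z c (nat_lit 1688849866555392) (ad Z c
  (nat_lit 10133099199332352) (ad Z c (nat_lit 32088147464552448) (tm Z c (nat_lit
  40532396797329408)))))))))))))) (Nat.mul (nat_lit 2) (ad Z c (nat_lit 15199648798998528) (tm Z c
  (nat_lit 27021597864886272))))))))

/-- program -/
def b11_76P : Pg :=
  (.fold (nat_lit 0) (.at (nat_lit 0) (nat_lit 76) (.at (nat_lit 1688849866555392) (nat_lit 73) (.at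
  (nat_lit 10696049154850816) (nat_lit 57) (.at (nat_lit 12384899021406208) (nat_lit 54) (.at
  (nat_lit 20266198398664704) (nat_lit 40) (.add (.fold (nat_lit 0) (.add (.mul (nat_lit 8) (.add
  (.fold (nat_lit 0) (.add (.mul (nat_lit 4) (.at (nat_lit 5066549599666176) (nat_lit 67) (.at
  (nat_lit 7318349421740032) (nat_lit 63) (.at (nat_lit 17451448621072384) (nat_lit 45) (.at
  (nat_lit 25332747998330880) (nat_lit 31) (.at (nat_lit 35465847197663232) (nat_lit 13) (.t
  (nat_lit 37717647019737088) (nat_lit 9)))))))) (.mul (nat_lit 2) (.at (nat_lit 2251799822073856)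
  (nat_lit 72) (.at (nat_lit 10133099199332352) (nat_lit 58) (.at (nat_lit 32651097420070912)
  (nat_lit 18) (.t (nat_lit 40532396797329408) (nat_lit 4)))))))) (.fold (nat_lit 0) (.add (.at
  (nat_lit 15762598754516992) (nat_lit 48) (.t (nat_lit 27021597864886272) (nat_lit 28))) (.mul
  (nat_lit 3) (.at (nat_lit 1125899911036928) (nat_lit 74) (.at (nat_lit 11258999110369280) (nat_lit
  56) (.at (nat_lit 18577348532109312) (nat_lit 43) (.at (nat_lit 19140298487627776) (nat_lit 42)
  (.at (nat_lit 21392098309701632) (nat_lit 38) (.at (nat_lit 23643898131775488) (nat_lit 34) (.at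
  (nat_lit 24206848087293952) (nat_lit 33) (.at (nat_lit 31525197509033984) (nat_lit 20) (.t
  (nat_lit 41658296708366336) (nat_lit 2))))))))))))))) (.mul (nat_lit 2) (.at (nat_lit
  5629499555184640) (nat_lit 66) (.at (nat_lit 6755399466221568) (nat_lit 64) (.at (nat_lit
  15199648798998528) (nat_lit 49) (.at (nat_lit 16888498665553920) (nat_lit 46) (.at (nat_lit
  25895697953849344) (nat_lit 30) (.at (nat_lit 27584547820404736) (nat_lit 27) (.at (nat_lit
  36028797153181696) (nat_lit 12) (.t (nat_lit 37154697064218624) (nat_lit 10)))))))))))) (.fold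
  (nat_lit 0) (.add (.at (nat_lit 22517998220738560) (nat_lit 36) (.at (nat_lit 30399297597997056)
  (nat_lit 22) (.at (nat_lit 32088147464552448) (nat_lit 19) (.at (nat_lit 41095346752847872)
  (nat_lit 3) (.at (nat_lit 42784196619403264) (nat_lit 0) (.mul (nat_lit 3) (.fold (nat_lit 0) (.at
  (nat_lit 3377699733110784) (nat_lit 70) (.at (nat_lit 3940649688629248) (nat_lit 69) (.at (nat_lit
  6192449510703104) (nat_lit 65) (.at (nat_lit 8444249332776960) (nat_lit 61) (.at (nat_lit
  9007199288295424) (nat_lit 60) (.at (nat_lit 16325548710035456) (nat_lit 47) (.at (nat_lit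
  26458647909367808) (nat_lit 29) (.at (nat_lit 33776997331107840) (nat_lit 16) (.at (nat_lit
  34339947286626304) (nat_lit 15) (.at (nat_lit 36591747108700160) (nat_lit 11) (.at (nat_lit
  38843546930774016) (nat_lit 7) (.t (nat_lit 39406496886292480) (nat_lit 6))))))))))))))))))))
  (.mul (nat_lit 4) (.at (nat_lit 562949955518464) (nat_lit 75) (.at (nat_lit 11821949065887744)
  (nat_lit 55) (.at (nat_lit 20829148354183168) (nat_lit 39) (.at (nat_lit 21955048265220096)
  (nat_lit 37) (.at (nat_lit 30962247553515520) (nat_lit 21) (.t (nat_lit 42221246663884800)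
  (nat_lit 1)))))))))))))))))

/-- compiled program -/
def b11_76 : Prog := fun Y Z c d =>
  (fo Y d (nat_lit 0) (ad Z c (nat_lit 0) (ad Z c (nat_lit 1688849866555392) (ad Z c (nat_lit
  10696049154850816) (ad Z c (nat_lit 12384899021406208) (ad Z c (nat_lit 20266198398664704)
  (Nat.add (fo Y d (nat_lit 0) (Nat.add (Nat.mul (nat_lit 8) (Nat.add (fo Y d (nat_lit 0) (Nat.add
  (Nat.mul (nat_lit 4) (ad Z c (nat_lit 5066549599666176) (ad Z c (nat_lit 7318349421740032) (ad Z c
  (nat_lit 17451448621072384) (ad Z c (nat_lit 25332747998330880) (ad Z c (nat_lit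
  35465847197663232) (tm Z c (nat_lit 37717647019737088)))))))) (Nat.mul (nat_lit 2) (ad Z c
  (nat_lit 2251799822073856) (ad Z c (nat_lit 10133099199332352) (ad Z c (nat_lit 32651097420070912)
  (tm Z c (nat_lit 40532396797329408)))))))) (fo Y d (nat_lit 0) (Nat.add (ad Z c (nat_lit
  15762598754516992) (tm Z c (nat_lit 27021597864886272))) (Nat.mul (nat_lit 3) (ad Z c (nat_lit
  1125899911036928) (ad Z c (nat_lit 11258999110369280) (ad Z c (nat_lit 18577348532109312) (ad Z c
  (nat_lit 19140298487627776) (ad Z c (nat_lit 21392098309701632) (ad Z c (nat_lit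
  23643898131775488) (ad Z c (nat_lit 24206848087293952) (ad Z c (nat_lit 31525197509033984) (tm Z c
  (nat_lit 41658296708366336))))))))))))))) (Nat.mul (nat_lit 2) (ad Z c (nat_lit 5629499555184640)
  (ad Z c (nat_lit 6755399466221568) (ad Z c (nat_lit 15199648798998528) (ad Z c (nat_lit
  16888498665553920) (ad Z c (nat_lit 25895697953849344) (ad Z c (nat_lit 27584547820404736) (ad Z c
  (nat_lit 36028797153181696) (tm Z c (nat_lit 37154697064218624)))))))))))) (fo Y d (nat_lit 0)
  (Nat.add (ad Z c (nat_lit 22517998220738560) (ad Z c (nat_lit 30399297597997056) (ad Z c (nat_lit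
  32088147464552448) (ad Z c (nat_lit 41095346752847872) (ad Z c (nat_lit 42784196619403264)
  (Nat.mul (nat_lit 3) (fo Y d (nat_lit 0) (ad Z c (nat_lit 3377699733110784) (ad Z c (nat_lit
  3940649688629248) (ad Z c (nat_lit 6192449510703104) (ad Z c (nat_lit 8444249332776960) (ad Z c
  (nat_lit 9007199288295424) (ad Z c (nat_lit 16325548710035456) (ad Z c (nat_lit 26458647909367808)
  (ad Z c (nat_lit 33776997331107840) (ad Z c (nat_lit 34339947286626304) (ad Z c (nat_lit
  36591747108700160) (ad Z c (nat_lit 38843546930774016) (tm Z c (nat_lit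
  39406496886292480)))))))))))))))))))) (Nat.mul (nat_lit 4) (ad Z c (nat_lit 562949955518464) (ad Z
  c (nat_lit 11821949065887744) (ad Z c (nat_lit 20829148354183168) (ad Z c (nat_lit
  21955048265220096) (ad Z c (nat_lit 30962247553515520) (tm Z c (nat_lit
  42221246663884800)))))))))))))))))

/-- program -/
def b11_77P : Pg :=
  (.fold (nat_lit 0) (.add (.at (nat_lit 21392098309701632) (nat_lit 39) (.at (nat_lit
  21955048265220096) (nat_lit 38) (.at (nat_lit 23080948176257024) (nat_lit 36) (.at (nat_lit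
  27584547820404736) (nat_lit 28) (.at (nat_lit 30399297597997056) (nat_lit 23) (.at (nat_lit
  31525197509033984) (nat_lit 21) (.add (.fold (nat_lit 0) (.add (.at (nat_lit 42221246663884800)
  (nat_lit 2) (.t (nat_lit 43347146574921728) (nat_lit 0))) (.mul (nat_lit 3) (.at (nat_lit
  3377699733110784) (nat_lit 71) (.at (nat_lit 4503599644147712) (nat_lit 69) (.at (nat_lit
  8444249332776960) (nat_lit 62) (.at (nat_lit 9570149243813888) (nat_lit 60) (.at (nat_lit
  19140298487627776) (nat_lit 43) (.at (nat_lit 24206848087293952) (nat_lit 34) (.at (nat_lit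
  33776997331107840) (nat_lit 17) (.at (nat_lit 34902897242144768) (nat_lit 15) (.at (nat_lit
  38843546930774016) (nat_lit 8) (.t (nat_lit 39969446841810944) (nat_lit 6)))))))))))))) (.mul
  (nat_lit 8) (.fold (nat_lit 0) (.at (nat_lit 2251799822073856) (nat_lit 73) (.add (.at (nat_lit
  10696049154850816) (nat_lit 58) (.at (nat_lit 32651097420070912) (nat_lit 19) (.at (nat_lit
  41095346752847872) (nat_lit 4) (.fold (nat_lit 0) (.add (.mul (nat_lit 4) (.fold (nat_lit 0) (.add
  (.at (nat_lit 22517998220738560) (nat_lit 37) (.at (nat_lit 25332747998330880) (nat_lit 32) (.at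
  (nat_lit 26458647909367808) (nat_lit 30) (.at (nat_lit 30962247553515520) (nat_lit 22) (.at
  (nat_lit 35465847197663232) (nat_lit 14) (.at (nat_lit 36591747108700160) (nat_lit 12) (.at
  (nat_lit 37154697064218624) (nat_lit 11) (.at (nat_lit 38280596975255552) (nat_lit 9) (.t (nat_lit
  42784196619403264) (nat_lit 1)))))))))) (.at (nat_lit 562949955518464) (nat_lit 76) (.at (nat_lit
  5066549599666176) (nat_lit 68) (.at (nat_lit 6192449510703104) (nat_lit 66) (.at (nat_lit
  6755399466221568) (nat_lit 65) (.at (nat_lit 7881299377258496) (nat_lit 63) (.at (nat_lit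
  12384899021406208) (nat_lit 55) (.at (nat_lit 16888498665553920) (nat_lit 47) (.at (nat_lit
  18014398576590848) (nat_lit 45) (.t (nat_lit 20829148354183168) (nat_lit 40))))))))))))) (.mul
  (nat_lit 2) (.add (.at (nat_lit 25895697953849344) (nat_lit 31) (.at (nat_lit 32088147464552448)
  (nat_lit 20) (.at (nat_lit 33214047375589376) (nat_lit 18) (.at (nat_lit 36028797153181696)
  (nat_lit 13) (.at (nat_lit 37717647019737088) (nat_lit 10) (.at (nat_lit 40532396797329408)
  (nat_lit 5) (.t (nat_lit 41658296708366336) (nat_lit 3)))))))) (.at (nat_lit 1688849866555392)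
  (nat_lit 74) (.at (nat_lit 2814749777592320) (nat_lit 72) (.at (nat_lit 5629499555184640) (nat_lit
  67) (.at (nat_lit 7318349421740032) (nat_lit 64) (.at (nat_lit 10133099199332352) (nat_lit 59)
  (.at (nat_lit 11258999110369280) (nat_lit 57) (.t (nat_lit 17451448621072384) (nat_lit
  46))))))))))))))) (.mul (nat_lit 3) (.at (nat_lit 3940649688629248) (nat_lit 70) (.at (nat_lit
  9007199288295424) (nat_lit 61) (.at (nat_lit 18577348532109312) (nat_lit 44) (.at (nat_lit
  19703248443146240) (nat_lit 42) (.at (nat_lit 23643898131775488) (nat_lit 35) (.at (nat_lit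
  24769798042812416) (nat_lit 33) (.at (nat_lit 34339947286626304) (nat_lit 16) (.t (nat_lit
  39406496886292480) (nat_lit 7))))))))))))))))))))) (.at (nat_lit 0) (nat_lit 77) (.at (nat_lit
  1125899911036928) (nat_lit 75) (.at (nat_lit 11821949065887744) (nat_lit 56) (.at (nat_lit
  12947848976924672) (nat_lit 54) (.add (.at (nat_lit 15762598754516992) (nat_lit 49) (.t (nat_lit
  20266198398664704) (nat_lit 41))) (.mul (nat_lit 2) (.at (nat_lit 15199648798998528) (nat_lit 50)
  (.at (nat_lit 16325548710035456) (nat_lit 48) (.at (nat_lit 27021597864886272) (nat_lit 29) (.t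
  (nat_lit 28147497775923200) (nat_lit 27)))))))))))))

/-- compiled program -/
def b11_77 : Prog := fun Y Z c d =>
  (fo Y d (nat_lit 0) (Nat.add (ad Z c (nat_lit 21392098309701632) (ad Z c (nat_lit
  21955048265220096) (ad Z c (nat_lit 23080948176257024) (ad Z c (nat_lit 27584547820404736) (ad Z c
  (nat_lit 30399297597997056) (ad Z c (nat_lit 31525197509033984) (Nat.add (fo Y d (nat_lit 0)
  (Nat.add (ad Z c (nat_lit 42221246663884800) (tm Z c (nat_lit 43347146574921728))) (Nat.mul
  (nat_lit 3) (ad Z c (nat_lit 3377699733110784) (ad Z c (nat_lit 4503599644147712) (ad Z c (nat_lit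
  8444249332776960) (ad Z c (nat_lit 9570149243813888) (ad Z c (nat_lit 19140298487627776) (ad Z c
  (nat_lit 24206848087293952) (ad Z c (nat_lit 33776997331107840) (ad Z c (nat_lit
  34902897242144768) (ad Z c (nat_lit 38843546930774016) (tm Z c (nat_lit
  39969446841810944)))))))))))))) (Nat.mul (nat_lit 8) (fo Y d (nat_lit 0) (ad Z c (nat_lit
  2251799822073856) (Nat.add (ad Z c (nat_lit 10696049154850816) (ad Z c (nat_lit 32651097420070912)
  (ad Z c (nat_lit 41095346752847872) (fo Y d (nat_lit 0) (Nat.add (Nat.mul (nat_lit 4) (fo Y d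
  (nat_lit 0) (Nat.add (ad Z c (nat_lit 22517998220738560) (ad Z c (nat_lit 25332747998330880) (ad Z
  c (nat_lit 26458647909367808) (ad Z c (nat_lit 30962247553515520) (ad Z c (nat_lit
  35465847197663232) (ad Z c (nat_lit 36591747108700160) (ad Z c (nat_lit 37154697064218624) (ad Z c
  (nat_lit 38280596975255552) (tm Z c (nat_lit 42784196619403264)))))))))) (ad Z c (nat_lit
  562949955518464) (ad Z c (nat_lit 5066549599666176) (ad Z c (nat_lit 6192449510703104) (ad Z c
  (nat_lit 6755399466221568) (ad Z c (nat_lit 7881299377258496) (ad Z c (nat_lit 12384899021406208)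
  (ad Z c (nat_lit 16888498665553920) (ad Z c (nat_lit 18014398576590848) (tm Z c (nat_lit
  20829148354183168))))))))))))) (Nat.mul (nat_lit 2) (Nat.add (ad Z c (nat_lit 25895697953849344)
  (ad Z c (nat_lit 32088147464552448) (ad Z c (nat_lit 33214047375589376) (ad Z c (nat_lit
  36028797153181696) (ad Z c (nat_lit 37717647019737088) (ad Z c (nat_lit 40532396797329408) (tm Z c
  (nat_lit 41658296708366336)))))))) (ad Z c (nat_lit 1688849866555392) (ad Z c (nat_lit
  2814749777592320) (ad Z c (nat_lit 5629499555184640) (ad Z c (nat_lit 7318349421740032) (ad Z c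
  (nat_lit 10133099199332352) (ad Z c (nat_lit 11258999110369280) (tm Z c (nat_lit
  17451448621072384))))))))))))))) (Nat.mul (nat_lit 3) (ad Z c (nat_lit 3940649688629248) (ad Z c
  (nat_lit 9007199288295424) (ad Z c (nat_lit 18577348532109312) (ad Z c (nat_lit 19703248443146240)
  (ad Z c (nat_lit 23643898131775488) (ad Z c (nat_lit 24769798042812416) (ad Z c (nat_lit
  34339947286626304) (tm Z c (nat_lit 39406496886292480))))))))))))))))))))) (ad Z c (nat_lit 0) (ad
  Z c (nat_lit 1125899911036928) (ad Z c (nat_lit 11821949065887744) (ad Z c (nat_lit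
  12947848976924672) (Nat.add (ad Z c (nat_lit 15762598754516992) (tm Z c (nat_lit
  20266198398664704))) (Nat.mul (nat_lit 2) (ad Z c (nat_lit 15199648798998528) (ad Z c (nat_lit
  16325548710035456) (ad Z c (nat_lit 27021597864886272) (tm Z c (nat_lit
  28147497775923200)))))))))))))

/-- program -/
def b11_78P : Pg :=
  (.fold (nat_lit 0) (.add (.at (nat_lit 30399297597997056) (nat_lit 24) (.at (nat_lit
  33776997331107840) (nat_lit 18) (.at (nat_lit 37154697064218624) (nat_lit 12) (.at (nat_lit
  40532396797329408) (nat_lit 6) (.at (nat_lit 43910096530440192) (nat_lit 0) (.add (.mul (nat_lit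
  3) (.fold (nat_lit 0) (.add (.at (nat_lit 25895697953849344) (nat_lit 32) (.at (nat_lit
  26458647909367808) (nat_lit 31) (.at (nat_lit 27584547820404736) (nat_lit 29) (.at (nat_lit
  28147497775923200) (nat_lit 28) (.at (nat_lit 36028797153181696) (nat_lit 14) (.at (nat_lit
  36591747108700160) (nat_lit 13) (.at (nat_lit 37717647019737088) (nat_lit 11) (.t (nat_lit
  38280596975255552) (nat_lit 10))))))))) (.at (nat_lit 5629499555184640) (nat_lit 68) (.at (nat_lit
  6192449510703104) (nat_lit 67) (.at (nat_lit 7318349421740032) (nat_lit 65) (.at (nat_lit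
  7881299377258496) (nat_lit 64) (.at (nat_lit 15762598754516992) (nat_lit 50) (.at (nat_lit
  16325548710035456) (nat_lit 49) (.at (nat_lit 17451448621072384) (nat_lit 47) (.t (nat_lit
  18014398576590848) (nat_lit 46)))))))))))) (.mul (nat_lit 8) (.fold (nat_lit 0) (.at (nat_lit
  1688849866555392) (nat_lit 75) (.at (nat_lit 5066549599666176) (nat_lit 69) (.at (nat_lit
  8444249332776960) (nat_lit 63) (.at (nat_lit 11821949065887744) (nat_lit 57) (.add (.at (nat_lit
  32088147464552448) (nat_lit 21) (.at (nat_lit 35465847197663232) (nat_lit 15) (.at (nat_lit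
  38843546930774016) (nat_lit 9) (.at (nat_lit 42221246663884800) (nat_lit 3) (.mul (nat_lit 3)
  (.fold (nat_lit 0) (.add (.at (nat_lit 22517998220738560) (nat_lit 38) (.at (nat_lit
  23080948176257024) (nat_lit 37) (.at (nat_lit 30962247553515520) (nat_lit 23) (.at (nat_lit
  31525197509033984) (nat_lit 22) (.at (nat_lit 32651097420070912) (nat_lit 20) (.at (nat_lit
  33214047375589376) (nat_lit 19) (.at (nat_lit 41095346752847872) (nat_lit 5) (.at (nat_lit
  41658296708366336) (nat_lit 4) (.at (nat_lit 42784196619403264) (nat_lit 2) (.t (nat_lit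
  43347146574921728) (nat_lit 1))))))))))) (.at (nat_lit 562949955518464) (nat_lit 77) (.at (nat_lit
  1125899911036928) (nat_lit 76) (.at (nat_lit 2251799822073856) (nat_lit 74) (.at (nat_lit
  2814749777592320) (nat_lit 73) (.at (nat_lit 10696049154850816) (nat_lit 59) (.at (nat_lit
  11258999110369280) (nat_lit 58) (.at (nat_lit 12384899021406208) (nat_lit 56) (.at (nat_lit
  12947848976924672) (nat_lit 55) (.at (nat_lit 20829148354183168) (nat_lit 41) (.t (nat_lit
  21392098309701632) (nat_lit 40)))))))))))))))))) (.mul (nat_lit 2) (.at (nat_lit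
  16888498665553920) (nat_lit 48) (.at (nat_lit 20266198398664704) (nat_lit 42) (.at (nat_lit
  23643898131775488) (nat_lit 36) (.t (nat_lit 27021597864886272) (nat_lit 30)))))))))))))))))))
  (.at (nat_lit 0) (nat_lit 78) (.at (nat_lit 3377699733110784) (nat_lit 72) (.at (nat_lit
  6755399466221568) (nat_lit 66) (.at (nat_lit 10133099199332352) (nat_lit 60) (.at (nat_lit
  13510798932443136) (nat_lit 54) (.mul (nat_lit 2) (.at (nat_lit 15199648798998528) (nat_lit 51)
  (.at (nat_lit 18577348532109312) (nat_lit 45) (.at (nat_lit 21955048265220096) (nat_lit 39) (.at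
  (nat_lit 25332747998330880) (nat_lit 33) (.t (nat_lit 28710447731441664) (nat_lit 27))))))))))))))

/-- compiled program -/
def b11_78 : Prog := fun Y Z c d =>
  (fo Y d (nat_lit 0) (Nat.add (ad Z c (nat_lit 30399297597997056) (ad Z c (nat_lit
  33776997331107840) (ad Z c (nat_lit 37154697064218624) (ad Z c (nat_lit 40532396797329408) (ad Z c
  (nat_lit 43910096530440192) (Nat.add (Nat.mul (nat_lit 3) (fo Y d (nat_lit 0) (Nat.add (ad Z c
  (nat_lit 25895697953849344) (ad Z c (nat_lit 26458647909367808) (ad Z c (nat_lit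
  27584547820404736) (ad Z c (nat_lit 28147497775923200) (ad Z c (nat_lit 36028797153181696) (ad Z c
  (nat_lit 36591747108700160) (ad Z c (nat_lit 37717647019737088) (tm Z c (nat_lit
  38280596975255552))))))))) (ad Z c (nat_lit 5629499555184640) (ad Z c (nat_lit 6192449510703104)
  (ad Z c (nat_lit 7318349421740032) (ad Z c (nat_lit 7881299377258496) (ad Z c (nat_lit
  15762598754516992) (ad Z c (nat_lit 16325548710035456) (ad Z c (nat_lit 17451448621072384) (tm Z c
  (nat_lit 18014398576590848)))))))))))) (Nat.mul (nat_lit 8) (fo Y d (nat_lit 0) (ad Z c (nat_lit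
  1688849866555392) (ad Z c (nat_lit 5066549599666176) (ad Z c (nat_lit 8444249332776960) (ad Z c
  (nat_lit 11821949065887744) (Nat.add (ad Z c (nat_lit 32088147464552448) (ad Z c (nat_lit
  35465847197663232) (ad Z c (nat_lit 38843546930774016) (ad Z c (nat_lit 42221246663884800)
  (Nat.mul (nat_lit 3) (fo Y d (nat_lit 0) (Nat.add (ad Z c (nat_lit 22517998220738560) (ad Z c
  (nat_lit 23080948176257024) (ad Z c (nat_lit 30962247553515520) (ad Z c (nat_lit
  31525197509033984) (ad Z c (nat_lit 32651097420070912) (ad Z c (nat_lit 33214047375589376) (ad Z c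
  (nat_lit 41095346752847872) (ad Z c (nat_lit 41658296708366336) (ad Z c (nat_lit
  42784196619403264) (tm Z c (nat_lit 43347146574921728))))))))))) (ad Z c (nat_lit 562949955518464)
  (ad Z c (nat_lit 1125899911036928) (ad Z c (nat_lit 2251799822073856) (ad Z c (nat_lit
  2814749777592320) (ad Z c (nat_lit 10696049154850816) (ad Z c (nat_lit 11258999110369280) (ad Z c
  (nat_lit 12384899021406208) (ad Z c (nat_lit 12947848976924672) (ad Z c (nat_lit
  20829148354183168) (tm Z c (nat_lit 21392098309701632)))))))))))))))))) (Nat.mul (nat_lit 2) (ad Z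
  c (nat_lit 16888498665553920) (ad Z c (nat_lit 20266198398664704) (ad Z c (nat_lit
  23643898131775488) (tm Z c (nat_lit 27021597864886272))))))))))))))))))) (ad Z c (nat_lit 0) (ad Z
  c (nat_lit 3377699733110784) (ad Z c (nat_lit 6755399466221568) (ad Z c (nat_lit
  10133099199332352) (ad Z c (nat_lit 13510798932443136) (Nat.mul (nat_lit 2) (ad Z c (nat_lit
  15199648798998528) (ad Z c (nat_lit 18577348532109312) (ad Z c (nat_lit 21955048265220096) (ad Z c
  (nat_lit 25332747998330880) (tm Z c (nat_lit 28710447731441664))))))))))))))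

/-- program -/
def b11_79P : Pg :=
  (.fold (nat_lit 0) (.add (.at (nat_lit 17451448621072384) (nat_lit 48) (.at (nat_lit
  27021597864886272) (nat_lit 31) (.at (nat_lit 27584547820404736) (nat_lit 30) (.at (nat_lit
  30399297597997056) (nat_lit 25) (.at (nat_lit 34339947286626304) (nat_lit 18) (.add (.fold
  (nat_lit 0) (.add (.mul (nat_lit 8) (.fold (nat_lit 0) (.add (.at (nat_lit 5066549599666176)
  (nat_lit 70) (.at (nat_lit 9007199288295424) (nat_lit 63) (.fold (nat_lit 0) (.add (.at (nat_lit
  21955048265220096) (nat_lit 40) (.at (nat_lit 22517998220738560) (nat_lit 39) (.at (nat_lit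
  35465847197663232) (nat_lit 16) (.at (nat_lit 39406496886292480) (nat_lit 9) (.mul (nat_lit 4)
  (.fold (nat_lit 0) (.at (nat_lit 1688849866555392) (nat_lit 76) (.at (nat_lit 2251799822073856)
  (nat_lit 75) (.at (nat_lit 11821949065887744) (nat_lit 58) (.at (nat_lit 12384899021406208)
  (nat_lit 57) (.at (nat_lit 15762598754516992) (nat_lit 51) (.at (nat_lit 18577348532109312)
  (nat_lit 46) (.at (nat_lit 25895697953849344) (nat_lit 33) (.at (nat_lit 28710447731441664)
  (nat_lit 28) (.at (nat_lit 32088147464552448) (nat_lit 22) (.at (nat_lit 32651097420070912)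
  (nat_lit 21) (.at (nat_lit 42221246663884800) (nat_lit 4) (.t (nat_lit 42784196619403264) (nat_lit
  3))))))))))))))))))) (.mul (nat_lit 3) (.at (nat_lit 6192449510703104) (nat_lit 68) (.at (nat_lit
  7881299377258496) (nat_lit 65) (.at (nat_lit 16325548710035456) (nat_lit 50) (.at (nat_lit
  18014398576590848) (nat_lit 47) (.at (nat_lit 26458647909367808) (nat_lit 32) (.at (nat_lit
  28147497775923200) (nat_lit 29) (.at (nat_lit 36591747108700160) (nat_lit 14) (.t (nat_lit
  38280596975255552) (nat_lit 11)))))))))))))) (.mul (nat_lit 2) (.at (nat_lit 562949955518464)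
  (nat_lit 78) (.at (nat_lit 3377699733110784) (nat_lit 73) (.at (nat_lit 10696049154850816)
  (nat_lit 60) (.at (nat_lit 13510798932443136) (nat_lit 55) (.at (nat_lit 20266198398664704)
  (nat_lit 43) (.at (nat_lit 24206848087293952) (nat_lit 36) (.at (nat_lit 30962247553515520)
  (nat_lit 24) (.at (nat_lit 33776997331107840) (nat_lit 19) (.at (nat_lit 41095346752847872)
  (nat_lit 6) (.t (nat_lit 43910096530440192) (nat_lit 1))))))))))))))) (.mul (nat_lit 4) (.at
  (nat_lit 6755399466221568) (nat_lit 67) (.at (nat_lit 7318349421740032) (nat_lit 66) (.at (nat_lit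
  20829148354183168) (nat_lit 42) (.at (nat_lit 23643898131775488) (nat_lit 37) (.at (nat_lit
  37154697064218624) (nat_lit 13) (.t (nat_lit 37717647019737088) (nat_lit 12)))))))))) (.fold
  (nat_lit 0) (.add (.at (nat_lit 40532396797329408) (nat_lit 7) (.t (nat_lit 44473046485958656)
  (nat_lit 0))) (.mul (nat_lit 3) (.at (nat_lit 1125899911036928) (nat_lit 77) (.at (nat_lit
  2814749777592320) (nat_lit 74) (.at (nat_lit 11258999110369280) (nat_lit 59) (.at (nat_lit
  12947848976924672) (nat_lit 56) (.at (nat_lit 21392098309701632) (nat_lit 41) (.at (nat_lit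
  23080948176257024) (nat_lit 38) (.at (nat_lit 31525197509033984) (nat_lit 23) (.at (nat_lit
  33214047375589376) (nat_lit 20) (.at (nat_lit 41658296708366336) (nat_lit 5) (.t (nat_lit
  43347146574921728) (nat_lit 2)))))))))))))))))))) (.at (nat_lit 0) (nat_lit 79) (.at (nat_lit
  3940649688629248) (nat_lit 72) (.add (.at (nat_lit 10133099199332352) (nat_lit 61) (.at (nat_lit
  14073748887961600) (nat_lit 54) (.t (nat_lit 16888498665553920) (nat_lit 49)))) (.mul (nat_lit 2)
  (.at (nat_lit 5629499555184640) (nat_lit 69) (.at (nat_lit 8444249332776960) (nat_lit 64) (.at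
  (nat_lit 15199648798998528) (nat_lit 52) (.at (nat_lit 19140298487627776) (nat_lit 45) (.at
  (nat_lit 25332747998330880) (nat_lit 34) (.at (nat_lit 29273397686960128) (nat_lit 27) (.at
  (nat_lit 36028797153181696) (nat_lit 15) (.t (nat_lit 38843546930774016) (nat_lit
  10)))))))))))))))

/-- compiled program -/
def b11_79 : Prog := fun Y Z c d =>
  (fo Y d (nat_lit 0) (Nat.add (ad Z c (nat_lit 17451448621072384) (ad Z c (nat_lit
  27021597864886272) (ad Z c (nat_lit 27584547820404736) (ad Z c (nat_lit 30399297597997056) (ad Z c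
  (nat_lit 34339947286626304) (Nat.add (fo Y d (nat_lit 0) (Nat.add (Nat.mul (nat_lit 8) (fo Y d
  (nat_lit 0) (Nat.add (ad Z c (nat_lit 5066549599666176) (ad Z c (nat_lit 9007199288295424) (fo Y d
  (nat_lit 0) (Nat.add (ad Z c (nat_lit 21955048265220096) (ad Z c (nat_lit 22517998220738560) (ad Z
  c (nat_lit 35465847197663232) (ad Z c (nat_lit 39406496886292480) (Nat.mul (nat_lit 4) (fo Y d
  (nat_lit 0) (ad Z c (nat_lit 1688849866555392) (ad Z c (nat_lit 2251799822073856) (ad Z c (nat_lit
  11821949065887744) (ad Z c (nat_lit 12384899021406208) (ad Z c (nat_lit 15762598754516992) (ad Z c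
  (nat_lit 18577348532109312) (ad Z c (nat_lit 25895697953849344) (ad Z c (nat_lit
  28710447731441664) (ad Z c (nat_lit 32088147464552448) (ad Z c (nat_lit 32651097420070912) (ad Z c
  (nat_lit 42221246663884800) (tm Z c (nat_lit 42784196619403264))))))))))))))))))) (Nat.mul
  (nat_lit 3) (ad Z c (nat_lit 6192449510703104) (ad Z c (nat_lit 7881299377258496) (ad Z c (nat_lit
  16325548710035456) (ad Z c (nat_lit 18014398576590848) (ad Z c (nat_lit 26458647909367808) (ad Z c
  (nat_lit 28147497775923200) (ad Z c (nat_lit 36591747108700160) (tm Z c (nat_lit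
  38280596975255552)))))))))))))) (Nat.mul (nat_lit 2) (ad Z c (nat_lit 562949955518464) (ad Z c
  (nat_lit 3377699733110784) (ad Z c (nat_lit 10696049154850816) (ad Z c (nat_lit 13510798932443136)
  (ad Z c (nat_lit 20266198398664704) (ad Z c (nat_lit 24206848087293952) (ad Z c (nat_lit
  30962247553515520) (ad Z c (nat_lit 33776997331107840) (ad Z c (nat_lit 41095346752847872) (tm Z c
  (nat_lit 43910096530440192))))))))))))))) (Nat.mul (nat_lit 4) (ad Z c (nat_lit 6755399466221568)
  (ad Z c (nat_lit 7318349421740032) (ad Z c (nat_lit 20829148354183168) (ad Z c (nat_lit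
  23643898131775488) (ad Z c (nat_lit 37154697064218624) (tm Z c (nat_lit
  37717647019737088)))))))))) (fo Y d (nat_lit 0) (Nat.add (ad Z c (nat_lit 40532396797329408) (tm Z
  c (nat_lit 44473046485958656))) (Nat.mul (nat_lit 3) (ad Z c (nat_lit 1125899911036928) (ad Z c
  (nat_lit 2814749777592320) (ad Z c (nat_lit 11258999110369280) (ad Z c (nat_lit 12947848976924672)
  (ad Z c (nat_lit 21392098309701632) (ad Z c (nat_lit 23080948176257024) (ad Z c (nat_lit
  31525197509033984) (ad Z c (nat_lit 33214047375589376) (ad Z c (nat_lit 41658296708366336) (tm Z c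
  (nat_lit 43347146574921728)))))))))))))))))))) (ad Z c (nat_lit 0) (ad Z c (nat_lit
  3940649688629248) (Nat.add (ad Z c (nat_lit 10133099199332352) (ad Z c (nat_lit 14073748887961600)
  (tm Z c (nat_lit 16888498665553920)))) (Nat.mul (nat_lit 2) (ad Z c (nat_lit 5629499555184640) (ad
  Z c (nat_lit 8444249332776960) (ad Z c (nat_lit 15199648798998528) (ad Z c (nat_lit
  19140298487627776) (ad Z c (nat_lit 25332747998330880) (ad Z c (nat_lit 29273397686960128) (ad Z c
  (nat_lit 36028797153181696) (tm Z c (nat_lit 38843546930774016)))))))))))))))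

/-- program -/
def b11_80P : Pg :=
  (.fold (nat_lit 0) (.at (nat_lit 0) (nat_lit 80) (.fold (nat_lit 0) (.add (.add (.at (nat_lit
  36028797153181696) (nat_lit 16) (.at (nat_lit 37154697064218624) (nat_lit 14) (.at (nat_lit
  38280596975255552) (nat_lit 12) (.at (nat_lit 39406496886292480) (nat_lit 10) (.at (nat_lit
  40532396797329408) (nat_lit 8) (.add (.fold (nat_lit 0) (.add (.at (nat_lit 41658296708366336)
  (nat_lit 6) (.at (nat_lit 42784196619403264) (nat_lit 4) (.at (nat_lit 43910096530440192) (nat_lit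
  2) (.t (nat_lit 45035996441477120) (nat_lit 0))))) (.mul (nat_lit 2) (.add (.at (nat_lit
  23080948176257024) (nat_lit 39) (.at (nat_lit 24206848087293952) (nat_lit 37) (.at (nat_lit
  25332747998330880) (nat_lit 35) (.at (nat_lit 26458647909367808) (nat_lit 33) (.at (nat_lit
  27584547820404736) (nat_lit 31) (.at (nat_lit 28710447731441664) (nat_lit 29) (.t (nat_lit
  29836347642478592) (nat_lit 27)))))))) (.at (nat_lit 15199648798998528) (nat_lit 53) (.at (nat_lit
  16325548710035456) (nat_lit 51) (.at (nat_lit 17451448621072384) (nat_lit 49) (.at (nat_lit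
  18577348532109312) (nat_lit 47) (.at (nat_lit 19703248443146240) (nat_lit 45) (.at (nat_lit
  20829148354183168) (nat_lit 43) (.t (nat_lit 21955048265220096) (nat_lit 41)))))))))))) (.mul
  (nat_lit 8) (.fold (nat_lit 0) (.add (.at (nat_lit 11821949065887744) (nat_lit 59) (.at (nat_lit
  12947848976924672) (nat_lit 57) (.at (nat_lit 14073748887961600) (nat_lit 55) (.at (nat_lit
  30962247553515520) (nat_lit 25) (.at (nat_lit 32088147464552448) (nat_lit 23) (.at (nat_lit
  33214047375589376) (nat_lit 21) (.at (nat_lit 34339947286626304) (nat_lit 19) (.at (nat_lit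
  35465847197663232) (nat_lit 17) (.at (nat_lit 36591747108700160) (nat_lit 15) (.at (nat_lit
  37717647019737088) (nat_lit 13) (.fold (nat_lit 0) (.add (.at (nat_lit 38843546930774016) (nat_lit
  11) (.at (nat_lit 39969446841810944) (nat_lit 9) (.at (nat_lit 41095346752847872) (nat_lit 7) (.at
  (nat_lit 42221246663884800) (nat_lit 5) (.at (nat_lit 43347146574921728) (nat_lit 3) (.t (nat_lit
  44473046485958656) (nat_lit 1))))))) (.mul (nat_lit 2) (.add (.at (nat_lit 22517998220738560)
  (nat_lit 40) (.at (nat_lit 23643898131775488) (nat_lit 38) (.at (nat_lit 24769798042812416)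
  (nat_lit 36) (.at (nat_lit 25895697953849344) (nat_lit 34) (.at (nat_lit 27021597864886272)
  (nat_lit 32) (.at (nat_lit 28147497775923200) (nat_lit 30) (.t (nat_lit 29273397686960128)
  (nat_lit 28)))))))) (.at (nat_lit 15762598754516992) (nat_lit 52) (.at (nat_lit 16888498665553920)
  (nat_lit 50) (.at (nat_lit 18014398576590848) (nat_lit 48) (.at (nat_lit 19140298487627776)
  (nat_lit 46) (.at (nat_lit 20266198398664704) (nat_lit 44) (.t (nat_lit 21392098309701632)
  (nat_lit 42))))))))))))))))))))) (.at (nat_lit 562949955518464) (nat_lit 79) (.at (nat_lit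
  1688849866555392) (nat_lit 77) (.at (nat_lit 2814749777592320) (nat_lit 75) (.at (nat_lit
  3940649688629248) (nat_lit 73) (.at (nat_lit 5066549599666176) (nat_lit 71) (.at (nat_lit
  6192449510703104) (nat_lit 69) (.at (nat_lit 7318349421740032) (nat_lit 67) (.at (nat_lit
  8444249332776960) (nat_lit 65) (.at (nat_lit 9570149243813888) (nat_lit 63) (.t (nat_lit
  10696049154850816) (nat_lit 61)))))))))))))))))))) (.at (nat_lit 14636698843480064) (nat_lit 54)
  (.at (nat_lit 30399297597997056) (nat_lit 26) (.at (nat_lit 31525197509033984) (nat_lit 24) (.at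
  (nat_lit 32651097420070912) (nat_lit 22) (.at (nat_lit 33776997331107840) (nat_lit 20) (.t
  (nat_lit 34902897242144768) (nat_lit 18)))))))) (.at (nat_lit 1125899911036928) (nat_lit 78) (.at
  (nat_lit 2251799822073856) (nat_lit 76) (.at (nat_lit 3377699733110784) (nat_lit 74) (.at (nat_lit
  4503599644147712) (nat_lit 72) (.at (nat_lit 5629499555184640) (nat_lit 70) (.at (nat_lit
  6755399466221568) (nat_lit 68) (.at (nat_lit 7881299377258496) (nat_lit 66) (.at (nat_lit
  9007199288295424) (nat_lit 64) (.at (nat_lit 10133099199332352) (nat_lit 62) (.at (nat_lit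
  11258999110369280) (nat_lit 60) (.at (nat_lit 12384899021406208) (nat_lit 58) (.t (nat_lit
  13510798932443136) (nat_lit 56)))))))))))))))))

/-- compiled program -/
def b11_80 : Prog := fun Y Z c d =>
  (fo Y d (nat_lit 0) (ad Z c (nat_lit 0) (fo Y d (nat_lit 0) (Nat.add (Nat.add (ad Z c (nat_lit
  36028797153181696) (ad Z c (nat_lit 37154697064218624) (ad Z c (nat_lit 38280596975255552) (ad Z c
  (nat_lit 39406496886292480) (ad Z c (nat_lit 40532396797329408) (Nat.add (fo Y d (nat_lit 0)
  (Nat.add (ad Z c (nat_lit 41658296708366336) (ad Z c (nat_lit 42784196619403264) (ad Z c (nat_lit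
  43910096530440192) (tm Z c (nat_lit 45035996441477120))))) (Nat.mul (nat_lit 2) (Nat.add (ad Z c
  (nat_lit 23080948176257024) (ad Z c (nat_lit 24206848087293952) (ad Z c (nat_lit
  25332747998330880) (ad Z c (nat_lit 26458647909367808) (ad Z c (nat_lit 27584547820404736) (ad Z c
  (nat_lit 28710447731441664) (tm Z c (nat_lit 29836347642478592)))))))) (ad Z c (nat_lit
  15199648798998528) (ad Z c (nat_lit 16325548710035456) (ad Z c (nat_lit 17451448621072384) (ad Z c
  (nat_lit 18577348532109312) (ad Z c (nat_lit 19703248443146240) (ad Z c (nat_lit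
  20829148354183168) (tm Z c (nat_lit 21955048265220096)))))))))))) (Nat.mul (nat_lit 8) (fo Y d
  (nat_lit 0) (Nat.add (ad Z c (nat_lit 11821949065887744) (ad Z c (nat_lit 12947848976924672) (ad Z
  c (nat_lit 14073748887961600) (ad Z c (nat_lit 30962247553515520) (ad Z c (nat_lit
  32088147464552448) (ad Z c (nat_lit 33214047375589376) (ad Z c (nat_lit 34339947286626304) (ad Z c
  (nat_lit 35465847197663232) (ad Z c (nat_lit 36591747108700160) (ad Z c (nat_lit
  37717647019737088) (fo Y d (nat_lit 0) (Nat.add (ad Z c (nat_lit 38843546930774016) (ad Z c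
  (nat_lit 39969446841810944) (ad Z c (nat_lit 41095346752847872) (ad Z c (nat_lit
  42221246663884800) (ad Z c (nat_lit 43347146574921728) (tm Z c (nat_lit 44473046485958656)))))))
  (Nat.mul (nat_lit 2) (Nat.add (ad Z c (nat_lit 22517998220738560) (ad Z c (nat_lit
  23643898131775488) (ad Z c (nat_lit 24769798042812416) (ad Z c (nat_lit 25895697953849344) (ad Z c
  (nat_lit 27021597864886272) (ad Z c (nat_lit 28147497775923200) (tm Z c (nat_lit
  29273397686960128)))))))) (ad Z c (nat_lit 15762598754516992) (ad Z c (nat_lit 16888498665553920)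
  (ad Z c (nat_lit 18014398576590848) (ad Z c (nat_lit 19140298487627776) (ad Z c (nat_lit
  20266198398664704) (tm Z c (nat_lit 21392098309701632))))))))))))))))))))) (ad Z c (nat_lit
  562949955518464) (ad Z c (nat_lit 1688849866555392) (ad Z c (nat_lit 2814749777592320) (ad Z c
  (nat_lit 3940649688629248) (ad Z c (nat_lit 5066549599666176) (ad Z c (nat_lit 6192449510703104)
  (ad Z c (nat_lit 7318349421740032) (ad Z c (nat_lit 8444249332776960) (ad Z c (nat_lit
  9570149243813888) (tm Z c (nat_lit 10696049154850816)))))))))))))))))))) (ad Z c (nat_lit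
  14636698843480064) (ad Z c (nat_lit 30399297597997056) (ad Z c (nat_lit 31525197509033984) (ad Z c
  (nat_lit 32651097420070912) (ad Z c (nat_lit 33776997331107840) (tm Z c (nat_lit
  34902897242144768)))))))) (ad Z c (nat_lit 1125899911036928) (ad Z c (nat_lit 2251799822073856)
  (ad Z c (nat_lit 3377699733110784) (ad Z c (nat_lit 4503599644147712) (ad Z c (nat_lit
  5629499555184640) (ad Z c (nat_lit 6755399466221568) (ad Z c (nat_lit 7881299377258496) (ad Z c
  (nat_lit 9007199288295424) (ad Z c (nat_lit 10133099199332352) (ad Z c (nat_lit 11258999110369280)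
  (ad Z c (nat_lit 12384899021406208) (tm Z c (nat_lit 13510798932443136)))))))))))))))))

/-- program -/
def b11_81P : Pg :=
  (.fold (nat_lit 0) (.at (nat_lit 0) (nat_lit 81) (.at (nat_lit 45598946396995584) (nat_lit 0)
  (.mul (nat_lit 3) (.at (nat_lit 15199648798998528) (nat_lit 54) (.t (nat_lit 30399297597997056)
  (nat_lit 27)))))))

/-- compiled program -/
def b11_81 : Prog := fun Y Z c d =>
  (fo Y d (nat_lit 0) (ad Z c (nat_lit 0) (ad Z c (nat_lit 45598946396995584) (Nat.mul (nat_lit 3)
  (ad Z c (nat_lit 15199648798998528) (tm Z c (nat_lit 30399297597997056)))))))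

/-- program -/
def b11_82P : Pg :=
  (.fold (nat_lit 0) (.at (nat_lit 0) (nat_lit 82) (.at (nat_lit 562949955518464) (nat_lit 81) (.add
  (.at (nat_lit 45598946396995584) (nat_lit 1) (.t (nat_lit 46161896352514048) (nat_lit 0))) (.mul
  (nat_lit 3) (.at (nat_lit 15199648798998528) (nat_lit 55) (.at (nat_lit 15762598754516992)
  (nat_lit 54) (.at (nat_lit 30399297597997056) (nat_lit 28) (.t (nat_lit 30962247553515520)
  (nat_lit 27))))))))))

/-- compiled program -/
def b11_82 : Prog := fun Y Z c d =>
  (fo Y d (nat_lit 0) (ad Z c (nat_lit 0) (ad Z c (nat_lit 562949955518464) (Nat.add (ad Z c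
  (nat_lit 45598946396995584) (tm Z c (nat_lit 46161896352514048))) (Nat.mul (nat_lit 3) (ad Z c
  (nat_lit 15199648798998528) (ad Z c (nat_lit 15762598754516992) (ad Z c (nat_lit
  30399297597997056) (tm Z c (nat_lit 30962247553515520))))))))))

/-- program -/
def b11_83P : Pg :=
  (.fold (nat_lit 0) (.at (nat_lit 0) (nat_lit 83) (.add (.at (nat_lit 1125899911036928) (nat_lit
  81) (.add (.add (.at (nat_lit 45598946396995584) (nat_lit 2) (.t (nat_lit 46724846308032512)
  (nat_lit 0))) (.mul (nat_lit 6) (.at (nat_lit 15762598754516992) (nat_lit 55) (.t (nat_lit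
  30962247553515520) (nat_lit 28))))) (.mul (nat_lit 3) (.at (nat_lit 15199648798998528) (nat_lit
  56) (.at (nat_lit 16325548710035456) (nat_lit 54) (.at (nat_lit 30399297597997056) (nat_lit 29)
  (.t (nat_lit 31525197509033984) (nat_lit 27)))))))) (.mul (nat_lit 2) (.at (nat_lit
  562949955518464) (nat_lit 82) (.t (nat_lit 46161896352514048) (nat_lit 1)))))))

/-- compiled program -/
def b11_83 : Prog := fun Y Z c d =>
  (fo Y d (nat_lit 0) (ad Z c (nat_lit 0) (Nat.add (ad Z c (nat_lit 1125899911036928) (Nat.add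
  (Nat.add (ad Z c (nat_lit 45598946396995584) (tm Z c (nat_lit 46724846308032512))) (Nat.mul
  (nat_lit 6) (ad Z c (nat_lit 15762598754516992) (tm Z c (nat_lit 30962247553515520))))) (Nat.mul
  (nat_lit 3) (ad Z c (nat_lit 15199648798998528) (ad Z c (nat_lit 16325548710035456) (ad Z c
  (nat_lit 30399297597997056) (tm Z c (nat_lit 31525197509033984)))))))) (Nat.mul (nat_lit 2) (ad Z
  c (nat_lit 562949955518464) (tm Z c (nat_lit 46161896352514048)))))))

/-- program -/
def b11_84P : Pg :=
  (.fold (nat_lit 0) (.at (nat_lit 0) (nat_lit 84) (.add (.at (nat_lit 1688849866555392) (nat_lit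
  81) (.at (nat_lit 45598946396995584) (nat_lit 3) (.t (nat_lit 47287796263550976) (nat_lit 0))))
  (.mul (nat_lit 3) (.at (nat_lit 562949955518464) (nat_lit 83) (.at (nat_lit 1125899911036928)
  (nat_lit 82) (.at (nat_lit 15199648798998528) (nat_lit 57) (.at (nat_lit 16888498665553920)
  (nat_lit 54) (.at (nat_lit 30399297597997056) (nat_lit 30) (.at (nat_lit 32088147464552448)
  (nat_lit 27) (.at (nat_lit 46161896352514048) (nat_lit 2) (.t (nat_lit 46724846308032512) (nat_lit
  1)))))))))))))

/-- compiled program -/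
def b11_84 : Prog := fun Y Z c d =>
  (fo Y d (nat_lit 0) (ad Z c (nat_lit 0) (Nat.add (ad Z c (nat_lit 1688849866555392) (ad Z c
  (nat_lit 45598946396995584) (tm Z c (nat_lit 47287796263550976)))) (Nat.mul (nat_lit 3) (ad Z c
  (nat_lit 562949955518464) (ad Z c (nat_lit 1125899911036928) (ad Z c (nat_lit 15199648798998528)
  (ad Z c (nat_lit 16888498665553920) (ad Z c (nat_lit 30399297597997056) (ad Z c (nat_lit
  32088147464552448) (ad Z c (nat_lit 46161896352514048) (tm Z c (nat_lit
  46724846308032512)))))))))))))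

/-- program -/
def b11_85P : Pg :=
  (.fold (nat_lit 0) (.add (.add (.fold (nat_lit 0) (.at (nat_lit 0) (nat_lit 85) (.at (nat_lit
  2251799822073856) (nat_lit 81) (.add (.at (nat_lit 45598946396995584) (nat_lit 4) (.t (nat_lit
  47850746219069440) (nat_lit 0))) (.mul (nat_lit 3) (.at (nat_lit 15199648798998528) (nat_lit 58)
  (.at (nat_lit 15762598754516992) (nat_lit 57) (.at (nat_lit 16888498665553920) (nat_lit 55) (.at
  (nat_lit 17451448621072384) (nat_lit 54) (.at (nat_lit 30399297597997056) (nat_lit 31) (.at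
  (nat_lit 30962247553515520) (nat_lit 30) (.at (nat_lit 32088147464552448) (nat_lit 28) (.t
  (nat_lit 32651097420070912) (nat_lit 27)))))))))))))) (.mul (nat_lit 6) (.at (nat_lit
  1125899911036928) (nat_lit 83) (.t (nat_lit 46724846308032512) (nat_lit 2))))) (.mul (nat_lit 4)
  (.at (nat_lit 562949955518464) (nat_lit 84) (.at (nat_lit 1688849866555392) (nat_lit 82) (.at
  (nat_lit 46161896352514048) (nat_lit 3) (.t (nat_lit 47287796263550976) (nat_lit 1))))))))

/-- compiled program -/
def b11_85 : Prog := fun Y Z c d =>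
  (fo Y d (nat_lit 0) (Nat.add (Nat.add (fo Y d (nat_lit 0) (ad Z c (nat_lit 0) (ad Z c (nat_lit
  2251799822073856) (Nat.add (ad Z c (nat_lit 45598946396995584) (tm Z c (nat_lit
  47850746219069440))) (Nat.mul (nat_lit 3) (ad Z c (nat_lit 15199648798998528) (ad Z c (nat_lit
  15762598754516992) (ad Z c (nat_lit 16888498665553920) (ad Z c (nat_lit 17451448621072384) (ad Z c
  (nat_lit 30399297597997056) (ad Z c (nat_lit 30962247553515520) (ad Z c (nat_lit
  32088147464552448) (tm Z c (nat_lit 32651097420070912)))))))))))))) (Nat.mul (nat_lit 6) (ad Z c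
  (nat_lit 1125899911036928) (tm Z c (nat_lit 46724846308032512))))) (Nat.mul (nat_lit 4) (ad Z c
  (nat_lit 562949955518464) (ad Z c (nat_lit 1688849866555392) (ad Z c (nat_lit 46161896352514048)
  (tm Z c (nat_lit 47287796263550976))))))))

/-- program -/
def b11_86P : Pg :=
  (.fold (nat_lit 0) (.add (.fold (nat_lit 0) (.add (.fold (nat_lit 0) (.at (nat_lit 0) (nat_lit 86)
  (.at (nat_lit 1125899911036928) (nat_lit 84) (.at (nat_lit 1688849866555392) (nat_lit 83) (.at
  (nat_lit 2814749777592320) (nat_lit 81) (.add (.at (nat_lit 45598946396995584) (nat_lit 5) (.at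
  (nat_lit 46724846308032512) (nat_lit 3) (.at (nat_lit 47287796263550976) (nat_lit 2) (.t (nat_lit
  48413696174587904) (nat_lit 0))))) (.mul (nat_lit 6) (.at (nat_lit 15762598754516992) (nat_lit 58)
  (.at (nat_lit 17451448621072384) (nat_lit 55) (.at (nat_lit 30962247553515520) (nat_lit 31) (.t
  (nat_lit 32651097420070912) (nat_lit 28)))))))))))) (.mul (nat_lit 3) (.at (nat_lit
  15199648798998528) (nat_lit 59) (.at (nat_lit 16325548710035456) (nat_lit 57) (.at (nat_lit
  16888498665553920) (nat_lit 56) (.at (nat_lit 18014398576590848) (nat_lit 54) (.at (nat_lit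
  30399297597997056) (nat_lit 32) (.at (nat_lit 31525197509033984) (nat_lit 30) (.at (nat_lit
  32088147464552448) (nat_lit 29) (.t (nat_lit 33214047375589376) (nat_lit 27)))))))))))) (.mul
  (nat_lit 5) (.at (nat_lit 562949955518464) (nat_lit 85) (.at (nat_lit 2251799822073856) (nat_lit
  82) (.at (nat_lit 46161896352514048) (nat_lit 4) (.t (nat_lit 47850746219069440) (nat_lit
  1))))))))

/-- compiled program -/
def b11_86 : Prog := fun Y Z c d =>
  (fo Y d (nat_lit 0) (Nat.add (fo Y d (nat_lit 0) (Nat.add (fo Y d (nat_lit 0) (ad Z c (nat_lit 0)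
  (ad Z c (nat_lit 1125899911036928) (ad Z c (nat_lit 1688849866555392) (ad Z c (nat_lit
  2814749777592320) (Nat.add (ad Z c (nat_lit 45598946396995584) (ad Z c (nat_lit 46724846308032512)
  (ad Z c (nat_lit 47287796263550976) (tm Z c (nat_lit 48413696174587904))))) (Nat.mul (nat_lit 6)
  (ad Z c (nat_lit 15762598754516992) (ad Z c (nat_lit 17451448621072384) (ad Z c (nat_lit
  30962247553515520) (tm Z c (nat_lit 32651097420070912)))))))))))) (Nat.mul (nat_lit 3) (ad Z c
  (nat_lit 15199648798998528) (ad Z c (nat_lit 16325548710035456) (ad Z c (nat_lit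
  16888498665553920) (ad Z c (nat_lit 18014398576590848) (ad Z c (nat_lit 30399297597997056) (ad Z c
  (nat_lit 31525197509033984) (ad Z c (nat_lit 32088147464552448) (tm Z c (nat_lit
  33214047375589376)))))))))))) (Nat.mul (nat_lit 5) (ad Z c (nat_lit 562949955518464) (ad Z c
  (nat_lit 2251799822073856) (ad Z c (nat_lit 46161896352514048) (tm Z c (nat_lit
  47850746219069440))))))))

/-- program -/
def b11_87P : Pg :=
  (.fold (nat_lit 0) (.at (nat_lit 0) (nat_lit 87) (.add (.at (nat_lit 3377699733110784) (nat_lit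
  81) (.add (.at (nat_lit 45598946396995584) (nat_lit 6) (.at (nat_lit 48976646130106368) (nat_lit
  0) (.mul (nat_lit 6) (.fold (nat_lit 0) (.at (nat_lit 562949955518464) (nat_lit 86) (.at (nat_lit
  1125899911036928) (nat_lit 85) (.at (nat_lit 2251799822073856) (nat_lit 83) (.at (nat_lit
  2814749777592320) (nat_lit 82) (.at (nat_lit 16888498665553920) (nat_lit 57) (.at (nat_lit
  32088147464552448) (nat_lit 30) (.at (nat_lit 46161896352514048) (nat_lit 5) (.at (nat_lit
  46724846308032512) (nat_lit 4) (.at (nat_lit 47850746219069440) (nat_lit 2) (.t (nat_lit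
  48413696174587904) (nat_lit 1))))))))))))))) (.mul (nat_lit 3) (.at (nat_lit 15199648798998528)
  (nat_lit 60) (.at (nat_lit 18577348532109312) (nat_lit 54) (.at (nat_lit 30399297597997056)
  (nat_lit 33) (.t (nat_lit 33776997331107840) (nat_lit 27)))))))) (.mul (nat_lit 2) (.at (nat_lit
  1688849866555392) (nat_lit 84) (.t (nat_lit 47287796263550976) (nat_lit 3)))))))

/-- compiled program -/
def b11_87 : Prog := fun Y Z c d =>
  (fo Y d (nat_lit 0) (ad Z c (nat_lit 0) (Nat.add (ad Z c (nat_lit 3377699733110784) (Nat.add (ad Z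
  c (nat_lit 45598946396995584) (ad Z c (nat_lit 48976646130106368) (Nat.mul (nat_lit 6) (fo Y d
  (nat_lit 0) (ad Z c (nat_lit 562949955518464) (ad Z c (nat_lit 1125899911036928) (ad Z c (nat_lit
  2251799822073856) (ad Z c (nat_lit 2814749777592320) (ad Z c (nat_lit 16888498665553920) (ad Z c
  (nat_lit 32088147464552448) (ad Z c (nat_lit 46161896352514048) (ad Z c (nat_lit
  46724846308032512) (ad Z c (nat_lit 47850746219069440) (tm Z c (nat_lit
  48413696174587904))))))))))))))) (Nat.mul (nat_lit 3) (ad Z c (nat_lit 15199648798998528) (ad Z c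
  (nat_lit 18577348532109312) (ad Z c (nat_lit 30399297597997056) (tm Z c (nat_lit
  33776997331107840)))))))) (Nat.mul (nat_lit 2) (ad Z c (nat_lit 1688849866555392) (tm Z c (nat_lit
  47287796263550976)))))))

/-- program -/
def b11_88P : Pg :=
  (.fold (nat_lit 0) (.at (nat_lit 0) (nat_lit 88) (.at (nat_lit 3940649688629248) (nat_lit 81) (.at
  (nat_lit 45598946396995584) (nat_lit 7) (.at (nat_lit 49539596085624832) (nat_lit 0) (.add (.mul
  (nat_lit 3) (.fold (nat_lit 0) (.at (nat_lit 1125899911036928) (nat_lit 86) (.at (nat_lit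
  2814749777592320) (nat_lit 83) (.at (nat_lit 15199648798998528) (nat_lit 61) (.at (nat_lit
  15762598754516992) (nat_lit 60) (.at (nat_lit 18577348532109312) (nat_lit 55) (.at (nat_lit
  19140298487627776) (nat_lit 54) (.at (nat_lit 30399297597997056) (nat_lit 34) (.at (nat_lit
  30962247553515520) (nat_lit 33) (.at (nat_lit 33776997331107840) (nat_lit 28) (.at (nat_lit
  34339947286626304) (nat_lit 27) (.at (nat_lit 46724846308032512) (nat_lit 5) (.t (nat_lit
  48413696174587904) (nat_lit 2))))))))))))))) (.mul (nat_lit 8) (.fold (nat_lit 0) (.add (.at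
  (nat_lit 1688849866555392) (nat_lit 85) (.at (nat_lit 2251799822073856) (nat_lit 84) (.add (.at
  (nat_lit 47287796263550976) (nat_lit 4) (.t (nat_lit 47850746219069440) (nat_lit 3))) (.mul
  (nat_lit 3) (.at (nat_lit 16888498665553920) (nat_lit 58) (.at (nat_lit 17451448621072384)
  (nat_lit 57) (.at (nat_lit 32088147464552448) (nat_lit 31) (.t (nat_lit 32651097420070912)
  (nat_lit 30))))))))) (.mul (nat_lit 2) (.at (nat_lit 562949955518464) (nat_lit 87) (.at (nat_lit
  3377699733110784) (nat_lit 82) (.at (nat_lit 46161896352514048) (nat_lit 6) (.t (nat_lit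
  48976646130106368) (nat_lit 1)))))))))))))))

/-- compiled program -/
def b11_88 : Prog := fun Y Z c d =>
  (fo Y d (nat_lit 0) (ad Z c (nat_lit 0) (ad Z c (nat_lit 3940649688629248) (ad Z c (nat_lit
  45598946396995584) (ad Z c (nat_lit 49539596085624832) (Nat.add (Nat.mul (nat_lit 3) (fo Y d
  (nat_lit 0) (ad Z c (nat_lit 1125899911036928) (ad Z c (nat_lit 2814749777592320) (ad Z c (nat_lit
  15199648798998528) (ad Z c (nat_lit 15762598754516992) (ad Z c (nat_lit 18577348532109312) (ad Z c
  (nat_lit 19140298487627776) (ad Z c (nat_lit 30399297597997056) (ad Z c (nat_lit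
  30962247553515520) (ad Z c (nat_lit 33776997331107840) (ad Z c (nat_lit 34339947286626304) (ad Z c
  (nat_lit 46724846308032512) (tm Z c (nat_lit 48413696174587904))))))))))))))) (Nat.mul (nat_lit 8)
  (fo Y d (nat_lit 0) (Nat.add (ad Z c (nat_lit 1688849866555392) (ad Z c (nat_lit 2251799822073856)
  (Nat.add (ad Z c (nat_lit 47287796263550976) (tm Z c (nat_lit 47850746219069440))) (Nat.mul
  (nat_lit 3) (ad Z c (nat_lit 16888498665553920) (ad Z c (nat_lit 17451448621072384) (ad Z c
  (nat_lit 32088147464552448) (tm Z c (nat_lit 32651097420070912))))))))) (Nat.mul (nat_lit 2) (ad Z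
  c (nat_lit 562949955518464) (ad Z c (nat_lit 3377699733110784) (ad Z c (nat_lit 46161896352514048)
  (tm Z c (nat_lit 48976646130106368)))))))))))))))

/-- program -/
def b11_89P : Pg :=
  (.fold (nat_lit 0) (.at (nat_lit 0) (nat_lit 89) (.at (nat_lit 1125899911036928) (nat_lit 87)
  (.add (.at (nat_lit 3377699733110784) (nat_lit 83) (.at (nat_lit 4503599644147712) (nat_lit 81)
  (.at (nat_lit 45598946396995584) (nat_lit 8) (.at (nat_lit 46724846308032512) (nat_lit 6) (.add
  (.fold (nat_lit 0) (.add (.at (nat_lit 48976646130106368) (nat_lit 2) (.t (nat_lit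
  50102546041143296) (nat_lit 0))) (.mul (nat_lit 3) (.at (nat_lit 15199648798998528) (nat_lit 62)
  (.at (nat_lit 16325548710035456) (nat_lit 60) (.at (nat_lit 17451448621072384) (nat_lit 58) (.at
  (nat_lit 18577348532109312) (nat_lit 56) (.at (nat_lit 19703248443146240) (nat_lit 54) (.at
  (nat_lit 30399297597997056) (nat_lit 35) (.at (nat_lit 31525197509033984) (nat_lit 33) (.at
  (nat_lit 32651097420070912) (nat_lit 31) (.at (nat_lit 33776997331107840) (nat_lit 29) (.t
  (nat_lit 34902897242144768) (nat_lit 27)))))))))))))) (.mul (nat_lit 8) (.fold (nat_lit 0) (.at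
  (nat_lit 562949955518464) (nat_lit 88) (.add (.at (nat_lit 3940649688629248) (nat_lit 82) (.add
  (.at (nat_lit 46161896352514048) (nat_lit 7) (.t (nat_lit 49539596085624832) (nat_lit 1))) (.mul
  (nat_lit 3) (.at (nat_lit 15762598754516992) (nat_lit 61) (.at (nat_lit 16888498665553920)
  (nat_lit 59) (.at (nat_lit 18014398576590848) (nat_lit 57) (.at (nat_lit 19140298487627776)
  (nat_lit 55) (.at (nat_lit 30962247553515520) (nat_lit 34) (.at (nat_lit 32088147464552448)
  (nat_lit 32) (.at (nat_lit 33214047375589376) (nat_lit 30) (.t (nat_lit 34339947286626304)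
  (nat_lit 28)))))))))))) (.mul (nat_lit 2) (.at (nat_lit 2251799822073856) (nat_lit 85) (.t
  (nat_lit 47850746219069440) (nat_lit 4))))))))))))) (.mul (nat_lit 2) (.at (nat_lit
  1688849866555392) (nat_lit 86) (.at (nat_lit 2814749777592320) (nat_lit 84) (.at (nat_lit
  47287796263550976) (nat_lit 5) (.t (nat_lit 48413696174587904) (nat_lit 3))))))))))

/-- compiled program -/
def b11_89 : Prog := fun Y Z c d =>
  (fo Y d (nat_lit 0) (ad Z c (nat_lit 0) (ad Z c (nat_lit 1125899911036928) (Nat.add (ad Z c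
  (nat_lit 3377699733110784) (ad Z c (nat_lit 4503599644147712) (ad Z c (nat_lit 45598946396995584)
  (ad Z c (nat_lit 46724846308032512) (Nat.add (fo Y d (nat_lit 0) (Nat.add (ad Z c (nat_lit
  48976646130106368) (tm Z c (nat_lit 50102546041143296))) (Nat.mul (nat_lit 3) (ad Z c (nat_lit
  15199648798998528) (ad Z c (nat_lit 16325548710035456) (ad Z c (nat_lit 17451448621072384) (ad Z c
  (nat_lit 18577348532109312) (ad Z c (nat_lit 19703248443146240) (ad Z c (nat_lit
  30399297597997056) (ad Z c (nat_lit 31525197509033984) (ad Z c (nat_lit 32651097420070912) (ad Z c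
  (nat_lit 33776997331107840) (tm Z c (nat_lit 34902897242144768)))))))))))))) (Nat.mul (nat_lit 8)
  (fo Y d (nat_lit 0) (ad Z c (nat_lit 562949955518464) (Nat.add (ad Z c (nat_lit 3940649688629248)
  (Nat.add (ad Z c (nat_lit 46161896352514048) (tm Z c (nat_lit 49539596085624832))) (Nat.mul
  (nat_lit 3) (ad Z c (nat_lit 15762598754516992) (ad Z c (nat_lit 16888498665553920) (ad Z c
  (nat_lit 18014398576590848) (ad Z c (nat_lit 19140298487627776) (ad Z c (nat_lit
  30962247553515520) (ad Z c (nat_lit 32088147464552448) (ad Z c (nat_lit 33214047375589376) (tm Z c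
  (nat_lit 34339947286626304)))))))))))) (Nat.mul (nat_lit 2) (ad Z c (nat_lit 2251799822073856) (tm
  Z c (nat_lit 47850746219069440))))))))))))) (Nat.mul (nat_lit 2) (ad Z c (nat_lit
  1688849866555392) (ad Z c (nat_lit 2814749777592320) (ad Z c (nat_lit 47287796263550976) (tm Z c
  (nat_lit 48413696174587904))))))))))

/-- program -/
def b11_90P : Pg :=
  (.fold (nat_lit 0) (.at (nat_lit 0) (nat_lit 90) (.add (.at (nat_lit 5066549599666176) (nat_lit
  81) (.at (nat_lit 45598946396995584) (nat_lit 9) (.t (nat_lit 50665495996661760) (nat_lit 0))))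
  (.mul (nat_lit 3) (.at (nat_lit 1688849866555392) (nat_lit 87) (.at (nat_lit 3377699733110784)
  (nat_lit 84) (.at (nat_lit 15199648798998528) (nat_lit 63) (.at (nat_lit 20266198398664704)
  (nat_lit 54) (.at (nat_lit 30399297597997056) (nat_lit 36) (.at (nat_lit 35465847197663232)
  (nat_lit 27) (.at (nat_lit 47287796263550976) (nat_lit 6) (.t (nat_lit 48976646130106368) (nat_lit
  3)))))))))))))

/-- compiled program -/
def b11_90 : Prog := fun Y Z c d =>
  (fo Y d (nat_lit 0) (ad Z c (nat_lit 0) (Nat.add (ad Z c (nat_lit 5066549599666176) (ad Z c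
  (nat_lit 45598946396995584) (tm Z c (nat_lit 50665495996661760)))) (Nat.mul (nat_lit 3) (ad Z c
  (nat_lit 1688849866555392) (ad Z c (nat_lit 3377699733110784) (ad Z c (nat_lit 15199648798998528)
  (ad Z c (nat_lit 20266198398664704) (ad Z c (nat_lit 30399297597997056) (ad Z c (nat_lit
  35465847197663232) (ad Z c (nat_lit 47287796263550976) (tm Z c (nat_lit
  48976646130106368)))))))))))))

/-- program -/
def b11_91P : Pg :=
  (.fold (nat_lit 0) (.at (nat_lit 0) (nat_lit 91) (.at (nat_lit 562949955518464) (nat_lit 90) (.at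
  (nat_lit 5066549599666176) (nat_lit 82) (.at (nat_lit 5629499555184640) (nat_lit 81) (.at (nat_lit
  45598946396995584) (nat_lit 10) (.at (nat_lit 46161896352514048) (nat_lit 9) (.at (nat_lit
  50665495996661760) (nat_lit 1) (.at (nat_lit 51228445952180224) (nat_lit 0) (.mul (nat_lit 3)
  (.fold (nat_lit 0) (.add (.at (nat_lit 30399297597997056) (nat_lit 37) (.at (nat_lit
  30962247553515520) (nat_lit 36) (.at (nat_lit 35465847197663232) (nat_lit 28) (.at (nat_lit
  36028797153181696) (nat_lit 27) (.at (nat_lit 47287796263550976) (nat_lit 7) (.at (nat_lit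
  47850746219069440) (nat_lit 6) (.at (nat_lit 48976646130106368) (nat_lit 4) (.t (nat_lit
  49539596085624832) (nat_lit 3))))))))) (.at (nat_lit 1688849866555392) (nat_lit 88) (.at (nat_lit
  2251799822073856) (nat_lit 87) (.at (nat_lit 3377699733110784) (nat_lit 85) (.at (nat_lit
  3940649688629248) (nat_lit 84) (.at (nat_lit 15199648798998528) (nat_lit 64) (.at (nat_lit
  15762598754516992) (nat_lit 63) (.at (nat_lit 20266198398664704) (nat_lit 55) (.t (nat_lit
  20829148354183168) (nat_lit 54)))))))))))))))))))))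

/-- compiled program -/
def b11_91 : Prog := fun Y Z c d =>
  (fo Y d (nat_lit 0) (ad Z c (nat_lit 0) (ad Z c (nat_lit 562949955518464) (ad Z c (nat_lit
  5066549599666176) (ad Z c (nat_lit 5629499555184640) (ad Z c (nat_lit 45598946396995584) (ad Z c
  (nat_lit 46161896352514048) (ad Z c (nat_lit 50665495996661760) (ad Z c (nat_lit
  51228445952180224) (Nat.mul (nat_lit 3) (fo Y d (nat_lit 0) (Nat.add (ad Z c (nat_lit
  30399297597997056) (ad Z c (nat_lit 30962247553515520) (ad Z c (nat_lit 35465847197663232) (ad Z c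
  (nat_lit 36028797153181696) (ad Z c (nat_lit 47287796263550976) (ad Z c (nat_lit
  47850746219069440) (ad Z c (nat_lit 48976646130106368) (tm Z c (nat_lit 49539596085624832)))))))))
  (ad Z c (nat_lit 1688849866555392) (ad Z c (nat_lit 2251799822073856) (ad Z c (nat_lit
  3377699733110784) (ad Z c (nat_lit 3940649688629248) (ad Z c (nat_lit 15199648798998528) (ad Z c
  (nat_lit 15762598754516992) (ad Z c (nat_lit 20266198398664704) (tm Z c (nat_lit
  20829148354183168)))))))))))))))))))))

/-- program -/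
def b11_92P : Pg :=
  (.fold (nat_lit 0) (.at (nat_lit 0) (nat_lit 92) (.add (.at (nat_lit 1125899911036928) (nat_lit
  90) (.at (nat_lit 5066549599666176) (nat_lit 83) (.at (nat_lit 6192449510703104) (nat_lit 81) (.at
  (nat_lit 45598946396995584) (nat_lit 11) (.at (nat_lit 46724846308032512) (nat_lit 9) (.at
  (nat_lit 50665495996661760) (nat_lit 2) (.at (nat_lit 51791395907698688) (nat_lit 0) (.add (.mul
  (nat_lit 3) (.fold (nat_lit 0) (.add (.at (nat_lit 30399297597997056) (nat_lit 38) (.at (nat_lit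
  31525197509033984) (nat_lit 36) (.at (nat_lit 35465847197663232) (nat_lit 29) (.at (nat_lit
  36591747108700160) (nat_lit 27) (.at (nat_lit 47287796263550976) (nat_lit 8) (.at (nat_lit
  48413696174587904) (nat_lit 6) (.at (nat_lit 48976646130106368) (nat_lit 5) (.t (nat_lit
  50102546041143296) (nat_lit 3))))))))) (.at (nat_lit 1688849866555392) (nat_lit 89) (.at (nat_lit
  2814749777592320) (nat_lit 87) (.at (nat_lit 3377699733110784) (nat_lit 86) (.at (nat_lit
  4503599644147712) (nat_lit 84) (.at (nat_lit 15199648798998528) (nat_lit 65) (.at (nat_lit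
  16325548710035456) (nat_lit 63) (.at (nat_lit 20266198398664704) (nat_lit 56) (.t (nat_lit
  21392098309701632) (nat_lit 54)))))))))))) (.mul (nat_lit 6) (.fold (nat_lit 0) (.at (nat_lit
  2251799822073856) (nat_lit 88) (.at (nat_lit 3940649688629248) (nat_lit 85) (.at (nat_lit
  15762598754516992) (nat_lit 64) (.at (nat_lit 20829148354183168) (nat_lit 55) (.at (nat_lit
  30962247553515520) (nat_lit 37) (.at (nat_lit 36028797153181696) (nat_lit 28) (.at (nat_lit
  47850746219069440) (nat_lit 7) (.t (nat_lit 49539596085624832) (nat_lit 4))))))))))))))))))) (.mul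
  (nat_lit 2) (.at (nat_lit 562949955518464) (nat_lit 91) (.at (nat_lit 5629499555184640) (nat_lit
  82) (.at (nat_lit 46161896352514048) (nat_lit 10) (.t (nat_lit 51228445952180224) (nat_lit
  1)))))))))

/-- compiled program -/
def b11_92 : Prog := fun Y Z c d =>
  (fo Y d (nat_lit 0) (ad Z c (nat_lit 0) (Nat.add (ad Z c (nat_lit 1125899911036928) (ad Z c
  (nat_lit 5066549599666176) (ad Z c (nat_lit 6192449510703104) (ad Z c (nat_lit 45598946396995584)
  (ad Z c (nat_lit 46724846308032512) (ad Z c (nat_lit 50665495996661760) (ad Z c (nat_lit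
  51791395907698688) (Nat.add (Nat.mul (nat_lit 3) (fo Y d (nat_lit 0) (Nat.add (ad Z c (nat_lit
  30399297597997056) (ad Z c (nat_lit 31525197509033984) (ad Z c (nat_lit 35465847197663232) (ad Z c
  (nat_lit 36591747108700160) (ad Z c (nat_lit 47287796263550976) (ad Z c (nat_lit
  48413696174587904) (ad Z c (nat_lit 48976646130106368) (tm Z c (nat_lit 50102546041143296)))))))))
  (ad Z c (nat_lit 1688849866555392) (ad Z c (nat_lit 2814749777592320) (ad Z c (nat_lit
  3377699733110784) (ad Z c (nat_lit 4503599644147712) (ad Z c (nat_lit 15199648798998528) (ad Z c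
  (nat_lit 16325548710035456) (ad Z c (nat_lit 20266198398664704) (tm Z c (nat_lit
  21392098309701632)))))))))))) (Nat.mul (nat_lit 6) (fo Y d (nat_lit 0) (ad Z c (nat_lit
  2251799822073856) (ad Z c (nat_lit 3940649688629248) (ad Z c (nat_lit 15762598754516992) (ad Z c
  (nat_lit 20829148354183168) (ad Z c (nat_lit 30962247553515520) (ad Z c (nat_lit
  36028797153181696) (ad Z c (nat_lit 47850746219069440) (tm Z c (nat_lit
  49539596085624832))))))))))))))))))) (Nat.mul (nat_lit 2) (ad Z c (nat_lit 562949955518464) (ad Z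
  c (nat_lit 5629499555184640) (ad Z c (nat_lit 46161896352514048) (tm Z c (nat_lit
  51228445952180224)))))))))

/-- program -/
def b11_93P : Pg :=
  (.fold (nat_lit 0) (.at (nat_lit 0) (nat_lit 93) (.at (nat_lit 6755399466221568) (nat_lit 81) (.at
  (nat_lit 45598946396995584) (nat_lit 12) (.fold (nat_lit 0) (.add (.add (.at (nat_lit
  52354345863217152) (nat_lit 0) (.mul (nat_lit 3) (.fold (nat_lit 0) (.add (.at (nat_lit
  30399297597997056) (nat_lit 39) (.at (nat_lit 32088147464552448) (nat_lit 36) (.at (nat_lit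
  35465847197663232) (nat_lit 30) (.at (nat_lit 37154697064218624) (nat_lit 27) (.at (nat_lit
  46161896352514048) (nat_lit 11) (.at (nat_lit 46724846308032512) (nat_lit 10) (.at (nat_lit
  51228445952180224) (nat_lit 2) (.t (nat_lit 51791395907698688) (nat_lit 1))))))))) (.at (nat_lit
  562949955518464) (nat_lit 92) (.at (nat_lit 1125899911036928) (nat_lit 91) (.at (nat_lit
  5629499555184640) (nat_lit 83) (.at (nat_lit 6192449510703104) (nat_lit 82) (.at (nat_lit
  15199648798998528) (nat_lit 66) (.at (nat_lit 16888498665553920) (nat_lit 63) (.at (nat_lit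
  20266198398664704) (nat_lit 57) (.t (nat_lit 21955048265220096) (nat_lit 54))))))))))))) (.mul
  (nat_lit 6) (.at (nat_lit 3377699733110784) (nat_lit 87) (.t (nat_lit 48976646130106368) (nat_lit
  6))))) (.mul (nat_lit 4) (.at (nat_lit 1688849866555392) (nat_lit 90) (.at (nat_lit
  5066549599666176) (nat_lit 84) (.at (nat_lit 47287796263550976) (nat_lit 9) (.t (nat_lit
  50665495996661760) (nat_lit 3))))))))))))

/-- compiled program -/
def b11_93 : Prog := fun Y Z c d =>
  (fo Y d (nat_lit 0) (ad Z c (nat_lit 0) (ad Z c (nat_lit 6755399466221568) (ad Z c (nat_lit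
  45598946396995584) (fo Y d (nat_lit 0) (Nat.add (Nat.add (ad Z c (nat_lit 52354345863217152)
  (Nat.mul (nat_lit 3) (fo Y d (nat_lit 0) (Nat.add (ad Z c (nat_lit 30399297597997056) (ad Z c
  (nat_lit 32088147464552448) (ad Z c (nat_lit 35465847197663232) (ad Z c (nat_lit
  37154697064218624) (ad Z c (nat_lit 46161896352514048) (ad Z c (nat_lit 46724846308032512) (ad Z c
  (nat_lit 51228445952180224) (tm Z c (nat_lit 51791395907698688))))))))) (ad Z c (nat_lit
  562949955518464) (ad Z c (nat_lit 1125899911036928) (ad Z c (nat_lit 5629499555184640) (ad Z c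
  (nat_lit 6192449510703104) (ad Z c (nat_lit 15199648798998528) (ad Z c (nat_lit 16888498665553920)
  (ad Z c (nat_lit 20266198398664704) (tm Z c (nat_lit 21955048265220096))))))))))))) (Nat.mul
  (nat_lit 6) (ad Z c (nat_lit 3377699733110784) (tm Z c (nat_lit 48976646130106368))))) (Nat.mul
  (nat_lit 4) (ad Z c (nat_lit 1688849866555392) (ad Z c (nat_lit 5066549599666176) (ad Z c (nat_lit
  47287796263550976) (tm Z c (nat_lit 50665495996661760))))))))))))

/-- program -/
def b11_94P : Pg :=
  (.fold (nat_lit 0) (.at (nat_lit 0) (nat_lit 94) (.at (nat_lit 7318349421740032) (nat_lit 81) (.at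
  (nat_lit 45598946396995584) (nat_lit 13) (.at (nat_lit 52917295818735616) (nat_lit 0) (.add (.add
  (.fold (nat_lit 0) (.mul (nat_lit 4) (.at (nat_lit 562949955518464) (nat_lit 93) (.at (nat_lit
  2251799822073856) (nat_lit 90) (.at (nat_lit 5066549599666176) (nat_lit 85) (.at (nat_lit
  6755399466221568) (nat_lit 82) (.at (nat_lit 46161896352514048) (nat_lit 12) (.at (nat_lit
  47850746219069440) (nat_lit 9) (.at (nat_lit 50665495996661760) (nat_lit 4) (.t (nat_lit
  52354345863217152) (nat_lit 1))))))))))) (.mul (nat_lit 3) (.fold (nat_lit 0) (.add (.at (nat_lit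
  30399297597997056) (nat_lit 40) (.at (nat_lit 30962247553515520) (nat_lit 39) (.at (nat_lit
  32088147464552448) (nat_lit 37) (.at (nat_lit 32651097420070912) (nat_lit 36) (.at (nat_lit
  35465847197663232) (nat_lit 31) (.at (nat_lit 36028797153181696) (nat_lit 30) (.at (nat_lit
  37154697064218624) (nat_lit 28) (.t (nat_lit 37717647019737088) (nat_lit 27))))))))) (.at (nat_lit
  15199648798998528) (nat_lit 67) (.at (nat_lit 15762598754516992) (nat_lit 66) (.at (nat_lit
  16888498665553920) (nat_lit 64) (.at (nat_lit 17451448621072384) (nat_lit 63) (.at (nat_lit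
  20266198398664704) (nat_lit 58) (.at (nat_lit 20829148354183168) (nat_lit 57) (.at (nat_lit
  21955048265220096) (nat_lit 55) (.t (nat_lit 22517998220738560) (nat_lit 54))))))))))))) (.mul
  (nat_lit 8) (.fold (nat_lit 0) (.add (.mul (nat_lit 2) (.at (nat_lit 1688849866555392) (nat_lit
  91) (.at (nat_lit 5629499555184640) (nat_lit 84) (.at (nat_lit 47287796263550976) (nat_lit 10) (.t
  (nat_lit 51228445952180224) (nat_lit 3)))))) (.mul (nat_lit 3) (.at (nat_lit 1125899911036928)
  (nat_lit 92) (.at (nat_lit 3377699733110784) (nat_lit 88) (.at (nat_lit 3940649688629248) (nat_lit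
  87) (.at (nat_lit 6192449510703104) (nat_lit 83) (.at (nat_lit 46724846308032512) (nat_lit 11)
  (.at (nat_lit 48976646130106368) (nat_lit 7) (.at (nat_lit 49539596085624832) (nat_lit 6) (.t
  (nat_lit 51791395907698688) (nat_lit 2)))))))))))))))))))

/-- compiled program -/
def b11_94 : Prog := fun Y Z c d =>
  (fo Y d (nat_lit 0) (ad Z c (nat_lit 0) (ad Z c (nat_lit 7318349421740032) (ad Z c (nat_lit
  45598946396995584) (ad Z c (nat_lit 52917295818735616) (Nat.add (Nat.add (fo Y d (nat_lit 0)
  (Nat.mul (nat_lit 4) (ad Z c (nat_lit 562949955518464) (ad Z c (nat_lit 2251799822073856) (ad Z c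
  (nat_lit 5066549599666176) (ad Z c (nat_lit 6755399466221568) (ad Z c (nat_lit 46161896352514048)
  (ad Z c (nat_lit 47850746219069440) (ad Z c (nat_lit 50665495996661760) (tm Z c (nat_lit
  52354345863217152))))))))))) (Nat.mul (nat_lit 3) (fo Y d (nat_lit 0) (Nat.add (ad Z c (nat_lit
  30399297597997056) (ad Z c (nat_lit 30962247553515520) (ad Z c (nat_lit 32088147464552448) (ad Z c
  (nat_lit 32651097420070912) (ad Z c (nat_lit 35465847197663232) (ad Z c (nat_lit
  36028797153181696) (ad Z c (nat_lit 37154697064218624) (tm Z c (nat_lit 37717647019737088)))))))))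
  (ad Z c (nat_lit 15199648798998528) (ad Z c (nat_lit 15762598754516992) (ad Z c (nat_lit
  16888498665553920) (ad Z c (nat_lit 17451448621072384) (ad Z c (nat_lit 20266198398664704) (ad Z c
  (nat_lit 20829148354183168) (ad Z c (nat_lit 21955048265220096) (tm Z c (nat_lit
  22517998220738560))))))))))))) (Nat.mul (nat_lit 8) (fo Y d (nat_lit 0) (Nat.add (Nat.mul (nat_lit
  2) (ad Z c (nat_lit 1688849866555392) (ad Z c (nat_lit 5629499555184640) (ad Z c (nat_lit
  47287796263550976) (tm Z c (nat_lit 51228445952180224)))))) (Nat.mul (nat_lit 3) (ad Z c (nat_lit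
  1125899911036928) (ad Z c (nat_lit 3377699733110784) (ad Z c (nat_lit 3940649688629248) (ad Z c
  (nat_lit 6192449510703104) (ad Z c (nat_lit 46724846308032512) (ad Z c (nat_lit 48976646130106368)
  (ad Z c (nat_lit 49539596085624832) (tm Z c (nat_lit 51791395907698688)))))))))))))))))))

/-- programs -/
def b11P : List Pg :=
  [.zero, b11_1P, b11_2P, b11_3P, b11_4P, b11_5P, b11_6P, b11_7P, b11_8P, b11_9P, b11_10P, b11_11P,
  b11_12P, b11_13P, b11_14P, b11_15P, b11_16P, b11_17P, b11_18P, b11_19P, b11_20P, b11_21P, b11_22P,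
  b11_23P, b11_24P, b11_25P, b11_26P, b11_27P, b11_28P, b11_29P, b11_30P, b11_31P, b11_32P, b11_33P,
  b11_34P, b11_35P, b11_36P, b11_37P, b11_38P, b11_39P, b11_40P, b11_41P, b11_42P, b11_43P, b11_44P,
  b11_45P, b11_46P, b11_47P, b11_48P, b11_49P, b11_50P, b11_51P, b11_52P, b11_53P, b11_54P, b11_55P,
  b11_56P, b11_57P, b11_58P, b11_59P, b11_60P, b11_61P, b11_62P, b11_63P, b11_64P, b11_65P, b11_66P,
  b11_67P, b11_68P, b11_69P, b11_70P, b11_71P, b11_72P, b11_73P, b11_74P, b11_75P, b11_76P, b11_77P,
  b11_78P, b11_79P, b11_80P, b11_81P, b11_82P, b11_83P, b11_84P, b11_85P, b11_86P, b11_87P, b11_88P,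
  b11_89P, b11_90P, b11_91P, b11_92P, b11_93P, b11_94P]

/-- compiled programs -/
def b11 : List Prog :=
  [zeroP, b11_1, b11_2, b11_3, b11_4, b11_5, b11_6, b11_7, b11_8, b11_9, b11_10, b11_11, b11_12,
  b11_13, b11_14, b11_15, b11_16, b11_17, b11_18, b11_19, b11_20, b11_21, b11_22, b11_23, b11_24,
  b11_25, b11_26, b11_27, b11_28, b11_29, b11_30, b11_31, b11_32, b11_33, b11_34, b11_35, b11_36,
  b11_37, b11_38, b11_39, b11_40, b11_41, b11_42, b11_43, b11_44, b11_45, b11_46, b11_47, b11_48,
  b11_49, b11_50, b11_51, b11_52, b11_53, b11_54, b11_55, b11_56, b11_57, b11_58, b11_59, b11_60,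
  b11_61, b11_62, b11_63, b11_64, b11_65, b11_66, b11_67, b11_68, b11_69, b11_70, b11_71, b11_72,
  b11_73, b11_74, b11_75, b11_76, b11_77, b11_78, b11_79, b11_80, b11_81, b11_82, b11_83, b11_84,
  b11_85, b11_86, b11_87, b11_88, b11_89, b11_90, b11_91, b11_92, b11_93, b11_94]

end Vale.Agent.P236B
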