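import Vale.Agent.P236B.PgT
import Vale.Agent.P236B.PgA

/-!
# P236 / B : the programs are correct (powers)
-/

noncomputable section

namespace Vale.Agent.P236B

open Vale.Agent.P236M Vale.Agent.P236X

theorem b11_run : b11 = b11P.map run := rfl

theorem b11_t : allP (pwT 0 1 (bL 0 0)) b11P 94 = true := by decide +kernel

theorem b11_ok (a N : ℕ) : DiOK a N b11 1 126 (bb 3 (xq a N) 0 0) :=
  diOK_of b11_t b11_run (by omega) (bb_zero _ (nine_Ab a N) _ (by omega))

end Vale.Agent.P236B
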