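import Vale.Agent.P236X.Defs

/-!
# P236 / B : programs (common)
-/

noncomputable section

namespace Vale.Agent.P236B

open Vale.Agent.P236X

/-- program -/
def b22_1P : Pg :=
  (.fold (nat_lit 0) (.at (nat_lit 2251800082120704) (nat_lit 0) (.t (nat_lit 2251799813685249)
  (nat_lit 0))))

/-- compiled program -/
def b22_1 : Prog := fun Y Z c d =>
  (fo Y d (nat_lit 0) (ad Z c (nat_lit 2251800082120704) (tm Z c (nat_lit 2251799813685249))))

/-- program -/
def b22_2P : Pg :=
  (.fold (nat_lit 0) (.at (nat_lit 4503600164241408) (nat_lit 0) (.at (nat_lit 4503599627370498)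
  (nat_lit 0) (.mul (nat_lit 2) (.t (nat_lit 4503599895805953) (nat_lit 0))))))

/-- compiled program -/
def b22_2 : Prog := fun Y Z c d =>
  (fo Y d (nat_lit 0) (ad Z c (nat_lit 4503600164241408) (ad Z c (nat_lit 4503599627370498) (Nat.mul
  (nat_lit 2) (tm Z c (nat_lit 4503599895805953))))))

/-- program -/
def b22_3P : Pg :=
  (.fold (nat_lit 0) (.at (nat_lit 6755400246362112) (nat_lit 0) (.at (nat_lit 6755399441055747)
  (nat_lit 0) (.mul (nat_lit 3) (.at (nat_lit 6755399977926657) (nat_lit 0) (.t (nat_lit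
  6755399709491202) (nat_lit 0)))))))

/-- compiled program -/
def b22_3 : Prog := fun Y Z c d =>
  (fo Y d (nat_lit 0) (ad Z c (nat_lit 6755400246362112) (ad Z c (nat_lit 6755399441055747) (Nat.mul
  (nat_lit 3) (ad Z c (nat_lit 6755399977926657) (tm Z c (nat_lit 6755399709491202)))))))

/-- program -/
def b22_4P : Pg :=
  (.fold (nat_lit 0) (.at (nat_lit 9007200328482816) (nat_lit 0) (.at (nat_lit 9007199254740996)
  (nat_lit 0) (.add (.mul (nat_lit 4) (.at (nat_lit 9007200060047361) (nat_lit 0) (.t (nat_lit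
  9007199523176451) (nat_lit 0)))) (.mul (nat_lit 6) (.t (nat_lit 9007199791611906) (nat_lit
  0)))))))

/-- compiled program -/
def b22_4 : Prog := fun Y Z c d =>
  (fo Y d (nat_lit 0) (ad Z c (nat_lit 9007200328482816) (ad Z c (nat_lit 9007199254740996) (Nat.add
  (Nat.mul (nat_lit 4) (ad Z c (nat_lit 9007200060047361) (tm Z c (nat_lit 9007199523176451))))
  (Nat.mul (nat_lit 6) (tm Z c (nat_lit 9007199791611906)))))))

/-- program -/
def b22_5P : Pg :=
  (.fold (nat_lit 0) (.at (nat_lit 11259000410603520) (nat_lit 0) (.at (nat_lit 11258999873732610)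
  (nat_lit 0) (.at (nat_lit 11258999605297155) (nat_lit 0) (.at (nat_lit 11258999068426245) (nat_lit
  0) (.mul (nat_lit 5) (.at (nat_lit 11259000142168065) (nat_lit 0) (.t (nat_lit 11258999336861700)
  (nat_lit 0)))))))))

/-- compiled program -/
def b22_5 : Prog := fun Y Z c d =>
  (fo Y d (nat_lit 0) (ad Z c (nat_lit 11259000410603520) (ad Z c (nat_lit 11258999873732610) (ad Z
  c (nat_lit 11258999605297155) (ad Z c (nat_lit 11258999068426245) (Nat.mul (nat_lit 5) (ad Z c
  (nat_lit 11259000142168065) (tm Z c (nat_lit 11258999336861700)))))))))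

/-- program -/
def b22_6P : Pg :=
  (.fold (nat_lit 0) (.at (nat_lit 13510800492724224) (nat_lit 0) (.at (nat_lit 13510798882111494)
  (nat_lit 0) (.add (.mul (nat_lit 2) (.t (nat_lit 13510799687417859) (nat_lit 0))) (.mul (nat_lit
  6) (.at (nat_lit 13510800224288769) (nat_lit 0) (.at (nat_lit 13510799955853314) (nat_lit 0) (.at
  (nat_lit 13510799418982404) (nat_lit 0) (.t (nat_lit 13510799150546949) (nat_lit 0))))))))))

/-- compiled program -/
def b22_6 : Prog := fun Y Z c d =>
  (fo Y d (nat_lit 0) (ad Z c (nat_lit 13510800492724224) (ad Z c (nat_lit 13510798882111494)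
  (Nat.add (Nat.mul (nat_lit 2) (tm Z c (nat_lit 13510799687417859))) (Nat.mul (nat_lit 6) (ad Z c
  (nat_lit 13510800224288769) (ad Z c (nat_lit 13510799955853314) (ad Z c (nat_lit
  13510799418982404) (tm Z c (nat_lit 13510799150546949))))))))))

/-- program -/
def b22_7P : Pg :=
  (.fold (nat_lit 0) (.add (.fold (nat_lit 0) (.at (nat_lit 15762600574844928) (nat_lit 0) (.at
  (nat_lit 15762598695796743) (nat_lit 0) (.add (.mul (nat_lit 7) (.at (nat_lit 15762600306409473)
  (nat_lit 0) (.t (nat_lit 15762598964232198) (nat_lit 0)))) (.mul (nat_lit 8) (.at (nat_lit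
  15762599769538563) (nat_lit 0) (.t (nat_lit 15762599501103108) (nat_lit 0)))))))) (.mul (nat_lit
  3) (.at (nat_lit 15762600037974018) (nat_lit 0) (.t (nat_lit 15762599232667653) (nat_lit 0))))))

/-- compiled program -/
def b22_7 : Prog := fun Y Z c d =>
  (fo Y d (nat_lit 0) (Nat.add (fo Y d (nat_lit 0) (ad Z c (nat_lit 15762600574844928) (ad Z c
  (nat_lit 15762598695796743) (Nat.add (Nat.mul (nat_lit 7) (ad Z c (nat_lit 15762600306409473) (tm
  Z c (nat_lit 15762598964232198)))) (Nat.mul (nat_lit 8) (ad Z c (nat_lit 15762599769538563) (tm Z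
  c (nat_lit 15762599501103108)))))))) (Nat.mul (nat_lit 3) (ad Z c (nat_lit 15762600037974018) (tm
  Z c (nat_lit 15762599232667653))))))

/-- program -/
def b22_8P : Pg :=
  (.fold (nat_lit 0) (.at (nat_lit 18014400656965632) (nat_lit 0) (.at (nat_lit 18014400120094722)
  (nat_lit 0) (.at (nat_lit 18014399046352902) (nat_lit 0) (.at (nat_lit 18014398509481992) (nat_lit
  0) (.add (.add (.mul (nat_lit 2) (.at (nat_lit 18014399851659267) (nat_lit 0) (.t (nat_lit
  18014399314788357) (nat_lit 0)))) (.mul (nat_lit 7) (.t (nat_lit 18014399583223812) (nat_lit 0))))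
  (.mul (nat_lit 8) (.at (nat_lit 18014400388530177) (nat_lit 0) (.t (nat_lit 18014398777917447)
  (nat_lit 0))))))))))

/-- compiled program -/
def b22_8 : Prog := fun Y Z c d =>
  (fo Y d (nat_lit 0) (ad Z c (nat_lit 18014400656965632) (ad Z c (nat_lit 18014400120094722) (ad Z
  c (nat_lit 18014399046352902) (ad Z c (nat_lit 18014398509481992) (Nat.add (Nat.add (Nat.mul
  (nat_lit 2) (ad Z c (nat_lit 18014399851659267) (tm Z c (nat_lit 18014399314788357)))) (Nat.mul
  (nat_lit 7) (tm Z c (nat_lit 18014399583223812)))) (Nat.mul (nat_lit 8) (ad Z c (nat_lit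
  18014400388530177) (tm Z c (nat_lit 18014398777917447))))))))))

/-- program -/
def b22_9P : Pg :=
  (.fold (nat_lit 0) (.at (nat_lit 20266200739086336) (nat_lit 0) (.at (nat_lit 20266198323167241)
  (nat_lit 0) (.mul (nat_lit 3) (.at (nat_lit 20266199933779971) (nat_lit 0) (.t (nat_lit
  20266199128473606) (nat_lit 0)))))))

/-- compiled program -/
def b22_9 : Prog := fun Y Z c d =>
  (fo Y d (nat_lit 0) (ad Z c (nat_lit 20266200739086336) (ad Z c (nat_lit 20266198323167241)
  (Nat.mul (nat_lit 3) (ad Z c (nat_lit 20266199933779971) (tm Z c (nat_lit 20266199128473606)))))))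

/-- program -/
def b22_10P : Pg :=
  (.fold (nat_lit 0) (.at (nat_lit 22518000821207040) (nat_lit 0) (.at (nat_lit 22518000552771585)
  (nat_lit 0) (.at (nat_lit 22517998405287945) (nat_lit 0) (.at (nat_lit 22517998136852490) (nat_lit
  0) (.mul (nat_lit 3) (.at (nat_lit 22518000015900675) (nat_lit 0) (.at (nat_lit 22517999747465220)
  (nat_lit 0) (.at (nat_lit 22517999210594310) (nat_lit 0) (.t (nat_lit 22517998942158855) (nat_lit
  0)))))))))))

/-- compiled program -/
def b22_10 : Prog := fun Y Z c d =>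
  (fo Y d (nat_lit 0) (ad Z c (nat_lit 22518000821207040) (ad Z c (nat_lit 22518000552771585) (ad Z
  c (nat_lit 22517998405287945) (ad Z c (nat_lit 22517998136852490) (Nat.mul (nat_lit 3) (ad Z c
  (nat_lit 22518000015900675) (ad Z c (nat_lit 22517999747465220) (ad Z c (nat_lit
  22517999210594310) (tm Z c (nat_lit 22517998942158855)))))))))))

/-- program -/
def b22_11P : Pg :=
  (.fold (nat_lit 0) (.at (nat_lit 24769800903327744) (nat_lit 0) (.at (nat_lit 24769800366456834)
  (nat_lit 0) (.at (nat_lit 24769798487408649) (nat_lit 0) (.at (nat_lit 24769797950537739) (nat_lit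
  0) (.add (.add (.mul (nat_lit 2) (.at (nat_lit 24769800634892289) (nat_lit 0) (.t (nat_lit
  24769798218973194) (nat_lit 0)))) (.mul (nat_lit 3) (.at (nat_lit 24769800098021379) (nat_lit 0)
  (.at (nat_lit 24769799561150469) (nat_lit 0) (.at (nat_lit 24769799292715014) (nat_lit 0) (.t
  (nat_lit 24769798755844104) (nat_lit 0))))))) (.mul (nat_lit 6) (.at (nat_lit 24769799829585924)
  (nat_lit 0) (.t (nat_lit 24769799024279559) (nat_lit 0))))))))))

/-- compiled program -/
def b22_11 : Prog := fun Y Z c d =>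
  (fo Y d (nat_lit 0) (ad Z c (nat_lit 24769800903327744) (ad Z c (nat_lit 24769800366456834) (ad Z
  c (nat_lit 24769798487408649) (ad Z c (nat_lit 24769797950537739) (Nat.add (Nat.add (Nat.mul
  (nat_lit 2) (ad Z c (nat_lit 24769800634892289) (tm Z c (nat_lit 24769798218973194)))) (Nat.mul
  (nat_lit 3) (ad Z c (nat_lit 24769800098021379) (ad Z c (nat_lit 24769799561150469) (ad Z c
  (nat_lit 24769799292715014) (tm Z c (nat_lit 24769798755844104))))))) (Nat.mul (nat_lit 6) (ad Z c
  (nat_lit 24769799829585924) (tm Z c (nat_lit 24769799024279559))))))))))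

/-- program -/
def b22_12P : Pg :=
  (.fold (nat_lit 0) (.at (nat_lit 27021600985448448) (nat_lit 0) (.at (nat_lit 27021597764222988)
  (nat_lit 0) (.add (.add (.mul (nat_lit 3) (.at (nat_lit 27021600717012993) (nat_lit 0) (.at
  (nat_lit 27021600448577538) (nat_lit 0) (.at (nat_lit 27021598301093898) (nat_lit 0) (.t (nat_lit
  27021598032658443) (nat_lit 0)))))) (.mul (nat_lit 4) (.at (nat_lit 27021600180142083) (nat_lit 0)
  (.t (nat_lit 27021598569529353) (nat_lit 0))))) (.mul (nat_lit 6) (.t (nat_lit 27021599374835718)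
  (nat_lit 0)))))))

/-- compiled program -/
def b22_12 : Prog := fun Y Z c d =>
  (fo Y d (nat_lit 0) (ad Z c (nat_lit 27021600985448448) (ad Z c (nat_lit 27021597764222988)
  (Nat.add (Nat.add (Nat.mul (nat_lit 3) (ad Z c (nat_lit 27021600717012993) (ad Z c (nat_lit
  27021600448577538) (ad Z c (nat_lit 27021598301093898) (tm Z c (nat_lit 27021598032658443))))))
  (Nat.mul (nat_lit 4) (ad Z c (nat_lit 27021600180142083) (tm Z c (nat_lit 27021598569529353)))))
  (Nat.mul (nat_lit 6) (tm Z c (nat_lit 27021599374835718)))))))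

/-- program -/
def b22_13P : Pg :=
  (.fold (nat_lit 0) (.add (.add (.fold (nat_lit 0) (.at (nat_lit 29273401067569152) (nat_lit 0)
  (.at (nat_lit 29273397577908237) (nat_lit 0) (.mul (nat_lit 6) (.at (nat_lit 29273400530698242)
  (nat_lit 0) (.at (nat_lit 29273399456956422) (nat_lit 0) (.at (nat_lit 29273399188520967) (nat_lit
  0) (.t (nat_lit 29273398114779147) (nat_lit 0))))))))) (.mul (nat_lit 4) (.at (nat_lit
  29273400799133697) (nat_lit 0) (.at (nat_lit 29273399993827332) (nat_lit 0) (.at (nat_lit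
  29273398651650057) (nat_lit 0) (.t (nat_lit 29273397846343692) (nat_lit 0))))))) (.mul (nat_lit 7)
  (.at (nat_lit 29273400262262787) (nat_lit 0) (.t (nat_lit 29273398383214602) (nat_lit 0))))))

/-- compiled program -/
def b22_13 : Prog := fun Y Z c d =>
  (fo Y d (nat_lit 0) (Nat.add (Nat.add (fo Y d (nat_lit 0) (ad Z c (nat_lit 29273401067569152) (ad
  Z c (nat_lit 29273397577908237) (Nat.mul (nat_lit 6) (ad Z c (nat_lit 29273400530698242) (ad Z c
  (nat_lit 29273399456956422) (ad Z c (nat_lit 29273399188520967) (tm Z c (nat_lit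
  29273398114779147))))))))) (Nat.mul (nat_lit 4) (ad Z c (nat_lit 29273400799133697) (ad Z c
  (nat_lit 29273399993827332) (ad Z c (nat_lit 29273398651650057) (tm Z c (nat_lit
  29273397846343692))))))) (Nat.mul (nat_lit 7) (ad Z c (nat_lit 29273400262262787) (tm Z c (nat_lit
  29273398383214602))))))

/-- program -/
def b22_14P : Pg :=
  (.fold (nat_lit 0) (.at (nat_lit 31525201149689856) (nat_lit 0) (.at (nat_lit 31525200612818946)
  (nat_lit 0) (.at (nat_lit 31525197928464396) (nat_lit 0) (.at (nat_lit 31525197391593486) (nat_lit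
  0) (.add (.add (.fold (nat_lit 0) (.add (.add (.mul (nat_lit 2) (.at (nat_lit 31525200075948036)
  (nat_lit 0) (.t (nat_lit 31525198465335306) (nat_lit 0)))) (.mul (nat_lit 4) (.at (nat_lit
  31525200344383491) (nat_lit 0) (.at (nat_lit 31525199807512581) (nat_lit 0) (.at (nat_lit
  31525198733770761) (nat_lit 0) (.t (nat_lit 31525198196899851) (nat_lit 0))))))) (.mul (nat_lit 6)
  (.at (nat_lit 31525199539077126) (nat_lit 0) (.t (nat_lit 31525199002206216) (nat_lit 0))))))
  (.mul (nat_lit 3) (.t (nat_lit 31525199270641671) (nat_lit 0)))) (.mul (nat_lit 5) (.at (nat_lit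
  31525200881254401) (nat_lit 0) (.t (nat_lit 31525197660028941) (nat_lit 0))))))))))

/-- compiled program -/
def b22_14 : Prog := fun Y Z c d =>
  (fo Y d (nat_lit 0) (ad Z c (nat_lit 31525201149689856) (ad Z c (nat_lit 31525200612818946) (ad Z
  c (nat_lit 31525197928464396) (ad Z c (nat_lit 31525197391593486) (Nat.add (Nat.add (fo Y d
  (nat_lit 0) (Nat.add (Nat.add (Nat.mul (nat_lit 2) (ad Z c (nat_lit 31525200075948036) (tm Z c
  (nat_lit 31525198465335306)))) (Nat.mul (nat_lit 4) (ad Z c (nat_lit 31525200344383491) (ad Z c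
  (nat_lit 31525199807512581) (ad Z c (nat_lit 31525198733770761) (tm Z c (nat_lit
  31525198196899851))))))) (Nat.mul (nat_lit 6) (ad Z c (nat_lit 31525199539077126) (tm Z c (nat_lit
  31525199002206216)))))) (Nat.mul (nat_lit 3) (tm Z c (nat_lit 31525199270641671)))) (Nat.mul
  (nat_lit 5) (ad Z c (nat_lit 31525200881254401) (tm Z c (nat_lit 31525197660028941))))))))))

/-- program -/
def b22_15P : Pg :=
  (.fold (nat_lit 0) (.at (nat_lit 33777001231810560) (nat_lit 0) (.at (nat_lit 33776999621197830)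
  (nat_lit 0) (.at (nat_lit 33776998815891465) (nat_lit 0) (.at (nat_lit 33776997205278735) (nat_lit
  0) (.mul (nat_lit 8) (.fold (nat_lit 0) (.add (.mul (nat_lit 3) (.at (nat_lit 33777000963375105)
  (nat_lit 0) (.at (nat_lit 33777000694939650) (nat_lit 0) (.at (nat_lit 33777000158068740) (nat_lit
  0) (.at (nat_lit 33776999889633285) (nat_lit 0) (.at (nat_lit 33776998547456010) (nat_lit 0) (.at
  (nat_lit 33776998279020555) (nat_lit 0) (.at (nat_lit 33776997742149645) (nat_lit 0) (.t (nat_lit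
  33776997473714190) (nat_lit 0)))))))))) (.mul (nat_lit 4) (.at (nat_lit 33777000426504195)
  (nat_lit 0) (.t (nat_lit 33776998010585100) (nat_lit 0))))))))))))

/-- compiled program -/
def b22_15 : Prog := fun Y Z c d =>
  (fo Y d (nat_lit 0) (ad Z c (nat_lit 33777001231810560) (ad Z c (nat_lit 33776999621197830) (ad Z
  c (nat_lit 33776998815891465) (ad Z c (nat_lit 33776997205278735) (Nat.mul (nat_lit 8) (fo Y d
  (nat_lit 0) (Nat.add (Nat.mul (nat_lit 3) (ad Z c (nat_lit 33777000963375105) (ad Z c (nat_lit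
  33777000694939650) (ad Z c (nat_lit 33777000158068740) (ad Z c (nat_lit 33776999889633285) (ad Z c
  (nat_lit 33776998547456010) (ad Z c (nat_lit 33776998279020555) (ad Z c (nat_lit
  33776997742149645) (tm Z c (nat_lit 33776997473714190)))))))))) (Nat.mul (nat_lit 4) (ad Z c
  (nat_lit 33777000426504195) (tm Z c (nat_lit 33776998010585100))))))))))))

/-- program -/
def b22_16P : Pg :=
  (.fold (nat_lit 0) (.add (.add (.fold (nat_lit 0) (.at (nat_lit 36028801313931264) (nat_lit 0)
  (.at (nat_lit 36028799434883079) (nat_lit 0) (.at (nat_lit 36028798898012169) (nat_lit 0) (.at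
  (nat_lit 36028797018963984) (nat_lit 0) (.mul (nat_lit 7) (.at (nat_lit 36028801045495809)
  (nat_lit 0) (.at (nat_lit 36028799703318534) (nat_lit 0) (.at (nat_lit 36028798629576714) (nat_lit
  0) (.t (nat_lit 36028797287399439) (nat_lit 0))))))))))) (.mul (nat_lit 2) (.at (nat_lit
  36028800508624899) (nat_lit 0) (.at (nat_lit 36028800240189444) (nat_lit 0) (.at (nat_lit
  36028798092705804) (nat_lit 0) (.t (nat_lit 36028797824270349) (nat_lit 0))))))) (.mul (nat_lit 3)
  (.at (nat_lit 36028800777060354) (nat_lit 0) (.at (nat_lit 36028799971753989) (nat_lit 0) (.at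
  (nat_lit 36028798361141259) (nat_lit 0) (.t (nat_lit 36028797555834894) (nat_lit 0))))))))

/-- compiled program -/
def b22_16 : Prog := fun Y Z c d =>
  (fo Y d (nat_lit 0) (Nat.add (Nat.add (fo Y d (nat_lit 0) (ad Z c (nat_lit 36028801313931264) (ad
  Z c (nat_lit 36028799434883079) (ad Z c (nat_lit 36028798898012169) (ad Z c (nat_lit
  36028797018963984) (Nat.mul (nat_lit 7) (ad Z c (nat_lit 36028801045495809) (ad Z c (nat_lit
  36028799703318534) (ad Z c (nat_lit 36028798629576714) (tm Z c (nat_lit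
  36028797287399439))))))))))) (Nat.mul (nat_lit 2) (ad Z c (nat_lit 36028800508624899) (ad Z c
  (nat_lit 36028800240189444) (ad Z c (nat_lit 36028798092705804) (tm Z c (nat_lit
  36028797824270349))))))) (Nat.mul (nat_lit 3) (ad Z c (nat_lit 36028800777060354) (ad Z c (nat_lit
  36028799971753989) (ad Z c (nat_lit 36028798361141259) (tm Z c (nat_lit 36028797555834894))))))))

/-- program -/
def b22_17P : Pg :=
  (.fold (nat_lit 0) (.at (nat_lit 38280601396051968) (nat_lit 0) (.at (nat_lit 38280600859181058)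
  (nat_lit 0) (.at (nat_lit 38280599785439238) (nat_lit 0) (.at (nat_lit 38280599248568328) (nat_lit
  0) (.at (nat_lit 38280598980132873) (nat_lit 0) (.at (nat_lit 38280598443261963) (nat_lit 0) (.at
  (nat_lit 38280597369520143) (nat_lit 0) (.at (nat_lit 38280596832649233) (nat_lit 0) (.add (.mul
  (nat_lit 8) (.fold (nat_lit 0) (.at (nat_lit 38280601127616513) (nat_lit 0) (.at (nat_lit
  38280599517003783) (nat_lit 0) (.at (nat_lit 38280598711697418) (nat_lit 0) (.at (nat_lit
  38280597101084688) (nat_lit 0) (.mul (nat_lit 4) (.at (nat_lit 38280600590745603) (nat_lit 0) (.at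
  (nat_lit 38280600053874693) (nat_lit 0) (.at (nat_lit 38280598174826508) (nat_lit 0) (.t (nat_lit
  38280597637955598) (nat_lit 0)))))))))))) (.mul (nat_lit 4) (.at (nat_lit 38280600322310148)
  (nat_lit 0) (.t (nat_lit 38280597906391053) (nat_lit 0))))))))))))))

/-- compiled program -/
def b22_17 : Prog := fun Y Z c d =>
  (fo Y d (nat_lit 0) (ad Z c (nat_lit 38280601396051968) (ad Z c (nat_lit 38280600859181058) (ad Z
  c (nat_lit 38280599785439238) (ad Z c (nat_lit 38280599248568328) (ad Z c (nat_lit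
  38280598980132873) (ad Z c (nat_lit 38280598443261963) (ad Z c (nat_lit 38280597369520143) (ad Z c
  (nat_lit 38280596832649233) (Nat.add (Nat.mul (nat_lit 8) (fo Y d (nat_lit 0) (ad Z c (nat_lit
  38280601127616513) (ad Z c (nat_lit 38280599517003783) (ad Z c (nat_lit 38280598711697418) (ad Z c
  (nat_lit 38280597101084688) (Nat.mul (nat_lit 4) (ad Z c (nat_lit 38280600590745603) (ad Z c
  (nat_lit 38280600053874693) (ad Z c (nat_lit 38280598174826508) (tm Z c (nat_lit
  38280597637955598)))))))))))) (Nat.mul (nat_lit 4) (ad Z c (nat_lit 38280600322310148) (tm Z c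
  (nat_lit 38280597906391053))))))))))))))

/-- program -/
def b22_18P : Pg :=
  (.fold (nat_lit 0) (.at (nat_lit 40532401478172672) (nat_lit 0) (.at (nat_lit 40532396646334482)
  (nat_lit 0) (.add (.mul (nat_lit 2) (.t (nat_lit 40532399062253577) (nat_lit 0))) (.mul (nat_lit
  6) (.at (nat_lit 40532400672866307) (nat_lit 0) (.at (nat_lit 40532399867559942) (nat_lit 0) (.at
  (nat_lit 40532398256947212) (nat_lit 0) (.t (nat_lit 40532397451640847) (nat_lit 0))))))))))

/-- compiled program -/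
def b22_18 : Prog := fun Y Z c d =>
  (fo Y d (nat_lit 0) (ad Z c (nat_lit 40532401478172672) (ad Z c (nat_lit 40532396646334482)
  (Nat.add (Nat.mul (nat_lit 2) (tm Z c (nat_lit 40532399062253577))) (Nat.mul (nat_lit 6) (ad Z c
  (nat_lit 40532400672866307) (ad Z c (nat_lit 40532399867559942) (ad Z c (nat_lit
  40532398256947212) (tm Z c (nat_lit 40532397451640847))))))))))

/-- program -/
def b22_19P : Pg :=
  (.fold (nat_lit 0) (.at (nat_lit 42784201560293376) (nat_lit 0) (.at (nat_lit 42784201291857921)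
  (nat_lit 0) (.at (nat_lit 42784196728455186) (nat_lit 0) (.at (nat_lit 42784196460019731) (nat_lit
  0) (.add (.mul (nat_lit 6) (.fold (nat_lit 0) (.at (nat_lit 42784200754987011) (nat_lit 0) (.at
  (nat_lit 42784200486551556) (nat_lit 0) (.at (nat_lit 42784199949680646) (nat_lit 0) (.at (nat_lit
  42784199681245191) (nat_lit 0) (.at (nat_lit 42784198339067916) (nat_lit 0) (.at (nat_lit
  42784198070632461) (nat_lit 0) (.at (nat_lit 42784197533761551) (nat_lit 0) (.t (nat_lit
  42784197265326096) (nat_lit 0))))))))))) (.mul (nat_lit 2) (.at (nat_lit 42784199144374281)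
  (nat_lit 0) (.t (nat_lit 42784198875938826) (nat_lit 0))))))))))

/-- compiled program -/
def b22_19 : Prog := fun Y Z c d =>
  (fo Y d (nat_lit 0) (ad Z c (nat_lit 42784201560293376) (ad Z c (nat_lit 42784201291857921) (ad Z
  c (nat_lit 42784196728455186) (ad Z c (nat_lit 42784196460019731) (Nat.add (Nat.mul (nat_lit 6)
  (fo Y d (nat_lit 0) (ad Z c (nat_lit 42784200754987011) (ad Z c (nat_lit 42784200486551556) (ad Z
  c (nat_lit 42784199949680646) (ad Z c (nat_lit 42784199681245191) (ad Z c (nat_lit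
  42784198339067916) (ad Z c (nat_lit 42784198070632461) (ad Z c (nat_lit 42784197533761551) (tm Z c
  (nat_lit 42784197265326096))))))))))) (Nat.mul (nat_lit 2) (ad Z c (nat_lit 42784199144374281) (tm
  Z c (nat_lit 42784198875938826))))))))))

/-- program -/
def b22_20P : Pg :=
  (.fold (nat_lit 0) (.at (nat_lit 45036001642414080) (nat_lit 0) (.at (nat_lit 45036001105543170)
  (nat_lit 0) (.fold (nat_lit 0) (.at (nat_lit 45035996810575890) (nat_lit 0) (.at (nat_lit
  45035996273704980) (nat_lit 0) (.add (.add (.add (.mul (nat_lit 6) (.fold (nat_lit 0) (.at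
  (nat_lit 45036000837107715) (nat_lit 0) (.at (nat_lit 45036000300236805) (nat_lit 0) (.at (nat_lit
  45036000031801350) (nat_lit 0) (.at (nat_lit 45035999494930440) (nat_lit 0) (.at (nat_lit
  45035998421188620) (nat_lit 0) (.at (nat_lit 45035997884317710) (nat_lit 0) (.at (nat_lit
  45035997615882255) (nat_lit 0) (.t (nat_lit 45035997079011345) (nat_lit 0))))))))))) (.mul
  (nat_lit 2) (.at (nat_lit 45036001373978625) (nat_lit 0) (.at (nat_lit 45035999226494985) (nat_lit
  0) (.at (nat_lit 45035998689624075) (nat_lit 0) (.t (nat_lit 45035996542140435) (nat_lit 0)))))))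
  (.mul (nat_lit 3) (.at (nat_lit 45036000568672260) (nat_lit 0) (.at (nat_lit 45035999763365895)
  (nat_lit 0) (.at (nat_lit 45035998152753165) (nat_lit 0) (.t (nat_lit 45035997347446800) (nat_lit
  0))))))) (.mul (nat_lit 4) (.t (nat_lit 45035998958059530) (nat_lit 0))))))))))

/-- compiled program -/
def b22_20 : Prog := fun Y Z c d =>
  (fo Y d (nat_lit 0) (ad Z c (nat_lit 45036001642414080) (ad Z c (nat_lit 45036001105543170) (fo Y
  d (nat_lit 0) (ad Z c (nat_lit 45035996810575890) (ad Z c (nat_lit 45035996273704980) (Nat.add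
  (Nat.add (Nat.add (Nat.mul (nat_lit 6) (fo Y d (nat_lit 0) (ad Z c (nat_lit 45036000837107715) (ad
  Z c (nat_lit 45036000300236805) (ad Z c (nat_lit 45036000031801350) (ad Z c (nat_lit
  45035999494930440) (ad Z c (nat_lit 45035998421188620) (ad Z c (nat_lit 45035997884317710) (ad Z c
  (nat_lit 45035997615882255) (tm Z c (nat_lit 45035997079011345))))))))))) (Nat.mul (nat_lit 2) (ad
  Z c (nat_lit 45036001373978625) (ad Z c (nat_lit 45035999226494985) (ad Z c (nat_lit
  45035998689624075) (tm Z c (nat_lit 45035996542140435))))))) (Nat.mul (nat_lit 3) (ad Z c (nat_lit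
  45036000568672260) (ad Z c (nat_lit 45035999763365895) (ad Z c (nat_lit 45035998152753165) (tm Z c
  (nat_lit 45035997347446800))))))) (Nat.mul (nat_lit 4) (tm Z c (nat_lit
  45035998958059530))))))))))

/-- program -/
def b22_21P : Pg :=
  (.fold (nat_lit 0) (.at (nat_lit 47287801724534784) (nat_lit 0) (.at (nat_lit 47287796087390229)
  (nat_lit 0) (.add (.mul (nat_lit 8) (.fold (nat_lit 0) (.at (nat_lit 47287799308615689) (nat_lit
  0) (.at (nat_lit 47287798503309324) (nat_lit 0) (.add (.mul (nat_lit 2) (.at (nat_lit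
  47287800919228419) (nat_lit 0) (.t (nat_lit 47287796892696594) (nat_lit 0)))) (.mul (nat_lit 3)
  (.at (nat_lit 47287799040180234) (nat_lit 0) (.t (nat_lit 47287798771744779) (nat_lit 0)))))))))
  (.mul (nat_lit 3) (.at (nat_lit 47287801456099329) (nat_lit 0) (.at (nat_lit 47287801187663874)
  (nat_lit 0) (.at (nat_lit 47287800113922054) (nat_lit 0) (.at (nat_lit 47287797698002959) (nat_lit
  0) (.at (nat_lit 47287796624261139) (nat_lit 0) (.t (nat_lit 47287796355825684) (nat_lit
  0))))))))))))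

/-- compiled program -/
def b22_21 : Prog := fun Y Z c d =>
  (fo Y d (nat_lit 0) (ad Z c (nat_lit 47287801724534784) (ad Z c (nat_lit 47287796087390229)
  (Nat.add (Nat.mul (nat_lit 8) (fo Y d (nat_lit 0) (ad Z c (nat_lit 47287799308615689) (ad Z c
  (nat_lit 47287798503309324) (Nat.add (Nat.mul (nat_lit 2) (ad Z c (nat_lit 47287800919228419) (tm
  Z c (nat_lit 47287796892696594)))) (Nat.mul (nat_lit 3) (ad Z c (nat_lit 47287799040180234) (tm Z
  c (nat_lit 47287798771744779))))))))) (Nat.mul (nat_lit 3) (ad Z c (nat_lit 47287801456099329) (ad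
  Z c (nat_lit 47287801187663874) (ad Z c (nat_lit 47287800113922054) (ad Z c (nat_lit
  47287797698002959) (ad Z c (nat_lit 47287796624261139) (tm Z c (nat_lit
  47287796355825684))))))))))))

/-- program -/
def b22_22P : Pg :=
  (.fold (nat_lit 0) (.at (nat_lit 49539601806655488) (nat_lit 0) (.at (nat_lit 49539601001349123)
  (nat_lit 0) (.at (nat_lit 49539596706381843) (nat_lit 0) (.fold (nat_lit 0) (.at (nat_lit
  49539595901075478) (nat_lit 0) (.add (.add (.mul (nat_lit 8) (.fold (nat_lit 0) (.at (nat_lit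
  49539599390736393) (nat_lit 0) (.at (nat_lit 49539598316994573) (nat_lit 0) (.add (.add (.mul
  (nat_lit 2) (.at (nat_lit 49539600732913668) (nat_lit 0) (.t (nat_lit 49539596974817298) (nat_lit
  0)))) (.mul (nat_lit 3) (.at (nat_lit 49539601269784578) (nat_lit 0) (.t (nat_lit
  49539596437946388) (nat_lit 0))))) (.mul (nat_lit 4) (.at (nat_lit 49539599122300938) (nat_lit 0)
  (.t (nat_lit 49539598585430028) (nat_lit 0))))))))) (.mul (nat_lit 3) (.at (nat_lit
  49539600196042758) (nat_lit 0) (.at (nat_lit 49539599927607303) (nat_lit 0) (.at (nat_lit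
  49539598853865483) (nat_lit 0) (.at (nat_lit 49539597780123663) (nat_lit 0) (.t (nat_lit
  49539597511688208) (nat_lit 0)))))))) (.mul (nat_lit 4) (.at (nat_lit 49539601538220033) (nat_lit
  0) (.t (nat_lit 49539596169510933) (nat_lit 0)))))))))))

/-- compiled program -/
def b22_22 : Prog := fun Y Z c d =>
  (fo Y d (nat_lit 0) (ad Z c (nat_lit 49539601806655488) (ad Z c (nat_lit 49539601001349123) (ad Z
  c (nat_lit 49539596706381843) (fo Y d (nat_lit 0) (ad Z c (nat_lit 49539595901075478) (Nat.add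
  (Nat.add (Nat.mul (nat_lit 8) (fo Y d (nat_lit 0) (ad Z c (nat_lit 49539599390736393) (ad Z c
  (nat_lit 49539598316994573) (Nat.add (Nat.add (Nat.mul (nat_lit 2) (ad Z c (nat_lit
  49539600732913668) (tm Z c (nat_lit 49539596974817298)))) (Nat.mul (nat_lit 3) (ad Z c (nat_lit
  49539601269784578) (tm Z c (nat_lit 49539596437946388))))) (Nat.mul (nat_lit 4) (ad Z c (nat_lit
  49539599122300938) (tm Z c (nat_lit 49539598585430028))))))))) (Nat.mul (nat_lit 3) (ad Z c
  (nat_lit 49539600196042758) (ad Z c (nat_lit 49539599927607303) (ad Z c (nat_lit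
  49539598853865483) (ad Z c (nat_lit 49539597780123663) (tm Z c (nat_lit 49539597511688208))))))))
  (Nat.mul (nat_lit 4) (ad Z c (nat_lit 49539601538220033) (tm Z c (nat_lit
  49539596169510933)))))))))))

/-- program -/
def b22_23P : Pg :=
  (.fold (nat_lit 0) (.at (nat_lit 51791401888776192) (nat_lit 0) (.at (nat_lit 51791401351905282)
  (nat_lit 0) (.at (nat_lit 51791396251631637) (nat_lit 0) (.at (nat_lit 51791395714760727) (nat_lit
  0) (.add (.add (.mul (nat_lit 8) (.fold (nat_lit 0) (.at (nat_lit 51791400815034372) (nat_lit 0)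
  (.at (nat_lit 51791399472857097) (nat_lit 0) (.at (nat_lit 51791398935986187) (nat_lit 0) (.at
  (nat_lit 51791398667550732) (nat_lit 0) (.at (nat_lit 51791398130679822) (nat_lit 0) (.at (nat_lit
  51791396788502547) (nat_lit 0) (.add (.add (.mul (nat_lit 2) (.at (nat_lit 51791401083469827)
  (nat_lit 0) (.at (nat_lit 51791400546598917) (nat_lit 0) (.at (nat_lit 51791397056938002) (nat_lit
  0) (.t (nat_lit 51791396520067092) (nat_lit 0)))))) (.mul (nat_lit 3) (.at (nat_lit
  51791400009728007) (nat_lit 0) (.t (nat_lit 51791397593808912) (nat_lit 0))))) (.mul (nat_lit 4)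
  (.at (nat_lit 51791401620340737) (nat_lit 0) (.t (nat_lit 51791395983196182) (nat_lit
  0))))))))))))) (.mul (nat_lit 3) (.at (nat_lit 51791400278163462) (nat_lit 0) (.at (nat_lit
  51791399741292552) (nat_lit 0) (.at (nat_lit 51791397862244367) (nat_lit 0) (.t (nat_lit
  51791397325373457) (nat_lit 0))))))) (.mul (nat_lit 4) (.at (nat_lit 51791399204421642) (nat_lit
  0) (.t (nat_lit 51791398399115277) (nat_lit 0))))))))))

/-- compiled program -/
def b22_23 : Prog := fun Y Z c d =>
  (fo Y d (nat_lit 0) (ad Z c (nat_lit 51791401888776192) (ad Z c (nat_lit 51791401351905282) (ad Z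
  c (nat_lit 51791396251631637) (ad Z c (nat_lit 51791395714760727) (Nat.add (Nat.add (Nat.mul
  (nat_lit 8) (fo Y d (nat_lit 0) (ad Z c (nat_lit 51791400815034372) (ad Z c (nat_lit
  51791399472857097) (ad Z c (nat_lit 51791398935986187) (ad Z c (nat_lit 51791398667550732) (ad Z c
  (nat_lit 51791398130679822) (ad Z c (nat_lit 51791396788502547) (Nat.add (Nat.add (Nat.mul
  (nat_lit 2) (ad Z c (nat_lit 51791401083469827) (ad Z c (nat_lit 51791400546598917) (ad Z c
  (nat_lit 51791397056938002) (tm Z c (nat_lit 51791396520067092)))))) (Nat.mul (nat_lit 3) (ad Z c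
  (nat_lit 51791400009728007) (tm Z c (nat_lit 51791397593808912))))) (Nat.mul (nat_lit 4) (ad Z c
  (nat_lit 51791401620340737) (tm Z c (nat_lit 51791395983196182))))))))))))) (Nat.mul (nat_lit 3)
  (ad Z c (nat_lit 51791400278163462) (ad Z c (nat_lit 51791399741292552) (ad Z c (nat_lit
  51791397862244367) (tm Z c (nat_lit 51791397325373457))))))) (Nat.mul (nat_lit 4) (ad Z c (nat_lit
  51791399204421642) (tm Z c (nat_lit 51791398399115277))))))))))

/-- programs -/
def b22P : List Pg :=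
  [.zero, b22_1P, b22_2P, b22_3P, b22_4P, b22_5P, b22_6P, b22_7P, b22_8P, b22_9P, b22_10P, b22_11P,
  b22_12P, b22_13P, b22_14P, b22_15P, b22_16P, b22_17P, b22_18P, b22_19P, b22_20P, b22_21P, b22_22P,
  b22_23P]

/-- compiled programs -/
def b22 : List Prog :=
  [zeroP, b22_1, b22_2, b22_3, b22_4, b22_5, b22_6, b22_7, b22_8, b22_9, b22_10, b22_11, b22_12,
  b22_13, b22_14, b22_15, b22_16, b22_17, b22_18, b22_19, b22_20, b22_21, b22_22, b22_23]

/-- program -/
def b33_1P : Pg :=
  (.fold (nat_lit 0) (.at (nat_lit 7318383754215424) (nat_lit 0) (.t (nat_lit 7318349394477184)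
  (nat_lit 0))))

/-- compiled program -/
def b33_1 : Prog := fun Y Z c d =>
  (fo Y d (nat_lit 0) (ad Z c (nat_lit 7318383754215424) (tm Z c (nat_lit 7318349394477184))))

/-- program -/
def b33_2P : Pg :=
  (.fold (nat_lit 0) (.at (nat_lit 14636767508430848) (nat_lit 0) (.at (nat_lit 14636698788954368)
  (nat_lit 0) (.mul (nat_lit 2) (.t (nat_lit 14636733148692608) (nat_lit 0))))))

/-- compiled program -/
def b33_2 : Prog := fun Y Z c d =>
  (fo Y d (nat_lit 0) (ad Z c (nat_lit 14636767508430848) (ad Z c (nat_lit 14636698788954368)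
  (Nat.mul (nat_lit 2) (tm Z c (nat_lit 14636733148692608))))))

/-- program -/
def b33_3P : Pg :=
  (.fold (nat_lit 0) (.at (nat_lit 21955151262646272) (nat_lit 0) (.at (nat_lit 21955048183431552)
  (nat_lit 0) (.mul (nat_lit 3) (.at (nat_lit 21955116902908032) (nat_lit 0) (.t (nat_lit
  21955082543169792) (nat_lit 0)))))))

/-- compiled program -/
def b33_3 : Prog := fun Y Z c d =>
  (fo Y d (nat_lit 0) (ad Z c (nat_lit 21955151262646272) (ad Z c (nat_lit 21955048183431552)
  (Nat.mul (nat_lit 3) (ad Z c (nat_lit 21955116902908032) (tm Z c (nat_lit 21955082543169792)))))))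

/-- program -/
def b33_4P : Pg :=
  (.fold (nat_lit 0) (.at (nat_lit 29273535016861696) (nat_lit 0) (.at (nat_lit 29273397577908736)
  (nat_lit 0) (.add (.mul (nat_lit 4) (.at (nat_lit 29273500657123456) (nat_lit 0) (.t (nat_lit
  29273431937646976) (nat_lit 0)))) (.mul (nat_lit 6) (.t (nat_lit 29273466297385216) (nat_lit
  0)))))))

/-- compiled program -/
def b33_4 : Prog := fun Y Z c d =>
  (fo Y d (nat_lit 0) (ad Z c (nat_lit 29273535016861696) (ad Z c (nat_lit 29273397577908736)
  (Nat.add (Nat.mul (nat_lit 4) (ad Z c (nat_lit 29273500657123456) (tm Z c (nat_lit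
  29273431937646976)))) (Nat.mul (nat_lit 6) (tm Z c (nat_lit 29273466297385216)))))))

/-- program -/
def b33_5P : Pg :=
  (.fold (nat_lit 0) (.at (nat_lit 36591918771077120) (nat_lit 0) (.at (nat_lit 36591850051600640)
  (nat_lit 0) (.at (nat_lit 36591815691862400) (nat_lit 0) (.at (nat_lit 36591746972385920) (nat_lit
  0) (.mul (nat_lit 5) (.at (nat_lit 36591884411338880) (nat_lit 0) (.t (nat_lit 36591781332124160)
  (nat_lit 0)))))))))

/-- compiled program -/
def b33_5 : Prog := fun Y Z c d =>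
  (fo Y d (nat_lit 0) (ad Z c (nat_lit 36591918771077120) (ad Z c (nat_lit 36591850051600640) (ad Z
  c (nat_lit 36591815691862400) (ad Z c (nat_lit 36591746972385920) (Nat.mul (nat_lit 5) (ad Z c
  (nat_lit 36591884411338880) (tm Z c (nat_lit 36591781332124160)))))))))

/-- program -/
def b33_6P : Pg :=
  (.fold (nat_lit 0) (.at (nat_lit 43910302525292544) (nat_lit 0) (.at (nat_lit 43910096366863104)
  (nat_lit 0) (.add (.mul (nat_lit 2) (.t (nat_lit 43910199446077824) (nat_lit 0))) (.mul (nat_lit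
  6) (.at (nat_lit 43910268165554304) (nat_lit 0) (.at (nat_lit 43910233805816064) (nat_lit 0) (.at
  (nat_lit 43910165086339584) (nat_lit 0) (.t (nat_lit 43910130726601344) (nat_lit 0))))))))))

/-- compiled program -/
def b33_6 : Prog := fun Y Z c d =>
  (fo Y d (nat_lit 0) (ad Z c (nat_lit 43910302525292544) (ad Z c (nat_lit 43910096366863104)
  (Nat.add (Nat.mul (nat_lit 2) (tm Z c (nat_lit 43910199446077824))) (Nat.mul (nat_lit 6) (ad Z c
  (nat_lit 43910268165554304) (ad Z c (nat_lit 43910233805816064) (ad Z c (nat_lit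
  43910165086339584) (tm Z c (nat_lit 43910130726601344))))))))))

/-- program -/
def b33_7P : Pg :=
  (.fold (nat_lit 0) (.add (.fold (nat_lit 0) (.at (nat_lit 51228686279507968) (nat_lit 0) (.at
  (nat_lit 51228445761340288) (nat_lit 0) (.add (.mul (nat_lit 7) (.at (nat_lit 51228651919769728)
  (nat_lit 0) (.t (nat_lit 51228480121078528) (nat_lit 0)))) (.mul (nat_lit 8) (.at (nat_lit
  51228583200293248) (nat_lit 0) (.t (nat_lit 51228548840555008) (nat_lit 0)))))))) (.mul (nat_lit
  3) (.at (nat_lit 51228617560031488) (nat_lit 0) (.t (nat_lit 51228514480816768) (nat_lit 0))))))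

/-- compiled program -/
def b33_7 : Prog := fun Y Z c d =>
  (fo Y d (nat_lit 0) (Nat.add (fo Y d (nat_lit 0) (ad Z c (nat_lit 51228686279507968) (ad Z c
  (nat_lit 51228445761340288) (Nat.add (Nat.mul (nat_lit 7) (ad Z c (nat_lit 51228651919769728) (tm
  Z c (nat_lit 51228480121078528)))) (Nat.mul (nat_lit 8) (ad Z c (nat_lit 51228583200293248) (tm Z
  c (nat_lit 51228548840555008)))))))) (Nat.mul (nat_lit 3) (ad Z c (nat_lit 51228617560031488) (tm
  Z c (nat_lit 51228514480816768))))))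

/-- programs -/
def b33P : List Pg :=
  [.zero, b33_1P, b33_2P, b33_3P, b33_4P, b33_5P, b33_6P, b33_7P]

/-- compiled programs -/
def b33 : List Prog :=
  [zeroP, b33_1, b33_2, b33_3, b33_4, b33_5, b33_6, b33_7]

/-- program -/
def b44_1P : Pg :=
  (.fold (nat_lit 0) (.at (nat_lit 22522396183363584) (nat_lit 0) (.t (nat_lit 22517998136868864)
  (nat_lit 0))))

/-- compiled program -/
def b44_1 : Prog := fun Y Z c d =>
  (fo Y d (nat_lit 0) (ad Z c (nat_lit 22522396183363584) (tm Z c (nat_lit 22517998136868864))))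

/-- program -/
def b44_2P : Pg :=
  (.fold (nat_lit 0) (.at (nat_lit 45044792366727168) (nat_lit 0) (.at (nat_lit 45035996273737728)
  (nat_lit 0) (.mul (nat_lit 2) (.t (nat_lit 45040394320232448) (nat_lit 0))))))

/-- compiled program -/
def b44_2 : Prog := fun Y Z c d =>
  (fo Y d (nat_lit 0) (ad Z c (nat_lit 45044792366727168) (ad Z c (nat_lit 45035996273737728)
  (Nat.mul (nat_lit 2) (tm Z c (nat_lit 45040394320232448))))))

/-- programs -/
def b44P : List Pg :=
  [.zero, b44_1P, b44_2P]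

/-- compiled programs -/
def b44 : List Prog :=
  [zeroP, b44_1, b44_2]

/-- program -/
def g3cP : Pg :=
  (.fold (nat_lit 0) (.at (nat_lit 7318349394477184) (nat_lit 0) (.mul (nat_lit 8) (.t (nat_lit
  6755399441055747) (nat_lit 1)))))

/-- compiled program -/
def g3c : Prog := fun Y Z c d =>
  (fo Y d (nat_lit 0) (ad Z c (nat_lit 7318349394477184) (Nat.mul (nat_lit 8) (tm Z c (nat_lit
  6755399441055747)))))

/-- program -/
def g4cP : Pg :=
  (.fold (nat_lit 0) (.add (.at (nat_lit 22517998136868864) (nat_lit 0) (.mul (nat_lit 8) (.t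
  (nat_lit 21955048183431552) (nat_lit 1)))) (.mv (nat_lit 1) (.at (nat_lit 20829148276588678)
  (nat_lit 2) (.t (nat_lit 21392098230010115) (nat_lit 1))))))

/-- compiled program -/
def g4c : Prog := fun Y Z c d =>
  (fo Y d (nat_lit 0) (Nat.add (ad Z c (nat_lit 22517998136868864) (Nat.mul (nat_lit 8) (tm Z c
  (nat_lit 21955048183431552)))) (mv Y (nat_lit 1) (ad Z c (nat_lit 20829148276588678) (tm Z c
  (nat_lit 21392098230010115))))))

/-- program -/
def w2cP : Pg :=
  (.fold (nat_lit 0) (.add (.add (.add (.mul (nat_lit 3) (.t (nat_lit 2251799813685249) (nat_lit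
  0))) (.mw (nat_lit 128) (.t (nat_lit 0) (nat_lit 0)))) (.mv (nat_lit 3) (.mul (nat_lit 2) (.t
  (nat_lit 0) (nat_lit 1))))) (.mv (nat_lit 1) (.t (nat_lit 0) (nat_lit 3)))))

/-- compiled program -/
def w2c : Prog := fun Y Z c d =>
  (fo Y d (nat_lit 0) (Nat.add (Nat.add (Nat.add (Nat.mul (nat_lit 3) (tm Z c (nat_lit
  2251799813685249))) (mw Y (nat_lit 128) (tm Z c (nat_lit 0)))) (mv Y (nat_lit 3) (Nat.mul (nat_lit
  2) (tm Z c (nat_lit 0))))) (mv Y (nat_lit 1) (tm Z c (nat_lit 0)))))

/-- program -/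
def b34cP : Pg :=
  (.fold (nat_lit 0) (.add (.at (nat_lit 22522396183363584) (nat_lit 0) (.at (nat_lit
  22517998193475712) (nat_lit 0) (.mv (nat_lit 1) (.mul (nat_lit 8) (.at (nat_lit 21955116902908032)
  (nat_lit 0) (.t (nat_lit 21955082543169792) (nat_lit 0))))))) (.mul (nat_lit 6) (.at (nat_lit
  21955116902908032) (nat_lit 1) (.t (nat_lit 21955082543169792) (nat_lit 1))))))

/-- compiled program -/
def b34c : Prog := fun Y Z c d =>
  (fo Y d (nat_lit 0) (Nat.add (ad Z c (nat_lit 22522396183363584) (ad Z c (nat_lit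
  22517998193475712) (mv Y (nat_lit 1) (Nat.mul (nat_lit 8) (ad Z c (nat_lit 21955116902908032) (tm
  Z c (nat_lit 21955082543169792))))))) (Nat.mul (nat_lit 6) (ad Z c (nat_lit 21955116902908032) (tm
  Z c (nat_lit 21955082543169792))))))

/-- program -/
def b23cP : Pg :=
  (.fold (nat_lit 0) (.add (.at (nat_lit 7318383754215424) (nat_lit 0) (.at (nat_lit
  7318349413351425) (nat_lit 0) (.mv (nat_lit 1) (.mul (nat_lit 8) (.at (nat_lit 6755399977926657)
  (nat_lit 0) (.t (nat_lit 6755399709491202) (nat_lit 0))))))) (.mul (nat_lit 6) (.at (nat_lit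
  6755399977926657) (nat_lit 1) (.t (nat_lit 6755399709491202) (nat_lit 1))))))

/-- compiled program -/
def b23c : Prog := fun Y Z c d =>
  (fo Y d (nat_lit 0) (Nat.add (ad Z c (nat_lit 7318383754215424) (ad Z c (nat_lit 7318349413351425)
  (mv Y (nat_lit 1) (Nat.mul (nat_lit 8) (ad Z c (nat_lit 6755399977926657) (tm Z c (nat_lit
  6755399709491202))))))) (Nat.mul (nat_lit 6) (ad Z c (nat_lit 6755399977926657) (tm Z c (nat_lit
  6755399709491202))))))

/-- program -/
def b12cP : Pg :=
  (.fold (nat_lit 0) (.add (.at (nat_lit 1688849866555392) (nat_lit 1) (.t (nat_lit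
  2251800082120704) (nat_lit 0))) (.mv (nat_lit 1) (.mul (nat_lit 8) (.at (nat_lit 562949955518464)
  (nat_lit 2) (.t (nat_lit 1125899911036928) (nat_lit 1)))))))

/-- compiled program -/
def b12c : Prog := fun Y Z c d =>
  (fo Y d (nat_lit 0) (Nat.add (ad Z c (nat_lit 1688849866555392) (tm Z c (nat_lit
  2251800082120704))) (mv Y (nat_lit 1) (Nat.mul (nat_lit 8) (ad Z c (nat_lit 562949955518464) (tm Z
  c (nat_lit 1125899911036928)))))))

/-- program -/
def b13_13P : Pg :=
  (.fold (nat_lit 0) (.add (.add (.add (.fold (nat_lit 0) (.add (.add (.at (nat_lit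
  6755400246362112) (nat_lit 1) (.t (nat_lit 7318383754215424) (nat_lit 0))) (.mv (nat_lit 1) (.mul
  (nat_lit 8) (.at (nat_lit 5629499815231488) (nat_lit 2) (.t (nat_lit 6192450030796800) (nat_lit
  1)))))) (.mw (nat_lit 128) (.add (.mul (nat_lit 8) (.fold (nat_lit 4) (.add (.at (nat_lit
  1688849866555392) (nat_lit 6) (.t (nat_lit 3377699733110784) (nat_lit 3))) (.mul (nat_lit 3) (.add
  (.at (nat_lit 3940649688629248) (nat_lit 2) (.t (nat_lit 4503599644147712) (nat_lit 1))) (.at
  (nat_lit 562949955518464) (nat_lit 8) (.t (nat_lit 1125899911036928) (nat_lit 7)))))))) (.mul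
  (nat_lit 3) (.at (nat_lit 2251799822073856) (nat_lit 5) (.t (nat_lit 2814749777592320) (nat_lit
  4)))))))) (.mv (nat_lit 2) (.add (.add (.at (nat_lit 5066550119759872) (nat_lit 2) (.t (nat_lit
  5629500075278336) (nat_lit 1))) (.mul (nat_lit 2) (.at (nat_lit 4503599904194560) (nat_lit 3) (.t
  (nat_lit 5066549859713024) (nat_lit 2))))) (.at (nat_lit 3940649688629248) (nat_lit 4) (.t
  (nat_lit 4503599644147712) (nat_lit 3)))))) (.mv (nat_lit 3) (.add (.at (nat_lit 3377699733110784)
  (nat_lit 4) (.t (nat_lit 3940649948676096) (nat_lit 3))) (.mul (nat_lit 2) (.at (nat_lit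
  2814749777592320) (nat_lit 5) (.at (nat_lit 3377699993157632) (nat_lit 4) (.at (nat_lit
  3940649688629248) (nat_lit 3) (.t (nat_lit 4503599904194560) (nat_lit 2))))))))) (.mv (nat_lit 4)
  (.mul (nat_lit 2) (.add (.at (nat_lit 2251799822073856) (nat_lit 5) (.t (nat_lit 2814749777592320)
  (nat_lit 4))) (.add (.at (nat_lit 3940649688629248) (nat_lit 2) (.t (nat_lit 4503599644147712)
  (nat_lit 1))) (.at (nat_lit 562949955518464) (nat_lit 8) (.t (nat_lit 1125899911036928) (nat_lit
  7)))))))))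

/-- compiled program -/
def b13_13 : Prog := fun Y Z c d =>
  (fo Y d (nat_lit 0) (Nat.add (Nat.add (Nat.add (fo Y d (nat_lit 0) (Nat.add (Nat.add (ad Z c
  (nat_lit 6755400246362112) (tm Z c (nat_lit 7318383754215424))) (mv Y (nat_lit 1) (Nat.mul
  (nat_lit 8) (ad Z c (nat_lit 5629499815231488) (tm Z c (nat_lit 6192450030796800)))))) (mw Y
  (nat_lit 128) (Nat.add (Nat.mul (nat_lit 8) (fo Y d (nat_lit 4) (Nat.add (ad Z c (nat_lit
  1688849866555392) (tm Z c (nat_lit 3377699733110784))) (Nat.mul (nat_lit 3) (Nat.add (ad Z c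
  (nat_lit 3940649688629248) (tm Z c (nat_lit 4503599644147712))) (ad Z c (nat_lit 562949955518464)
  (tm Z c (nat_lit 1125899911036928)))))))) (Nat.mul (nat_lit 3) (ad Z c (nat_lit 2251799822073856)
  (tm Z c (nat_lit 2814749777592320)))))))) (mv Y (nat_lit 2) (Nat.add (Nat.add (ad Z c (nat_lit
  5066550119759872) (tm Z c (nat_lit 5629500075278336))) (Nat.mul (nat_lit 2) (ad Z c (nat_lit
  4503599904194560) (tm Z c (nat_lit 5066549859713024))))) (ad Z c (nat_lit 3940649688629248) (tm Z
  c (nat_lit 4503599644147712)))))) (mv Y (nat_lit 3) (Nat.add (ad Z c (nat_lit 3377699733110784)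
  (tm Z c (nat_lit 3940649948676096))) (Nat.mul (nat_lit 2) (ad Z c (nat_lit 2814749777592320) (ad Z
  c (nat_lit 3377699993157632) (ad Z c (nat_lit 3940649688629248) (tm Z c (nat_lit
  4503599904194560))))))))) (mv Y (nat_lit 4) (Nat.mul (nat_lit 2) (Nat.add (ad Z c (nat_lit
  2251799822073856) (tm Z c (nat_lit 2814749777592320))) (Nat.add (ad Z c (nat_lit 3940649688629248)
  (tm Z c (nat_lit 4503599644147712))) (ad Z c (nat_lit 562949955518464) (tm Z c (nat_lit
  1125899911036928)))))))))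

/-- program -/
def b13_4P : Pg :=
  (.fold (nat_lit 0) (.add (.add (.fold (nat_lit 0) (.add (.add (.at (nat_lit 6755400246362112)
  (nat_lit 1) (.t (nat_lit 7318383754215424) (nat_lit 0))) (.mv (nat_lit 1) (.mul (nat_lit 8) (.at
  (nat_lit 5629499815231488) (nat_lit 2) (.t (nat_lit 6192450030796800) (nat_lit 1)))))) (.mw
  (nat_lit 128) (.add (.mul (nat_lit 8) (.fold (nat_lit 4) (.add (.at (nat_lit 1688849866555392)
  (nat_lit 6) (.t (nat_lit 3377699733110784) (nat_lit 3))) (.mul (nat_lit 3) (.at (nat_lit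
  562949955518464) (nat_lit 8) (.at (nat_lit 1125899911036928) (nat_lit 7) (.at (nat_lit
  3940649688629248) (nat_lit 2) (.t (nat_lit 4503599644147712) (nat_lit 1))))))))) (.mul (nat_lit 3)
  (.at (nat_lit 2251799822073856) (nat_lit 5) (.t (nat_lit 2814749777592320) (nat_lit 4)))))))) (.mv
  (nat_lit 2) (.add (.add (.at (nat_lit 5066550119759872) (nat_lit 2) (.t (nat_lit 5629500075278336)
  (nat_lit 1))) (.mul (nat_lit 2) (.at (nat_lit 4503599904194560) (nat_lit 3) (.t (nat_lit
  5066549859713024) (nat_lit 2))))) (.at (nat_lit 3940649688629248) (nat_lit 4) (.t (nat_lit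
  4503599644147712) (nat_lit 3)))))) (.mv (nat_lit 3) (.add (.at (nat_lit 3377699733110784) (nat_lit
  4) (.t (nat_lit 3940649948676096) (nat_lit 3))) (.mul (nat_lit 2) (.at (nat_lit 2814749777592320)
  (nat_lit 5) (.at (nat_lit 3377699993157632) (nat_lit 4) (.at (nat_lit 3940649688629248) (nat_lit
  3) (.t (nat_lit 4503599904194560) (nat_lit 2))))))))))

/-- compiled program -/
def b13_4 : Prog := fun Y Z c d =>
  (fo Y d (nat_lit 0) (Nat.add (Nat.add (fo Y d (nat_lit 0) (Nat.add (Nat.add (ad Z c (nat_lit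
  6755400246362112) (tm Z c (nat_lit 7318383754215424))) (mv Y (nat_lit 1) (Nat.mul (nat_lit 8) (ad
  Z c (nat_lit 5629499815231488) (tm Z c (nat_lit 6192450030796800)))))) (mw Y (nat_lit 128)
  (Nat.add (Nat.mul (nat_lit 8) (fo Y d (nat_lit 4) (Nat.add (ad Z c (nat_lit 1688849866555392) (tm
  Z c (nat_lit 3377699733110784))) (Nat.mul (nat_lit 3) (ad Z c (nat_lit 562949955518464) (ad Z c
  (nat_lit 1125899911036928) (ad Z c (nat_lit 3940649688629248) (tm Z c (nat_lit
  4503599644147712))))))))) (Nat.mul (nat_lit 3) (ad Z c (nat_lit 2251799822073856) (tm Z c (nat_lit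
  2814749777592320)))))))) (mv Y (nat_lit 2) (Nat.add (Nat.add (ad Z c (nat_lit 5066550119759872)
  (tm Z c (nat_lit 5629500075278336))) (Nat.mul (nat_lit 2) (ad Z c (nat_lit 4503599904194560) (tm Z
  c (nat_lit 5066549859713024))))) (ad Z c (nat_lit 3940649688629248) (tm Z c (nat_lit
  4503599644147712)))))) (mv Y (nat_lit 3) (Nat.add (ad Z c (nat_lit 3377699733110784) (tm Z c
  (nat_lit 3940649948676096))) (Nat.mul (nat_lit 2) (ad Z c (nat_lit 2814749777592320) (ad Z c
  (nat_lit 3377699993157632) (ad Z c (nat_lit 3940649688629248) (tm Z c (nat_lit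
  4503599904194560))))))))))

/-- program -/
def b24_13P : Pg :=
  (.fold (nat_lit 0) (.add (.add (.fold (nat_lit 0) (.add (.at (nat_lit 22522396183363584) (nat_lit
  0) (.at (nat_lit 22518000552771585) (nat_lit 0) (.add (.fold (nat_lit 0) (.add (.mv (nat_lit 4)
  (.mul (nat_lit 2) (.add (.add (.at (nat_lit 20266198860038151) (nat_lit 0) (.t (nat_lit
  20266198591602696) (nat_lit 0))) (.at (nat_lit 20266200470650881) (nat_lit 0) (.t (nat_lit
  20266200202215426) (nat_lit 0)))) (.at (nat_lit 20266199665344516) (nat_lit 0) (.t (nat_lit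
  20266199396909061) (nat_lit 0)))))) (.mv (nat_lit 1) (.add (.mul (nat_lit 8) (.fold (nat_lit 1)
  (.add (.add (.at (nat_lit 21955116921782273) (nat_lit 0) (.t (nat_lit 21955082580918274) (nat_lit
  0))) (.at (nat_lit 20266199933779971) (nat_lit 3) (.t (nat_lit 20266199128473606) (nat_lit 3))))
  (.mul (nat_lit 3) (.add (.add (.at (nat_lit 21392098804629507) (nat_lit 1) (.t (nat_lit
  21392098536194052) (nat_lit 1))) (.at (nat_lit 21392167486357505) (nat_lit 1) (.t (nat_lit
  21392167217922050) (nat_lit 1)))) (.add (.at (nat_lit 20266198860038151) (nat_lit 3) (.t (nat_lit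
  20266198591602696) (nat_lit 3))) (.at (nat_lit 20266200470650881) (nat_lit 3) (.t (nat_lit
  20266200202215426) (nat_lit 3))))))))) (.mul (nat_lit 3) (.add (.at (nat_lit 21392133145493506)
  (nat_lit 1) (.t (nat_lit 21392132877058051) (nat_lit 1))) (.at (nat_lit 20266199665344516)
  (nat_lit 3) (.t (nat_lit 20266199396909061) (nat_lit 3))))))))) (.mw (nat_lit 128) (.add (.mul
  (nat_lit 8) (.fold (nat_lit 4) (.add (.at (nat_lit 20266199933779971) (nat_lit 0) (.t (nat_lit
  20266199128473606) (nat_lit 0))) (.mul (nat_lit 3) (.add (.at (nat_lit 20266198860038151) (nat_lit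
  0) (.t (nat_lit 20266198591602696) (nat_lit 0))) (.at (nat_lit 20266200470650881) (nat_lit 0) (.t
  (nat_lit 20266200202215426) (nat_lit 0)))))))) (.mul (nat_lit 3) (.at (nat_lit 20266199665344516)
  (nat_lit 0) (.t (nat_lit 20266199396909061) (nat_lit 0))))))))) (.mul (nat_lit 6) (.at (nat_lit
  21955116921782273) (nat_lit 1) (.t (nat_lit 21955082580918274) (nat_lit 1)))))) (.mv (nat_lit 2)
  (.add (.add (.at (nat_lit 21392098804629507) (nat_lit 0) (.t (nat_lit 21392098536194052) (nat_lit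
  0))) (.at (nat_lit 21392167486357505) (nat_lit 0) (.t (nat_lit 21392167217922050) (nat_lit 0))))
  (.mul (nat_lit 2) (.at (nat_lit 21392133145493506) (nat_lit 0) (.t (nat_lit 21392132877058051)
  (nat_lit 0))))))) (.mv (nat_lit 3) (.add (.at (nat_lit 20829183441633283) (nat_lit 0) (.at
  (nat_lit 20829149100769284) (nat_lit 0) (.mul (nat_lit 2) (.at (nat_lit 20829183710068738)
  (nat_lit 0) (.at (nat_lit 20829183173197828) (nat_lit 0) (.at (nat_lit 20829149369204739) (nat_lit
  0) (.t (nat_lit 20829148832333829) (nat_lit 0)))))))) (.at (nat_lit 20266199933779971) (nat_lit 1)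
  (.t (nat_lit 20266199128473606) (nat_lit 1)))))))

/-- compiled program -/
def b24_13 : Prog := fun Y Z c d =>
  (fo Y d (nat_lit 0) (Nat.add (Nat.add (fo Y d (nat_lit 0) (Nat.add (ad Z c (nat_lit
  22522396183363584) (ad Z c (nat_lit 22518000552771585) (Nat.add (fo Y d (nat_lit 0) (Nat.add (mv Y
  (nat_lit 4) (Nat.mul (nat_lit 2) (Nat.add (Nat.add (ad Z c (nat_lit 20266198860038151) (tm Z c
  (nat_lit 20266198591602696))) (ad Z c (nat_lit 20266200470650881) (tm Z c (nat_lit
  20266200202215426)))) (ad Z c (nat_lit 20266199665344516) (tm Z c (nat_lit 20266199396909061))))))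
  (mv Y (nat_lit 1) (Nat.add (Nat.mul (nat_lit 8) (fo Y d (nat_lit 1) (Nat.add (Nat.add (ad Z c
  (nat_lit 21955116921782273) (tm Z c (nat_lit 21955082580918274))) (ad Z c (nat_lit
  20266199933779971) (tm Z c (nat_lit 20266199128473606)))) (Nat.mul (nat_lit 3) (Nat.add (Nat.add
  (ad Z c (nat_lit 21392098804629507) (tm Z c (nat_lit 21392098536194052))) (ad Z c (nat_lit
  21392167486357505) (tm Z c (nat_lit 21392167217922050)))) (Nat.add (ad Z c (nat_lit
  20266198860038151) (tm Z c (nat_lit 20266198591602696))) (ad Z c (nat_lit 20266200470650881) (tm Z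
  c (nat_lit 20266200202215426))))))))) (Nat.mul (nat_lit 3) (Nat.add (ad Z c (nat_lit
  21392133145493506) (tm Z c (nat_lit 21392132877058051))) (ad Z c (nat_lit 20266199665344516) (tm Z
  c (nat_lit 20266199396909061))))))))) (mw Y (nat_lit 128) (Nat.add (Nat.mul (nat_lit 8) (fo Y d
  (nat_lit 4) (Nat.add (ad Z c (nat_lit 20266199933779971) (tm Z c (nat_lit 20266199128473606)))
  (Nat.mul (nat_lit 3) (Nat.add (ad Z c (nat_lit 20266198860038151) (tm Z c (nat_lit
  20266198591602696))) (ad Z c (nat_lit 20266200470650881) (tm Z c (nat_lit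
  20266200202215426)))))))) (Nat.mul (nat_lit 3) (ad Z c (nat_lit 20266199665344516) (tm Z c
  (nat_lit 20266199396909061))))))))) (Nat.mul (nat_lit 6) (ad Z c (nat_lit 21955116921782273) (tm Z
  c (nat_lit 21955082580918274)))))) (mv Y (nat_lit 2) (Nat.add (Nat.add (ad Z c (nat_lit
  21392098804629507) (tm Z c (nat_lit 21392098536194052))) (ad Z c (nat_lit 21392167486357505) (tm Z
  c (nat_lit 21392167217922050)))) (Nat.mul (nat_lit 2) (ad Z c (nat_lit 21392133145493506) (tm Z c
  (nat_lit 21392132877058051))))))) (mv Y (nat_lit 3) (Nat.add (ad Z c (nat_lit 20829183441633283)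
  (ad Z c (nat_lit 20829149100769284) (Nat.mul (nat_lit 2) (ad Z c (nat_lit 20829183710068738) (ad Z
  c (nat_lit 20829183173197828) (ad Z c (nat_lit 20829149369204739) (tm Z c (nat_lit
  20829148832333829)))))))) (ad Z c (nat_lit 20266199933779971) (tm Z c (nat_lit
  20266199128473606)))))))

/-- program -/
def b24_4P : Pg :=
  (.fold (nat_lit 0) (.add (.fold (nat_lit 0) (.add (.at (nat_lit 22522396183363584) (nat_lit 0)
  (.at (nat_lit 22518000552771585) (nat_lit 0) (.add (.fold (nat_lit 0) (.add (.mul (nat_lit 6) (.at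
  (nat_lit 21955116921782273) (nat_lit 1) (.t (nat_lit 21955082580918274) (nat_lit 1)))) (.mv
  (nat_lit 1) (.add (.mul (nat_lit 8) (.fold (nat_lit 1) (.add (.add (.at (nat_lit
  21955116921782273) (nat_lit 0) (.t (nat_lit 21955082580918274) (nat_lit 0))) (.at (nat_lit
  20266199933779971) (nat_lit 3) (.t (nat_lit 20266199128473606) (nat_lit 3)))) (.mul (nat_lit 3)
  (.add (.add (.at (nat_lit 21392098804629507) (nat_lit 1) (.t (nat_lit 21392098536194052) (nat_lit
  1))) (.at (nat_lit 21392167486357505) (nat_lit 1) (.t (nat_lit 21392167217922050) (nat_lit 1))))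
  (.add (.at (nat_lit 20266198860038151) (nat_lit 3) (.t (nat_lit 20266198591602696) (nat_lit 3)))
  (.at (nat_lit 20266200470650881) (nat_lit 3) (.t (nat_lit 20266200202215426) (nat_lit 3)))))))))
  (.mul (nat_lit 3) (.add (.at (nat_lit 21392133145493506) (nat_lit 1) (.t (nat_lit
  21392132877058051) (nat_lit 1))) (.at (nat_lit 20266199665344516) (nat_lit 3) (.t (nat_lit
  20266199396909061) (nat_lit 3))))))))) (.mw (nat_lit 128) (.add (.mul (nat_lit 8) (.fold (nat_lit
  4) (.add (.at (nat_lit 20266199933779971) (nat_lit 0) (.t (nat_lit 20266199128473606) (nat_lit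
  0))) (.mul (nat_lit 3) (.add (.at (nat_lit 20266198860038151) (nat_lit 0) (.t (nat_lit
  20266198591602696) (nat_lit 0))) (.at (nat_lit 20266200470650881) (nat_lit 0) (.t (nat_lit
  20266200202215426) (nat_lit 0)))))))) (.mul (nat_lit 3) (.at (nat_lit 20266199665344516) (nat_lit
  0) (.t (nat_lit 20266199396909061) (nat_lit 0))))))))) (.mv (nat_lit 3) (.add (.at (nat_lit
  20829183441633283) (nat_lit 0) (.at (nat_lit 20829149100769284) (nat_lit 0) (.mul (nat_lit 2) (.at
  (nat_lit 20829183710068738) (nat_lit 0) (.at (nat_lit 20829183173197828) (nat_lit 0) (.at (nat_lit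
  20829149369204739) (nat_lit 0) (.t (nat_lit 20829148832333829) (nat_lit 0)))))))) (.at (nat_lit
  20266199933779971) (nat_lit 1) (.t (nat_lit 20266199128473606) (nat_lit 1))))))) (.mv (nat_lit 2)
  (.add (.add (.at (nat_lit 21392098804629507) (nat_lit 0) (.t (nat_lit 21392098536194052) (nat_lit
  0))) (.at (nat_lit 21392167486357505) (nat_lit 0) (.t (nat_lit 21392167217922050) (nat_lit 0))))
  (.mul (nat_lit 2) (.at (nat_lit 21392133145493506) (nat_lit 0) (.t (nat_lit 21392132877058051)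
  (nat_lit 0))))))))

/-- compiled program -/
def b24_4 : Prog := fun Y Z c d =>
  (fo Y d (nat_lit 0) (Nat.add (fo Y d (nat_lit 0) (Nat.add (ad Z c (nat_lit 22522396183363584) (ad
  Z c (nat_lit 22518000552771585) (Nat.add (fo Y d (nat_lit 0) (Nat.add (Nat.mul (nat_lit 6) (ad Z c
  (nat_lit 21955116921782273) (tm Z c (nat_lit 21955082580918274)))) (mv Y (nat_lit 1) (Nat.add
  (Nat.mul (nat_lit 8) (fo Y d (nat_lit 1) (Nat.add (Nat.add (ad Z c (nat_lit 21955116921782273) (tm
  Z c (nat_lit 21955082580918274))) (ad Z c (nat_lit 20266199933779971) (tm Z c (nat_lit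
  20266199128473606)))) (Nat.mul (nat_lit 3) (Nat.add (Nat.add (ad Z c (nat_lit 21392098804629507)
  (tm Z c (nat_lit 21392098536194052))) (ad Z c (nat_lit 21392167486357505) (tm Z c (nat_lit
  21392167217922050)))) (Nat.add (ad Z c (nat_lit 20266198860038151) (tm Z c (nat_lit
  20266198591602696))) (ad Z c (nat_lit 20266200470650881) (tm Z c (nat_lit
  20266200202215426))))))))) (Nat.mul (nat_lit 3) (Nat.add (ad Z c (nat_lit 21392133145493506) (tm Z
  c (nat_lit 21392132877058051))) (ad Z c (nat_lit 20266199665344516) (tm Z c (nat_lit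
  20266199396909061))))))))) (mw Y (nat_lit 128) (Nat.add (Nat.mul (nat_lit 8) (fo Y d (nat_lit 4)
  (Nat.add (ad Z c (nat_lit 20266199933779971) (tm Z c (nat_lit 20266199128473606))) (Nat.mul
  (nat_lit 3) (Nat.add (ad Z c (nat_lit 20266198860038151) (tm Z c (nat_lit 20266198591602696))) (ad
  Z c (nat_lit 20266200470650881) (tm Z c (nat_lit 20266200202215426)))))))) (Nat.mul (nat_lit 3)
  (ad Z c (nat_lit 20266199665344516) (tm Z c (nat_lit 20266199396909061))))))))) (mv Y (nat_lit 3)
  (Nat.add (ad Z c (nat_lit 20829183441633283) (ad Z c (nat_lit 20829149100769284) (Nat.mul (nat_lit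
  2) (ad Z c (nat_lit 20829183710068738) (ad Z c (nat_lit 20829183173197828) (ad Z c (nat_lit
  20829149369204739) (tm Z c (nat_lit 20829148832333829)))))))) (ad Z c (nat_lit 20266199933779971)
  (tm Z c (nat_lit 20266199128473606))))))) (mv Y (nat_lit 2) (Nat.add (Nat.add (ad Z c (nat_lit
  21392098804629507) (tm Z c (nat_lit 21392098536194052))) (ad Z c (nat_lit 21392167486357505) (tm Z
  c (nat_lit 21392167217922050)))) (Nat.mul (nat_lit 2) (ad Z c (nat_lit 21392133145493506) (tm Z c
  (nat_lit 21392132877058051))))))))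

/-- program -/
def w3_13P : Pg :=
  (.fold (nat_lit 0) (.add (.add (.add (.add (.add (.add (.add (.add (.fold (nat_lit 0) (.add (.add
  (.add (.add (.mv (nat_lit 16384) (.t (nat_lit 0) (nat_lit 0))) (.mul (nat_lit 3) (.at (nat_lit
  6755399441055747) (nat_lit 1) (.t (nat_lit 7318349394477184) (nat_lit 0))))) (.mw (nat_lit 384)
  (.mul (nat_lit 8) (.t (nat_lit 0) (nat_lit 1))))) (.mv (nat_lit 1) (.at (nat_lit 6755399441055747)
  (nat_lit 0) (.mw (nat_lit 256) (.mul (nat_lit 6) (.at (nat_lit 0) (nat_lit 4) (.t (nat_lit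
  2251799813685249) (nat_lit 0)))))))) (.mv (nat_lit 3) (.add (.mw (nat_lit 128) (.mul (nat_lit 2)
  (.t (nat_lit 0) (nat_lit 6)))) (.mul (nat_lit 2) (.t (nat_lit 0) (nat_lit 10))))))) (.mv (nat_lit
  4) (.mw (nat_lit 256) (.t (nat_lit 0) (nat_lit 1))))) (.mv (nat_lit 7) (.mw (nat_lit 128) (.mul
  (nat_lit 2) (.t (nat_lit 0) (nat_lit 2)))))) (.mv (nat_lit 2) (.mw (nat_lit 256) (.mul (nat_lit 2)
  (.t (nat_lit 0) (nat_lit 3)))))) (.mv (nat_lit 5) (.mw (nat_lit 128) (.mul (nat_lit 2) (.t
  (nat_lit 0) (nat_lit 4)))))) (.mv (nat_lit 9) (.at (nat_lit 0) (nat_lit 4) (.mul (nat_lit 2) (.t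
  (nat_lit 2251799813685249) (nat_lit 0)))))) (.mv (nat_lit 8) (.mul (nat_lit 2) (.t (nat_lit 0)
  (nat_lit 5))))) (.mv (nat_lit 6) (.t (nat_lit 0) (nat_lit 7)))) (.mw (nat_lit 128) (.t (nat_lit 0)
  (nat_lit 9)))))

/-- compiled program -/
def w3_13 : Prog := fun Y Z c d =>
  (fo Y d (nat_lit 0) (Nat.add (Nat.add (Nat.add (Nat.add (Nat.add (Nat.add (Nat.add (Nat.add (fo Y
  d (nat_lit 0) (Nat.add (Nat.add (Nat.add (Nat.add (mv Y (nat_lit 16384) (tm Z c (nat_lit 0)))
  (Nat.mul (nat_lit 3) (ad Z c (nat_lit 6755399441055747) (tm Z c (nat_lit 7318349394477184))))) (mw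
  Y (nat_lit 384) (Nat.mul (nat_lit 8) (tm Z c (nat_lit 0))))) (mv Y (nat_lit 1) (ad Z c (nat_lit
  6755399441055747) (mw Y (nat_lit 256) (Nat.mul (nat_lit 6) (ad Z c (nat_lit 0) (tm Z c (nat_lit
  2251799813685249)))))))) (mv Y (nat_lit 3) (Nat.add (mw Y (nat_lit 128) (Nat.mul (nat_lit 2) (tm Z
  c (nat_lit 0)))) (Nat.mul (nat_lit 2) (tm Z c (nat_lit 0))))))) (mv Y (nat_lit 4) (mw Y (nat_lit
  256) (tm Z c (nat_lit 0))))) (mv Y (nat_lit 7) (mw Y (nat_lit 128) (Nat.mul (nat_lit 2) (tm Z c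
  (nat_lit 0)))))) (mv Y (nat_lit 2) (mw Y (nat_lit 256) (Nat.mul (nat_lit 2) (tm Z c (nat_lit
  0)))))) (mv Y (nat_lit 5) (mw Y (nat_lit 128) (Nat.mul (nat_lit 2) (tm Z c (nat_lit 0)))))) (mv Y
  (nat_lit 9) (ad Z c (nat_lit 0) (Nat.mul (nat_lit 2) (tm Z c (nat_lit 2251799813685249)))))) (mv Y
  (nat_lit 8) (Nat.mul (nat_lit 2) (tm Z c (nat_lit 0))))) (mv Y (nat_lit 6) (tm Z c (nat_lit 0))))
  (mw Y (nat_lit 128) (tm Z c (nat_lit 0)))))

/-- program -/
def w3_5P : Pg :=
  (.fold (nat_lit 0) (.add (.add (.add (.fold (nat_lit 0) (.add (.add (.add (.add (.mv (nat_lit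
  16384) (.t (nat_lit 0) (nat_lit 0))) (.mul (nat_lit 3) (.at (nat_lit 6755399441055747) (nat_lit 1)
  (.t (nat_lit 7318349394477184) (nat_lit 0))))) (.mul (nat_lit 8) (.mw (nat_lit 384) (.t (nat_lit
  0) (nat_lit 1))))) (.mv (nat_lit 1) (.at (nat_lit 6755399441055747) (nat_lit 0) (.mw (nat_lit 256)
  (.mul (nat_lit 6) (.at (nat_lit 0) (nat_lit 4) (.t (nat_lit 2251799813685249) (nat_lit 0))))))))
  (.mv (nat_lit 3) (.mul (nat_lit 2) (.at (nat_lit 0) (nat_lit 10) (.mw (nat_lit 128) (.t (nat_lit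
  0) (nat_lit 6)))))))) (.mv (nat_lit 4) (.mw (nat_lit 256) (.t (nat_lit 0) (nat_lit 1))))) (.mv
  (nat_lit 2) (.mul (nat_lit 2) (.mw (nat_lit 256) (.t (nat_lit 0) (nat_lit 3)))))) (.mw (nat_lit
  128) (.t (nat_lit 0) (nat_lit 9)))))

/-- compiled program -/
def w3_5 : Prog := fun Y Z c d =>
  (fo Y d (nat_lit 0) (Nat.add (Nat.add (Nat.add (fo Y d (nat_lit 0) (Nat.add (Nat.add (Nat.add
  (Nat.add (mv Y (nat_lit 16384) (tm Z c (nat_lit 0))) (Nat.mul (nat_lit 3) (ad Z c (nat_lit
  6755399441055747) (tm Z c (nat_lit 7318349394477184))))) (Nat.mul (nat_lit 8) (mw Y (nat_lit 384)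
  (tm Z c (nat_lit 0))))) (mv Y (nat_lit 1) (ad Z c (nat_lit 6755399441055747) (mw Y (nat_lit 256)
  (Nat.mul (nat_lit 6) (ad Z c (nat_lit 0) (tm Z c (nat_lit 2251799813685249)))))))) (mv Y (nat_lit
  3) (Nat.mul (nat_lit 2) (ad Z c (nat_lit 0) (mw Y (nat_lit 128) (tm Z c (nat_lit 0)))))))) (mv Y
  (nat_lit 4) (mw Y (nat_lit 256) (tm Z c (nat_lit 0))))) (mv Y (nat_lit 2) (Nat.mul (nat_lit 2) (mw
  Y (nat_lit 256) (tm Z c (nat_lit 0)))))) (mw Y (nat_lit 128) (tm Z c (nat_lit 0)))))

/-- program -/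
def w3_4P : Pg :=
  (.fold (nat_lit 0) (.add (.add (.fold (nat_lit 0) (.add (.add (.add (.add (.mv (nat_lit 16384) (.t
  (nat_lit 0) (nat_lit 0))) (.mul (nat_lit 3) (.at (nat_lit 6755399441055747) (nat_lit 1) (.t
  (nat_lit 7318349394477184) (nat_lit 0))))) (.mw (nat_lit 384) (.mul (nat_lit 8) (.t (nat_lit 0)
  (nat_lit 1))))) (.mv (nat_lit 1) (.at (nat_lit 6755399441055747) (nat_lit 0) (.mw (nat_lit 256)
  (.mul (nat_lit 6) (.at (nat_lit 0) (nat_lit 4) (.t (nat_lit 2251799813685249) (nat_lit 0))))))))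
  (.mv (nat_lit 3) (.add (.mw (nat_lit 128) (.mul (nat_lit 2) (.t (nat_lit 0) (nat_lit 6)))) (.mul
  (nat_lit 2) (.t (nat_lit 0) (nat_lit 10))))))) (.mv (nat_lit 2) (.mw (nat_lit 256) (.mul (nat_lit
  2) (.t (nat_lit 0) (nat_lit 3)))))) (.mw (nat_lit 128) (.t (nat_lit 0) (nat_lit 9)))))

/-- compiled program -/
def w3_4 : Prog := fun Y Z c d =>
  (fo Y d (nat_lit 0) (Nat.add (Nat.add (fo Y d (nat_lit 0) (Nat.add (Nat.add (Nat.add (Nat.add (mv
  Y (nat_lit 16384) (tm Z c (nat_lit 0))) (Nat.mul (nat_lit 3) (ad Z c (nat_lit 6755399441055747)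
  (tm Z c (nat_lit 7318349394477184))))) (mw Y (nat_lit 384) (Nat.mul (nat_lit 8) (tm Z c (nat_lit
  0))))) (mv Y (nat_lit 1) (ad Z c (nat_lit 6755399441055747) (mw Y (nat_lit 256) (Nat.mul (nat_lit
  6) (ad Z c (nat_lit 0) (tm Z c (nat_lit 2251799813685249)))))))) (mv Y (nat_lit 3) (Nat.add (mw Y
  (nat_lit 128) (Nat.mul (nat_lit 2) (tm Z c (nat_lit 0)))) (Nat.mul (nat_lit 2) (tm Z c (nat_lit
  0))))))) (mv Y (nat_lit 2) (mw Y (nat_lit 256) (Nat.mul (nat_lit 2) (tm Z c (nat_lit 0)))))) (mw Y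
  (nat_lit 128) (tm Z c (nat_lit 0)))))

end Vale.Agent.P236B
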