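import Vale.Agent.P236B.PgT
import Vale.Agent.P236B.PgB

/-!
# P236 / B : the programs are correct (common)
-/

noncomputable section

namespace Vale.Agent.P236B

open Vale.Agent.P236M Vale.Agent.P236X

theorem b22_run : b22 = b22P.map run := rfl

theorem b22_t : allP (pwT 1 4 (bL 1 1)) b22P 23 = true := by decide +kernel

theorem b22_ok (a N : ℕ) : DiOK a N b22 4 126 (bb 3 (xq a N) 1 1) :=
  diOK_of b22_t b22_run (by omega) (bb_one _ (nine_Ab a N) _ (by omega))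

theorem b33_run : b33 = b33P.map run := rfl

theorem b33_t : allP (pwT 2 13 (bL 2 2)) b33P 7 = true := by decide +kernel

theorem b33_ok (a N : ℕ) : DiOK a N b33 13 126 (bb 3 (xq a N) 2 2) :=
  diOK_of b33_t b33_run (by omega) (bb_two _ (nine_Ab a N) _ (by omega))

theorem b44_run : b44 = b44P.map run := rfl

theorem b44_t : allP (pwT 3 40 (bL 3 3)) b44P 2 = true := by decide +kernel

theorem b44_ok (a N : ℕ) : DiOK a N b44 40 126 (bb 3 (xq a N) 3 3) :=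
  diOK_of b44_t b44_run (by omega) (bb_three _ (nine_Ab a N) _ (by omega))

theorem g3c_run : g3c = run g3cP := rfl

theorem g3c_t : gT [1, 4, 1, 2, 1, 1, 1, 1, 1, 1, 1]
    [0, 1, 1, 4, 4, 8, 8, 8, 8, 8, 8, 8] 2 1 2 13 13 2 g3cP (uL 0 2) = true := by
  decide +kernel

theorem g3c_ok {a N : ℕ} (ha : a ≤ 2) (hN : N ≤ 13) :
    ItOK a N g3c 13 (g3 3 (xq a N)) :=
  gOK_of g3c_t g3c_run ha hN (by omega) (tt_eq _ (nine_Ab a N) _ (by omega))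

theorem g4c_run : g4c = run g4cP := rfl

theorem g4c_t : gT [1, 7, 1, 4, 1, 2, 1, 1, 1, 1, 2]
    [0, 1, 1, 7, 7, 28, 28, 56, 56, 56, 56, 56] 2 1 2 13 40 3 g4cP (uL 0 3) = true := by
  decide +kernel

theorem g4c_ok {a N : ℕ} (ha : a ≤ 2) (hN : N ≤ 13) :
    ItOK a N g4c 40 (g4 3 (xq a N)) :=
  gOK_of g4c_t g4c_run ha hN (by omega) (tt_eq _ (nine_Ab a N) _ (by omega))

theorem w2c_run : w2c = run w2cP := rfl

theorem w2c_t : itT [1, 2, 1, 1, 1, 1, 1, 2, 1, 1, 4]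
    [0, 1, 1, 2, 2, 2, 2, 2, 2, 4, 4, 4] 2 2 2 13 4 w2cP (vL 4 1) = true := by
  decide +kernel

theorem w2c_ok {a N : ℕ} (ha : a ≤ 2) (hN : N ≤ 13) :
    ItOK a N w2c 4 (VV 3 (xq a N) 4 1) :=
  itOK_of w2c_t w2c_run ha hN (VV_four _ (nine_Ab a N) _ (by omega))

theorem b34c_run : b34c = run b34cP := rfl

theorem b34c_t : itT [28, 1, 1, 3, 3, 1, 2, 1, 1, 1, 2]
    [0, 1, 28, 28, 28, 84, 252, 252, 504, 504, 504, 504] 3 4 2 13 40 b34cP (bL 2 3) = true := by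
  decide +kernel

theorem b34c_ok {a N : ℕ} (ha : a ≤ 2) (hN : N ≤ 13) :
    ItOK a N b34c 40 (bb 3 (xq a N) 2 3) :=
  itOK_of b34c_t b34c_run ha hN (bb_two _ (nine_Ab a N) _ (by omega))

theorem b23c_run : b23c = run b23cP := rfl

theorem b23c_t : itT [10, 3, 3, 1, 2, 1, 1, 1, 1, 1, 2]
    [0, 1, 10, 30, 90, 90, 180, 180, 180, 180, 180, 180] 3 4 2 13 13 b23cP (bL 1 2) = true := by
  decide +kernel

theorem b23c_ok {a N : ℕ} (ha : a ≤ 2) (hN : N ≤ 13) :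
    ItOK a N b23c 13 (bb 3 (xq a N) 1 2) :=
  itOK_of b23c_t b23c_run ha hN (bb_one _ (nine_Ab a N) _ (by omega))

theorem b12c_run : b12c = run b12cP := rfl

theorem b12c_t : itT [4, 1, 2, 1, 1, 1, 1, 1, 1, 1, 2]
    [0, 1, 4, 4, 8, 8, 8, 8, 8, 8, 8, 8] 2 3 2 13 4 b12cP (bL 0 1) = true := by
  decide +kernel

theorem b12c_ok {a N : ℕ} (ha : a ≤ 2) (hN : N ≤ 13) :
    ItOK a N b12c 4 (bb 3 (xq a N) 0 1) :=
  itOK_of b12c_t b12c_run ha hN (bb_zero _ (nine_Ab a N) _ (by omega))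

theorem b13_13_run : b13_13 = run b13_13P := rfl

theorem b13_13_t : itT [9, 1, 4, 1, 2, 1, 1, 2, 1, 1, 5]
    [0, 1, 9, 9, 36, 36, 72, 72, 72, 144, 144, 144] 5 18 2 13 13 b13_13P (bL 0 2) = true := by
  decide +kernel

theorem b13_13_ok {a N : ℕ} (ha : a ≤ 2) (hN : N ≤ 13) :
    ItOK a N b13_13 13 (bb 3 (xq a N) 0 2) :=
  itOK_of b13_13_t b13_13_run ha hN (bb_zero _ (nine_Ab a N) _ (by omega))

theorem b13_4_run : b13_4 = run b13_4P := rfl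

theorem b13_4_t : itT [9, 1, 4, 1, 2, 1, 1, 2, 1, 1, 4]
    [0, 1, 9, 9, 36, 36, 72, 72, 72, 144, 144, 144] 5 14 2 4 13 b13_4P (bL 0 2) = true := by
  decide +kernel

theorem b13_4_ok {a N : ℕ} (ha : a ≤ 2) (hN : N ≤ 4) :
    ItOK a N b13_4 13 (bb 3 (xq a N) 0 2) :=
  itOK_of b13_4_t b13_4_run ha hN (bb_zero _ (nine_Ab a N) _ (by omega))

theorem b24_13_run : b24_13 = run b24_13P := rfl

theorem b24_13_t : itT [19, 9, 10, 1, 3, 1, 2, 2, 1, 1, 5]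
    [0, 1, 19, 171, 1710, 1710, 5130, 5130, 10260, 20520, 20520, 20520] 6 29 2 13 40 b24_13P (bL 1 3) = true := by
  decide +kernel

theorem b24_13_ok {a N : ℕ} (ha : a ≤ 2) (hN : N ≤ 13) :
    ItOK a N b24_13 40 (bb 3 (xq a N) 1 3) :=
  itOK_of b24_13_t b24_13_run ha hN (bb_one _ (nine_Ab a N) _ (by omega))

theorem b24_4_run : b24_4 = run b24_4P := rfl

theorem b24_4_t : itT [19, 9, 10, 1, 3, 1, 2, 2, 1, 1, 4]
    [0, 1, 19, 171, 1710, 1710, 5130, 5130, 10260, 20520, 20520, 20520] 6 25 2 4 40 b24_4P (bL 1 3) = true := by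
  decide +kernel

theorem b24_4_ok {a N : ℕ} (ha : a ≤ 2) (hN : N ≤ 4) :
    ItOK a N b24_4 40 (bb 3 (xq a N) 1 3) :=
  itOK_of b24_4_t b24_4_run ha hN (bb_one _ (nine_Ab a N) _ (by omega))

theorem w3_13_run : w3_13 = run w3_13P := rfl

theorem w3_13_t : itT [1, 4, 1, 2, 1, 1, 1, 4, 2, 1, 13]
    [0, 1, 1, 4, 4, 8, 8, 8, 8, 32, 64, 64] 5 17 2 13 13 w3_13P (vL 4 2) = true := by
  decide +kernel

theorem w3_13_ok {a N : ℕ} (ha : a ≤ 2) (hN : N ≤ 13) :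
    ItOK a N w3_13 13 (VV 3 (xq a N) 4 2) :=
  itOK_of w3_13_t w3_13_run ha hN (VV_four _ (nine_Ab a N) _ (by omega))

theorem w3_5_run : w3_5 = run w3_5P := rfl

theorem w3_5_t : itT [1, 4, 1, 2, 1, 1, 1, 4, 2, 1, 5]
    [0, 1, 1, 4, 4, 8, 8, 8, 8, 32, 64, 64] 4 10 2 5 13 w3_5P (vL 4 2) = true := by
  decide +kernel

theorem w3_5_ok {a N : ℕ} (ha : a ≤ 2) (hN : N ≤ 5) :
    ItOK a N w3_5 13 (VV 3 (xq a N) 4 2) :=
  itOK_of w3_5_t w3_5_run ha hN (VV_four _ (nine_Ab a N) _ (by omega))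

theorem w3_4_run : w3_4 = run w3_4P := rfl

theorem w3_4_t : itT [1, 4, 1, 2, 1, 1, 1, 4, 2, 1, 4]
    [0, 1, 1, 4, 4, 8, 8, 8, 8, 32, 64, 64] 4 8 2 4 13 w3_4P (vL 4 2) = true := by
  decide +kernel

theorem w3_4_ok {a N : ℕ} (ha : a ≤ 2) (hN : N ≤ 4) :
    ItOK a N w3_4 13 (VV 3 (xq a N) 4 2) :=
  itOK_of w3_4_t w3_4_run ha hN (VV_four _ (nine_Ab a N) _ (by omega))

end Vale.Agent.P236B
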