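import Vale.Agent.P236B.Pol
import Vale.Agent.P236X.PrgOK

/-!
# P236 / B : tests for programs
-/

noncomputable section

namespace Vale.Agent.P236B

open MvPolynomial Vale.Agent.P236A Vale.Agent.P236M Vale.Agent.P236X

theorem nine_Ab (a N : ℕ) : (9 : Ab a N) = 0 := by
  have h := congrArg ((xq a N).comp (C : K9 →+* Av K9)) (show (9 : K9) = 0 from rfl)
  rwa [map_ofNat, map_zero] at h

theorem pow_Ab {a N N' : ℕ} (h : N ≤ N') : q12 (vx (xq a N)) (10 + 1) ^ N' = 0 := by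
  obtain ⟨e, rfl⟩ := Nat.exists_eq_add_of_le h
  have h1 : xq a N (X 0 ^ N) = 0 := Ideal.Quotient.eq_zero_iff_mem.2 (pow_mem_JJ 3 a N)
  change (C (xq a N (X 0)) : P236M.Pb (Ab a N)) ^ (N + e) = 0
  rw [pow_add, ← map_pow, ← map_pow, h1, map_zero, zero_mul]

theorem three_Ab {a a' N : ℕ} (h : a ≤ a') : 3 * q12 (vx (xq a N)) (10 + 1) ^ a' = 0 := by
  obtain ⟨e, rfl⟩ := Nat.exists_eq_add_of_le h
  have h1 : xq a N (((3 : ℕ) : Av K9) * X 0 ^ a) = 0 :=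
    Ideal.Quotient.eq_zero_iff_mem.2 (p_mul_mem_JJ 3 a N)
  have h2 := congrArg (C : Ab a N →+* P236M.Pb (Ab a N)) h1
  rw [map_mul, map_mul, map_pow, map_pow, map_natCast, map_natCast, map_zero] at h2
  change 3 * (C (xq a N (X 0)) : P236M.Pb (Ab a N)) ^ (a + e) = 0
  rw [pow_add, ← mul_assoc]
  push_cast at h2
  rw [h2, zero_mul]

theorem eq_Ab {W : ℕ} {D k : ℕ → ℕ} {b c a N a' N' : ℕ} {P Q : Ex}
    (h : chkI 10 W D w12 k b c a' N' P Q = true) (ha : a ≤ a') (hN : N ≤ N') :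
    P.ev (q12 (vx (xq a N))) = Q.ev (q12 (vx (xq a N))) :=
  eq_of_chkI h _ (nine_Pb (nine_Ab a N)) (three_Ab ha) (pow_Ab hN)

/-- the codes of the variables -/
def pK (D : ℕ → ℕ) : ℕ → ℕ
  | 0 => 0
  | i + 1 => rad D i

/-- the test for a program -/
def itT (D K : List ℕ) (b c a N w : ℕ) (p : Pg) (l : List Tm) : Bool :=
  p.ok 126 w 0 && Nat.ble (p.bd 126) 126 &&
    chkI 10 w (gt D) w12 (gt K) b c a N (toE p) (.tl (cut 11 N l))

theorem itOK_of {D K : List ℕ} {b c a N a' N' w : ℕ} {p : Pg} {l : List Tm} {β : Prog}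
    {z : P236X.Pb a N} (h : itT D K b c a' N' w p l = true) (hβ : β = run p) (ha : a ≤ a')
    (hN : N ≤ N') (hz : z = evL (q12 (vx (xq a N))) l) : ItOK a N β w z := by
  simp only [itT, Bool.and_eq_true, Nat.ble_eq] at h
  exact ⟨p, hβ, h.1.1, h.1.2, (den_eq _ p).trans ((eq_Ab h.2 ha hN).trans
    ((evL_cut _ (pow_Ab hN) l).trans hz.symm))⟩

/-- the test for the inverse substitution -/
def gT (D K : List ℕ) (b c a N w i : ℕ) (p : Pg) (l : List Tm) : Bool :=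
  p.ok 126 w 0 && Nat.ble (p.bd 126) 126 &&
    chkI 10 w (gt D) w12 (gt K) b c a N (.add (toE p) (.tl l)) (.smul 2 (yE i))

theorem gOK_of {D K : List ℕ} {b c a N a' N' w i : ℕ} {p : Pg} {l : List Tm} {β : Prog}
    {z : P236X.Pb a N} (h : gT D K b c a' N' w i p l = true) (hβ : β = run p) (ha : a ≤ a')
    (hN : N ≤ N') (hi : i < 4) (hz : z = evL (q12 (vx (xq a N))) l) :
    ItOK a N β w (X i - (z - X i)) := by
  simp only [gT, Bool.and_eq_true, Nat.ble_eq] at h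
  refine ⟨p, hβ, h.1.1, h.1.2, (den_eq _ p).trans ?_⟩
  have h1 := eq_Ab h.2 ha hN
  rw [Ex.ev, Ex.ev, Ex.ev, ev_yE _ hi, ← hz] at h1
  push_cast at h1
  linear_combination h1

/-- bounds for the exponents -/
def pD (n j i : ℕ) : ℕ := cond (Nat.beq (i + 1) (2 * n) || Nat.beq i (2 * n)) (j + 1) 1

/-- the test for the power number `j` of `y + a` -/
def pwT (n w : ℕ) (l : List Tm) (p : Pg) (j : ℕ) : Bool :=
  p.ok 126 (j * w) 0 && Nat.ble (p.bd 126) 126 &&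
    chk (2 * n + 1) (j * w) (pD n j) w12 (pK (pD n j)) (j + 13) (j + 9) 9 (2 ^ j) (toE p)
      (.pow (.tl l) j)

/-- the test for the power number `j` of `v_1 + 3 y_1` -/
def w1T (a N : ℕ) (p : Pg) (j : ℕ) : Bool :=
  p.ok 10 (j * 1) 0 && Nat.ble (p.bd 10) 10 &&
    chkI 10 (j * 1) (pD 5 j) w12 (pK (pD 5 j)) (2 * j + 9) (4 ^ j) a N (toE p)
      (.pow (.tl (vL 4 0)) j)

/-- all powers -/
def allP (f : Pg → ℕ → Bool) (ps : List Pg) (J : ℕ) : Bool :=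
  allLt (fun j => f (ps.getD (j + 1) .zero) (j + 1)) J

theorem allP_spec {f : Pg → ℕ → Bool} {ps : List Pg} {J : ℕ} (h : allP f ps J = true) {j : ℕ}
    (h1 : 1 ≤ j) (h2 : j ≤ J) : f (ps.getD j .zero) j = true := by
  obtain ⟨j, rfl⟩ : ∃ i, j = i + 1 := ⟨j - 1, by omega⟩
  exact allLt_spec h j (by omega)

theorem diOK_of {n w J a N : ℕ} {l : List Tm} {ps : List Pg} {βs : List Prog} {z : P236X.Pb a N}
    (h : allP (pwT n w l) ps J = true) (hβ : βs = ps.map run) (hJ : 94 < (J + 1) * w)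
    (hz : z = evL (q12 (vx (xq a N))) l) : DiOK a N βs w 126 z := by
  refine ⟨ps, hβ, fun j h1 h2 => ?_⟩
  have h3 := allP_spec h h1 (by
    by_contra h3
    have := Nat.mul_le_mul_right w (show J + 1 ≤ j by omega)
    omega)
  simp only [pwT, Bool.and_eq_true, Nat.ble_eq] at h3
  refine ⟨h3.1.1, h3.1.2, (den_eq _ _).trans ?_⟩
  rw [← eq_of_chk9 h3.2 (nine_Pb (nine_Ab a N)), hz]
  rfl

theorem w1OK_of {a N a' N' : ℕ} {ps : List Pg} {βs : List Prog}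
    (h : allP (w1T a' N') ps 94 = true) (hβ : βs = ps.map run) (ha : a ≤ a') (hN : N ≤ N') :
    DiOK a N βs 1 10 (VV 3 (xq a N) 4 0) := by
  refine ⟨ps, hβ, fun j h1 h2 => ?_⟩
  have h3 := allP_spec h h1 (by omega)
  simp only [w1T, Bool.and_eq_true, Nat.ble_eq] at h3
  refine ⟨h3.1.1, h3.1.2, (den_eq _ _).trans ?_⟩
  rw [eq_Ab h3.2 ha hN, VV_four _ (nine_Ab a N) 0 (by omega)]
  rfl

end Vale.Agent.P236B
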