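import Vale.Agent.P236B.PolC
import Vale.Agent.P236M.Algc
import Vale.Agent.P236X.Sem

/-!
# P236 / B : the polynomials of the staged substitution, explicitly

`VV_eq`, `bb_eq`, `tt_eq` : explicit lists of terms; `den_eq` : the polynomial of a program as an
expression.
-/

noncomputable section

namespace Vale.Agent.P236B

open MvPolynomial Vale.Agent.P236A Vale.Agent.P236M Vale.Agent.P236X

section General

variable {R : Type} [CommRing R]

theorem mon_eq_prod (z : ℕ → R) (i : ℕ) (e : List ℕ) {n : ℕ} (h : e.length ≤ n) :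
    mon z i e = ∏ j ∈ Finset.range n, z (i + j) ^ e.getD j 0 := by
  induction e generalizing i n with
  | nil => simp [mon]
  | cons a e ih =>
    obtain ⟨n, rfl⟩ : ∃ m, n = m + 1 := ⟨n - 1, by rw [List.length_cons] at h; omega⟩
    rw [mon, ih (i + 1) (n := n) (by rw [List.length_cons] at h; omega), Finset.prod_range_succ',
      mul_comm]
    simp only [List.getD_cons_succ, List.getD_cons_zero, add_zero, add_assoc, add_comm 1]

/-- at most nine exponents -/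
def short (l : List Tm) : Bool := l.all fun s => Nat.ble s.2.length 9

theorem evL_prmL (v t : ℕ → R) (x : R) (q : ℕ → R) (h0 : q 0 = x) (h1 : q 1 = t 0)
    (h3 : q 3 = t 1) (h5 : q 5 = t 2) (h7 : q 7 = t 3) (h8 : q 8 = v 1) (h9 : q 9 = v 2)
    (h10 : q 10 = v 3) (h11 : q 11 = v 0) {l : List Tm} (hl : short l = true) :
    evL q (prmL l) = evL (pt v t x) l := by
  induction l with
  | nil => rfl
  | cons s l ih =>
    rw [short, List.all_cons, Bool.and_eq_true, Nat.ble_eq] at hl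
    rw [prmL, List.map_cons, evL, evL, ← prmL, ih hl.2, mon_eq_prod _ 0 s.2 hl.1]
    simp only [prm, mon, Finset.prod_range_succ, Finset.prod_range_zero, zero_add, Nat.reduceAdd,
      pt, h0, h1, h3, h5, h7, h8, h9, h10, h11]
    ring

theorem short_eX : ∀ k < 4, short (eX 0 k) = true := by decide +kernel

theorem short_dL : ∀ k < 4, short (dL 0 k) = true := by decide +kernel

theorem eq_of_chk9 {r W : ℕ} {D w k : ℕ → ℕ} {B b c : ℕ} {P N : Ex}
    (h : chk r W D w k B b 9 c P N = true) (h9 : (9 : R) = 0) (x : ℕ → R) : N.ev x = P.ev x := by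
  obtain ⟨e, he⟩ := dvd_of_chk h x
  push_cast at he
  linear_combination -he - e * h9

/-- the terms with an exponent less than `N` -/
def cut (i N : ℕ) (l : List Tm) : List Tm := l.filter fun s => Nat.blt (s.2.getD i 0) N

theorem evL_cut (y : ℕ → R) {i N : ℕ} (hN : y i ^ N = 0) (l : List Tm) :
    evL y (cut i N l) = evL y l := by
  induction l with
  | nil => rfl
  | cons s l ih =>
    rw [cut, List.filter_cons, ← cut]
    split_ifs with h
    · rw [evL, evL, ih]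
    · obtain ⟨c, hc⟩ := pow_dvd_mon y 0 s.2 i
      rw [Nat.blt_eq, not_lt] at h
      obtain ⟨e, he⟩ := Nat.exists_eq_add_of_le h
      rw [evL, ih, hc, zero_add, he, pow_add, hN]
      simp

end General

variable {k B : Type} [CommRing k] [CommRing B]

/-- the values of the twelve variables -/
def q12 (v : ℕ → B) : ℕ → P236M.Pb B
  | 0 => X 0
  | 1 => X 4
  | 2 => X 1
  | 3 => X 5
  | 4 => X 2
  | 5 => X 6
  | 6 => X 3
  | 7 => X 7
  | 8 => C (v 1)
  | 9 => C (v 2)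
  | 10 => C (v 3)
  | 11 => C (v 0)
  | _ + 12 => 0

/-- the images of the generators -/
abbrev vx (x : Av k →+* B) : ℕ → B := fun n => x (X n)

theorem nine_Pb (h9 : (9 : B) = 0) : (9 : P236M.Pb B) = 0 := by
  have h := congrArg (C : B →+* P236M.Pb B) h9
  rwa [map_ofNat, map_zero] at h

theorem ev_yE (v : ℕ → B) {n : ℕ} (hn : n < 4) : (yE n).ev (q12 v) = X n := by
  interval_cases n <;> exact ev_varE _ _

theorem ev_aE (v : ℕ → B) {n : ℕ} (hn : n < 4) : (aE n).ev (q12 v) = aa B n := by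
  interval_cases n <;> exact ev_varE _ _

variable (x : Av k →+* B) (h9 : (9 : B) = 0)
include h9

theorem eta_step {n j : ℕ} (hn : n < 4) (hj : j < 4)
    (h : ∀ j < 4, VV 3 x n j = evL (q12 (vx x)) (vL n j)) :
    VV 3 x (n + 1) j = (subE (ptE (tlE (vL n)) zE (yE n)) (eX n j)).ev (q12 (vx x)) := by
  rw [ev_subE, ev_ptE, ← eta_X (nine_Pb h9) _ _ _ hn hj, ev_yE _ hn]
  exact eta_congr 3 (fun i hi => h i (by omega)) fun _ _ => rfl

theorem del_step {n j : ℕ} (hn : n < 4) (hj : j < 4)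
    (h : ∀ j < 4, VV 3 x n j = evL (q12 (vx x)) (vL n j)) {u : ℕ → P236M.Pb B} {U : ℕ → Ex}
    (hu : ∀ j < 4, u j = (U j).ev (q12 (vx x))) :
    del 3 (VV 3 x n) (Yn B n) u j = (subE (ptE (tlE (vL n)) U (yE n)) (dL n j)).ev (q12 (vx x)) := by
  rw [ev_subE, ev_ptE, ← del_L (nine_Pb h9) _ _ _ hn hj, ev_yE _ hn]
  exact del_congr 3 (fun i hi => h i (by omega)) (fun _ _ => rfl) fun i hi => hu i (by omega)

omit h9 in
theorem VV_zero : ∀ j < 4, VV 3 x 0 j = evL (q12 (vx x)) (vL 0 j) := by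
  intro j hj
  interval_cases j <;> simp [VV, vb, vL, evL, mon, q12]

theorem VV_one : ∀ j < 4, VV 3 x 1 j = evL (q12 (vx x)) (vL 1 j) := fun j hj =>
  (eta_X (nine_Pb h9) (vb x) (aa B) (X 0) (n := 0) (by omega) hj).trans
    (evL_prmL (vb x) (aa B) (X 0) (q12 (vx x)) rfl rfl rfl rfl rfl rfl rfl rfl rfl
      (short_eX j hj)).symm

theorem VV_two : ∀ j < 4, VV 3 x 2 j = evL (q12 (vx x)) (vL 2 j) := by
  intro j hj
  rw [eta_step x h9 (by omega) hj (VV_one x h9)]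
  interval_cases j
  exacts [eq_of_chk9 c_vL2_0 (nine_Pb h9) _, eq_of_chk9 c_vL2_1 (nine_Pb h9) _,
    eq_of_chk9 c_vL2_2 (nine_Pb h9) _, eq_of_chk9 c_vL2_3 (nine_Pb h9) _]

theorem VV_three : ∀ j < 4, VV 3 x 3 j = evL (q12 (vx x)) (vL 3 j) := by
  intro j hj
  rw [eta_step x h9 (by omega) hj (VV_two x h9)]
  interval_cases j
  exacts [eq_of_chk9 c_vL3_0 (nine_Pb h9) _, eq_of_chk9 c_vL3_1 (nine_Pb h9) _,
    eq_of_chk9 c_vL3_2 (nine_Pb h9) _, eq_of_chk9 c_vL3_3 (nine_Pb h9) _]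

theorem VV_four : ∀ j < 4, VV 3 x 4 j = evL (q12 (vx x)) (vL 4 j) := by
  intro j hj
  rw [eta_step x h9 (by omega) hj (VV_three x h9)]
  interval_cases j
  exacts [eq_of_chk9 c_vL4_0 (nine_Pb h9) _, eq_of_chk9 c_vL4_1 (nine_Pb h9) _,
    eq_of_chk9 c_vL4_2 (nine_Pb h9) _, eq_of_chk9 c_vL4_3 (nine_Pb h9) _]

theorem bb_zero : ∀ j < 4, bb 3 x 0 j = evL (q12 (vx x)) (bL 0 j) := fun j hj =>
  (del_L (nine_Pb h9) (vb x) (aa B) (X 0) (n := 0) (by omega) hj).trans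
    (evL_prmL (vb x) (aa B) (X 0) (q12 (vx x)) rfl rfl rfl rfl rfl rfl rfl rfl rfl
      (short_dL j hj)).symm

theorem bb_one : ∀ j < 4, bb 3 x 1 j = evL (q12 (vx x)) (bL 1 j) := by
  intro j hj
  rw [bb, del_step x h9 (by omega) hj (VV_one x h9) fun j hj => (ev_aE _ hj).symm]
  interval_cases j
  exacts [eq_of_chk9 c_bL1_0 (nine_Pb h9) _, eq_of_chk9 c_bL1_1 (nine_Pb h9) _,
    eq_of_chk9 c_bL1_2 (nine_Pb h9) _, eq_of_chk9 c_bL1_3 (nine_Pb h9) _]

theorem bb_two : ∀ j < 4, bb 3 x 2 j = evL (q12 (vx x)) (bL 2 j) := by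
  intro j hj
  rw [bb, del_step x h9 (by omega) hj (VV_two x h9) fun j hj => (ev_aE _ hj).symm]
  interval_cases j
  exacts [eq_of_chk9 c_bL2_0 (nine_Pb h9) _, eq_of_chk9 c_bL2_1 (nine_Pb h9) _,
    eq_of_chk9 c_bL2_2 (nine_Pb h9) _, eq_of_chk9 c_bL2_3 (nine_Pb h9) _]

theorem bb_three : ∀ j < 4, bb 3 x 3 j = evL (q12 (vx x)) (bL 3 j) := by
  intro j hj
  rw [bb, del_step x h9 (by omega) hj (VV_three x h9) fun j hj => (ev_aE _ hj).symm]
  interval_cases j
  exacts [eq_of_chk9 c_bL3_0 (nine_Pb h9) _, eq_of_chk9 c_bL3_1 (nine_Pb h9) _,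
    eq_of_chk9 c_bL3_2 (nine_Pb h9) _, eq_of_chk9 c_bL3_3 (nine_Pb h9) _]

theorem tt_eq : ∀ j < 4, tt 3 x j = evL (q12 (vx x)) (uL 0 j) := by
  have h3 : ∀ j < 4, Yn B 3 j = (tlE (uL 3) j).ev (q12 (vx x)) := by
    intro j hj
    interval_cases j <;> simp [Yn, tlE, uL, Ex.ev, evL, mon, q12]
  have h2 : ∀ j < 4, del 3 (VV 3 x 2) (Yn B 2) (Yn B 3) j = (tlE (uL 2) j).ev (q12 (vx x)) := by
    intro j hj
    rw [del_step x h9 (by omega) hj (VV_two x h9) h3]
    interval_cases j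
    exacts [eq_of_chk9 c_uL2_0 (nine_Pb h9) _, eq_of_chk9 c_uL2_1 (nine_Pb h9) _,
      eq_of_chk9 c_uL2_2 (nine_Pb h9) _, eq_of_chk9 c_uL2_3 (nine_Pb h9) _]
  have h1 : ∀ j < 4, del 3 (VV 3 x 1) (Yn B 1) (del 3 (VV 3 x 2) (Yn B 2) (Yn B 3)) j =
      (tlE (uL 1) j).ev (q12 (vx x)) := by
    intro j hj
    rw [del_step x h9 (by omega) hj (VV_one x h9) h2]
    interval_cases j
    exacts [eq_of_chk9 c_uL1_0 (nine_Pb h9) _, eq_of_chk9 c_uL1_1 (nine_Pb h9) _,
      eq_of_chk9 c_uL1_2 (nine_Pb h9) _, eq_of_chk9 c_uL1_3 (nine_Pb h9) _]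
  intro j hj
  rw [tt, del_step x h9 (by omega) hj (VV_zero x) h1]
  interval_cases j
  exacts [eq_of_chk9 c_uL0_0 (nine_Pb h9) _, eq_of_chk9 c_uL0_1 (nine_Pb h9) _,
    eq_of_chk9 c_uL0_2 (nine_Pb h9) _, eq_of_chk9 c_uL0_3 (nine_Pb h9) _]

omit h9

/-- the expression of a term -/
def tmE (δ A : ℕ) : Ex :=
  .tl [(1, [A, fld δ 3, fld δ 0, fld δ 4, fld δ 1, fld δ 5, fld δ 2, fld δ 6])]

/-- multiplication by a monomial in the `v` -/
def mvE (L : ℕ) (e : Ex) : Ex :=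
  .sh 11 (fld L 0) (.sh 8 (fld L 1) (.sh 9 (fld L 2) (.sh 10 (fld L 3) e)))

/-- the expression of a program -/
def toE : Pg → Ex
  | .zero => .tl []
  | .t δ A => tmE δ A
  | .at δ A p => .add (toE p) (tmE δ A)
  | .add p q => .add (toE p) (toE q)
  | .mul c p => .smul c (toE p)
  | .fold _ p => toE p
  | .qs _ p => toE p
  | .mv L p => mvE L (toE p)
  | .mw L p => mvE L (toE p)

theorem ev_tmE (v : ℕ → B) (δ A : ℕ) : (tmE δ A).ev (q12 v) = X 0 ^ A * mono δ := by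
  simp only [tmE, Ex.ev, evL, mon, zero_add, Nat.reduceAdd, q12, mono, Finset.prod_range_succ,
    Finset.prod_range_zero]
  push_cast
  ring

theorem ev_mvE (v : ℕ → B) (L : ℕ) (e : Ex) :
    (mvE L e).ev (q12 v) = C (vmon v L) * e.ev (q12 v) := by
  simp only [mvE, Ex.ev, q12, vmon, map_mul, map_pow]
  ring

theorem den_eq (v : ℕ → B) : ∀ p : Pg, p.den v = (toE p).ev (q12 v)
  | .zero => rfl
  | .t δ A => (ev_tmE v δ A).symm
  | .at δ A p => by rw [Pg.den, toE, Ex.ev, den_eq v p, ev_tmE]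
  | .add p q => by rw [Pg.den, toE, Ex.ev, den_eq v p, den_eq v q]
  | .mul c p => by rw [Pg.den, toE, Ex.ev, den_eq v p]
  | .fold _ p => den_eq v p
  | .qs _ p => den_eq v p
  | .mv L p => by rw [Pg.den, toE, ev_mvE, den_eq v p]
  | .mw L p => by rw [Pg.den, toE, ev_mvE, den_eq v p]

end Vale.Agent.P236B
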