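import Vale.Agent.P236B.FamD

/-!
# P236 / B : the composite of four one parameter arrows modulo `9` (data)

Variables: `0 : y_1`, `1 : a_1`, `2 : y_2`, `3 : a_2`, `4 : y_3`, `5 : a_3`, `6 : y_4`, `7 : a_4`,
`8 : v_2`, `9 : v_3`, `10 : v_4`, `11 : v_1`.
-/

namespace Vale.Agent.P236B

/-- data -/
def vL2_0 : List Tm :=
  [(1, [0, 0, 0, 0, 0, 0, 0, 0, 0, 0, 0, 1]), (3, [1])]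

/-- data -/
def vL2_1 : List Tm :=
  [(5, [1, 0, 0, 0, 0, 0, 0, 0, 0, 0, 0, 3]), (1, [3, 0, 0, 0, 0, 0, 0, 0, 0, 0, 0, 1]),
   (1, [0, 0, 0, 0, 0, 0, 0, 0, 1]), (3, [0, 0, 1])]

/-- data -/
def vL2_2 : List Tm :=
  [(6, [1, 0, 0, 0, 0, 0, 0, 0, 0, 0, 0, 12]), (3, [3, 0, 0, 0, 0, 0, 0, 0, 0, 0, 0, 10]),
   (8, [0, 0, 1, 0, 0, 0, 0, 0, 0, 0, 0, 9]), (1, [4, 0, 0, 0, 0, 0, 0, 0, 0, 0, 0, 9]),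
   (2, [5, 0, 0, 0, 0, 0, 0, 0, 0, 0, 0, 8]), (2, [2, 0, 0, 0, 0, 0, 0, 0, 1, 0, 0, 7]),
   (6, [2, 0, 1, 0, 0, 0, 0, 0, 0, 0, 0, 7]), (6, [6, 0, 0, 0, 0, 0, 0, 0, 0, 0, 0, 7]),
   (6, [3, 0, 0, 0, 0, 0, 0, 0, 1, 0, 0, 6]), (4, [7, 0, 0, 0, 0, 0, 0, 0, 0, 0, 0, 6]),
   (8, [4, 0, 0, 0, 0, 0, 0, 0, 1, 0, 0, 5]), (6, [4, 0, 1, 0, 0, 0, 0, 0, 0, 0, 0, 5]),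
   (3, [8, 0, 0, 0, 0, 0, 0, 0, 0, 0, 0, 5]), (4, [1, 0, 0, 0, 0, 0, 0, 0, 2, 0, 0, 4]),
   (6, [1, 0, 1, 0, 0, 0, 0, 0, 1, 0, 0, 4]), (6, [5, 0, 0, 0, 0, 0, 0, 0, 1, 0, 0, 4]),
   (3, [2, 0, 0, 0, 0, 0, 0, 0, 2, 0, 0, 3]), (8, [6, 0, 0, 0, 0, 0, 0, 0, 1, 0, 0, 3]),
   (6, [6, 0, 1, 0, 0, 0, 0, 0, 0, 0, 0, 3]), (8, [10, 0, 0, 0, 0, 0, 0, 0, 0, 0, 0, 3]),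
   (8, [3, 0, 0, 0, 0, 0, 0, 0, 2, 0, 0, 2]), (3, [3, 0, 1, 0, 0, 0, 0, 0, 1, 0, 0, 2]),
   (6, [7, 0, 0, 0, 0, 0, 0, 0, 1, 0, 0, 2]), (6, [0, 0, 1, 0, 0, 0, 0, 0, 2, 0, 0, 1]),
   (6, [4, 0, 0, 0, 0, 0, 0, 0, 2, 0, 0, 1]), (1, [0, 0, 3, 0, 0, 0, 0, 0, 0, 0, 0, 1]),
   (1, [0, 0, 0, 0, 0, 0, 0, 0, 0, 1]), (8, [1, 0, 0, 0, 0, 0, 0, 0, 3]),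
   (1, [9, 0, 0, 0, 0, 0, 0, 0, 1]), (3, [1, 0, 3])]

/-- data -/
def vL2_3 : List Tm :=
  [(6, [1, 0, 0, 0, 0, 0, 0, 0, 0, 0, 0, 39]), (3, [1, 0, 2, 0, 0, 0, 0, 0, 0, 0, 0, 31]),
   (3, [5, 0, 1, 0, 0, 0, 0, 0, 0, 0, 0, 31]), (6, [9, 0, 0, 0, 0, 0, 0, 0, 0, 0, 0, 31]),
   (6, [6, 0, 1, 0, 0, 0, 0, 0, 0, 0, 0, 30]), (3, [10, 0, 0, 0, 0, 0, 0, 0, 0, 0, 0, 30]),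
   (6, [3, 0, 1, 0, 0, 0, 0, 0, 1, 0, 0, 29]), (3, [7, 0, 0, 0, 0, 0, 0, 0, 1, 0, 0, 29]),
   (6, [3, 0, 2, 0, 0, 0, 0, 0, 0, 0, 0, 29]), (6, [7, 0, 1, 0, 0, 0, 0, 0, 0, 0, 0, 29]),
   (2, [11, 0, 0, 0, 0, 0, 0, 0, 0, 0, 0, 29]), (8, [8, 0, 0, 0, 0, 0, 0, 0, 1, 0, 0, 28]),
   (8, [4, 0, 2, 0, 0, 0, 0, 0, 0, 0, 0, 28]), (4, [8, 0, 1, 0, 0, 0, 0, 0, 0, 0, 0, 28]),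
   (3, [12, 0, 0, 0, 0, 0, 0, 0, 0, 0, 0, 28]), (3, [5, 0, 0, 0, 0, 0, 0, 0, 2, 0, 0, 27]),
   (4, [5, 0, 2, 0, 0, 0, 0, 0, 0, 0, 0, 27]), (8, [9, 0, 1, 0, 0, 0, 0, 0, 0, 0, 0, 27]),
   (4, [13, 0, 0, 0, 0, 0, 0, 0, 0, 0, 0, 27]), (3, [2, 0, 1, 0, 0, 0, 0, 0, 2, 0, 0, 26]),
   (6, [6, 0, 0, 0, 0, 0, 0, 0, 2, 0, 0, 26]), (7, [2, 0, 2, 0, 0, 0, 0, 0, 1, 0, 0, 26]),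
   (4, [6, 0, 1, 0, 0, 0, 0, 0, 1, 0, 0, 26]), (6, [10, 0, 0, 0, 0, 0, 0, 0, 1, 0, 0, 26]),
   (3, [2, 0, 3, 0, 0, 0, 0, 0, 0, 0, 0, 26]), (7, [10, 0, 1, 0, 0, 0, 0, 0, 0, 0, 0, 26]),
   (2, [14, 0, 0, 0, 0, 0, 0, 0, 0, 0, 0, 26]), (4, [7, 0, 0, 0, 0, 0, 0, 0, 2, 0, 0, 25]),
   (6, [3, 0, 2, 0, 0, 0, 0, 0, 1, 0, 0, 25]), (2, [7, 0, 1, 0, 0, 0, 0, 0, 1, 0, 0, 25]),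
   (1, [11, 0, 0, 0, 0, 0, 0, 0, 1, 0, 0, 25]), (2, [7, 0, 2, 0, 0, 0, 0, 0, 0, 0, 0, 25]),
   (8, [11, 0, 1, 0, 0, 0, 0, 0, 0, 0, 0, 25]), (8, [15, 0, 0, 0, 0, 0, 0, 0, 0, 0, 0, 25]),
   (3, [4, 0, 0, 0, 0, 0, 0, 0, 3, 0, 0, 24]), (7, [4, 0, 1, 0, 0, 0, 0, 0, 2, 0, 0, 24]),
   (8, [8, 0, 0, 0, 0, 0, 0, 0, 2, 0, 0, 24]), (7, [4, 0, 2, 0, 0, 0, 0, 0, 1, 0, 0, 24]),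
   (1, [8, 0, 1, 0, 0, 0, 0, 0, 1, 0, 0, 24]), (1, [12, 0, 0, 0, 0, 0, 0, 0, 1, 0, 0, 24]),
   (3, [4, 0, 3, 0, 0, 0, 0, 0, 0, 0, 0, 24]), (6, [8, 0, 2, 0, 0, 0, 0, 0, 0, 0, 0, 24]),
   (4, [12, 0, 1, 0, 0, 0, 0, 0, 0, 0, 0, 24]), (5, [1, 0, 2, 0, 0, 0, 0, 0, 2, 0, 0, 23]),
   (8, [5, 0, 1, 0, 0, 0, 0, 0, 2, 0, 0, 23]), (8, [9, 0, 0, 0, 0, 0, 0, 0, 2, 0, 0, 23]),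
   (3, [1, 0, 3, 0, 0, 0, 0, 0, 1, 0, 0, 23]), (6, [9, 0, 1, 0, 0, 0, 0, 0, 1, 0, 0, 23]),
   (3, [1, 0, 4, 0, 0, 0, 0, 0, 0, 0, 0, 23]), (6, [5, 0, 3, 0, 0, 0, 0, 0, 0, 0, 0, 23]),
   (3, [13, 0, 1, 0, 0, 0, 0, 0, 0, 0, 0, 23]), (4, [17, 0, 0, 0, 0, 0, 0, 0, 0, 0, 0, 23]),
   (3, [1, 0, 1, 0, 0, 0, 0, 0, 0, 1, 0, 22]), (6, [5, 0, 0, 0, 0, 0, 0, 0, 0, 1, 0, 22]),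
   (6, [2, 0, 1, 0, 0, 0, 0, 0, 3, 0, 0, 22]), (3, [2, 0, 2, 0, 0, 0, 0, 0, 2, 0, 0, 22]),
   (1, [6, 0, 2, 0, 0, 0, 0, 0, 1, 0, 0, 22]), (1, [10, 0, 1, 0, 0, 0, 0, 0, 1, 0, 0, 22]),
   (5, [14, 0, 0, 0, 0, 0, 0, 0, 1, 0, 0, 22]), (6, [6, 0, 3, 0, 0, 0, 0, 0, 0, 0, 0, 22]),
   (4, [10, 0, 2, 0, 0, 0, 0, 0, 0, 0, 0, 22]), (2, [14, 0, 1, 0, 0, 0, 0, 0, 0, 0, 0, 22]),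
   (5, [18, 0, 0, 0, 0, 0, 0, 0, 0, 0, 0, 22]), (3, [6, 0, 0, 0, 0, 0, 0, 0, 0, 1, 0, 21]),
   (3, [3, 0, 0, 0, 0, 0, 0, 0, 4, 0, 0, 21]), (7, [3, 0, 1, 0, 0, 0, 0, 0, 3, 0, 0, 21]),
   (6, [7, 0, 0, 0, 0, 0, 0, 0, 3, 0, 0, 21]), (1, [3, 0, 2, 0, 0, 0, 0, 0, 2, 0, 0, 21]),
   (7, [7, 0, 1, 0, 0, 0, 0, 0, 2, 0, 0, 21]), (4, [11, 0, 0, 0, 0, 0, 0, 0, 2, 0, 0, 21]),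
   (3, [7, 0, 2, 0, 0, 0, 0, 0, 1, 0, 0, 21]), (5, [15, 0, 0, 0, 0, 0, 0, 0, 1, 0, 0, 21]),
   (6, [3, 0, 4, 0, 0, 0, 0, 0, 0, 0, 0, 21]), (3, [7, 0, 3, 0, 0, 0, 0, 0, 0, 0, 0, 21]),
   (3, [11, 0, 2, 0, 0, 0, 0, 0, 0, 0, 0, 21]), (5, [15, 0, 1, 0, 0, 0, 0, 0, 0, 0, 0, 21]),
   (3, [3, 0, 0, 0, 0, 0, 0, 0, 1, 1, 0, 20]), (6, [3, 0, 1, 0, 0, 0, 0, 0, 0, 1, 0, 20]),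
   (3, [7, 0, 0, 0, 0, 0, 0, 0, 0, 1, 0, 20]), (6, [4, 0, 0, 0, 0, 0, 0, 0, 4, 0, 0, 20]),
   (3, [4, 0, 1, 0, 0, 0, 0, 0, 3, 0, 0, 20]), (1, [8, 0, 0, 0, 0, 0, 0, 0, 3, 0, 0, 20]),
   (3, [0, 0, 3, 0, 0, 0, 0, 0, 2, 0, 0, 20]), (7, [8, 0, 1, 0, 0, 0, 0, 0, 2, 0, 0, 20]),
   (8, [12, 0, 0, 0, 0, 0, 0, 0, 2, 0, 0, 20]), (6, [8, 0, 2, 0, 0, 0, 0, 0, 1, 0, 0, 20]),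
   (5, [12, 0, 1, 0, 0, 0, 0, 0, 1, 0, 0, 20]), (8, [0, 0, 5, 0, 0, 0, 0, 0, 0, 0, 0, 20]),
   (2, [4, 0, 4, 0, 0, 0, 0, 0, 0, 0, 0, 20]), (2, [8, 0, 3, 0, 0, 0, 0, 0, 0, 0, 0, 20]),
   (6, [12, 0, 2, 0, 0, 0, 0, 0, 0, 0, 0, 20]), (3, [16, 0, 1, 0, 0, 0, 0, 0, 0, 0, 0, 20]),
   (7, [20, 0, 0, 0, 0, 0, 0, 0, 0, 0, 0, 20]), (8, [0, 0, 2, 0, 0, 0, 0, 0, 0, 1, 0, 19]),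
   (2, [4, 0, 1, 0, 0, 0, 0, 0, 0, 1, 0, 19]), (2, [8, 0, 0, 0, 0, 0, 0, 0, 0, 1, 0, 19]),
   (1, [5, 0, 0, 0, 0, 0, 0, 0, 4, 0, 0, 19]), (1, [1, 0, 2, 0, 0, 0, 0, 0, 3, 0, 0, 19]),
   (7, [5, 0, 1, 0, 0, 0, 0, 0, 3, 0, 0, 19]), (3, [9, 0, 0, 0, 0, 0, 0, 0, 3, 0, 0, 19]),
   (6, [5, 0, 2, 0, 0, 0, 0, 0, 2, 0, 0, 19]), (3, [9, 0, 1, 0, 0, 0, 0, 0, 2, 0, 0, 19]),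
   (8, [13, 0, 0, 0, 0, 0, 0, 0, 2, 0, 0, 19]), (8, [9, 0, 2, 0, 0, 0, 0, 0, 1, 0, 0, 19]),
   (3, [1, 0, 5, 0, 0, 0, 0, 0, 0, 0, 0, 19]), (7, [5, 0, 4, 0, 0, 0, 0, 0, 0, 0, 0, 19]),
   (8, [9, 0, 3, 0, 0, 0, 0, 0, 0, 0, 0, 19]), (3, [13, 0, 2, 0, 0, 0, 0, 0, 0, 0, 0, 19]),
   (4, [17, 0, 1, 0, 0, 0, 0, 0, 0, 0, 0, 19]), (2, [21, 0, 0, 0, 0, 0, 0, 0, 0, 0, 0, 19]),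
   (6, [1, 0, 2, 0, 0, 0, 0, 0, 0, 1, 0, 18]), (1, [5, 0, 1, 0, 0, 0, 0, 0, 0, 1, 0, 18]),
   (2, [9, 0, 0, 0, 0, 0, 0, 0, 0, 1, 0, 18]), (7, [2, 0, 1, 0, 0, 0, 0, 0, 4, 0, 0, 18]),
   (7, [6, 0, 0, 0, 0, 0, 0, 0, 4, 0, 0, 18]), (3, [2, 0, 2, 0, 0, 0, 0, 0, 3, 0, 0, 18]),
   (5, [6, 0, 1, 0, 0, 0, 0, 0, 3, 0, 0, 18]), (6, [2, 0, 3, 0, 0, 0, 0, 0, 2, 0, 0, 18]),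
   (6, [10, 0, 1, 0, 0, 0, 0, 0, 2, 0, 0, 18]), (4, [14, 0, 0, 0, 0, 0, 0, 0, 2, 0, 0, 18]),
   (4, [2, 0, 4, 0, 0, 0, 0, 0, 1, 0, 0, 18]), (5, [6, 0, 3, 0, 0, 0, 0, 0, 1, 0, 0, 18]),
   (6, [10, 0, 2, 0, 0, 0, 0, 0, 1, 0, 0, 18]), (7, [18, 0, 0, 0, 0, 0, 0, 0, 1, 0, 0, 18]),
   (3, [2, 0, 5, 0, 0, 0, 0, 0, 0, 0, 0, 18]), (6, [6, 0, 4, 0, 0, 0, 0, 0, 0, 0, 0, 18]),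
   (8, [10, 0, 3, 0, 0, 0, 0, 0, 0, 0, 0, 18]), (6, [14, 0, 2, 0, 0, 0, 0, 0, 0, 0, 0, 18]),
   (3, [18, 0, 1, 0, 0, 0, 0, 0, 0, 0, 0, 18]), (6, [2, 0, 0, 0, 0, 0, 0, 0, 2, 1, 0, 17]),
   (4, [2, 0, 1, 0, 0, 0, 0, 0, 1, 1, 0, 17]), (5, [6, 0, 0, 0, 0, 0, 0, 0, 1, 1, 0, 17]),
   (3, [2, 0, 2, 0, 0, 0, 0, 0, 0, 1, 0, 17]), (3, [6, 0, 1, 0, 0, 0, 0, 0, 0, 1, 0, 17]),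
   (2, [10, 0, 0, 0, 0, 0, 0, 0, 0, 1, 0, 17]), (3, [3, 0, 0, 0, 0, 0, 0, 0, 5, 0, 0, 17]),
   (5, [3, 0, 1, 0, 0, 0, 0, 0, 4, 0, 0, 17]), (6, [3, 0, 2, 0, 0, 0, 0, 0, 3, 0, 0, 17]),
   (3, [7, 0, 1, 0, 0, 0, 0, 0, 3, 0, 0, 17]), (1, [11, 0, 0, 0, 0, 0, 0, 0, 3, 0, 0, 17]),
   (3, [7, 0, 2, 0, 0, 0, 0, 0, 2, 0, 0, 17]), (2, [11, 0, 1, 0, 0, 0, 0, 0, 2, 0, 0, 17]),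
   (2, [15, 0, 0, 0, 0, 0, 0, 0, 2, 0, 0, 17]), (1, [7, 0, 3, 0, 0, 0, 0, 0, 1, 0, 0, 17]),
   (6, [15, 0, 1, 0, 0, 0, 0, 0, 1, 0, 0, 17]), (2, [19, 0, 0, 0, 0, 0, 0, 0, 1, 0, 0, 17]),
   (2, [7, 0, 4, 0, 0, 0, 0, 0, 0, 0, 0, 17]), (1, [11, 0, 3, 0, 0, 0, 0, 0, 0, 0, 0, 17]),
   (5, [23, 0, 0, 0, 0, 0, 0, 0, 0, 0, 0, 17]), (6, [3, 0, 1, 0, 0, 0, 0, 0, 1, 1, 0, 16]),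
   (4, [7, 0, 0, 0, 0, 0, 0, 0, 1, 1, 0, 16]), (2, [7, 0, 1, 0, 0, 0, 0, 0, 0, 1, 0, 16]),
   (4, [11, 0, 0, 0, 0, 0, 0, 0, 0, 1, 0, 16]), (2, [4, 0, 0, 0, 0, 0, 0, 0, 5, 0, 0, 16]),
   (1, [4, 0, 1, 0, 0, 0, 0, 0, 4, 0, 0, 16]), (7, [8, 0, 0, 0, 0, 0, 0, 0, 4, 0, 0, 16]),
   (7, [8, 0, 1, 0, 0, 0, 0, 0, 3, 0, 0, 16]), (5, [12, 0, 0, 0, 0, 0, 0, 0, 3, 0, 0, 16]),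
   (2, [4, 0, 3, 0, 0, 0, 0, 0, 2, 0, 0, 16]), (7, [12, 0, 1, 0, 0, 0, 0, 0, 2, 0, 0, 16]),
   (1, [4, 0, 4, 0, 0, 0, 0, 0, 1, 0, 0, 16]), (5, [8, 0, 3, 0, 0, 0, 0, 0, 1, 0, 0, 16]),
   (6, [12, 0, 2, 0, 0, 0, 0, 0, 1, 0, 0, 16]), (7, [16, 0, 1, 0, 0, 0, 0, 0, 1, 0, 0, 16]),
   (2, [20, 0, 0, 0, 0, 0, 0, 0, 1, 0, 0, 16]), (3, [4, 0, 5, 0, 0, 0, 0, 0, 0, 0, 0, 16]),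
   (6, [8, 0, 4, 0, 0, 0, 0, 0, 0, 0, 0, 16]), (2, [12, 0, 3, 0, 0, 0, 0, 0, 0, 0, 0, 16]),
   (6, [16, 0, 2, 0, 0, 0, 0, 0, 0, 0, 0, 16]), (4, [20, 0, 1, 0, 0, 0, 0, 0, 0, 0, 0, 16]),
   (7, [24, 0, 0, 0, 0, 0, 0, 0, 0, 0, 0, 16]), (2, [4, 0, 0, 0, 0, 0, 0, 0, 2, 1, 0, 15]),
   (1, [4, 0, 1, 0, 0, 0, 0, 0, 1, 1, 0, 15]), (2, [8, 0, 0, 0, 0, 0, 0, 0, 1, 1, 0, 15]),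
   (3, [4, 0, 2, 0, 0, 0, 0, 0, 0, 1, 0, 15]), (8, [12, 0, 0, 0, 0, 0, 0, 0, 0, 1, 0, 15]),
   (7, [5, 0, 0, 0, 0, 0, 0, 0, 5, 0, 0, 15]), (3, [1, 0, 2, 0, 0, 0, 0, 0, 4, 0, 0, 15]),
   (5, [5, 0, 1, 0, 0, 0, 0, 0, 4, 0, 0, 15]), (5, [9, 0, 0, 0, 0, 0, 0, 0, 4, 0, 0, 15]),
   (6, [5, 0, 2, 0, 0, 0, 0, 0, 3, 0, 0, 15]), (5, [9, 0, 1, 0, 0, 0, 0, 0, 3, 0, 0, 15]),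
   (6, [13, 0, 0, 0, 0, 0, 0, 0, 3, 0, 0, 15]), (8, [1, 0, 4, 0, 0, 0, 0, 0, 2, 0, 0, 15]),
   (7, [5, 0, 3, 0, 0, 0, 0, 0, 2, 0, 0, 15]), (3, [13, 0, 1, 0, 0, 0, 0, 0, 2, 0, 0, 15]),
   (3, [17, 0, 0, 0, 0, 0, 0, 0, 2, 0, 0, 15]), (3, [1, 0, 5, 0, 0, 0, 0, 0, 1, 0, 0, 15]),
   (6, [5, 0, 4, 0, 0, 0, 0, 0, 1, 0, 0, 15]), (3, [9, 0, 3, 0, 0, 0, 0, 0, 1, 0, 0, 15]),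
   (6, [13, 0, 2, 0, 0, 0, 0, 0, 1, 0, 0, 15]), (3, [21, 0, 0, 0, 0, 0, 0, 0, 1, 0, 0, 15]),
   (3, [1, 0, 6, 0, 0, 0, 0, 0, 0, 0, 0, 15]), (3, [13, 0, 3, 0, 0, 0, 0, 0, 0, 0, 0, 15]),
   (6, [21, 0, 1, 0, 0, 0, 0, 0, 0, 0, 0, 15]), (8, [25, 0, 0, 0, 0, 0, 0, 0, 0, 0, 0, 15]),
   (8, [1, 0, 1, 0, 0, 0, 0, 0, 2, 1, 0, 14]), (1, [5, 0, 0, 0, 0, 0, 0, 0, 2, 1, 0, 14]),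
   (3, [1, 0, 2, 0, 0, 0, 0, 0, 1, 1, 0, 14]), (3, [5, 0, 1, 0, 0, 0, 0, 0, 1, 1, 0, 14]),
   (6, [9, 0, 0, 0, 0, 0, 0, 0, 1, 1, 0, 14]), (6, [1, 0, 3, 0, 0, 0, 0, 0, 0, 1, 0, 14]),
   (6, [13, 0, 0, 0, 0, 0, 0, 0, 0, 1, 0, 14]), (1, [2, 0, 1, 0, 0, 0, 0, 0, 5, 0, 0, 14]),
   (6, [6, 0, 0, 0, 0, 0, 0, 0, 5, 0, 0, 14]), (6, [2, 0, 2, 0, 0, 0, 0, 0, 4, 0, 0, 14]),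
   (4, [6, 0, 1, 0, 0, 0, 0, 0, 4, 0, 0, 14]), (8, [10, 0, 0, 0, 0, 0, 0, 0, 4, 0, 0, 14]),
   (3, [2, 0, 3, 0, 0, 0, 0, 0, 3, 0, 0, 14]), (8, [10, 0, 1, 0, 0, 0, 0, 0, 3, 0, 0, 14]),
   (6, [14, 0, 0, 0, 0, 0, 0, 0, 3, 0, 0, 14]), (3, [6, 0, 3, 0, 0, 0, 0, 0, 2, 0, 0, 14]),
   (3, [14, 0, 1, 0, 0, 0, 0, 0, 2, 0, 0, 14]), (4, [18, 0, 0, 0, 0, 0, 0, 0, 2, 0, 0, 14]),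
   (7, [6, 0, 4, 0, 0, 0, 0, 0, 1, 0, 0, 14]), (8, [10, 0, 3, 0, 0, 0, 0, 0, 1, 0, 0, 14]),
   (6, [18, 0, 1, 0, 0, 0, 0, 0, 1, 0, 0, 14]), (3, [6, 0, 5, 0, 0, 0, 0, 0, 0, 0, 0, 14]),
   (4, [10, 0, 4, 0, 0, 0, 0, 0, 0, 0, 0, 14]), (4, [14, 0, 3, 0, 0, 0, 0, 0, 0, 0, 0, 14]),
   (3, [26, 0, 0, 0, 0, 0, 0, 0, 0, 0, 0, 14]), (3, [1, 0, 0, 0, 0, 0, 0, 0, 0, 2, 0, 13]),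
   (3, [2, 0, 0, 0, 0, 0, 0, 0, 3, 1, 0, 13]), (3, [2, 0, 1, 0, 0, 0, 0, 0, 2, 1, 0, 13]),
   (7, [6, 0, 1, 0, 0, 0, 0, 0, 1, 1, 0, 13]), (8, [10, 0, 0, 0, 0, 0, 0, 0, 1, 1, 0, 13]),
   (3, [6, 0, 2, 0, 0, 0, 0, 0, 0, 1, 0, 13]), (4, [10, 0, 1, 0, 0, 0, 0, 0, 0, 1, 0, 13]),
   (4, [14, 0, 0, 0, 0, 0, 0, 0, 0, 1, 0, 13]), (3, [3, 0, 0, 0, 0, 0, 0, 0, 6, 0, 0, 13]),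
   (6, [7, 0, 0, 0, 0, 0, 0, 0, 5, 0, 0, 13]), (6, [3, 0, 2, 0, 0, 0, 0, 0, 4, 0, 0, 13]),
   (5, [7, 0, 1, 0, 0, 0, 0, 0, 4, 0, 0, 13]), (3, [11, 0, 0, 0, 0, 0, 0, 0, 4, 0, 0, 13]),
   (2, [3, 0, 3, 0, 0, 0, 0, 0, 3, 0, 0, 13]), (6, [7, 0, 2, 0, 0, 0, 0, 0, 3, 0, 0, 13]),
   (5, [11, 0, 1, 0, 0, 0, 0, 0, 3, 0, 0, 13]), (4, [15, 0, 0, 0, 0, 0, 0, 0, 3, 0, 0, 13]),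
   (7, [3, 0, 4, 0, 0, 0, 0, 0, 2, 0, 0, 13]), (2, [7, 0, 3, 0, 0, 0, 0, 0, 2, 0, 0, 13]),
   (4, [15, 0, 1, 0, 0, 0, 0, 0, 2, 0, 0, 13]), (5, [19, 0, 0, 0, 0, 0, 0, 0, 2, 0, 0, 13]),
   (6, [3, 0, 5, 0, 0, 0, 0, 0, 1, 0, 0, 13]), (3, [7, 0, 4, 0, 0, 0, 0, 0, 1, 0, 0, 13]),
   (3, [11, 0, 3, 0, 0, 0, 0, 0, 1, 0, 0, 13]), (3, [15, 0, 2, 0, 0, 0, 0, 0, 1, 0, 0, 13]),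
   (4, [19, 0, 1, 0, 0, 0, 0, 0, 1, 0, 0, 13]), (5, [23, 0, 0, 0, 0, 0, 0, 0, 1, 0, 0, 13]),
   (6, [3, 0, 6, 0, 0, 0, 0, 0, 0, 0, 0, 13]), (6, [11, 0, 4, 0, 0, 0, 0, 0, 0, 0, 0, 13]),
   (4, [15, 0, 3, 0, 0, 0, 0, 0, 0, 0, 0, 13]), (3, [23, 0, 1, 0, 0, 0, 0, 0, 0, 0, 0, 13]),
   (5, [27, 0, 0, 0, 0, 0, 0, 0, 0, 0, 0, 13]), (2, [3, 0, 0, 0, 0, 0, 0, 0, 3, 1, 0, 12]),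
   (7, [3, 0, 1, 0, 0, 0, 0, 0, 2, 1, 0, 12]), (2, [7, 0, 0, 0, 0, 0, 0, 0, 2, 1, 0, 12]),
   (6, [3, 0, 2, 0, 0, 0, 0, 0, 1, 1, 0, 12]), (6, [11, 0, 0, 0, 0, 0, 0, 0, 1, 1, 0, 12]),
   (3, [3, 0, 3, 0, 0, 0, 0, 0, 0, 1, 0, 12]), (3, [11, 0, 1, 0, 0, 0, 0, 0, 0, 1, 0, 12]),
   (1, [15, 0, 0, 0, 0, 0, 0, 0, 0, 1, 0, 12]), (6, [4, 0, 0, 0, 0, 0, 0, 0, 6, 0, 0, 12]),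
   (2, [4, 0, 1, 0, 0, 0, 0, 0, 5, 0, 0, 12]), (1, [8, 0, 0, 0, 0, 0, 0, 0, 5, 0, 0, 12]),
   (3, [4, 0, 2, 0, 0, 0, 0, 0, 4, 0, 0, 12]), (3, [8, 0, 1, 0, 0, 0, 0, 0, 4, 0, 0, 12]),
   (5, [12, 0, 0, 0, 0, 0, 0, 0, 4, 0, 0, 12]), (3, [4, 0, 3, 0, 0, 0, 0, 0, 3, 0, 0, 12]),
   (1, [12, 0, 1, 0, 0, 0, 0, 0, 3, 0, 0, 12]), (2, [16, 0, 0, 0, 0, 0, 0, 0, 3, 0, 0, 12]),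
   (3, [0, 0, 5, 0, 0, 0, 0, 0, 2, 0, 0, 12]), (6, [4, 0, 4, 0, 0, 0, 0, 0, 2, 0, 0, 12]),
   (2, [8, 0, 3, 0, 0, 0, 0, 0, 2, 0, 0, 12]), (6, [12, 0, 2, 0, 0, 0, 0, 0, 2, 0, 0, 12]),
   (3, [20, 0, 0, 0, 0, 0, 0, 0, 2, 0, 0, 12]), (3, [8, 0, 4, 0, 0, 0, 0, 0, 1, 0, 0, 12]),
   (7, [12, 0, 3, 0, 0, 0, 0, 0, 1, 0, 0, 12]), (3, [20, 0, 1, 0, 0, 0, 0, 0, 1, 0, 0, 12]),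
   (1, [24, 0, 0, 0, 0, 0, 0, 0, 1, 0, 0, 12]), (1, [0, 0, 7, 0, 0, 0, 0, 0, 0, 0, 0, 12]),
   (8, [4, 0, 6, 0, 0, 0, 0, 0, 0, 0, 0, 12]), (3, [12, 0, 4, 0, 0, 0, 0, 0, 0, 0, 0, 12]),
   (6, [28, 0, 0, 0, 0, 0, 0, 0, 0, 0, 0, 12]), (6, [3, 0, 0, 0, 0, 0, 0, 0, 0, 2, 0, 11]),
   (6, [4, 0, 0, 0, 0, 0, 0, 0, 3, 1, 0, 11]), (3, [0, 0, 2, 0, 0, 0, 0, 0, 2, 1, 0, 11]),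
   (3, [4, 0, 1, 0, 0, 0, 0, 0, 2, 1, 0, 11]), (5, [8, 0, 0, 0, 0, 0, 0, 0, 2, 1, 0, 11]),
   (3, [8, 0, 1, 0, 0, 0, 0, 0, 1, 1, 0, 11]), (7, [12, 0, 0, 0, 0, 0, 0, 0, 1, 1, 0, 11]),
   (2, [0, 0, 4, 0, 0, 0, 0, 0, 0, 1, 0, 11]), (7, [4, 0, 3, 0, 0, 0, 0, 0, 0, 1, 0, 11]),
   (3, [12, 0, 1, 0, 0, 0, 0, 0, 0, 1, 0, 11]), (6, [16, 0, 0, 0, 0, 0, 0, 0, 0, 1, 0, 11]),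
   (6, [5, 0, 0, 0, 0, 0, 0, 0, 6, 0, 0, 11]), (6, [1, 0, 2, 0, 0, 0, 0, 0, 5, 0, 0, 11]),
   (6, [5, 0, 1, 0, 0, 0, 0, 0, 5, 0, 0, 11]), (7, [9, 0, 0, 0, 0, 0, 0, 0, 5, 0, 0, 11]),
   (6, [9, 0, 1, 0, 0, 0, 0, 0, 4, 0, 0, 11]), (6, [13, 0, 0, 0, 0, 0, 0, 0, 4, 0, 0, 11]),
   (7, [1, 0, 4, 0, 0, 0, 0, 0, 3, 0, 0, 11]), (5, [5, 0, 3, 0, 0, 0, 0, 0, 3, 0, 0, 11]),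
   (3, [9, 0, 2, 0, 0, 0, 0, 0, 3, 0, 0, 11]), (6, [13, 0, 1, 0, 0, 0, 0, 0, 3, 0, 0, 11]),
   (2, [17, 0, 0, 0, 0, 0, 0, 0, 3, 0, 0, 11]), (3, [5, 0, 4, 0, 0, 0, 0, 0, 2, 0, 0, 11]),
   (6, [9, 0, 3, 0, 0, 0, 0, 0, 2, 0, 0, 11]), (6, [17, 0, 1, 0, 0, 0, 0, 0, 2, 0, 0, 11]),
   (2, [21, 0, 0, 0, 0, 0, 0, 0, 2, 0, 0, 11]), (2, [9, 0, 4, 0, 0, 0, 0, 0, 1, 0, 0, 11]),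
   (6, [13, 0, 3, 0, 0, 0, 0, 0, 1, 0, 0, 11]), (3, [25, 0, 0, 0, 0, 0, 0, 0, 1, 0, 0, 11]),
   (7, [5, 0, 6, 0, 0, 0, 0, 0, 0, 0, 0, 11]), (6, [13, 0, 4, 0, 0, 0, 0, 0, 0, 0, 0, 11]),
   (8, [17, 0, 3, 0, 0, 0, 0, 0, 0, 0, 0, 11]), (1, [0, 0, 1, 0, 0, 0, 0, 0, 0, 2, 0, 10]),
   (8, [4, 0, 0, 0, 0, 0, 0, 0, 0, 2, 0, 10]), (7, [1, 0, 1, 0, 0, 0, 0, 0, 3, 1, 0, 10]),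
   (5, [5, 0, 0, 0, 0, 0, 0, 0, 3, 1, 0, 10]), (3, [5, 0, 1, 0, 0, 0, 0, 0, 2, 1, 0, 10]),
   (2, [9, 0, 1, 0, 0, 0, 0, 0, 1, 1, 0, 10]), (3, [13, 0, 0, 0, 0, 0, 0, 0, 1, 1, 0, 10]),
   (3, [1, 0, 4, 0, 0, 0, 0, 0, 0, 1, 0, 10]), (2, [5, 0, 3, 0, 0, 0, 0, 0, 0, 1, 0, 10]),
   (6, [13, 0, 1, 0, 0, 0, 0, 0, 0, 1, 0, 10]), (8, [17, 0, 0, 0, 0, 0, 0, 0, 0, 1, 0, 10]),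
   (8, [2, 0, 0, 0, 0, 0, 0, 0, 7, 0, 0, 10]), (1, [2, 0, 1, 0, 0, 0, 0, 0, 6, 0, 0, 10]),
   (6, [6, 0, 0, 0, 0, 0, 0, 0, 6, 0, 0, 10]), (6, [6, 0, 1, 0, 0, 0, 0, 0, 5, 0, 0, 10]),
   (1, [10, 0, 0, 0, 0, 0, 0, 0, 5, 0, 0, 10]), (2, [2, 0, 3, 0, 0, 0, 0, 0, 4, 0, 0, 10]),
   (4, [10, 0, 1, 0, 0, 0, 0, 0, 4, 0, 0, 10]), (7, [14, 0, 0, 0, 0, 0, 0, 0, 4, 0, 0, 10]),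
   (6, [2, 0, 4, 0, 0, 0, 0, 0, 3, 0, 0, 10]), (7, [6, 0, 3, 0, 0, 0, 0, 0, 3, 0, 0, 10]),
   (6, [14, 0, 1, 0, 0, 0, 0, 0, 3, 0, 0, 10]), (1, [18, 0, 0, 0, 0, 0, 0, 0, 3, 0, 0, 10]),
   (6, [10, 0, 3, 0, 0, 0, 0, 0, 2, 0, 0, 10]), (1, [18, 0, 1, 0, 0, 0, 0, 0, 2, 0, 0, 10]),
   (8, [22, 0, 0, 0, 0, 0, 0, 0, 2, 0, 0, 10]), (7, [2, 0, 6, 0, 0, 0, 0, 0, 1, 0, 0, 10]),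
   (3, [10, 0, 4, 0, 0, 0, 0, 0, 1, 0, 0, 10]), (6, [14, 0, 3, 0, 0, 0, 0, 0, 1, 0, 0, 10]),
   (3, [22, 0, 1, 0, 0, 0, 0, 0, 1, 0, 0, 10]), (3, [2, 0, 7, 0, 0, 0, 0, 0, 0, 0, 0, 10]),
   (3, [6, 0, 6, 0, 0, 0, 0, 0, 0, 0, 0, 10]), (3, [14, 0, 4, 0, 0, 0, 0, 0, 0, 0, 0, 10]),
   (3, [26, 0, 1, 0, 0, 0, 0, 0, 0, 0, 0, 10]), (3, [1, 0, 1, 0, 0, 0, 0, 0, 0, 2, 0, 9]),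
   (4, [5, 0, 0, 0, 0, 0, 0, 0, 0, 2, 0, 9]), (2, [2, 0, 0, 0, 0, 0, 0, 0, 4, 1, 0, 9]),
   (3, [2, 0, 1, 0, 0, 0, 0, 0, 3, 1, 0, 9]), (1, [6, 0, 0, 0, 0, 0, 0, 0, 3, 1, 0, 9]),
   (6, [10, 0, 0, 0, 0, 0, 0, 0, 2, 1, 0, 9]), (5, [2, 0, 3, 0, 0, 0, 0, 0, 1, 1, 0, 9]),
   (6, [10, 0, 1, 0, 0, 0, 0, 0, 1, 1, 0, 9]), (6, [14, 0, 0, 0, 0, 0, 0, 0, 1, 1, 0, 9]),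
   (6, [2, 0, 4, 0, 0, 0, 0, 0, 0, 1, 0, 9]), (3, [14, 0, 1, 0, 0, 0, 0, 0, 0, 1, 0, 9]),
   (3, [18, 0, 0, 0, 0, 0, 0, 0, 0, 1, 0, 9]), (8, [3, 0, 0, 0, 0, 0, 0, 0, 7, 0, 0, 9]),
   (6, [3, 0, 1, 0, 0, 0, 0, 0, 6, 0, 0, 9]), (4, [7, 0, 0, 0, 0, 0, 0, 0, 6, 0, 0, 9]),
   (5, [11, 0, 0, 0, 0, 0, 0, 0, 5, 0, 0, 9]), (1, [3, 0, 3, 0, 0, 0, 0, 0, 4, 0, 0, 9]),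
   (6, [11, 0, 1, 0, 0, 0, 0, 0, 4, 0, 0, 9]), (8, [15, 0, 0, 0, 0, 0, 0, 0, 4, 0, 0, 9]),
   (3, [3, 0, 4, 0, 0, 0, 0, 0, 3, 0, 0, 9]), (6, [7, 0, 3, 0, 0, 0, 0, 0, 3, 0, 0, 9]),
   (3, [15, 0, 1, 0, 0, 0, 0, 0, 3, 0, 0, 9]), (6, [7, 0, 4, 0, 0, 0, 0, 0, 2, 0, 0, 9]),
   (4, [11, 0, 3, 0, 0, 0, 0, 0, 2, 0, 0, 9]), (3, [19, 0, 1, 0, 0, 0, 0, 0, 2, 0, 0, 9]),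
   (3, [23, 0, 0, 0, 0, 0, 0, 0, 2, 0, 0, 9]), (3, [3, 0, 6, 0, 0, 0, 0, 0, 1, 0, 0, 9]),
   (6, [27, 0, 0, 0, 0, 0, 0, 0, 1, 0, 0, 9]), (5, [7, 0, 6, 0, 0, 0, 0, 0, 0, 0, 0, 9]),
   (8, [27, 0, 1, 0, 0, 0, 0, 0, 0, 0, 0, 9]), (1, [31, 0, 0, 0, 0, 0, 0, 0, 0, 0, 0, 9]),
   (7, [2, 0, 0, 0, 0, 0, 0, 0, 1, 2, 0, 8]), (3, [2, 0, 1, 0, 0, 0, 0, 0, 0, 2, 0, 8]),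
   (6, [6, 0, 0, 0, 0, 0, 0, 0, 0, 2, 0, 8]), (4, [3, 0, 0, 0, 0, 0, 0, 0, 4, 1, 0, 8]),
   (3, [3, 0, 1, 0, 0, 0, 0, 0, 3, 1, 0, 8]), (3, [7, 0, 0, 0, 0, 0, 0, 0, 3, 1, 0, 8]),
   (6, [7, 0, 1, 0, 0, 0, 0, 0, 2, 1, 0, 8]), (4, [11, 0, 0, 0, 0, 0, 0, 0, 2, 1, 0, 8]),
   (1, [7, 0, 3, 0, 0, 0, 0, 0, 0, 1, 0, 8]), (3, [4, 0, 0, 0, 0, 0, 0, 0, 7, 0, 0, 8]),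
   (3, [4, 0, 1, 0, 0, 0, 0, 0, 6, 0, 0, 8]), (3, [8, 0, 0, 0, 0, 0, 0, 0, 6, 0, 0, 8]),
   (3, [8, 0, 1, 0, 0, 0, 0, 0, 5, 0, 0, 8]), (1, [12, 0, 0, 0, 0, 0, 0, 0, 5, 0, 0, 8]),
   (8, [4, 0, 3, 0, 0, 0, 0, 0, 4, 0, 0, 8]), (6, [12, 0, 1, 0, 0, 0, 0, 0, 4, 0, 0, 8]),
   (1, [16, 0, 0, 0, 0, 0, 0, 0, 4, 0, 0, 8]), (8, [8, 0, 3, 0, 0, 0, 0, 0, 3, 0, 0, 8]),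
   (6, [16, 0, 1, 0, 0, 0, 0, 0, 3, 0, 0, 8]), (6, [20, 0, 0, 0, 0, 0, 0, 0, 3, 0, 0, 8]),
   (8, [12, 0, 3, 0, 0, 0, 0, 0, 2, 0, 0, 8]), (3, [24, 0, 0, 0, 0, 0, 0, 0, 2, 0, 0, 8]),
   (1, [4, 0, 6, 0, 0, 0, 0, 0, 1, 0, 0, 8]), (3, [12, 0, 4, 0, 0, 0, 0, 0, 1, 0, 0, 8]),
   (8, [16, 0, 3, 0, 0, 0, 0, 0, 1, 0, 0, 8]), (3, [4, 0, 7, 0, 0, 0, 0, 0, 0, 0, 0, 8]),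
   (6, [8, 0, 6, 0, 0, 0, 0, 0, 0, 0, 0, 8]), (3, [16, 0, 4, 0, 0, 0, 0, 0, 0, 0, 0, 8]),
   (8, [20, 0, 3, 0, 0, 0, 0, 0, 0, 0, 0, 8]), (6, [3, 0, 0, 0, 0, 0, 0, 0, 1, 2, 0, 7]),
   (5, [7, 0, 0, 0, 0, 0, 0, 0, 0, 2, 0, 7]), (5, [4, 0, 0, 0, 0, 0, 0, 0, 4, 1, 0, 7]),
   (8, [8, 0, 0, 0, 0, 0, 0, 0, 3, 1, 0, 7]), (5, [12, 0, 0, 0, 0, 0, 0, 0, 2, 1, 0, 7]),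
   (2, [4, 0, 3, 0, 0, 0, 0, 0, 1, 1, 0, 7]), (3, [12, 0, 1, 0, 0, 0, 0, 0, 1, 1, 0, 7]),
   (8, [16, 0, 0, 0, 0, 0, 0, 0, 1, 1, 0, 7]), (6, [4, 0, 4, 0, 0, 0, 0, 0, 0, 1, 0, 7]),
   (3, [16, 0, 1, 0, 0, 0, 0, 0, 0, 1, 0, 7]), (8, [20, 0, 0, 0, 0, 0, 0, 0, 0, 1, 0, 7]),
   (4, [1, 0, 0, 0, 0, 0, 0, 0, 8, 0, 0, 7]), (6, [1, 0, 1, 0, 0, 0, 0, 0, 7, 0, 0, 7]),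
   (1, [5, 0, 0, 0, 0, 0, 0, 0, 7, 0, 0, 7]), (5, [9, 0, 0, 0, 0, 0, 0, 0, 6, 0, 0, 7]),
   (6, [9, 0, 1, 0, 0, 0, 0, 0, 5, 0, 0, 7]), (6, [13, 0, 0, 0, 0, 0, 0, 0, 5, 0, 0, 7]),
   (6, [1, 0, 4, 0, 0, 0, 0, 0, 4, 0, 0, 7]), (4, [5, 0, 3, 0, 0, 0, 0, 0, 4, 0, 0, 7]),
   (3, [13, 0, 1, 0, 0, 0, 0, 0, 4, 0, 0, 7]), (1, [17, 0, 0, 0, 0, 0, 0, 0, 4, 0, 0, 7]),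
   (3, [5, 0, 4, 0, 0, 0, 0, 0, 3, 0, 0, 7]), (7, [9, 0, 3, 0, 0, 0, 0, 0, 3, 0, 0, 7]),
   (6, [17, 0, 1, 0, 0, 0, 0, 0, 3, 0, 0, 7]), (5, [21, 0, 0, 0, 0, 0, 0, 0, 3, 0, 0, 7]),
   (5, [1, 0, 6, 0, 0, 0, 0, 0, 2, 0, 0, 7]), (6, [13, 0, 3, 0, 0, 0, 0, 0, 2, 0, 0, 7]),
   (3, [21, 0, 1, 0, 0, 0, 0, 0, 2, 0, 0, 7]), (3, [25, 0, 0, 0, 0, 0, 0, 0, 2, 0, 0, 7]),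
   (3, [1, 0, 7, 0, 0, 0, 0, 0, 1, 0, 0, 7]), (3, [5, 0, 6, 0, 0, 0, 0, 0, 1, 0, 0, 7]),
   (3, [13, 0, 4, 0, 0, 0, 0, 0, 1, 0, 0, 7]), (3, [25, 0, 1, 0, 0, 0, 0, 0, 1, 0, 0, 7]),
   (8, [29, 0, 0, 0, 0, 0, 0, 0, 1, 0, 0, 7]), (3, [21, 0, 3, 0, 0, 0, 0, 0, 0, 0, 0, 7]),
   (1, [4, 0, 0, 0, 0, 0, 0, 0, 1, 2, 0, 6]), (3, [4, 0, 1, 0, 0, 0, 0, 0, 0, 2, 0, 6]),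
   (3, [8, 0, 0, 0, 0, 0, 0, 0, 0, 2, 0, 6]), (6, [1, 0, 1, 0, 0, 0, 0, 0, 4, 1, 0, 6]),
   (7, [5, 0, 0, 0, 0, 0, 0, 0, 4, 1, 0, 6]), (3, [5, 0, 1, 0, 0, 0, 0, 0, 3, 1, 0, 6]),
   (1, [9, 0, 0, 0, 0, 0, 0, 0, 3, 1, 0, 6]), (1, [1, 0, 3, 0, 0, 0, 0, 0, 2, 1, 0, 6]),
   (6, [1, 0, 4, 0, 0, 0, 0, 0, 1, 1, 0, 6]), (3, [13, 0, 1, 0, 0, 0, 0, 0, 1, 1, 0, 6]),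
   (3, [17, 0, 0, 0, 0, 0, 0, 0, 1, 1, 0, 6]), (6, [21, 0, 0, 0, 0, 0, 0, 0, 0, 1, 0, 6]),
   (6, [2, 0, 0, 0, 0, 0, 0, 0, 8, 0, 0, 6]), (3, [2, 0, 1, 0, 0, 0, 0, 0, 7, 0, 0, 6]),
   (6, [6, 0, 0, 0, 0, 0, 0, 0, 7, 0, 0, 6]), (3, [6, 0, 1, 0, 0, 0, 0, 0, 6, 0, 0, 6]),
   (8, [2, 0, 3, 0, 0, 0, 0, 0, 5, 0, 0, 6]), (6, [10, 0, 1, 0, 0, 0, 0, 0, 5, 0, 0, 6]),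
   (3, [2, 0, 4, 0, 0, 0, 0, 0, 4, 0, 0, 6]), (8, [6, 0, 3, 0, 0, 0, 0, 0, 4, 0, 0, 6]),
   (6, [14, 0, 1, 0, 0, 0, 0, 0, 4, 0, 0, 6]), (6, [18, 0, 0, 0, 0, 0, 0, 0, 4, 0, 0, 6]),
   (4, [10, 0, 3, 0, 0, 0, 0, 0, 3, 0, 0, 6]), (6, [18, 0, 1, 0, 0, 0, 0, 0, 3, 0, 0, 6]),
   (2, [22, 0, 0, 0, 0, 0, 0, 0, 3, 0, 0, 6]), (6, [2, 0, 6, 0, 0, 0, 0, 0, 2, 0, 0, 6]),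
   (1, [6, 0, 6, 0, 0, 0, 0, 0, 1, 0, 0, 6]), (6, [30, 0, 0, 0, 0, 0, 0, 0, 1, 0, 0, 6]),
   (3, [6, 0, 7, 0, 0, 0, 0, 0, 0, 0, 0, 6]), (1, [10, 0, 6, 0, 0, 0, 0, 0, 0, 0, 0, 6]),
   (5, [1, 0, 0, 0, 0, 0, 0, 0, 2, 2, 0, 5]), (3, [1, 0, 1, 0, 0, 0, 0, 0, 1, 2, 0, 5]),
   (6, [5, 0, 0, 0, 0, 0, 0, 0, 1, 2, 0, 5]), (8, [2, 0, 0, 0, 0, 0, 0, 0, 5, 1, 0, 5]),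
   (3, [2, 0, 1, 0, 0, 0, 0, 0, 4, 1, 0, 5]), (5, [6, 0, 0, 0, 0, 0, 0, 0, 4, 1, 0, 5]),
   (1, [10, 0, 0, 0, 0, 0, 0, 0, 3, 1, 0, 5]), (2, [6, 0, 3, 0, 0, 0, 0, 0, 1, 1, 0, 5]),
   (6, [6, 0, 4, 0, 0, 0, 0, 0, 0, 1, 0, 5]), (2, [10, 0, 3, 0, 0, 0, 0, 0, 0, 1, 0, 5]),
   (4, [3, 0, 0, 0, 0, 0, 0, 0, 8, 0, 0, 5]), (6, [3, 0, 1, 0, 0, 0, 0, 0, 7, 0, 0, 5]),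
   (7, [7, 0, 0, 0, 0, 0, 0, 0, 7, 0, 0, 5]), (8, [11, 0, 0, 0, 0, 0, 0, 0, 6, 0, 0, 5]),
   (5, [15, 0, 0, 0, 0, 0, 0, 0, 5, 0, 0, 5]), (3, [3, 0, 4, 0, 0, 0, 0, 0, 4, 0, 0, 5]),
   (4, [7, 0, 3, 0, 0, 0, 0, 0, 4, 0, 0, 5]), (5, [19, 0, 0, 0, 0, 0, 0, 0, 4, 0, 0, 5]),
   (3, [7, 0, 4, 0, 0, 0, 0, 0, 3, 0, 0, 5]), (7, [11, 0, 3, 0, 0, 0, 0, 0, 3, 0, 0, 5]),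
   (6, [19, 0, 1, 0, 0, 0, 0, 0, 3, 0, 0, 5]), (3, [23, 0, 0, 0, 0, 0, 0, 0, 3, 0, 0, 5]),
   (1, [3, 0, 6, 0, 0, 0, 0, 0, 2, 0, 0, 5]), (2, [15, 0, 3, 0, 0, 0, 0, 0, 2, 0, 0, 5]),
   (6, [3, 0, 7, 0, 0, 0, 0, 0, 1, 0, 0, 5]), (3, [7, 0, 6, 0, 0, 0, 0, 0, 1, 0, 0, 5]),
   (6, [15, 0, 4, 0, 0, 0, 0, 0, 1, 0, 0, 5]), (2, [19, 0, 3, 0, 0, 0, 0, 0, 1, 0, 0, 5]),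
   (3, [2, 0, 0, 0, 0, 0, 0, 0, 2, 2, 0, 4]), (1, [6, 0, 0, 0, 0, 0, 0, 0, 1, 2, 0, 4]),
   (3, [6, 0, 1, 0, 0, 0, 0, 0, 0, 2, 0, 4]), (1, [10, 0, 0, 0, 0, 0, 0, 0, 0, 2, 0, 4]),
   (3, [3, 0, 0, 0, 0, 0, 0, 0, 5, 1, 0, 4]), (3, [3, 0, 1, 0, 0, 0, 0, 0, 4, 1, 0, 4]),
   (7, [7, 0, 0, 0, 0, 0, 0, 0, 4, 1, 0, 4]), (3, [7, 0, 1, 0, 0, 0, 0, 0, 3, 1, 0, 4]),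
   (4, [11, 0, 0, 0, 0, 0, 0, 0, 3, 1, 0, 4]), (2, [3, 0, 3, 0, 0, 0, 0, 0, 2, 1, 0, 4]),
   (2, [15, 0, 0, 0, 0, 0, 0, 0, 2, 1, 0, 4]), (3, [3, 0, 4, 0, 0, 0, 0, 0, 1, 1, 0, 4]),
   (6, [15, 0, 1, 0, 0, 0, 0, 0, 1, 1, 0, 4]), (2, [19, 0, 0, 0, 0, 0, 0, 0, 1, 1, 0, 4]),
   (3, [11, 0, 3, 0, 0, 0, 0, 0, 0, 1, 0, 4]), (6, [0, 0, 1, 0, 0, 0, 0, 0, 8, 0, 0, 4]),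
   (3, [4, 0, 0, 0, 0, 0, 0, 0, 8, 0, 0, 4]), (6, [4, 0, 1, 0, 0, 0, 0, 0, 7, 0, 0, 4]),
   (1, [8, 0, 0, 0, 0, 0, 0, 0, 7, 0, 0, 4]), (3, [8, 0, 1, 0, 0, 0, 0, 0, 6, 0, 0, 4]),
   (6, [12, 0, 0, 0, 0, 0, 0, 0, 6, 0, 0, 4]), (7, [4, 0, 3, 0, 0, 0, 0, 0, 5, 0, 0, 4]),
   (3, [12, 0, 1, 0, 0, 0, 0, 0, 5, 0, 0, 4]), (7, [16, 0, 0, 0, 0, 0, 0, 0, 5, 0, 0, 4]),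
   (6, [4, 0, 4, 0, 0, 0, 0, 0, 4, 0, 0, 4]), (3, [16, 0, 1, 0, 0, 0, 0, 0, 4, 0, 0, 4]),
   (1, [20, 0, 0, 0, 0, 0, 0, 0, 4, 0, 0, 4]), (8, [12, 0, 3, 0, 0, 0, 0, 0, 3, 0, 0, 4]),
   (1, [24, 0, 0, 0, 0, 0, 0, 0, 3, 0, 0, 4]), (3, [0, 0, 7, 0, 0, 0, 0, 0, 2, 0, 0, 4]),
   (3, [4, 0, 6, 0, 0, 0, 0, 0, 2, 0, 0, 4]), (3, [12, 0, 4, 0, 0, 0, 0, 0, 2, 0, 0, 4]),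
   (3, [24, 0, 1, 0, 0, 0, 0, 0, 2, 0, 0, 4]), (1, [28, 0, 0, 0, 0, 0, 0, 0, 2, 0, 0, 4]),
   (3, [20, 0, 3, 0, 0, 0, 0, 0, 1, 0, 0, 4]), (1, [3, 0, 0, 0, 0, 0, 0, 0, 2, 2, 0, 3]),
   (6, [3, 0, 1, 0, 0, 0, 0, 0, 1, 2, 0, 3]), (6, [7, 0, 0, 0, 0, 0, 0, 0, 1, 2, 0, 3]),
   (3, [11, 0, 0, 0, 0, 0, 0, 0, 0, 2, 0, 3]), (7, [4, 0, 0, 0, 0, 0, 0, 0, 5, 1, 0, 3]),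
   (6, [4, 0, 1, 0, 0, 0, 0, 0, 4, 1, 0, 3]), (6, [8, 0, 0, 0, 0, 0, 0, 0, 4, 1, 0, 3]),
   (5, [12, 0, 0, 0, 0, 0, 0, 0, 3, 1, 0, 3]), (6, [0, 0, 4, 0, 0, 0, 0, 0, 2, 1, 0, 3]),
   (3, [12, 0, 1, 0, 0, 0, 0, 0, 2, 1, 0, 3]), (3, [16, 0, 0, 0, 0, 0, 0, 0, 2, 1, 0, 3]),
   (6, [20, 0, 0, 0, 0, 0, 0, 0, 1, 1, 0, 3]), (8, [0, 0, 6, 0, 0, 0, 0, 0, 0, 1, 0, 3]),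
   (3, [1, 0, 0, 0, 0, 0, 0, 0, 9, 0, 0, 3]), (1, [5, 0, 0, 0, 0, 0, 0, 0, 8, 0, 0, 3]),
   (6, [5, 0, 1, 0, 0, 0, 0, 0, 7, 0, 0, 3]), (2, [9, 0, 0, 0, 0, 0, 0, 0, 7, 0, 0, 3]),
   (6, [9, 0, 1, 0, 0, 0, 0, 0, 6, 0, 0, 3]), (1, [13, 0, 0, 0, 0, 0, 0, 0, 6, 0, 0, 3]),
   (3, [1, 0, 4, 0, 0, 0, 0, 0, 5, 0, 0, 3]), (6, [13, 0, 1, 0, 0, 0, 0, 0, 5, 0, 0, 3]),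
   (6, [17, 0, 0, 0, 0, 0, 0, 0, 5, 0, 0, 3]), (4, [21, 0, 0, 0, 0, 0, 0, 0, 4, 0, 0, 3]),
   (1, [1, 0, 6, 0, 0, 0, 0, 0, 3, 0, 0, 3]), (6, [9, 0, 4, 0, 0, 0, 0, 0, 3, 0, 0, 3]),
   (6, [21, 0, 1, 0, 0, 0, 0, 0, 3, 0, 0, 3]), (6, [25, 0, 0, 0, 0, 0, 0, 0, 3, 0, 0, 3]),
   (3, [29, 0, 0, 0, 0, 0, 0, 0, 2, 0, 0, 3]), (8, [9, 0, 6, 0, 0, 0, 0, 0, 1, 0, 0, 3]),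
   (5, [1, 0, 9, 0, 0, 0, 0, 0, 0, 0, 0, 3]), (3, [0, 0, 1, 0, 0, 0, 0, 0, 2, 2, 0, 2]),
   (6, [4, 0, 0, 0, 0, 0, 0, 0, 2, 2, 0, 2]), (8, [0, 0, 3, 0, 0, 0, 0, 0, 0, 2, 0, 2]),
   (3, [1, 0, 1, 0, 0, 0, 0, 0, 5, 1, 0, 2]), (6, [5, 0, 0, 0, 0, 0, 0, 0, 5, 1, 0, 2]),
   (2, [1, 0, 3, 0, 0, 0, 0, 0, 3, 1, 0, 2]), (6, [9, 0, 1, 0, 0, 0, 0, 0, 3, 1, 0, 2]),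
   (3, [13, 0, 0, 0, 0, 0, 0, 0, 3, 1, 0, 2]), (7, [9, 0, 3, 0, 0, 0, 0, 0, 1, 1, 0, 2]),
   (3, [2, 0, 1, 0, 0, 0, 0, 0, 8, 0, 0, 2]), (8, [2, 0, 3, 0, 0, 0, 0, 0, 6, 0, 0, 2]),
   (3, [10, 0, 1, 0, 0, 0, 0, 0, 6, 0, 0, 2]), (6, [14, 0, 0, 0, 0, 0, 0, 0, 6, 0, 0, 2]),
   (2, [10, 0, 3, 0, 0, 0, 0, 0, 4, 0, 0, 2]), (3, [18, 0, 1, 0, 0, 0, 0, 0, 4, 0, 0, 2]),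
   (6, [22, 0, 0, 0, 0, 0, 0, 0, 4, 0, 0, 2]), (8, [18, 0, 3, 0, 0, 0, 0, 0, 2, 0, 0, 2]),
   (1, [1, 0, 0, 0, 0, 0, 0, 0, 3, 2, 0, 1]), (8, [9, 0, 0, 0, 0, 0, 0, 0, 1, 2, 0, 1]),
   (3, [1, 0, 3, 0, 0, 0, 0, 0, 0, 2, 0, 1]), (8, [2, 0, 0, 0, 0, 0, 0, 0, 6, 1, 0, 1]),
   (2, [10, 0, 0, 0, 0, 0, 0, 0, 4, 1, 0, 1]), (3, [2, 0, 3, 0, 0, 0, 0, 0, 3, 1, 0, 1]),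
   (8, [18, 0, 0, 0, 0, 0, 0, 0, 2, 1, 0, 1]), (6, [10, 0, 3, 0, 0, 0, 0, 0, 1, 1, 0, 1]),
   (6, [3, 0, 0, 0, 0, 0, 0, 0, 9, 0, 0, 1]), (8, [11, 0, 0, 0, 0, 0, 0, 0, 7, 0, 0, 1]),
   (3, [3, 0, 3, 0, 0, 0, 0, 0, 6, 0, 0, 1]), (1, [19, 0, 0, 0, 0, 0, 0, 0, 5, 0, 0, 1]),
   (3, [11, 0, 3, 0, 0, 0, 0, 0, 4, 0, 0, 1]), (3, [19, 0, 3, 0, 0, 0, 0, 0, 2, 0, 0, 1]),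
   (1, [3, 0, 9, 0, 0, 0, 0, 0, 0, 0, 0, 1]), (1, [0, 0, 0, 0, 0, 0, 0, 0, 0, 0, 1]),
   (8, [1, 0, 0, 0, 0, 0, 0, 0, 0, 3]), (3, [2, 0, 0, 0, 0, 0, 0, 0, 3, 2]),
   (6, [10, 0, 0, 0, 0, 0, 0, 0, 1, 2]), (6, [3, 0, 0, 0, 0, 0, 0, 0, 6, 1]),
   (6, [11, 0, 0, 0, 0, 0, 0, 0, 4, 1]), (6, [19, 0, 0, 0, 0, 0, 0, 0, 2, 1]),
   (1, [27, 0, 0, 0, 0, 0, 0, 0, 0, 1]), (8, [0, 0, 1, 0, 0, 0, 0, 0, 9]),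
   (1, [4, 0, 0, 0, 0, 0, 0, 0, 9]), (6, [12, 0, 0, 0, 0, 0, 0, 0, 7]),
   (3, [20, 0, 0, 0, 0, 0, 0, 0, 5]), (8, [28, 0, 0, 0, 0, 0, 0, 0, 3]),
   (1, [0, 0, 9, 0, 0, 0, 0, 0, 1])]

/-- data -/
def vL3_0 : List Tm :=
  [(1, [0, 0, 0, 0, 0, 0, 0, 0, 0, 0, 0, 1]), (3, [1])]

/-- data -/
def vL3_1 : List Tm :=
  [(5, [1, 0, 0, 0, 0, 0, 0, 0, 0, 0, 0, 3]), (1, [3, 0, 0, 0, 0, 0, 0, 0, 0, 0, 0, 1]),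
   (1, [0, 0, 0, 0, 0, 0, 0, 0, 1]), (3, [0, 0, 1])]

/-- data -/
def vL3_2 : List Tm :=
  [(6, [1, 0, 0, 0, 0, 0, 0, 0, 0, 0, 0, 12]), (3, [3, 0, 0, 0, 0, 0, 0, 0, 0, 0, 0, 10]),
   (8, [0, 0, 1, 0, 0, 0, 0, 0, 0, 0, 0, 9]), (1, [4, 0, 0, 0, 0, 0, 0, 0, 0, 0, 0, 9]),
   (2, [5, 0, 0, 0, 0, 0, 0, 0, 0, 0, 0, 8]), (2, [2, 0, 0, 0, 0, 0, 0, 0, 1, 0, 0, 7]),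
   (6, [2, 0, 1, 0, 0, 0, 0, 0, 0, 0, 0, 7]), (6, [6, 0, 0, 0, 0, 0, 0, 0, 0, 0, 0, 7]),
   (6, [3, 0, 0, 0, 0, 0, 0, 0, 1, 0, 0, 6]), (4, [7, 0, 0, 0, 0, 0, 0, 0, 0, 0, 0, 6]),
   (8, [4, 0, 0, 0, 0, 0, 0, 0, 1, 0, 0, 5]), (6, [4, 0, 1, 0, 0, 0, 0, 0, 0, 0, 0, 5]),
   (3, [8, 0, 0, 0, 0, 0, 0, 0, 0, 0, 0, 5]), (4, [1, 0, 0, 0, 0, 0, 0, 0, 2, 0, 0, 4]),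
   (6, [1, 0, 1, 0, 0, 0, 0, 0, 1, 0, 0, 4]), (6, [5, 0, 0, 0, 0, 0, 0, 0, 1, 0, 0, 4]),
   (3, [2, 0, 0, 0, 0, 0, 0, 0, 2, 0, 0, 3]), (8, [6, 0, 0, 0, 0, 0, 0, 0, 1, 0, 0, 3]),
   (6, [6, 0, 1, 0, 0, 0, 0, 0, 0, 0, 0, 3]), (8, [10, 0, 0, 0, 0, 0, 0, 0, 0, 0, 0, 3]),
   (8, [3, 0, 0, 0, 0, 0, 0, 0, 2, 0, 0, 2]), (3, [3, 0, 1, 0, 0, 0, 0, 0, 1, 0, 0, 2]),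
   (6, [7, 0, 0, 0, 0, 0, 0, 0, 1, 0, 0, 2]), (6, [0, 0, 1, 0, 0, 0, 0, 0, 2, 0, 0, 1]),
   (6, [4, 0, 0, 0, 0, 0, 0, 0, 2, 0, 0, 1]), (1, [0, 0, 3, 0, 0, 0, 0, 0, 0, 0, 0, 1]),
   (1, [0, 0, 0, 0, 0, 0, 0, 0, 0, 1]), (8, [1, 0, 0, 0, 0, 0, 0, 0, 3]),
   (1, [9, 0, 0, 0, 0, 0, 0, 0, 1]), (3, [0, 0, 0, 0, 1]), (3, [1, 0, 3])]

/-- data -/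
def vL3_3 : List Tm :=
  [(6, [1, 0, 0, 0, 0, 0, 0, 0, 0, 0, 0, 39]), (3, [1, 0, 2, 0, 0, 0, 0, 0, 0, 0, 0, 31]),
   (3, [5, 0, 1, 0, 0, 0, 0, 0, 0, 0, 0, 31]), (6, [9, 0, 0, 0, 0, 0, 0, 0, 0, 0, 0, 31]),
   (6, [6, 0, 1, 0, 0, 0, 0, 0, 0, 0, 0, 30]), (3, [10, 0, 0, 0, 0, 0, 0, 0, 0, 0, 0, 30]),
   (6, [3, 0, 1, 0, 0, 0, 0, 0, 1, 0, 0, 29]), (3, [7, 0, 0, 0, 0, 0, 0, 0, 1, 0, 0, 29]),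
   (6, [3, 0, 2, 0, 0, 0, 0, 0, 0, 0, 0, 29]), (6, [7, 0, 1, 0, 0, 0, 0, 0, 0, 0, 0, 29]),
   (2, [11, 0, 0, 0, 0, 0, 0, 0, 0, 0, 0, 29]), (8, [8, 0, 0, 0, 0, 0, 0, 0, 1, 0, 0, 28]),
   (8, [4, 0, 2, 0, 0, 0, 0, 0, 0, 0, 0, 28]), (4, [8, 0, 1, 0, 0, 0, 0, 0, 0, 0, 0, 28]),
   (3, [12, 0, 0, 0, 0, 0, 0, 0, 0, 0, 0, 28]), (3, [5, 0, 0, 0, 0, 0, 0, 0, 2, 0, 0, 27]),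
   (8, [0, 0, 0, 0, 1, 0, 0, 0, 0, 0, 0, 27]), (4, [5, 0, 2, 0, 0, 0, 0, 0, 0, 0, 0, 27]),
   (8, [9, 0, 1, 0, 0, 0, 0, 0, 0, 0, 0, 27]), (4, [13, 0, 0, 0, 0, 0, 0, 0, 0, 0, 0, 27]),
   (3, [2, 0, 1, 0, 0, 0, 0, 0, 2, 0, 0, 26]), (6, [6, 0, 0, 0, 0, 0, 0, 0, 2, 0, 0, 26]),
   (7, [2, 0, 2, 0, 0, 0, 0, 0, 1, 0, 0, 26]), (4, [6, 0, 1, 0, 0, 0, 0, 0, 1, 0, 0, 26]),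
   (6, [10, 0, 0, 0, 0, 0, 0, 0, 1, 0, 0, 26]), (3, [2, 0, 3, 0, 0, 0, 0, 0, 0, 0, 0, 26]),
   (7, [10, 0, 1, 0, 0, 0, 0, 0, 0, 0, 0, 26]), (2, [14, 0, 0, 0, 0, 0, 0, 0, 0, 0, 0, 26]),
   (4, [7, 0, 0, 0, 0, 0, 0, 0, 2, 0, 0, 25]), (6, [3, 0, 2, 0, 0, 0, 0, 0, 1, 0, 0, 25]),
   (2, [7, 0, 1, 0, 0, 0, 0, 0, 1, 0, 0, 25]), (1, [11, 0, 0, 0, 0, 0, 0, 0, 1, 0, 0, 25]),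
   (2, [7, 0, 2, 0, 0, 0, 0, 0, 0, 0, 0, 25]), (8, [11, 0, 1, 0, 0, 0, 0, 0, 0, 0, 0, 25]),
   (8, [15, 0, 0, 0, 0, 0, 0, 0, 0, 0, 0, 25]), (3, [4, 0, 0, 0, 0, 0, 0, 0, 3, 0, 0, 24]),
   (7, [4, 0, 1, 0, 0, 0, 0, 0, 2, 0, 0, 24]), (8, [8, 0, 0, 0, 0, 0, 0, 0, 2, 0, 0, 24]),
   (7, [4, 0, 2, 0, 0, 0, 0, 0, 1, 0, 0, 24]), (1, [8, 0, 1, 0, 0, 0, 0, 0, 1, 0, 0, 24]),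
   (1, [12, 0, 0, 0, 0, 0, 0, 0, 1, 0, 0, 24]), (3, [4, 0, 3, 0, 0, 0, 0, 0, 0, 0, 0, 24]),
   (6, [8, 0, 2, 0, 0, 0, 0, 0, 0, 0, 0, 24]), (4, [12, 0, 1, 0, 0, 0, 0, 0, 0, 0, 0, 24]),
   (5, [1, 0, 2, 0, 0, 0, 0, 0, 2, 0, 0, 23]), (8, [5, 0, 1, 0, 0, 0, 0, 0, 2, 0, 0, 23]),
   (8, [9, 0, 0, 0, 0, 0, 0, 0, 2, 0, 0, 23]), (3, [1, 0, 3, 0, 0, 0, 0, 0, 1, 0, 0, 23]),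
   (6, [9, 0, 1, 0, 0, 0, 0, 0, 1, 0, 0, 23]), (3, [1, 0, 4, 0, 0, 0, 0, 0, 0, 0, 0, 23]),
   (6, [5, 0, 3, 0, 0, 0, 0, 0, 0, 0, 0, 23]), (3, [13, 0, 1, 0, 0, 0, 0, 0, 0, 0, 0, 23]),
   (4, [17, 0, 0, 0, 0, 0, 0, 0, 0, 0, 0, 23]), (3, [1, 0, 1, 0, 0, 0, 0, 0, 0, 1, 0, 22]),
   (6, [5, 0, 0, 0, 0, 0, 0, 0, 0, 1, 0, 22]), (6, [2, 0, 1, 0, 0, 0, 0, 0, 3, 0, 0, 22]),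
   (3, [2, 0, 2, 0, 0, 0, 0, 0, 2, 0, 0, 22]), (1, [6, 0, 2, 0, 0, 0, 0, 0, 1, 0, 0, 22]),
   (1, [10, 0, 1, 0, 0, 0, 0, 0, 1, 0, 0, 22]), (5, [14, 0, 0, 0, 0, 0, 0, 0, 1, 0, 0, 22]),
   (6, [6, 0, 3, 0, 0, 0, 0, 0, 0, 0, 0, 22]), (4, [10, 0, 2, 0, 0, 0, 0, 0, 0, 0, 0, 22]),
   (2, [14, 0, 1, 0, 0, 0, 0, 0, 0, 0, 0, 22]), (5, [18, 0, 0, 0, 0, 0, 0, 0, 0, 0, 0, 22]),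
   (3, [6, 0, 0, 0, 0, 0, 0, 0, 0, 1, 0, 21]), (3, [3, 0, 0, 0, 0, 0, 0, 0, 4, 0, 0, 21]),
   (7, [3, 0, 1, 0, 0, 0, 0, 0, 3, 0, 0, 21]), (6, [7, 0, 0, 0, 0, 0, 0, 0, 3, 0, 0, 21]),
   (1, [3, 0, 2, 0, 0, 0, 0, 0, 2, 0, 0, 21]), (7, [7, 0, 1, 0, 0, 0, 0, 0, 2, 0, 0, 21]),
   (4, [11, 0, 0, 0, 0, 0, 0, 0, 2, 0, 0, 21]), (3, [7, 0, 2, 0, 0, 0, 0, 0, 1, 0, 0, 21]),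
   (5, [15, 0, 0, 0, 0, 0, 0, 0, 1, 0, 0, 21]), (6, [3, 0, 4, 0, 0, 0, 0, 0, 0, 0, 0, 21]),
   (3, [7, 0, 3, 0, 0, 0, 0, 0, 0, 0, 0, 21]), (3, [11, 0, 2, 0, 0, 0, 0, 0, 0, 0, 0, 21]),
   (5, [15, 0, 1, 0, 0, 0, 0, 0, 0, 0, 0, 21]), (3, [3, 0, 0, 0, 0, 0, 0, 0, 1, 1, 0, 20]),
   (6, [3, 0, 1, 0, 0, 0, 0, 0, 0, 1, 0, 20]), (3, [7, 0, 0, 0, 0, 0, 0, 0, 0, 1, 0, 20]),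
   (6, [4, 0, 0, 0, 0, 0, 0, 0, 4, 0, 0, 20]), (3, [4, 0, 1, 0, 0, 0, 0, 0, 3, 0, 0, 20]),
   (1, [8, 0, 0, 0, 0, 0, 0, 0, 3, 0, 0, 20]), (3, [0, 0, 3, 0, 0, 0, 0, 0, 2, 0, 0, 20]),
   (7, [8, 0, 1, 0, 0, 0, 0, 0, 2, 0, 0, 20]), (8, [12, 0, 0, 0, 0, 0, 0, 0, 2, 0, 0, 20]),
   (6, [8, 0, 2, 0, 0, 0, 0, 0, 1, 0, 0, 20]), (5, [12, 0, 1, 0, 0, 0, 0, 0, 1, 0, 0, 20]),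
   (8, [0, 0, 5, 0, 0, 0, 0, 0, 0, 0, 0, 20]), (2, [4, 0, 4, 0, 0, 0, 0, 0, 0, 0, 0, 20]),
   (2, [8, 0, 3, 0, 0, 0, 0, 0, 0, 0, 0, 20]), (6, [12, 0, 2, 0, 0, 0, 0, 0, 0, 0, 0, 20]),
   (3, [16, 0, 1, 0, 0, 0, 0, 0, 0, 0, 0, 20]), (7, [20, 0, 0, 0, 0, 0, 0, 0, 0, 0, 0, 20]),
   (8, [0, 0, 2, 0, 0, 0, 0, 0, 0, 1, 0, 19]), (2, [4, 0, 1, 0, 0, 0, 0, 0, 0, 1, 0, 19]),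
   (2, [8, 0, 0, 0, 0, 0, 0, 0, 0, 1, 0, 19]), (1, [5, 0, 0, 0, 0, 0, 0, 0, 4, 0, 0, 19]),
   (1, [1, 0, 2, 0, 0, 0, 0, 0, 3, 0, 0, 19]), (7, [5, 0, 1, 0, 0, 0, 0, 0, 3, 0, 0, 19]),
   (3, [9, 0, 0, 0, 0, 0, 0, 0, 3, 0, 0, 19]), (6, [5, 0, 2, 0, 0, 0, 0, 0, 2, 0, 0, 19]),
   (3, [9, 0, 1, 0, 0, 0, 0, 0, 2, 0, 0, 19]), (8, [13, 0, 0, 0, 0, 0, 0, 0, 2, 0, 0, 19]),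
   (8, [9, 0, 2, 0, 0, 0, 0, 0, 1, 0, 0, 19]), (6, [0, 0, 2, 0, 1, 0, 0, 0, 0, 0, 0, 19]),
   (6, [4, 0, 1, 0, 1, 0, 0, 0, 0, 0, 0, 19]), (6, [8, 0, 0, 0, 1, 0, 0, 0, 0, 0, 0, 19]),
   (3, [1, 0, 5, 0, 0, 0, 0, 0, 0, 0, 0, 19]), (7, [5, 0, 4, 0, 0, 0, 0, 0, 0, 0, 0, 19]),
   (8, [9, 0, 3, 0, 0, 0, 0, 0, 0, 0, 0, 19]), (3, [13, 0, 2, 0, 0, 0, 0, 0, 0, 0, 0, 19]),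
   (4, [17, 0, 1, 0, 0, 0, 0, 0, 0, 0, 0, 19]), (2, [21, 0, 0, 0, 0, 0, 0, 0, 0, 0, 0, 19]),
   (6, [1, 0, 2, 0, 0, 0, 0, 0, 0, 1, 0, 18]), (1, [5, 0, 1, 0, 0, 0, 0, 0, 0, 1, 0, 18]),
   (2, [9, 0, 0, 0, 0, 0, 0, 0, 0, 1, 0, 18]), (7, [2, 0, 1, 0, 0, 0, 0, 0, 4, 0, 0, 18]),
   (7, [6, 0, 0, 0, 0, 0, 0, 0, 4, 0, 0, 18]), (3, [2, 0, 2, 0, 0, 0, 0, 0, 3, 0, 0, 18]),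
   (5, [6, 0, 1, 0, 0, 0, 0, 0, 3, 0, 0, 18]), (6, [2, 0, 3, 0, 0, 0, 0, 0, 2, 0, 0, 18]),
   (6, [10, 0, 1, 0, 0, 0, 0, 0, 2, 0, 0, 18]), (4, [14, 0, 0, 0, 0, 0, 0, 0, 2, 0, 0, 18]),
   (4, [2, 0, 4, 0, 0, 0, 0, 0, 1, 0, 0, 18]), (5, [6, 0, 3, 0, 0, 0, 0, 0, 1, 0, 0, 18]),
   (6, [10, 0, 2, 0, 0, 0, 0, 0, 1, 0, 0, 18]), (7, [18, 0, 0, 0, 0, 0, 0, 0, 1, 0, 0, 18]),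
   (3, [5, 0, 1, 0, 1, 0, 0, 0, 0, 0, 0, 18]), (6, [9, 0, 0, 0, 1, 0, 0, 0, 0, 0, 0, 18]),
   (3, [2, 0, 5, 0, 0, 0, 0, 0, 0, 0, 0, 18]), (6, [6, 0, 4, 0, 0, 0, 0, 0, 0, 0, 0, 18]),
   (8, [10, 0, 3, 0, 0, 0, 0, 0, 0, 0, 0, 18]), (6, [14, 0, 2, 0, 0, 0, 0, 0, 0, 0, 0, 18]),
   (3, [18, 0, 1, 0, 0, 0, 0, 0, 0, 0, 0, 18]), (6, [2, 0, 0, 0, 0, 0, 0, 0, 2, 1, 0, 17]),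
   (4, [2, 0, 1, 0, 0, 0, 0, 0, 1, 1, 0, 17]), (5, [6, 0, 0, 0, 0, 0, 0, 0, 1, 1, 0, 17]),
   (3, [2, 0, 2, 0, 0, 0, 0, 0, 0, 1, 0, 17]), (3, [6, 0, 1, 0, 0, 0, 0, 0, 0, 1, 0, 17]),
   (2, [10, 0, 0, 0, 0, 0, 0, 0, 0, 1, 0, 17]), (3, [3, 0, 0, 0, 0, 0, 0, 0, 5, 0, 0, 17]),
   (5, [3, 0, 1, 0, 0, 0, 0, 0, 4, 0, 0, 17]), (6, [3, 0, 2, 0, 0, 0, 0, 0, 3, 0, 0, 17]),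
   (3, [7, 0, 1, 0, 0, 0, 0, 0, 3, 0, 0, 17]), (1, [11, 0, 0, 0, 0, 0, 0, 0, 3, 0, 0, 17]),
   (3, [7, 0, 2, 0, 0, 0, 0, 0, 2, 0, 0, 17]), (2, [11, 0, 1, 0, 0, 0, 0, 0, 2, 0, 0, 17]),
   (2, [15, 0, 0, 0, 0, 0, 0, 0, 2, 0, 0, 17]), (3, [2, 0, 1, 0, 1, 0, 0, 0, 1, 0, 0, 17]),
   (6, [6, 0, 0, 0, 1, 0, 0, 0, 1, 0, 0, 17]), (1, [7, 0, 3, 0, 0, 0, 0, 0, 1, 0, 0, 17]),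
   (6, [15, 0, 1, 0, 0, 0, 0, 0, 1, 0, 0, 17]), (2, [19, 0, 0, 0, 0, 0, 0, 0, 1, 0, 0, 17]),
   (6, [10, 0, 0, 0, 1, 0, 0, 0, 0, 0, 0, 17]), (2, [7, 0, 4, 0, 0, 0, 0, 0, 0, 0, 0, 17]),
   (1, [11, 0, 3, 0, 0, 0, 0, 0, 0, 0, 0, 17]), (5, [23, 0, 0, 0, 0, 0, 0, 0, 0, 0, 0, 17]),
   (6, [3, 0, 1, 0, 0, 0, 0, 0, 1, 1, 0, 16]), (4, [7, 0, 0, 0, 0, 0, 0, 0, 1, 1, 0, 16]),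
   (2, [7, 0, 1, 0, 0, 0, 0, 0, 0, 1, 0, 16]), (4, [11, 0, 0, 0, 0, 0, 0, 0, 0, 1, 0, 16]),
   (2, [4, 0, 0, 0, 0, 0, 0, 0, 5, 0, 0, 16]), (1, [4, 0, 1, 0, 0, 0, 0, 0, 4, 0, 0, 16]),
   (7, [8, 0, 0, 0, 0, 0, 0, 0, 4, 0, 0, 16]), (7, [8, 0, 1, 0, 0, 0, 0, 0, 3, 0, 0, 16]),
   (5, [12, 0, 0, 0, 0, 0, 0, 0, 3, 0, 0, 16]), (2, [4, 0, 3, 0, 0, 0, 0, 0, 2, 0, 0, 16]),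
   (7, [12, 0, 1, 0, 0, 0, 0, 0, 2, 0, 0, 16]), (3, [7, 0, 0, 0, 1, 0, 0, 0, 1, 0, 0, 16]),
   (1, [4, 0, 4, 0, 0, 0, 0, 0, 1, 0, 0, 16]), (5, [8, 0, 3, 0, 0, 0, 0, 0, 1, 0, 0, 16]),
   (6, [12, 0, 2, 0, 0, 0, 0, 0, 1, 0, 0, 16]), (7, [16, 0, 1, 0, 0, 0, 0, 0, 1, 0, 0, 16]),
   (2, [20, 0, 0, 0, 0, 0, 0, 0, 1, 0, 0, 16]), (6, [7, 0, 1, 0, 1, 0, 0, 0, 0, 0, 0, 16]),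
   (3, [11, 0, 0, 0, 1, 0, 0, 0, 0, 0, 0, 16]), (3, [4, 0, 5, 0, 0, 0, 0, 0, 0, 0, 0, 16]),
   (6, [8, 0, 4, 0, 0, 0, 0, 0, 0, 0, 0, 16]), (2, [12, 0, 3, 0, 0, 0, 0, 0, 0, 0, 0, 16]),
   (6, [16, 0, 2, 0, 0, 0, 0, 0, 0, 0, 0, 16]), (4, [20, 0, 1, 0, 0, 0, 0, 0, 0, 0, 0, 16]),
   (7, [24, 0, 0, 0, 0, 0, 0, 0, 0, 0, 0, 16]), (2, [4, 0, 0, 0, 0, 0, 0, 0, 2, 1, 0, 15]),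
   (1, [4, 0, 1, 0, 0, 0, 0, 0, 1, 1, 0, 15]), (2, [8, 0, 0, 0, 0, 0, 0, 0, 1, 1, 0, 15]),
   (3, [4, 0, 2, 0, 0, 0, 0, 0, 0, 1, 0, 15]), (8, [12, 0, 0, 0, 0, 0, 0, 0, 0, 1, 0, 15]),
   (7, [5, 0, 0, 0, 0, 0, 0, 0, 5, 0, 0, 15]), (3, [1, 0, 2, 0, 0, 0, 0, 0, 4, 0, 0, 15]),
   (5, [5, 0, 1, 0, 0, 0, 0, 0, 4, 0, 0, 15]), (5, [9, 0, 0, 0, 0, 0, 0, 0, 4, 0, 0, 15]),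
   (6, [5, 0, 2, 0, 0, 0, 0, 0, 3, 0, 0, 15]), (5, [9, 0, 1, 0, 0, 0, 0, 0, 3, 0, 0, 15]),
   (6, [13, 0, 0, 0, 0, 0, 0, 0, 3, 0, 0, 15]), (6, [4, 0, 0, 0, 1, 0, 0, 0, 2, 0, 0, 15]),
   (8, [1, 0, 4, 0, 0, 0, 0, 0, 2, 0, 0, 15]), (7, [5, 0, 3, 0, 0, 0, 0, 0, 2, 0, 0, 15]),
   (3, [13, 0, 1, 0, 0, 0, 0, 0, 2, 0, 0, 15]), (3, [17, 0, 0, 0, 0, 0, 0, 0, 2, 0, 0, 15]),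
   (3, [4, 0, 1, 0, 1, 0, 0, 0, 1, 0, 0, 15]), (6, [8, 0, 0, 0, 1, 0, 0, 0, 1, 0, 0, 15]),
   (3, [1, 0, 5, 0, 0, 0, 0, 0, 1, 0, 0, 15]), (6, [5, 0, 4, 0, 0, 0, 0, 0, 1, 0, 0, 15]),
   (3, [9, 0, 3, 0, 0, 0, 0, 0, 1, 0, 0, 15]), (6, [13, 0, 2, 0, 0, 0, 0, 0, 1, 0, 0, 15]),
   (3, [21, 0, 0, 0, 0, 0, 0, 0, 1, 0, 0, 15]), (6, [12, 0, 0, 0, 1, 0, 0, 0, 0, 0, 0, 15]),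
   (3, [1, 0, 6, 0, 0, 0, 0, 0, 0, 0, 0, 15]), (3, [13, 0, 3, 0, 0, 0, 0, 0, 0, 0, 0, 15]),
   (6, [21, 0, 1, 0, 0, 0, 0, 0, 0, 0, 0, 15]), (8, [25, 0, 0, 0, 0, 0, 0, 0, 0, 0, 0, 15]),
   (8, [1, 0, 1, 0, 0, 0, 0, 0, 2, 1, 0, 14]), (1, [5, 0, 0, 0, 0, 0, 0, 0, 2, 1, 0, 14]),
   (3, [1, 0, 2, 0, 0, 0, 0, 0, 1, 1, 0, 14]), (3, [5, 0, 1, 0, 0, 0, 0, 0, 1, 1, 0, 14]),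
   (6, [9, 0, 0, 0, 0, 0, 0, 0, 1, 1, 0, 14]), (6, [1, 0, 3, 0, 0, 0, 0, 0, 0, 1, 0, 14]),
   (6, [13, 0, 0, 0, 0, 0, 0, 0, 0, 1, 0, 14]), (1, [2, 0, 1, 0, 0, 0, 0, 0, 5, 0, 0, 14]),
   (6, [6, 0, 0, 0, 0, 0, 0, 0, 5, 0, 0, 14]), (6, [2, 0, 2, 0, 0, 0, 0, 0, 4, 0, 0, 14]),
   (4, [6, 0, 1, 0, 0, 0, 0, 0, 4, 0, 0, 14]), (8, [10, 0, 0, 0, 0, 0, 0, 0, 4, 0, 0, 14]),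
   (3, [2, 0, 3, 0, 0, 0, 0, 0, 3, 0, 0, 14]), (8, [10, 0, 1, 0, 0, 0, 0, 0, 3, 0, 0, 14]),
   (6, [14, 0, 0, 0, 0, 0, 0, 0, 3, 0, 0, 14]), (6, [1, 0, 1, 0, 1, 0, 0, 0, 2, 0, 0, 14]),
   (3, [5, 0, 0, 0, 1, 0, 0, 0, 2, 0, 0, 14]), (3, [6, 0, 3, 0, 0, 0, 0, 0, 2, 0, 0, 14]),
   (3, [14, 0, 1, 0, 0, 0, 0, 0, 2, 0, 0, 14]), (4, [18, 0, 0, 0, 0, 0, 0, 0, 2, 0, 0, 14]),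
   (7, [6, 0, 4, 0, 0, 0, 0, 0, 1, 0, 0, 14]), (8, [10, 0, 3, 0, 0, 0, 0, 0, 1, 0, 0, 14]),
   (6, [18, 0, 1, 0, 0, 0, 0, 0, 1, 0, 0, 14]), (3, [6, 0, 5, 0, 0, 0, 0, 0, 0, 0, 0, 14]),
   (4, [10, 0, 4, 0, 0, 0, 0, 0, 0, 0, 0, 14]), (4, [14, 0, 3, 0, 0, 0, 0, 0, 0, 0, 0, 14]),
   (3, [26, 0, 0, 0, 0, 0, 0, 0, 0, 0, 0, 14]), (3, [1, 0, 0, 0, 0, 0, 0, 0, 0, 2, 0, 13]),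
   (3, [2, 0, 0, 0, 0, 0, 0, 0, 3, 1, 0, 13]), (3, [2, 0, 1, 0, 0, 0, 0, 0, 2, 1, 0, 13]),
   (7, [6, 0, 1, 0, 0, 0, 0, 0, 1, 1, 0, 13]), (8, [10, 0, 0, 0, 0, 0, 0, 0, 1, 1, 0, 13]),
   (3, [6, 0, 2, 0, 0, 0, 0, 0, 0, 1, 0, 13]), (4, [10, 0, 1, 0, 0, 0, 0, 0, 0, 1, 0, 13]),
   (4, [14, 0, 0, 0, 0, 0, 0, 0, 0, 1, 0, 13]), (3, [3, 0, 0, 0, 0, 0, 0, 0, 6, 0, 0, 13]),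
   (6, [7, 0, 0, 0, 0, 0, 0, 0, 5, 0, 0, 13]), (6, [3, 0, 2, 0, 0, 0, 0, 0, 4, 0, 0, 13]),
   (5, [7, 0, 1, 0, 0, 0, 0, 0, 4, 0, 0, 13]), (3, [11, 0, 0, 0, 0, 0, 0, 0, 4, 0, 0, 13]),
   (2, [3, 0, 3, 0, 0, 0, 0, 0, 3, 0, 0, 13]), (6, [7, 0, 2, 0, 0, 0, 0, 0, 3, 0, 0, 13]),
   (5, [11, 0, 1, 0, 0, 0, 0, 0, 3, 0, 0, 13]), (4, [15, 0, 0, 0, 0, 0, 0, 0, 3, 0, 0, 13]),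
   (7, [3, 0, 4, 0, 0, 0, 0, 0, 2, 0, 0, 13]), (2, [7, 0, 3, 0, 0, 0, 0, 0, 2, 0, 0, 13]),
   (4, [15, 0, 1, 0, 0, 0, 0, 0, 2, 0, 0, 13]), (5, [19, 0, 0, 0, 0, 0, 0, 0, 2, 0, 0, 13]),
   (3, [6, 0, 1, 0, 1, 0, 0, 0, 1, 0, 0, 13]), (6, [10, 0, 0, 0, 1, 0, 0, 0, 1, 0, 0, 13]),
   (6, [3, 0, 5, 0, 0, 0, 0, 0, 1, 0, 0, 13]), (3, [7, 0, 4, 0, 0, 0, 0, 0, 1, 0, 0, 13]),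
   (3, [11, 0, 3, 0, 0, 0, 0, 0, 1, 0, 0, 13]), (3, [15, 0, 2, 0, 0, 0, 0, 0, 1, 0, 0, 13]),
   (4, [19, 0, 1, 0, 0, 0, 0, 0, 1, 0, 0, 13]), (5, [23, 0, 0, 0, 0, 0, 0, 0, 1, 0, 0, 13]),
   (3, [10, 0, 1, 0, 1, 0, 0, 0, 0, 0, 0, 13]), (3, [14, 0, 0, 0, 1, 0, 0, 0, 0, 0, 0, 13]),
   (6, [3, 0, 6, 0, 0, 0, 0, 0, 0, 0, 0, 13]), (6, [11, 0, 4, 0, 0, 0, 0, 0, 0, 0, 0, 13]),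
   (4, [15, 0, 3, 0, 0, 0, 0, 0, 0, 0, 0, 13]), (3, [23, 0, 1, 0, 0, 0, 0, 0, 0, 0, 0, 13]),
   (5, [27, 0, 0, 0, 0, 0, 0, 0, 0, 0, 0, 13]), (2, [3, 0, 0, 0, 0, 0, 0, 0, 3, 1, 0, 12]),
   (7, [3, 0, 1, 0, 0, 0, 0, 0, 2, 1, 0, 12]), (2, [7, 0, 0, 0, 0, 0, 0, 0, 2, 1, 0, 12]),
   (6, [3, 0, 2, 0, 0, 0, 0, 0, 1, 1, 0, 12]), (6, [11, 0, 0, 0, 0, 0, 0, 0, 1, 1, 0, 12]),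
   (3, [3, 0, 3, 0, 0, 0, 0, 0, 0, 1, 0, 12]), (3, [11, 0, 1, 0, 0, 0, 0, 0, 0, 1, 0, 12]),
   (1, [15, 0, 0, 0, 0, 0, 0, 0, 0, 1, 0, 12]), (6, [4, 0, 0, 0, 0, 0, 0, 0, 6, 0, 0, 12]),
   (2, [4, 0, 1, 0, 0, 0, 0, 0, 5, 0, 0, 12]), (1, [8, 0, 0, 0, 0, 0, 0, 0, 5, 0, 0, 12]),
   (3, [4, 0, 2, 0, 0, 0, 0, 0, 4, 0, 0, 12]), (3, [8, 0, 1, 0, 0, 0, 0, 0, 4, 0, 0, 12]),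
   (5, [12, 0, 0, 0, 0, 0, 0, 0, 4, 0, 0, 12]), (6, [3, 0, 0, 0, 1, 0, 0, 0, 3, 0, 0, 12]),
   (3, [4, 0, 3, 0, 0, 0, 0, 0, 3, 0, 0, 12]), (1, [12, 0, 1, 0, 0, 0, 0, 0, 3, 0, 0, 12]),
   (2, [16, 0, 0, 0, 0, 0, 0, 0, 3, 0, 0, 12]), (3, [3, 0, 1, 0, 1, 0, 0, 0, 2, 0, 0, 12]),
   (6, [7, 0, 0, 0, 1, 0, 0, 0, 2, 0, 0, 12]), (3, [0, 0, 5, 0, 0, 0, 0, 0, 2, 0, 0, 12]),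
   (6, [4, 0, 4, 0, 0, 0, 0, 0, 2, 0, 0, 12]), (2, [8, 0, 3, 0, 0, 0, 0, 0, 2, 0, 0, 12]),
   (6, [12, 0, 2, 0, 0, 0, 0, 0, 2, 0, 0, 12]), (3, [20, 0, 0, 0, 0, 0, 0, 0, 2, 0, 0, 12]),
   (3, [8, 0, 4, 0, 0, 0, 0, 0, 1, 0, 0, 12]), (7, [12, 0, 3, 0, 0, 0, 0, 0, 1, 0, 0, 12]),
   (3, [20, 0, 1, 0, 0, 0, 0, 0, 1, 0, 0, 12]), (1, [24, 0, 0, 0, 0, 0, 0, 0, 1, 0, 0, 12]),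
   (3, [15, 0, 0, 0, 1, 0, 0, 0, 0, 0, 0, 12]), (1, [0, 0, 7, 0, 0, 0, 0, 0, 0, 0, 0, 12]),
   (8, [4, 0, 6, 0, 0, 0, 0, 0, 0, 0, 0, 12]), (3, [12, 0, 4, 0, 0, 0, 0, 0, 0, 0, 0, 12]),
   (6, [28, 0, 0, 0, 0, 0, 0, 0, 0, 0, 0, 12]), (6, [3, 0, 0, 0, 0, 0, 0, 0, 0, 2, 0, 11]),
   (6, [4, 0, 0, 0, 0, 0, 0, 0, 3, 1, 0, 11]), (3, [0, 0, 2, 0, 0, 0, 0, 0, 2, 1, 0, 11]),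
   (3, [4, 0, 1, 0, 0, 0, 0, 0, 2, 1, 0, 11]), (5, [8, 0, 0, 0, 0, 0, 0, 0, 2, 1, 0, 11]),
   (3, [8, 0, 1, 0, 0, 0, 0, 0, 1, 1, 0, 11]), (7, [12, 0, 0, 0, 0, 0, 0, 0, 1, 1, 0, 11]),
   (2, [0, 0, 4, 0, 0, 0, 0, 0, 0, 1, 0, 11]), (7, [4, 0, 3, 0, 0, 0, 0, 0, 0, 1, 0, 11]),
   (3, [12, 0, 1, 0, 0, 0, 0, 0, 0, 1, 0, 11]), (6, [16, 0, 0, 0, 0, 0, 0, 0, 0, 1, 0, 11]),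
   (6, [5, 0, 0, 0, 0, 0, 0, 0, 6, 0, 0, 11]), (6, [1, 0, 2, 0, 0, 0, 0, 0, 5, 0, 0, 11]),
   (6, [5, 0, 1, 0, 0, 0, 0, 0, 5, 0, 0, 11]), (7, [9, 0, 0, 0, 0, 0, 0, 0, 5, 0, 0, 11]),
   (6, [9, 0, 1, 0, 0, 0, 0, 0, 4, 0, 0, 11]), (6, [13, 0, 0, 0, 0, 0, 0, 0, 4, 0, 0, 11]),
   (7, [1, 0, 4, 0, 0, 0, 0, 0, 3, 0, 0, 11]), (5, [5, 0, 3, 0, 0, 0, 0, 0, 3, 0, 0, 11]),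
   (3, [9, 0, 2, 0, 0, 0, 0, 0, 3, 0, 0, 11]), (6, [13, 0, 1, 0, 0, 0, 0, 0, 3, 0, 0, 11]),
   (2, [17, 0, 0, 0, 0, 0, 0, 0, 3, 0, 0, 11]), (6, [8, 0, 0, 0, 1, 0, 0, 0, 2, 0, 0, 11]),
   (3, [5, 0, 4, 0, 0, 0, 0, 0, 2, 0, 0, 11]), (6, [9, 0, 3, 0, 0, 0, 0, 0, 2, 0, 0, 11]),
   (6, [17, 0, 1, 0, 0, 0, 0, 0, 2, 0, 0, 11]), (2, [21, 0, 0, 0, 0, 0, 0, 0, 2, 0, 0, 11]),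
   (3, [12, 0, 0, 0, 1, 0, 0, 0, 1, 0, 0, 11]), (2, [9, 0, 4, 0, 0, 0, 0, 0, 1, 0, 0, 11]),
   (6, [13, 0, 3, 0, 0, 0, 0, 0, 1, 0, 0, 11]), (3, [25, 0, 0, 0, 0, 0, 0, 0, 1, 0, 0, 11]),
   (6, [0, 0, 4, 0, 1, 0, 0, 0, 0, 0, 0, 11]), (3, [4, 0, 3, 0, 1, 0, 0, 0, 0, 0, 0, 11]),
   (7, [5, 0, 6, 0, 0, 0, 0, 0, 0, 0, 0, 11]), (6, [13, 0, 4, 0, 0, 0, 0, 0, 0, 0, 0, 11]),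
   (8, [17, 0, 3, 0, 0, 0, 0, 0, 0, 0, 0, 11]), (1, [0, 0, 1, 0, 0, 0, 0, 0, 0, 2, 0, 10]),
   (8, [4, 0, 0, 0, 0, 0, 0, 0, 0, 2, 0, 10]), (7, [1, 0, 1, 0, 0, 0, 0, 0, 3, 1, 0, 10]),
   (5, [5, 0, 0, 0, 0, 0, 0, 0, 3, 1, 0, 10]), (3, [5, 0, 1, 0, 0, 0, 0, 0, 2, 1, 0, 10]),
   (2, [9, 0, 1, 0, 0, 0, 0, 0, 1, 1, 0, 10]), (3, [13, 0, 0, 0, 0, 0, 0, 0, 1, 1, 0, 10]),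
   (6, [0, 0, 1, 0, 1, 0, 0, 0, 0, 1, 0, 10]), (3, [4, 0, 0, 0, 1, 0, 0, 0, 0, 1, 0, 10]),
   (3, [1, 0, 4, 0, 0, 0, 0, 0, 0, 1, 0, 10]), (2, [5, 0, 3, 0, 0, 0, 0, 0, 0, 1, 0, 10]),
   (6, [13, 0, 1, 0, 0, 0, 0, 0, 0, 1, 0, 10]), (8, [17, 0, 0, 0, 0, 0, 0, 0, 0, 1, 0, 10]),
   (8, [2, 0, 0, 0, 0, 0, 0, 0, 7, 0, 0, 10]), (1, [2, 0, 1, 0, 0, 0, 0, 0, 6, 0, 0, 10]),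
   (6, [6, 0, 0, 0, 0, 0, 0, 0, 6, 0, 0, 10]), (6, [6, 0, 1, 0, 0, 0, 0, 0, 5, 0, 0, 10]),
   (1, [10, 0, 0, 0, 0, 0, 0, 0, 5, 0, 0, 10]), (2, [2, 0, 3, 0, 0, 0, 0, 0, 4, 0, 0, 10]),
   (4, [10, 0, 1, 0, 0, 0, 0, 0, 4, 0, 0, 10]), (7, [14, 0, 0, 0, 0, 0, 0, 0, 4, 0, 0, 10]),
   (3, [1, 0, 1, 0, 1, 0, 0, 0, 3, 0, 0, 10]), (6, [5, 0, 0, 0, 1, 0, 0, 0, 3, 0, 0, 10]),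
   (6, [2, 0, 4, 0, 0, 0, 0, 0, 3, 0, 0, 10]), (7, [6, 0, 3, 0, 0, 0, 0, 0, 3, 0, 0, 10]),
   (6, [14, 0, 1, 0, 0, 0, 0, 0, 3, 0, 0, 10]), (1, [18, 0, 0, 0, 0, 0, 0, 0, 3, 0, 0, 10]),
   (6, [10, 0, 3, 0, 0, 0, 0, 0, 2, 0, 0, 10]), (1, [18, 0, 1, 0, 0, 0, 0, 0, 2, 0, 0, 10]),
   (8, [22, 0, 0, 0, 0, 0, 0, 0, 2, 0, 0, 10]), (6, [9, 0, 1, 0, 1, 0, 0, 0, 1, 0, 0, 10]),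
   (7, [2, 0, 6, 0, 0, 0, 0, 0, 1, 0, 0, 10]), (3, [10, 0, 4, 0, 0, 0, 0, 0, 1, 0, 0, 10]),
   (6, [14, 0, 3, 0, 0, 0, 0, 0, 1, 0, 0, 10]), (3, [22, 0, 1, 0, 0, 0, 0, 0, 1, 0, 0, 10]),
   (6, [5, 0, 3, 0, 1, 0, 0, 0, 0, 0, 0, 10]), (6, [17, 0, 0, 0, 1, 0, 0, 0, 0, 0, 0, 10]),
   (3, [2, 0, 7, 0, 0, 0, 0, 0, 0, 0, 0, 10]), (3, [6, 0, 6, 0, 0, 0, 0, 0, 0, 0, 0, 10]),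
   (3, [14, 0, 4, 0, 0, 0, 0, 0, 0, 0, 0, 10]), (3, [26, 0, 1, 0, 0, 0, 0, 0, 0, 0, 0, 10]),
   (3, [1, 0, 1, 0, 0, 0, 0, 0, 0, 2, 0, 9]), (4, [5, 0, 0, 0, 0, 0, 0, 0, 0, 2, 0, 9]),
   (2, [2, 0, 0, 0, 0, 0, 0, 0, 4, 1, 0, 9]), (3, [2, 0, 1, 0, 0, 0, 0, 0, 3, 1, 0, 9]),
   (1, [6, 0, 0, 0, 0, 0, 0, 0, 3, 1, 0, 9]), (6, [10, 0, 0, 0, 0, 0, 0, 0, 2, 1, 0, 9]),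
   (5, [2, 0, 3, 0, 0, 0, 0, 0, 1, 1, 0, 9]), (6, [10, 0, 1, 0, 0, 0, 0, 0, 1, 1, 0, 9]),
   (6, [14, 0, 0, 0, 0, 0, 0, 0, 1, 1, 0, 9]), (6, [5, 0, 0, 0, 1, 0, 0, 0, 0, 1, 0, 9]),
   (6, [2, 0, 4, 0, 0, 0, 0, 0, 0, 1, 0, 9]), (3, [14, 0, 1, 0, 0, 0, 0, 0, 0, 1, 0, 9]),
   (3, [18, 0, 0, 0, 0, 0, 0, 0, 0, 1, 0, 9]), (8, [3, 0, 0, 0, 0, 0, 0, 0, 7, 0, 0, 9]),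
   (6, [3, 0, 1, 0, 0, 0, 0, 0, 6, 0, 0, 9]), (4, [7, 0, 0, 0, 0, 0, 0, 0, 6, 0, 0, 9]),
   (5, [11, 0, 0, 0, 0, 0, 0, 0, 5, 0, 0, 9]), (6, [2, 0, 0, 0, 1, 0, 0, 0, 4, 0, 0, 9]),
   (1, [3, 0, 3, 0, 0, 0, 0, 0, 4, 0, 0, 9]), (6, [11, 0, 1, 0, 0, 0, 0, 0, 4, 0, 0, 9]),
   (8, [15, 0, 0, 0, 0, 0, 0, 0, 4, 0, 0, 9]), (3, [6, 0, 0, 0, 1, 0, 0, 0, 3, 0, 0, 9]),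
   (3, [3, 0, 4, 0, 0, 0, 0, 0, 3, 0, 0, 9]), (6, [7, 0, 3, 0, 0, 0, 0, 0, 3, 0, 0, 9]),
   (3, [15, 0, 1, 0, 0, 0, 0, 0, 3, 0, 0, 9]), (6, [7, 0, 4, 0, 0, 0, 0, 0, 2, 0, 0, 9]),
   (4, [11, 0, 3, 0, 0, 0, 0, 0, 2, 0, 0, 9]), (3, [19, 0, 1, 0, 0, 0, 0, 0, 2, 0, 0, 9]),
   (3, [23, 0, 0, 0, 0, 0, 0, 0, 2, 0, 0, 9]), (6, [2, 0, 3, 0, 1, 0, 0, 0, 1, 0, 0, 9]),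
   (3, [3, 0, 6, 0, 0, 0, 0, 0, 1, 0, 0, 9]), (6, [27, 0, 0, 0, 0, 0, 0, 0, 1, 0, 0, 9]),
   (5, [7, 0, 6, 0, 0, 0, 0, 0, 0, 0, 0, 9]), (8, [27, 0, 1, 0, 0, 0, 0, 0, 0, 0, 0, 9]),
   (1, [31, 0, 0, 0, 0, 0, 0, 0, 0, 0, 0, 9]), (7, [2, 0, 0, 0, 0, 0, 0, 0, 1, 2, 0, 8]),
   (3, [2, 0, 1, 0, 0, 0, 0, 0, 0, 2, 0, 8]), (6, [6, 0, 0, 0, 0, 0, 0, 0, 0, 2, 0, 8]),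
   (4, [3, 0, 0, 0, 0, 0, 0, 0, 4, 1, 0, 8]), (3, [3, 0, 1, 0, 0, 0, 0, 0, 3, 1, 0, 8]),
   (3, [7, 0, 0, 0, 0, 0, 0, 0, 3, 1, 0, 8]), (6, [7, 0, 1, 0, 0, 0, 0, 0, 2, 1, 0, 8]),
   (4, [11, 0, 0, 0, 0, 0, 0, 0, 2, 1, 0, 8]), (6, [2, 0, 0, 0, 1, 0, 0, 0, 1, 1, 0, 8]),
   (1, [7, 0, 3, 0, 0, 0, 0, 0, 0, 1, 0, 8]), (3, [4, 0, 0, 0, 0, 0, 0, 0, 7, 0, 0, 8]),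
   (3, [4, 0, 1, 0, 0, 0, 0, 0, 6, 0, 0, 8]), (3, [8, 0, 0, 0, 0, 0, 0, 0, 6, 0, 0, 8]),
   (3, [8, 0, 1, 0, 0, 0, 0, 0, 5, 0, 0, 8]), (1, [12, 0, 0, 0, 0, 0, 0, 0, 5, 0, 0, 8]),
   (3, [3, 0, 0, 0, 1, 0, 0, 0, 4, 0, 0, 8]), (8, [4, 0, 3, 0, 0, 0, 0, 0, 4, 0, 0, 8]),
   (6, [12, 0, 1, 0, 0, 0, 0, 0, 4, 0, 0, 8]), (1, [16, 0, 0, 0, 0, 0, 0, 0, 4, 0, 0, 8]),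
   (8, [8, 0, 3, 0, 0, 0, 0, 0, 3, 0, 0, 8]), (6, [16, 0, 1, 0, 0, 0, 0, 0, 3, 0, 0, 8]),
   (6, [20, 0, 0, 0, 0, 0, 0, 0, 3, 0, 0, 8]), (3, [11, 0, 0, 0, 1, 0, 0, 0, 2, 0, 0, 8]),
   (8, [12, 0, 3, 0, 0, 0, 0, 0, 2, 0, 0, 8]), (3, [24, 0, 0, 0, 0, 0, 0, 0, 2, 0, 0, 8]),
   (1, [4, 0, 6, 0, 0, 0, 0, 0, 1, 0, 0, 8]), (3, [12, 0, 4, 0, 0, 0, 0, 0, 1, 0, 0, 8]),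
   (8, [16, 0, 3, 0, 0, 0, 0, 0, 1, 0, 0, 8]), (3, [7, 0, 3, 0, 1, 0, 0, 0, 0, 0, 0, 8]),
   (3, [4, 0, 7, 0, 0, 0, 0, 0, 0, 0, 0, 8]), (6, [8, 0, 6, 0, 0, 0, 0, 0, 0, 0, 0, 8]),
   (3, [16, 0, 4, 0, 0, 0, 0, 0, 0, 0, 0, 8]), (8, [20, 0, 3, 0, 0, 0, 0, 0, 0, 0, 0, 8]),
   (6, [3, 0, 0, 0, 0, 0, 0, 0, 1, 2, 0, 7]), (5, [7, 0, 0, 0, 0, 0, 0, 0, 0, 2, 0, 7]),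
   (5, [4, 0, 0, 0, 0, 0, 0, 0, 4, 1, 0, 7]), (8, [8, 0, 0, 0, 0, 0, 0, 0, 3, 1, 0, 7]),
   (5, [12, 0, 0, 0, 0, 0, 0, 0, 2, 1, 0, 7]), (2, [4, 0, 3, 0, 0, 0, 0, 0, 1, 1, 0, 7]),
   (3, [12, 0, 1, 0, 0, 0, 0, 0, 1, 1, 0, 7]), (8, [16, 0, 0, 0, 0, 0, 0, 0, 1, 1, 0, 7]),
   (3, [7, 0, 0, 0, 1, 0, 0, 0, 0, 1, 0, 7]), (6, [4, 0, 4, 0, 0, 0, 0, 0, 0, 1, 0, 7]),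
   (3, [16, 0, 1, 0, 0, 0, 0, 0, 0, 1, 0, 7]), (8, [20, 0, 0, 0, 0, 0, 0, 0, 0, 1, 0, 7]),
   (4, [1, 0, 0, 0, 0, 0, 0, 0, 8, 0, 0, 7]), (6, [1, 0, 1, 0, 0, 0, 0, 0, 7, 0, 0, 7]),
   (1, [5, 0, 0, 0, 0, 0, 0, 0, 7, 0, 0, 7]), (5, [9, 0, 0, 0, 0, 0, 0, 0, 6, 0, 0, 7]),
   (6, [9, 0, 1, 0, 0, 0, 0, 0, 5, 0, 0, 7]), (6, [13, 0, 0, 0, 0, 0, 0, 0, 5, 0, 0, 7]),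
   (6, [4, 0, 0, 0, 1, 0, 0, 0, 4, 0, 0, 7]), (6, [1, 0, 4, 0, 0, 0, 0, 0, 4, 0, 0, 7]),
   (4, [5, 0, 3, 0, 0, 0, 0, 0, 4, 0, 0, 7]), (3, [13, 0, 1, 0, 0, 0, 0, 0, 4, 0, 0, 7]),
   (1, [17, 0, 0, 0, 0, 0, 0, 0, 4, 0, 0, 7]), (6, [8, 0, 0, 0, 1, 0, 0, 0, 3, 0, 0, 7]),
   (3, [5, 0, 4, 0, 0, 0, 0, 0, 3, 0, 0, 7]), (7, [9, 0, 3, 0, 0, 0, 0, 0, 3, 0, 0, 7]),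
   (6, [17, 0, 1, 0, 0, 0, 0, 0, 3, 0, 0, 7]), (5, [21, 0, 0, 0, 0, 0, 0, 0, 3, 0, 0, 7]),
   (6, [12, 0, 0, 0, 1, 0, 0, 0, 2, 0, 0, 7]), (5, [1, 0, 6, 0, 0, 0, 0, 0, 2, 0, 0, 7]),
   (6, [13, 0, 3, 0, 0, 0, 0, 0, 2, 0, 0, 7]), (3, [21, 0, 1, 0, 0, 0, 0, 0, 2, 0, 0, 7]),
   (3, [25, 0, 0, 0, 0, 0, 0, 0, 2, 0, 0, 7]), (6, [4, 0, 3, 0, 1, 0, 0, 0, 1, 0, 0, 7]),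
   (6, [16, 0, 0, 0, 1, 0, 0, 0, 1, 0, 0, 7]), (3, [1, 0, 7, 0, 0, 0, 0, 0, 1, 0, 0, 7]),
   (3, [5, 0, 6, 0, 0, 0, 0, 0, 1, 0, 0, 7]), (3, [13, 0, 4, 0, 0, 0, 0, 0, 1, 0, 0, 7]),
   (3, [25, 0, 1, 0, 0, 0, 0, 0, 1, 0, 0, 7]), (8, [29, 0, 0, 0, 0, 0, 0, 0, 1, 0, 0, 7]),
   (6, [20, 0, 0, 0, 1, 0, 0, 0, 0, 0, 0, 7]), (3, [21, 0, 3, 0, 0, 0, 0, 0, 0, 0, 0, 7]),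
   (1, [4, 0, 0, 0, 0, 0, 0, 0, 1, 2, 0, 6]), (3, [4, 0, 1, 0, 0, 0, 0, 0, 0, 2, 0, 6]),
   (3, [8, 0, 0, 0, 0, 0, 0, 0, 0, 2, 0, 6]), (6, [1, 0, 1, 0, 0, 0, 0, 0, 4, 1, 0, 6]),
   (7, [5, 0, 0, 0, 0, 0, 0, 0, 4, 1, 0, 6]), (3, [5, 0, 1, 0, 0, 0, 0, 0, 3, 1, 0, 6]),
   (1, [9, 0, 0, 0, 0, 0, 0, 0, 3, 1, 0, 6]), (1, [1, 0, 3, 0, 0, 0, 0, 0, 2, 1, 0, 6]),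
   (6, [4, 0, 0, 0, 1, 0, 0, 0, 1, 1, 0, 6]), (6, [1, 0, 4, 0, 0, 0, 0, 0, 1, 1, 0, 6]),
   (3, [13, 0, 1, 0, 0, 0, 0, 0, 1, 1, 0, 6]), (3, [17, 0, 0, 0, 0, 0, 0, 0, 1, 1, 0, 6]),
   (6, [21, 0, 0, 0, 0, 0, 0, 0, 0, 1, 0, 6]), (6, [2, 0, 0, 0, 0, 0, 0, 0, 8, 0, 0, 6]),
   (3, [2, 0, 1, 0, 0, 0, 0, 0, 7, 0, 0, 6]), (6, [6, 0, 0, 0, 0, 0, 0, 0, 7, 0, 0, 6]),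
   (3, [6, 0, 1, 0, 0, 0, 0, 0, 6, 0, 0, 6]), (8, [2, 0, 3, 0, 0, 0, 0, 0, 5, 0, 0, 6]),
   (6, [10, 0, 1, 0, 0, 0, 0, 0, 5, 0, 0, 6]), (3, [5, 0, 0, 0, 1, 0, 0, 0, 4, 0, 0, 6]),
   (3, [2, 0, 4, 0, 0, 0, 0, 0, 4, 0, 0, 6]), (8, [6, 0, 3, 0, 0, 0, 0, 0, 4, 0, 0, 6]),
   (6, [14, 0, 1, 0, 0, 0, 0, 0, 4, 0, 0, 6]), (6, [18, 0, 0, 0, 0, 0, 0, 0, 4, 0, 0, 6]),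
   (3, [9, 0, 0, 0, 1, 0, 0, 0, 3, 0, 0, 6]), (4, [10, 0, 3, 0, 0, 0, 0, 0, 3, 0, 0, 6]),
   (6, [18, 0, 1, 0, 0, 0, 0, 0, 3, 0, 0, 6]), (2, [22, 0, 0, 0, 0, 0, 0, 0, 3, 0, 0, 6]),
   (3, [1, 0, 3, 0, 1, 0, 0, 0, 2, 0, 0, 6]), (6, [2, 0, 6, 0, 0, 0, 0, 0, 2, 0, 0, 6]),
   (1, [6, 0, 6, 0, 0, 0, 0, 0, 1, 0, 0, 6]), (6, [30, 0, 0, 0, 0, 0, 0, 0, 1, 0, 0, 6]),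
   (3, [6, 0, 7, 0, 0, 0, 0, 0, 0, 0, 0, 6]), (1, [10, 0, 6, 0, 0, 0, 0, 0, 0, 0, 0, 6]),
   (5, [1, 0, 0, 0, 0, 0, 0, 0, 2, 2, 0, 5]), (3, [1, 0, 1, 0, 0, 0, 0, 0, 1, 2, 0, 5]),
   (6, [5, 0, 0, 0, 0, 0, 0, 0, 1, 2, 0, 5]), (8, [2, 0, 0, 0, 0, 0, 0, 0, 5, 1, 0, 5]),
   (3, [2, 0, 1, 0, 0, 0, 0, 0, 4, 1, 0, 5]), (5, [6, 0, 0, 0, 0, 0, 0, 0, 4, 1, 0, 5]),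
   (1, [10, 0, 0, 0, 0, 0, 0, 0, 3, 1, 0, 5]), (3, [1, 0, 0, 0, 1, 0, 0, 0, 2, 1, 0, 5]),
   (2, [6, 0, 3, 0, 0, 0, 0, 0, 1, 1, 0, 5]), (6, [6, 0, 4, 0, 0, 0, 0, 0, 0, 1, 0, 5]),
   (2, [10, 0, 3, 0, 0, 0, 0, 0, 0, 1, 0, 5]), (4, [3, 0, 0, 0, 0, 0, 0, 0, 8, 0, 0, 5]),
   (6, [3, 0, 1, 0, 0, 0, 0, 0, 7, 0, 0, 5]), (7, [7, 0, 0, 0, 0, 0, 0, 0, 7, 0, 0, 5]),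
   (8, [11, 0, 0, 0, 0, 0, 0, 0, 6, 0, 0, 5]), (6, [2, 0, 0, 0, 1, 0, 0, 0, 5, 0, 0, 5]),
   (5, [15, 0, 0, 0, 0, 0, 0, 0, 5, 0, 0, 5]), (6, [6, 0, 0, 0, 1, 0, 0, 0, 4, 0, 0, 5]),
   (3, [3, 0, 4, 0, 0, 0, 0, 0, 4, 0, 0, 5]), (4, [7, 0, 3, 0, 0, 0, 0, 0, 4, 0, 0, 5]),
   (5, [19, 0, 0, 0, 0, 0, 0, 0, 4, 0, 0, 5]), (3, [10, 0, 0, 0, 1, 0, 0, 0, 3, 0, 0, 5]),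
   (3, [7, 0, 4, 0, 0, 0, 0, 0, 3, 0, 0, 5]), (7, [11, 0, 3, 0, 0, 0, 0, 0, 3, 0, 0, 5]),
   (6, [19, 0, 1, 0, 0, 0, 0, 0, 3, 0, 0, 5]), (3, [23, 0, 0, 0, 0, 0, 0, 0, 3, 0, 0, 5]),
   (1, [3, 0, 6, 0, 0, 0, 0, 0, 2, 0, 0, 5]), (2, [15, 0, 3, 0, 0, 0, 0, 0, 2, 0, 0, 5]),
   (6, [6, 0, 3, 0, 1, 0, 0, 0, 1, 0, 0, 5]), (6, [3, 0, 7, 0, 0, 0, 0, 0, 1, 0, 0, 5]),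
   (3, [7, 0, 6, 0, 0, 0, 0, 0, 1, 0, 0, 5]), (6, [15, 0, 4, 0, 0, 0, 0, 0, 1, 0, 0, 5]),
   (2, [19, 0, 3, 0, 0, 0, 0, 0, 1, 0, 0, 5]), (6, [10, 0, 3, 0, 1, 0, 0, 0, 0, 0, 0, 5]),
   (3, [2, 0, 0, 0, 0, 0, 0, 0, 2, 2, 0, 4]), (1, [6, 0, 0, 0, 0, 0, 0, 0, 1, 2, 0, 4]),
   (3, [6, 0, 1, 0, 0, 0, 0, 0, 0, 2, 0, 4]), (1, [10, 0, 0, 0, 0, 0, 0, 0, 0, 2, 0, 4]),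
   (3, [3, 0, 0, 0, 0, 0, 0, 0, 5, 1, 0, 4]), (3, [3, 0, 1, 0, 0, 0, 0, 0, 4, 1, 0, 4]),
   (7, [7, 0, 0, 0, 0, 0, 0, 0, 4, 1, 0, 4]), (3, [7, 0, 1, 0, 0, 0, 0, 0, 3, 1, 0, 4]),
   (4, [11, 0, 0, 0, 0, 0, 0, 0, 3, 1, 0, 4]), (2, [3, 0, 3, 0, 0, 0, 0, 0, 2, 1, 0, 4]),
   (2, [15, 0, 0, 0, 0, 0, 0, 0, 2, 1, 0, 4]), (6, [6, 0, 0, 0, 1, 0, 0, 0, 1, 1, 0, 4]),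
   (3, [3, 0, 4, 0, 0, 0, 0, 0, 1, 1, 0, 4]), (6, [15, 0, 1, 0, 0, 0, 0, 0, 1, 1, 0, 4]),
   (2, [19, 0, 0, 0, 0, 0, 0, 0, 1, 1, 0, 4]), (6, [10, 0, 0, 0, 1, 0, 0, 0, 0, 1, 0, 4]),
   (3, [11, 0, 3, 0, 0, 0, 0, 0, 0, 1, 0, 4]), (6, [0, 0, 1, 0, 0, 0, 0, 0, 8, 0, 0, 4]),
   (3, [4, 0, 0, 0, 0, 0, 0, 0, 8, 0, 0, 4]), (6, [4, 0, 1, 0, 0, 0, 0, 0, 7, 0, 0, 4]),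
   (1, [8, 0, 0, 0, 0, 0, 0, 0, 7, 0, 0, 4]), (3, [8, 0, 1, 0, 0, 0, 0, 0, 6, 0, 0, 4]),
   (6, [12, 0, 0, 0, 0, 0, 0, 0, 6, 0, 0, 4]), (7, [4, 0, 3, 0, 0, 0, 0, 0, 5, 0, 0, 4]),
   (3, [12, 0, 1, 0, 0, 0, 0, 0, 5, 0, 0, 4]), (7, [16, 0, 0, 0, 0, 0, 0, 0, 5, 0, 0, 4]),
   (3, [7, 0, 0, 0, 1, 0, 0, 0, 4, 0, 0, 4]), (6, [4, 0, 4, 0, 0, 0, 0, 0, 4, 0, 0, 4]),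
   (3, [16, 0, 1, 0, 0, 0, 0, 0, 4, 0, 0, 4]), (1, [20, 0, 0, 0, 0, 0, 0, 0, 4, 0, 0, 4]),
   (3, [11, 0, 0, 0, 1, 0, 0, 0, 3, 0, 0, 4]), (8, [12, 0, 3, 0, 0, 0, 0, 0, 3, 0, 0, 4]),
   (1, [24, 0, 0, 0, 0, 0, 0, 0, 3, 0, 0, 4]), (6, [3, 0, 3, 0, 1, 0, 0, 0, 2, 0, 0, 4]),
   (6, [15, 0, 0, 0, 1, 0, 0, 0, 2, 0, 0, 4]), (3, [0, 0, 7, 0, 0, 0, 0, 0, 2, 0, 0, 4]),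
   (3, [4, 0, 6, 0, 0, 0, 0, 0, 2, 0, 0, 4]), (3, [12, 0, 4, 0, 0, 0, 0, 0, 2, 0, 0, 4]),
   (3, [24, 0, 1, 0, 0, 0, 0, 0, 2, 0, 0, 4]), (1, [28, 0, 0, 0, 0, 0, 0, 0, 2, 0, 0, 4]),
   (6, [19, 0, 0, 0, 1, 0, 0, 0, 1, 0, 0, 4]), (3, [20, 0, 3, 0, 0, 0, 0, 0, 1, 0, 0, 4]),
   (1, [3, 0, 0, 0, 0, 0, 0, 0, 2, 2, 0, 3]), (6, [3, 0, 1, 0, 0, 0, 0, 0, 1, 2, 0, 3]),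
   (6, [7, 0, 0, 0, 0, 0, 0, 0, 1, 2, 0, 3]), (3, [11, 0, 0, 0, 0, 0, 0, 0, 0, 2, 0, 3]),
   (7, [4, 0, 0, 0, 0, 0, 0, 0, 5, 1, 0, 3]), (6, [4, 0, 1, 0, 0, 0, 0, 0, 4, 1, 0, 3]),
   (6, [8, 0, 0, 0, 0, 0, 0, 0, 4, 1, 0, 3]), (5, [12, 0, 0, 0, 0, 0, 0, 0, 3, 1, 0, 3]),
   (6, [3, 0, 0, 0, 1, 0, 0, 0, 2, 1, 0, 3]), (6, [0, 0, 4, 0, 0, 0, 0, 0, 2, 1, 0, 3]),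
   (3, [12, 0, 1, 0, 0, 0, 0, 0, 2, 1, 0, 3]), (3, [16, 0, 0, 0, 0, 0, 0, 0, 2, 1, 0, 3]),
   (6, [20, 0, 0, 0, 0, 0, 0, 0, 1, 1, 0, 3]), (8, [0, 0, 6, 0, 0, 0, 0, 0, 0, 1, 0, 3]),
   (3, [1, 0, 0, 0, 0, 0, 0, 0, 9, 0, 0, 3]), (1, [5, 0, 0, 0, 0, 0, 0, 0, 8, 0, 0, 3]),
   (6, [5, 0, 1, 0, 0, 0, 0, 0, 7, 0, 0, 3]), (2, [9, 0, 0, 0, 0, 0, 0, 0, 7, 0, 0, 3]),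
   (6, [9, 0, 1, 0, 0, 0, 0, 0, 6, 0, 0, 3]), (1, [13, 0, 0, 0, 0, 0, 0, 0, 6, 0, 0, 3]),
   (3, [4, 0, 0, 0, 1, 0, 0, 0, 5, 0, 0, 3]), (3, [1, 0, 4, 0, 0, 0, 0, 0, 5, 0, 0, 3]),
   (6, [13, 0, 1, 0, 0, 0, 0, 0, 5, 0, 0, 3]), (6, [17, 0, 0, 0, 0, 0, 0, 0, 5, 0, 0, 3]),
   (4, [21, 0, 0, 0, 0, 0, 0, 0, 4, 0, 0, 3]), (6, [12, 0, 0, 0, 1, 0, 0, 0, 3, 0, 0, 3]),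
   (1, [1, 0, 6, 0, 0, 0, 0, 0, 3, 0, 0, 3]), (6, [9, 0, 4, 0, 0, 0, 0, 0, 3, 0, 0, 3]),
   (6, [21, 0, 1, 0, 0, 0, 0, 0, 3, 0, 0, 3]), (6, [25, 0, 0, 0, 0, 0, 0, 0, 3, 0, 0, 3]),
   (3, [29, 0, 0, 0, 0, 0, 0, 0, 2, 0, 0, 3]), (8, [9, 0, 6, 0, 0, 0, 0, 0, 1, 0, 0, 3]),
   (6, [0, 0, 6, 0, 1, 0, 0, 0, 0, 0, 0, 3]), (5, [1, 0, 9, 0, 0, 0, 0, 0, 0, 0, 0, 3]),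
   (3, [0, 0, 1, 0, 0, 0, 0, 0, 2, 2, 0, 2]), (6, [4, 0, 0, 0, 0, 0, 0, 0, 2, 2, 0, 2]),
   (8, [0, 0, 3, 0, 0, 0, 0, 0, 0, 2, 0, 2]), (3, [1, 0, 1, 0, 0, 0, 0, 0, 5, 1, 0, 2]),
   (6, [5, 0, 0, 0, 0, 0, 0, 0, 5, 1, 0, 2]), (2, [1, 0, 3, 0, 0, 0, 0, 0, 3, 1, 0, 2]),
   (6, [9, 0, 1, 0, 0, 0, 0, 0, 3, 1, 0, 2]), (3, [13, 0, 0, 0, 0, 0, 0, 0, 3, 1, 0, 2]),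
   (7, [9, 0, 3, 0, 0, 0, 0, 0, 1, 1, 0, 2]), (3, [0, 0, 3, 0, 1, 0, 0, 0, 0, 1, 0, 2]),
   (3, [2, 0, 1, 0, 0, 0, 0, 0, 8, 0, 0, 2]), (8, [2, 0, 3, 0, 0, 0, 0, 0, 6, 0, 0, 2]),
   (3, [10, 0, 1, 0, 0, 0, 0, 0, 6, 0, 0, 2]), (6, [14, 0, 0, 0, 0, 0, 0, 0, 6, 0, 0, 2]),
   (2, [10, 0, 3, 0, 0, 0, 0, 0, 4, 0, 0, 2]), (3, [18, 0, 1, 0, 0, 0, 0, 0, 4, 0, 0, 2]),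
   (6, [22, 0, 0, 0, 0, 0, 0, 0, 4, 0, 0, 2]), (6, [1, 0, 3, 0, 1, 0, 0, 0, 3, 0, 0, 2]),
   (8, [18, 0, 3, 0, 0, 0, 0, 0, 2, 0, 0, 2]), (3, [9, 0, 3, 0, 1, 0, 0, 0, 1, 0, 0, 2]),
   (1, [1, 0, 0, 0, 0, 0, 0, 0, 3, 2, 0, 1]), (8, [9, 0, 0, 0, 0, 0, 0, 0, 1, 2, 0, 1]),
   (6, [0, 0, 0, 0, 1, 0, 0, 0, 0, 2, 0, 1]), (3, [1, 0, 3, 0, 0, 0, 0, 0, 0, 2, 0, 1]),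
   (8, [2, 0, 0, 0, 0, 0, 0, 0, 6, 1, 0, 1]), (2, [10, 0, 0, 0, 0, 0, 0, 0, 4, 1, 0, 1]),
   (6, [1, 0, 0, 0, 1, 0, 0, 0, 3, 1, 0, 1]), (3, [2, 0, 3, 0, 0, 0, 0, 0, 3, 1, 0, 1]),
   (8, [18, 0, 0, 0, 0, 0, 0, 0, 2, 1, 0, 1]), (3, [9, 0, 0, 0, 1, 0, 0, 0, 1, 1, 0, 1]),
   (6, [10, 0, 3, 0, 0, 0, 0, 0, 1, 1, 0, 1]), (6, [3, 0, 0, 0, 0, 0, 0, 0, 9, 0, 0, 1]),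
   (8, [11, 0, 0, 0, 0, 0, 0, 0, 7, 0, 0, 1]), (6, [2, 0, 0, 0, 1, 0, 0, 0, 6, 0, 0, 1]),
   (3, [3, 0, 3, 0, 0, 0, 0, 0, 6, 0, 0, 1]), (1, [19, 0, 0, 0, 0, 0, 0, 0, 5, 0, 0, 1]),
   (6, [10, 0, 0, 0, 1, 0, 0, 0, 4, 0, 0, 1]), (3, [11, 0, 3, 0, 0, 0, 0, 0, 4, 0, 0, 1]),
   (6, [18, 0, 0, 0, 1, 0, 0, 0, 2, 0, 0, 1]), (3, [19, 0, 3, 0, 0, 0, 0, 0, 2, 0, 0, 1]),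
   (1, [0, 0, 0, 0, 3, 0, 0, 0, 0, 0, 0, 1]), (1, [3, 0, 9, 0, 0, 0, 0, 0, 0, 0, 0, 1]),
   (1, [0, 0, 0, 0, 0, 0, 0, 0, 0, 0, 1]), (8, [1, 0, 0, 0, 0, 0, 0, 0, 0, 3]),
   (3, [2, 0, 0, 0, 0, 0, 0, 0, 3, 2]), (6, [10, 0, 0, 0, 0, 0, 0, 0, 1, 2]),
   (6, [3, 0, 0, 0, 0, 0, 0, 0, 6, 1]), (6, [11, 0, 0, 0, 0, 0, 0, 0, 4, 1]),
   (6, [19, 0, 0, 0, 0, 0, 0, 0, 2, 1]), (1, [27, 0, 0, 0, 0, 0, 0, 0, 0, 1]),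
   (8, [0, 0, 1, 0, 0, 0, 0, 0, 9]), (1, [4, 0, 0, 0, 0, 0, 0, 0, 9]),
   (6, [12, 0, 0, 0, 0, 0, 0, 0, 7]), (3, [20, 0, 0, 0, 0, 0, 0, 0, 5]),
   (8, [28, 0, 0, 0, 0, 0, 0, 0, 3]), (1, [0, 0, 9, 0, 0, 0, 0, 0, 1]), (3, [1, 0, 0, 0, 3])]

/-- data -/
def vL4_0 : List Tm :=
  [(1, [0, 0, 0, 0, 0, 0, 0, 0, 0, 0, 0, 1]), (3, [1])]

/-- data -/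
def vL4_1 : List Tm :=
  [(5, [1, 0, 0, 0, 0, 0, 0, 0, 0, 0, 0, 3]), (1, [3, 0, 0, 0, 0, 0, 0, 0, 0, 0, 0, 1]),
   (1, [0, 0, 0, 0, 0, 0, 0, 0, 1]), (3, [0, 0, 1])]

/-- data -/
def vL4_2 : List Tm :=
  [(6, [1, 0, 0, 0, 0, 0, 0, 0, 0, 0, 0, 12]), (3, [3, 0, 0, 0, 0, 0, 0, 0, 0, 0, 0, 10]),
   (8, [0, 0, 1, 0, 0, 0, 0, 0, 0, 0, 0, 9]), (1, [4, 0, 0, 0, 0, 0, 0, 0, 0, 0, 0, 9]),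
   (2, [5, 0, 0, 0, 0, 0, 0, 0, 0, 0, 0, 8]), (2, [2, 0, 0, 0, 0, 0, 0, 0, 1, 0, 0, 7]),
   (6, [2, 0, 1, 0, 0, 0, 0, 0, 0, 0, 0, 7]), (6, [6, 0, 0, 0, 0, 0, 0, 0, 0, 0, 0, 7]),
   (6, [3, 0, 0, 0, 0, 0, 0, 0, 1, 0, 0, 6]), (4, [7, 0, 0, 0, 0, 0, 0, 0, 0, 0, 0, 6]),
   (8, [4, 0, 0, 0, 0, 0, 0, 0, 1, 0, 0, 5]), (6, [4, 0, 1, 0, 0, 0, 0, 0, 0, 0, 0, 5]),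
   (3, [8, 0, 0, 0, 0, 0, 0, 0, 0, 0, 0, 5]), (4, [1, 0, 0, 0, 0, 0, 0, 0, 2, 0, 0, 4]),
   (6, [1, 0, 1, 0, 0, 0, 0, 0, 1, 0, 0, 4]), (6, [5, 0, 0, 0, 0, 0, 0, 0, 1, 0, 0, 4]),
   (3, [2, 0, 0, 0, 0, 0, 0, 0, 2, 0, 0, 3]), (8, [6, 0, 0, 0, 0, 0, 0, 0, 1, 0, 0, 3]),
   (6, [6, 0, 1, 0, 0, 0, 0, 0, 0, 0, 0, 3]), (8, [10, 0, 0, 0, 0, 0, 0, 0, 0, 0, 0, 3]),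
   (8, [3, 0, 0, 0, 0, 0, 0, 0, 2, 0, 0, 2]), (3, [3, 0, 1, 0, 0, 0, 0, 0, 1, 0, 0, 2]),
   (6, [7, 0, 0, 0, 0, 0, 0, 0, 1, 0, 0, 2]), (6, [0, 0, 1, 0, 0, 0, 0, 0, 2, 0, 0, 1]),
   (6, [4, 0, 0, 0, 0, 0, 0, 0, 2, 0, 0, 1]), (1, [0, 0, 3, 0, 0, 0, 0, 0, 0, 0, 0, 1]),
   (1, [0, 0, 0, 0, 0, 0, 0, 0, 0, 1]), (8, [1, 0, 0, 0, 0, 0, 0, 0, 3]),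
   (1, [9, 0, 0, 0, 0, 0, 0, 0, 1]), (3, [0, 0, 0, 0, 1]), (3, [1, 0, 3])]

/-- data -/
def vL4_3 : List Tm :=
  [(6, [1, 0, 0, 0, 0, 0, 0, 0, 0, 0, 0, 39]), (3, [1, 0, 2, 0, 0, 0, 0, 0, 0, 0, 0, 31]),
   (3, [5, 0, 1, 0, 0, 0, 0, 0, 0, 0, 0, 31]), (6, [9, 0, 0, 0, 0, 0, 0, 0, 0, 0, 0, 31]),
   (6, [6, 0, 1, 0, 0, 0, 0, 0, 0, 0, 0, 30]), (3, [10, 0, 0, 0, 0, 0, 0, 0, 0, 0, 0, 30]),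
   (6, [3, 0, 1, 0, 0, 0, 0, 0, 1, 0, 0, 29]), (3, [7, 0, 0, 0, 0, 0, 0, 0, 1, 0, 0, 29]),
   (6, [3, 0, 2, 0, 0, 0, 0, 0, 0, 0, 0, 29]), (6, [7, 0, 1, 0, 0, 0, 0, 0, 0, 0, 0, 29]),
   (2, [11, 0, 0, 0, 0, 0, 0, 0, 0, 0, 0, 29]), (8, [8, 0, 0, 0, 0, 0, 0, 0, 1, 0, 0, 28]),
   (8, [4, 0, 2, 0, 0, 0, 0, 0, 0, 0, 0, 28]), (4, [8, 0, 1, 0, 0, 0, 0, 0, 0, 0, 0, 28]),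
   (3, [12, 0, 0, 0, 0, 0, 0, 0, 0, 0, 0, 28]), (3, [5, 0, 0, 0, 0, 0, 0, 0, 2, 0, 0, 27]),
   (8, [0, 0, 0, 0, 1, 0, 0, 0, 0, 0, 0, 27]), (4, [5, 0, 2, 0, 0, 0, 0, 0, 0, 0, 0, 27]),
   (8, [9, 0, 1, 0, 0, 0, 0, 0, 0, 0, 0, 27]), (4, [13, 0, 0, 0, 0, 0, 0, 0, 0, 0, 0, 27]),
   (3, [2, 0, 1, 0, 0, 0, 0, 0, 2, 0, 0, 26]), (6, [6, 0, 0, 0, 0, 0, 0, 0, 2, 0, 0, 26]),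
   (7, [2, 0, 2, 0, 0, 0, 0, 0, 1, 0, 0, 26]), (4, [6, 0, 1, 0, 0, 0, 0, 0, 1, 0, 0, 26]),
   (6, [10, 0, 0, 0, 0, 0, 0, 0, 1, 0, 0, 26]), (3, [2, 0, 3, 0, 0, 0, 0, 0, 0, 0, 0, 26]),
   (7, [10, 0, 1, 0, 0, 0, 0, 0, 0, 0, 0, 26]), (2, [14, 0, 0, 0, 0, 0, 0, 0, 0, 0, 0, 26]),
   (4, [7, 0, 0, 0, 0, 0, 0, 0, 2, 0, 0, 25]), (6, [3, 0, 2, 0, 0, 0, 0, 0, 1, 0, 0, 25]),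
   (2, [7, 0, 1, 0, 0, 0, 0, 0, 1, 0, 0, 25]), (1, [11, 0, 0, 0, 0, 0, 0, 0, 1, 0, 0, 25]),
   (2, [7, 0, 2, 0, 0, 0, 0, 0, 0, 0, 0, 25]), (8, [11, 0, 1, 0, 0, 0, 0, 0, 0, 0, 0, 25]),
   (8, [15, 0, 0, 0, 0, 0, 0, 0, 0, 0, 0, 25]), (3, [4, 0, 0, 0, 0, 0, 0, 0, 3, 0, 0, 24]),
   (7, [4, 0, 1, 0, 0, 0, 0, 0, 2, 0, 0, 24]), (8, [8, 0, 0, 0, 0, 0, 0, 0, 2, 0, 0, 24]),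
   (7, [4, 0, 2, 0, 0, 0, 0, 0, 1, 0, 0, 24]), (1, [8, 0, 1, 0, 0, 0, 0, 0, 1, 0, 0, 24]),
   (1, [12, 0, 0, 0, 0, 0, 0, 0, 1, 0, 0, 24]), (3, [4, 0, 3, 0, 0, 0, 0, 0, 0, 0, 0, 24]),
   (6, [8, 0, 2, 0, 0, 0, 0, 0, 0, 0, 0, 24]), (4, [12, 0, 1, 0, 0, 0, 0, 0, 0, 0, 0, 24]),
   (5, [1, 0, 2, 0, 0, 0, 0, 0, 2, 0, 0, 23]), (8, [5, 0, 1, 0, 0, 0, 0, 0, 2, 0, 0, 23]),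
   (8, [9, 0, 0, 0, 0, 0, 0, 0, 2, 0, 0, 23]), (3, [1, 0, 3, 0, 0, 0, 0, 0, 1, 0, 0, 23]),
   (6, [9, 0, 1, 0, 0, 0, 0, 0, 1, 0, 0, 23]), (3, [1, 0, 4, 0, 0, 0, 0, 0, 0, 0, 0, 23]),
   (6, [5, 0, 3, 0, 0, 0, 0, 0, 0, 0, 0, 23]), (3, [13, 0, 1, 0, 0, 0, 0, 0, 0, 0, 0, 23]),
   (4, [17, 0, 0, 0, 0, 0, 0, 0, 0, 0, 0, 23]), (3, [1, 0, 1, 0, 0, 0, 0, 0, 0, 1, 0, 22]),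
   (6, [5, 0, 0, 0, 0, 0, 0, 0, 0, 1, 0, 22]), (6, [2, 0, 1, 0, 0, 0, 0, 0, 3, 0, 0, 22]),
   (3, [2, 0, 2, 0, 0, 0, 0, 0, 2, 0, 0, 22]), (1, [6, 0, 2, 0, 0, 0, 0, 0, 1, 0, 0, 22]),
   (1, [10, 0, 1, 0, 0, 0, 0, 0, 1, 0, 0, 22]), (5, [14, 0, 0, 0, 0, 0, 0, 0, 1, 0, 0, 22]),
   (6, [6, 0, 3, 0, 0, 0, 0, 0, 0, 0, 0, 22]), (4, [10, 0, 2, 0, 0, 0, 0, 0, 0, 0, 0, 22]),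
   (2, [14, 0, 1, 0, 0, 0, 0, 0, 0, 0, 0, 22]), (5, [18, 0, 0, 0, 0, 0, 0, 0, 0, 0, 0, 22]),
   (3, [6, 0, 0, 0, 0, 0, 0, 0, 0, 1, 0, 21]), (3, [3, 0, 0, 0, 0, 0, 0, 0, 4, 0, 0, 21]),
   (7, [3, 0, 1, 0, 0, 0, 0, 0, 3, 0, 0, 21]), (6, [7, 0, 0, 0, 0, 0, 0, 0, 3, 0, 0, 21]),
   (1, [3, 0, 2, 0, 0, 0, 0, 0, 2, 0, 0, 21]), (7, [7, 0, 1, 0, 0, 0, 0, 0, 2, 0, 0, 21]),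
   (4, [11, 0, 0, 0, 0, 0, 0, 0, 2, 0, 0, 21]), (3, [7, 0, 2, 0, 0, 0, 0, 0, 1, 0, 0, 21]),
   (5, [15, 0, 0, 0, 0, 0, 0, 0, 1, 0, 0, 21]), (6, [3, 0, 4, 0, 0, 0, 0, 0, 0, 0, 0, 21]),
   (3, [7, 0, 3, 0, 0, 0, 0, 0, 0, 0, 0, 21]), (3, [11, 0, 2, 0, 0, 0, 0, 0, 0, 0, 0, 21]),
   (5, [15, 0, 1, 0, 0, 0, 0, 0, 0, 0, 0, 21]), (3, [3, 0, 0, 0, 0, 0, 0, 0, 1, 1, 0, 20]),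
   (6, [3, 0, 1, 0, 0, 0, 0, 0, 0, 1, 0, 20]), (3, [7, 0, 0, 0, 0, 0, 0, 0, 0, 1, 0, 20]),
   (6, [4, 0, 0, 0, 0, 0, 0, 0, 4, 0, 0, 20]), (3, [4, 0, 1, 0, 0, 0, 0, 0, 3, 0, 0, 20]),
   (1, [8, 0, 0, 0, 0, 0, 0, 0, 3, 0, 0, 20]), (3, [0, 0, 3, 0, 0, 0, 0, 0, 2, 0, 0, 20]),
   (7, [8, 0, 1, 0, 0, 0, 0, 0, 2, 0, 0, 20]), (8, [12, 0, 0, 0, 0, 0, 0, 0, 2, 0, 0, 20]),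
   (6, [8, 0, 2, 0, 0, 0, 0, 0, 1, 0, 0, 20]), (5, [12, 0, 1, 0, 0, 0, 0, 0, 1, 0, 0, 20]),
   (8, [0, 0, 5, 0, 0, 0, 0, 0, 0, 0, 0, 20]), (2, [4, 0, 4, 0, 0, 0, 0, 0, 0, 0, 0, 20]),
   (2, [8, 0, 3, 0, 0, 0, 0, 0, 0, 0, 0, 20]), (6, [12, 0, 2, 0, 0, 0, 0, 0, 0, 0, 0, 20]),
   (3, [16, 0, 1, 0, 0, 0, 0, 0, 0, 0, 0, 20]), (7, [20, 0, 0, 0, 0, 0, 0, 0, 0, 0, 0, 20]),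
   (8, [0, 0, 2, 0, 0, 0, 0, 0, 0, 1, 0, 19]), (2, [4, 0, 1, 0, 0, 0, 0, 0, 0, 1, 0, 19]),
   (2, [8, 0, 0, 0, 0, 0, 0, 0, 0, 1, 0, 19]), (1, [5, 0, 0, 0, 0, 0, 0, 0, 4, 0, 0, 19]),
   (1, [1, 0, 2, 0, 0, 0, 0, 0, 3, 0, 0, 19]), (7, [5, 0, 1, 0, 0, 0, 0, 0, 3, 0, 0, 19]),
   (3, [9, 0, 0, 0, 0, 0, 0, 0, 3, 0, 0, 19]), (6, [5, 0, 2, 0, 0, 0, 0, 0, 2, 0, 0, 19]),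
   (3, [9, 0, 1, 0, 0, 0, 0, 0, 2, 0, 0, 19]), (8, [13, 0, 0, 0, 0, 0, 0, 0, 2, 0, 0, 19]),
   (8, [9, 0, 2, 0, 0, 0, 0, 0, 1, 0, 0, 19]), (6, [0, 0, 2, 0, 1, 0, 0, 0, 0, 0, 0, 19]),
   (6, [4, 0, 1, 0, 1, 0, 0, 0, 0, 0, 0, 19]), (6, [8, 0, 0, 0, 1, 0, 0, 0, 0, 0, 0, 19]),
   (3, [1, 0, 5, 0, 0, 0, 0, 0, 0, 0, 0, 19]), (7, [5, 0, 4, 0, 0, 0, 0, 0, 0, 0, 0, 19]),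
   (8, [9, 0, 3, 0, 0, 0, 0, 0, 0, 0, 0, 19]), (3, [13, 0, 2, 0, 0, 0, 0, 0, 0, 0, 0, 19]),
   (4, [17, 0, 1, 0, 0, 0, 0, 0, 0, 0, 0, 19]), (2, [21, 0, 0, 0, 0, 0, 0, 0, 0, 0, 0, 19]),
   (6, [1, 0, 2, 0, 0, 0, 0, 0, 0, 1, 0, 18]), (1, [5, 0, 1, 0, 0, 0, 0, 0, 0, 1, 0, 18]),
   (2, [9, 0, 0, 0, 0, 0, 0, 0, 0, 1, 0, 18]), (7, [2, 0, 1, 0, 0, 0, 0, 0, 4, 0, 0, 18]),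
   (7, [6, 0, 0, 0, 0, 0, 0, 0, 4, 0, 0, 18]), (3, [2, 0, 2, 0, 0, 0, 0, 0, 3, 0, 0, 18]),
   (5, [6, 0, 1, 0, 0, 0, 0, 0, 3, 0, 0, 18]), (6, [2, 0, 3, 0, 0, 0, 0, 0, 2, 0, 0, 18]),
   (6, [10, 0, 1, 0, 0, 0, 0, 0, 2, 0, 0, 18]), (4, [14, 0, 0, 0, 0, 0, 0, 0, 2, 0, 0, 18]),
   (4, [2, 0, 4, 0, 0, 0, 0, 0, 1, 0, 0, 18]), (5, [6, 0, 3, 0, 0, 0, 0, 0, 1, 0, 0, 18]),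
   (6, [10, 0, 2, 0, 0, 0, 0, 0, 1, 0, 0, 18]), (7, [18, 0, 0, 0, 0, 0, 0, 0, 1, 0, 0, 18]),
   (3, [5, 0, 1, 0, 1, 0, 0, 0, 0, 0, 0, 18]), (6, [9, 0, 0, 0, 1, 0, 0, 0, 0, 0, 0, 18]),
   (3, [2, 0, 5, 0, 0, 0, 0, 0, 0, 0, 0, 18]), (6, [6, 0, 4, 0, 0, 0, 0, 0, 0, 0, 0, 18]),
   (8, [10, 0, 3, 0, 0, 0, 0, 0, 0, 0, 0, 18]), (6, [14, 0, 2, 0, 0, 0, 0, 0, 0, 0, 0, 18]),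
   (3, [18, 0, 1, 0, 0, 0, 0, 0, 0, 0, 0, 18]), (6, [2, 0, 0, 0, 0, 0, 0, 0, 2, 1, 0, 17]),
   (4, [2, 0, 1, 0, 0, 0, 0, 0, 1, 1, 0, 17]), (5, [6, 0, 0, 0, 0, 0, 0, 0, 1, 1, 0, 17]),
   (3, [2, 0, 2, 0, 0, 0, 0, 0, 0, 1, 0, 17]), (3, [6, 0, 1, 0, 0, 0, 0, 0, 0, 1, 0, 17]),
   (2, [10, 0, 0, 0, 0, 0, 0, 0, 0, 1, 0, 17]), (3, [3, 0, 0, 0, 0, 0, 0, 0, 5, 0, 0, 17]),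
   (5, [3, 0, 1, 0, 0, 0, 0, 0, 4, 0, 0, 17]), (6, [3, 0, 2, 0, 0, 0, 0, 0, 3, 0, 0, 17]),
   (3, [7, 0, 1, 0, 0, 0, 0, 0, 3, 0, 0, 17]), (1, [11, 0, 0, 0, 0, 0, 0, 0, 3, 0, 0, 17]),
   (3, [7, 0, 2, 0, 0, 0, 0, 0, 2, 0, 0, 17]), (2, [11, 0, 1, 0, 0, 0, 0, 0, 2, 0, 0, 17]),
   (2, [15, 0, 0, 0, 0, 0, 0, 0, 2, 0, 0, 17]), (3, [2, 0, 1, 0, 1, 0, 0, 0, 1, 0, 0, 17]),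
   (6, [6, 0, 0, 0, 1, 0, 0, 0, 1, 0, 0, 17]), (1, [7, 0, 3, 0, 0, 0, 0, 0, 1, 0, 0, 17]),
   (6, [15, 0, 1, 0, 0, 0, 0, 0, 1, 0, 0, 17]), (2, [19, 0, 0, 0, 0, 0, 0, 0, 1, 0, 0, 17]),
   (6, [10, 0, 0, 0, 1, 0, 0, 0, 0, 0, 0, 17]), (2, [7, 0, 4, 0, 0, 0, 0, 0, 0, 0, 0, 17]),
   (1, [11, 0, 3, 0, 0, 0, 0, 0, 0, 0, 0, 17]), (5, [23, 0, 0, 0, 0, 0, 0, 0, 0, 0, 0, 17]),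
   (6, [3, 0, 1, 0, 0, 0, 0, 0, 1, 1, 0, 16]), (4, [7, 0, 0, 0, 0, 0, 0, 0, 1, 1, 0, 16]),
   (2, [7, 0, 1, 0, 0, 0, 0, 0, 0, 1, 0, 16]), (4, [11, 0, 0, 0, 0, 0, 0, 0, 0, 1, 0, 16]),
   (2, [4, 0, 0, 0, 0, 0, 0, 0, 5, 0, 0, 16]), (1, [4, 0, 1, 0, 0, 0, 0, 0, 4, 0, 0, 16]),
   (7, [8, 0, 0, 0, 0, 0, 0, 0, 4, 0, 0, 16]), (7, [8, 0, 1, 0, 0, 0, 0, 0, 3, 0, 0, 16]),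
   (5, [12, 0, 0, 0, 0, 0, 0, 0, 3, 0, 0, 16]), (2, [4, 0, 3, 0, 0, 0, 0, 0, 2, 0, 0, 16]),
   (7, [12, 0, 1, 0, 0, 0, 0, 0, 2, 0, 0, 16]), (3, [7, 0, 0, 0, 1, 0, 0, 0, 1, 0, 0, 16]),
   (1, [4, 0, 4, 0, 0, 0, 0, 0, 1, 0, 0, 16]), (5, [8, 0, 3, 0, 0, 0, 0, 0, 1, 0, 0, 16]),
   (6, [12, 0, 2, 0, 0, 0, 0, 0, 1, 0, 0, 16]), (7, [16, 0, 1, 0, 0, 0, 0, 0, 1, 0, 0, 16]),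
   (2, [20, 0, 0, 0, 0, 0, 0, 0, 1, 0, 0, 16]), (6, [7, 0, 1, 0, 1, 0, 0, 0, 0, 0, 0, 16]),
   (3, [11, 0, 0, 0, 1, 0, 0, 0, 0, 0, 0, 16]), (3, [4, 0, 5, 0, 0, 0, 0, 0, 0, 0, 0, 16]),
   (6, [8, 0, 4, 0, 0, 0, 0, 0, 0, 0, 0, 16]), (2, [12, 0, 3, 0, 0, 0, 0, 0, 0, 0, 0, 16]),
   (6, [16, 0, 2, 0, 0, 0, 0, 0, 0, 0, 0, 16]), (4, [20, 0, 1, 0, 0, 0, 0, 0, 0, 0, 0, 16]),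
   (7, [24, 0, 0, 0, 0, 0, 0, 0, 0, 0, 0, 16]), (2, [4, 0, 0, 0, 0, 0, 0, 0, 2, 1, 0, 15]),
   (1, [4, 0, 1, 0, 0, 0, 0, 0, 1, 1, 0, 15]), (2, [8, 0, 0, 0, 0, 0, 0, 0, 1, 1, 0, 15]),
   (3, [4, 0, 2, 0, 0, 0, 0, 0, 0, 1, 0, 15]), (8, [12, 0, 0, 0, 0, 0, 0, 0, 0, 1, 0, 15]),
   (7, [5, 0, 0, 0, 0, 0, 0, 0, 5, 0, 0, 15]), (3, [1, 0, 2, 0, 0, 0, 0, 0, 4, 0, 0, 15]),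
   (5, [5, 0, 1, 0, 0, 0, 0, 0, 4, 0, 0, 15]), (5, [9, 0, 0, 0, 0, 0, 0, 0, 4, 0, 0, 15]),
   (6, [5, 0, 2, 0, 0, 0, 0, 0, 3, 0, 0, 15]), (5, [9, 0, 1, 0, 0, 0, 0, 0, 3, 0, 0, 15]),
   (6, [13, 0, 0, 0, 0, 0, 0, 0, 3, 0, 0, 15]), (6, [4, 0, 0, 0, 1, 0, 0, 0, 2, 0, 0, 15]),
   (8, [1, 0, 4, 0, 0, 0, 0, 0, 2, 0, 0, 15]), (7, [5, 0, 3, 0, 0, 0, 0, 0, 2, 0, 0, 15]),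
   (3, [13, 0, 1, 0, 0, 0, 0, 0, 2, 0, 0, 15]), (3, [17, 0, 0, 0, 0, 0, 0, 0, 2, 0, 0, 15]),
   (3, [4, 0, 1, 0, 1, 0, 0, 0, 1, 0, 0, 15]), (6, [8, 0, 0, 0, 1, 0, 0, 0, 1, 0, 0, 15]),
   (3, [1, 0, 5, 0, 0, 0, 0, 0, 1, 0, 0, 15]), (6, [5, 0, 4, 0, 0, 0, 0, 0, 1, 0, 0, 15]),
   (3, [9, 0, 3, 0, 0, 0, 0, 0, 1, 0, 0, 15]), (6, [13, 0, 2, 0, 0, 0, 0, 0, 1, 0, 0, 15]),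
   (3, [21, 0, 0, 0, 0, 0, 0, 0, 1, 0, 0, 15]), (6, [12, 0, 0, 0, 1, 0, 0, 0, 0, 0, 0, 15]),
   (3, [1, 0, 6, 0, 0, 0, 0, 0, 0, 0, 0, 15]), (3, [13, 0, 3, 0, 0, 0, 0, 0, 0, 0, 0, 15]),
   (6, [21, 0, 1, 0, 0, 0, 0, 0, 0, 0, 0, 15]), (8, [25, 0, 0, 0, 0, 0, 0, 0, 0, 0, 0, 15]),
   (8, [1, 0, 1, 0, 0, 0, 0, 0, 2, 1, 0, 14]), (1, [5, 0, 0, 0, 0, 0, 0, 0, 2, 1, 0, 14]),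
   (3, [1, 0, 2, 0, 0, 0, 0, 0, 1, 1, 0, 14]), (3, [5, 0, 1, 0, 0, 0, 0, 0, 1, 1, 0, 14]),
   (6, [9, 0, 0, 0, 0, 0, 0, 0, 1, 1, 0, 14]), (6, [1, 0, 3, 0, 0, 0, 0, 0, 0, 1, 0, 14]),
   (6, [13, 0, 0, 0, 0, 0, 0, 0, 0, 1, 0, 14]), (1, [2, 0, 1, 0, 0, 0, 0, 0, 5, 0, 0, 14]),
   (6, [6, 0, 0, 0, 0, 0, 0, 0, 5, 0, 0, 14]), (6, [2, 0, 2, 0, 0, 0, 0, 0, 4, 0, 0, 14]),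
   (4, [6, 0, 1, 0, 0, 0, 0, 0, 4, 0, 0, 14]), (8, [10, 0, 0, 0, 0, 0, 0, 0, 4, 0, 0, 14]),
   (3, [2, 0, 3, 0, 0, 0, 0, 0, 3, 0, 0, 14]), (8, [10, 0, 1, 0, 0, 0, 0, 0, 3, 0, 0, 14]),
   (6, [14, 0, 0, 0, 0, 0, 0, 0, 3, 0, 0, 14]), (6, [1, 0, 1, 0, 1, 0, 0, 0, 2, 0, 0, 14]),
   (3, [5, 0, 0, 0, 1, 0, 0, 0, 2, 0, 0, 14]), (3, [6, 0, 3, 0, 0, 0, 0, 0, 2, 0, 0, 14]),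
   (3, [14, 0, 1, 0, 0, 0, 0, 0, 2, 0, 0, 14]), (4, [18, 0, 0, 0, 0, 0, 0, 0, 2, 0, 0, 14]),
   (7, [6, 0, 4, 0, 0, 0, 0, 0, 1, 0, 0, 14]), (8, [10, 0, 3, 0, 0, 0, 0, 0, 1, 0, 0, 14]),
   (6, [18, 0, 1, 0, 0, 0, 0, 0, 1, 0, 0, 14]), (3, [6, 0, 5, 0, 0, 0, 0, 0, 0, 0, 0, 14]),
   (4, [10, 0, 4, 0, 0, 0, 0, 0, 0, 0, 0, 14]), (4, [14, 0, 3, 0, 0, 0, 0, 0, 0, 0, 0, 14]),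
   (3, [26, 0, 0, 0, 0, 0, 0, 0, 0, 0, 0, 14]), (3, [1, 0, 0, 0, 0, 0, 0, 0, 0, 2, 0, 13]),
   (3, [2, 0, 0, 0, 0, 0, 0, 0, 3, 1, 0, 13]), (3, [2, 0, 1, 0, 0, 0, 0, 0, 2, 1, 0, 13]),
   (7, [6, 0, 1, 0, 0, 0, 0, 0, 1, 1, 0, 13]), (8, [10, 0, 0, 0, 0, 0, 0, 0, 1, 1, 0, 13]),
   (3, [6, 0, 2, 0, 0, 0, 0, 0, 0, 1, 0, 13]), (4, [10, 0, 1, 0, 0, 0, 0, 0, 0, 1, 0, 13]),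
   (4, [14, 0, 0, 0, 0, 0, 0, 0, 0, 1, 0, 13]), (3, [3, 0, 0, 0, 0, 0, 0, 0, 6, 0, 0, 13]),
   (6, [7, 0, 0, 0, 0, 0, 0, 0, 5, 0, 0, 13]), (6, [3, 0, 2, 0, 0, 0, 0, 0, 4, 0, 0, 13]),
   (5, [7, 0, 1, 0, 0, 0, 0, 0, 4, 0, 0, 13]), (3, [11, 0, 0, 0, 0, 0, 0, 0, 4, 0, 0, 13]),
   (2, [3, 0, 3, 0, 0, 0, 0, 0, 3, 0, 0, 13]), (6, [7, 0, 2, 0, 0, 0, 0, 0, 3, 0, 0, 13]),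
   (5, [11, 0, 1, 0, 0, 0, 0, 0, 3, 0, 0, 13]), (4, [15, 0, 0, 0, 0, 0, 0, 0, 3, 0, 0, 13]),
   (7, [3, 0, 4, 0, 0, 0, 0, 0, 2, 0, 0, 13]), (2, [7, 0, 3, 0, 0, 0, 0, 0, 2, 0, 0, 13]),
   (4, [15, 0, 1, 0, 0, 0, 0, 0, 2, 0, 0, 13]), (5, [19, 0, 0, 0, 0, 0, 0, 0, 2, 0, 0, 13]),
   (3, [6, 0, 1, 0, 1, 0, 0, 0, 1, 0, 0, 13]), (6, [10, 0, 0, 0, 1, 0, 0, 0, 1, 0, 0, 13]),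
   (6, [3, 0, 5, 0, 0, 0, 0, 0, 1, 0, 0, 13]), (3, [7, 0, 4, 0, 0, 0, 0, 0, 1, 0, 0, 13]),
   (3, [11, 0, 3, 0, 0, 0, 0, 0, 1, 0, 0, 13]), (3, [15, 0, 2, 0, 0, 0, 0, 0, 1, 0, 0, 13]),
   (4, [19, 0, 1, 0, 0, 0, 0, 0, 1, 0, 0, 13]), (5, [23, 0, 0, 0, 0, 0, 0, 0, 1, 0, 0, 13]),
   (3, [10, 0, 1, 0, 1, 0, 0, 0, 0, 0, 0, 13]), (3, [14, 0, 0, 0, 1, 0, 0, 0, 0, 0, 0, 13]),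
   (6, [3, 0, 6, 0, 0, 0, 0, 0, 0, 0, 0, 13]), (6, [11, 0, 4, 0, 0, 0, 0, 0, 0, 0, 0, 13]),
   (4, [15, 0, 3, 0, 0, 0, 0, 0, 0, 0, 0, 13]), (3, [23, 0, 1, 0, 0, 0, 0, 0, 0, 0, 0, 13]),
   (5, [27, 0, 0, 0, 0, 0, 0, 0, 0, 0, 0, 13]), (2, [3, 0, 0, 0, 0, 0, 0, 0, 3, 1, 0, 12]),
   (7, [3, 0, 1, 0, 0, 0, 0, 0, 2, 1, 0, 12]), (2, [7, 0, 0, 0, 0, 0, 0, 0, 2, 1, 0, 12]),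
   (6, [3, 0, 2, 0, 0, 0, 0, 0, 1, 1, 0, 12]), (6, [11, 0, 0, 0, 0, 0, 0, 0, 1, 1, 0, 12]),
   (3, [3, 0, 3, 0, 0, 0, 0, 0, 0, 1, 0, 12]), (3, [11, 0, 1, 0, 0, 0, 0, 0, 0, 1, 0, 12]),
   (1, [15, 0, 0, 0, 0, 0, 0, 0, 0, 1, 0, 12]), (6, [4, 0, 0, 0, 0, 0, 0, 0, 6, 0, 0, 12]),
   (2, [4, 0, 1, 0, 0, 0, 0, 0, 5, 0, 0, 12]), (1, [8, 0, 0, 0, 0, 0, 0, 0, 5, 0, 0, 12]),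
   (3, [4, 0, 2, 0, 0, 0, 0, 0, 4, 0, 0, 12]), (3, [8, 0, 1, 0, 0, 0, 0, 0, 4, 0, 0, 12]),
   (5, [12, 0, 0, 0, 0, 0, 0, 0, 4, 0, 0, 12]), (6, [3, 0, 0, 0, 1, 0, 0, 0, 3, 0, 0, 12]),
   (3, [4, 0, 3, 0, 0, 0, 0, 0, 3, 0, 0, 12]), (1, [12, 0, 1, 0, 0, 0, 0, 0, 3, 0, 0, 12]),
   (2, [16, 0, 0, 0, 0, 0, 0, 0, 3, 0, 0, 12]), (3, [3, 0, 1, 0, 1, 0, 0, 0, 2, 0, 0, 12]),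
   (6, [7, 0, 0, 0, 1, 0, 0, 0, 2, 0, 0, 12]), (3, [0, 0, 5, 0, 0, 0, 0, 0, 2, 0, 0, 12]),
   (6, [4, 0, 4, 0, 0, 0, 0, 0, 2, 0, 0, 12]), (2, [8, 0, 3, 0, 0, 0, 0, 0, 2, 0, 0, 12]),
   (6, [12, 0, 2, 0, 0, 0, 0, 0, 2, 0, 0, 12]), (3, [20, 0, 0, 0, 0, 0, 0, 0, 2, 0, 0, 12]),
   (3, [8, 0, 4, 0, 0, 0, 0, 0, 1, 0, 0, 12]), (7, [12, 0, 3, 0, 0, 0, 0, 0, 1, 0, 0, 12]),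
   (3, [20, 0, 1, 0, 0, 0, 0, 0, 1, 0, 0, 12]), (1, [24, 0, 0, 0, 0, 0, 0, 0, 1, 0, 0, 12]),
   (3, [15, 0, 0, 0, 1, 0, 0, 0, 0, 0, 0, 12]), (1, [0, 0, 7, 0, 0, 0, 0, 0, 0, 0, 0, 12]),
   (8, [4, 0, 6, 0, 0, 0, 0, 0, 0, 0, 0, 12]), (3, [12, 0, 4, 0, 0, 0, 0, 0, 0, 0, 0, 12]),
   (6, [28, 0, 0, 0, 0, 0, 0, 0, 0, 0, 0, 12]), (6, [3, 0, 0, 0, 0, 0, 0, 0, 0, 2, 0, 11]),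
   (6, [4, 0, 0, 0, 0, 0, 0, 0, 3, 1, 0, 11]), (3, [0, 0, 2, 0, 0, 0, 0, 0, 2, 1, 0, 11]),
   (3, [4, 0, 1, 0, 0, 0, 0, 0, 2, 1, 0, 11]), (5, [8, 0, 0, 0, 0, 0, 0, 0, 2, 1, 0, 11]),
   (3, [8, 0, 1, 0, 0, 0, 0, 0, 1, 1, 0, 11]), (7, [12, 0, 0, 0, 0, 0, 0, 0, 1, 1, 0, 11]),
   (2, [0, 0, 4, 0, 0, 0, 0, 0, 0, 1, 0, 11]), (7, [4, 0, 3, 0, 0, 0, 0, 0, 0, 1, 0, 11]),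
   (3, [12, 0, 1, 0, 0, 0, 0, 0, 0, 1, 0, 11]), (6, [16, 0, 0, 0, 0, 0, 0, 0, 0, 1, 0, 11]),
   (6, [5, 0, 0, 0, 0, 0, 0, 0, 6, 0, 0, 11]), (6, [1, 0, 2, 0, 0, 0, 0, 0, 5, 0, 0, 11]),
   (6, [5, 0, 1, 0, 0, 0, 0, 0, 5, 0, 0, 11]), (7, [9, 0, 0, 0, 0, 0, 0, 0, 5, 0, 0, 11]),
   (6, [9, 0, 1, 0, 0, 0, 0, 0, 4, 0, 0, 11]), (6, [13, 0, 0, 0, 0, 0, 0, 0, 4, 0, 0, 11]),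
   (7, [1, 0, 4, 0, 0, 0, 0, 0, 3, 0, 0, 11]), (5, [5, 0, 3, 0, 0, 0, 0, 0, 3, 0, 0, 11]),
   (3, [9, 0, 2, 0, 0, 0, 0, 0, 3, 0, 0, 11]), (6, [13, 0, 1, 0, 0, 0, 0, 0, 3, 0, 0, 11]),
   (2, [17, 0, 0, 0, 0, 0, 0, 0, 3, 0, 0, 11]), (6, [8, 0, 0, 0, 1, 0, 0, 0, 2, 0, 0, 11]),
   (3, [5, 0, 4, 0, 0, 0, 0, 0, 2, 0, 0, 11]), (6, [9, 0, 3, 0, 0, 0, 0, 0, 2, 0, 0, 11]),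
   (6, [17, 0, 1, 0, 0, 0, 0, 0, 2, 0, 0, 11]), (2, [21, 0, 0, 0, 0, 0, 0, 0, 2, 0, 0, 11]),
   (3, [12, 0, 0, 0, 1, 0, 0, 0, 1, 0, 0, 11]), (2, [9, 0, 4, 0, 0, 0, 0, 0, 1, 0, 0, 11]),
   (6, [13, 0, 3, 0, 0, 0, 0, 0, 1, 0, 0, 11]), (3, [25, 0, 0, 0, 0, 0, 0, 0, 1, 0, 0, 11]),
   (6, [0, 0, 4, 0, 1, 0, 0, 0, 0, 0, 0, 11]), (3, [4, 0, 3, 0, 1, 0, 0, 0, 0, 0, 0, 11]),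
   (7, [5, 0, 6, 0, 0, 0, 0, 0, 0, 0, 0, 11]), (6, [13, 0, 4, 0, 0, 0, 0, 0, 0, 0, 0, 11]),
   (8, [17, 0, 3, 0, 0, 0, 0, 0, 0, 0, 0, 11]), (1, [0, 0, 1, 0, 0, 0, 0, 0, 0, 2, 0, 10]),
   (8, [4, 0, 0, 0, 0, 0, 0, 0, 0, 2, 0, 10]), (7, [1, 0, 1, 0, 0, 0, 0, 0, 3, 1, 0, 10]),
   (5, [5, 0, 0, 0, 0, 0, 0, 0, 3, 1, 0, 10]), (3, [5, 0, 1, 0, 0, 0, 0, 0, 2, 1, 0, 10]),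
   (2, [9, 0, 1, 0, 0, 0, 0, 0, 1, 1, 0, 10]), (3, [13, 0, 0, 0, 0, 0, 0, 0, 1, 1, 0, 10]),
   (6, [0, 0, 1, 0, 1, 0, 0, 0, 0, 1, 0, 10]), (3, [4, 0, 0, 0, 1, 0, 0, 0, 0, 1, 0, 10]),
   (3, [1, 0, 4, 0, 0, 0, 0, 0, 0, 1, 0, 10]), (2, [5, 0, 3, 0, 0, 0, 0, 0, 0, 1, 0, 10]),
   (6, [13, 0, 1, 0, 0, 0, 0, 0, 0, 1, 0, 10]), (8, [17, 0, 0, 0, 0, 0, 0, 0, 0, 1, 0, 10]),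
   (8, [2, 0, 0, 0, 0, 0, 0, 0, 7, 0, 0, 10]), (1, [2, 0, 1, 0, 0, 0, 0, 0, 6, 0, 0, 10]),
   (6, [6, 0, 0, 0, 0, 0, 0, 0, 6, 0, 0, 10]), (6, [6, 0, 1, 0, 0, 0, 0, 0, 5, 0, 0, 10]),
   (1, [10, 0, 0, 0, 0, 0, 0, 0, 5, 0, 0, 10]), (2, [2, 0, 3, 0, 0, 0, 0, 0, 4, 0, 0, 10]),
   (4, [10, 0, 1, 0, 0, 0, 0, 0, 4, 0, 0, 10]), (7, [14, 0, 0, 0, 0, 0, 0, 0, 4, 0, 0, 10]),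
   (3, [1, 0, 1, 0, 1, 0, 0, 0, 3, 0, 0, 10]), (6, [5, 0, 0, 0, 1, 0, 0, 0, 3, 0, 0, 10]),
   (6, [2, 0, 4, 0, 0, 0, 0, 0, 3, 0, 0, 10]), (7, [6, 0, 3, 0, 0, 0, 0, 0, 3, 0, 0, 10]),
   (6, [14, 0, 1, 0, 0, 0, 0, 0, 3, 0, 0, 10]), (1, [18, 0, 0, 0, 0, 0, 0, 0, 3, 0, 0, 10]),
   (6, [10, 0, 3, 0, 0, 0, 0, 0, 2, 0, 0, 10]), (1, [18, 0, 1, 0, 0, 0, 0, 0, 2, 0, 0, 10]),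
   (8, [22, 0, 0, 0, 0, 0, 0, 0, 2, 0, 0, 10]), (6, [9, 0, 1, 0, 1, 0, 0, 0, 1, 0, 0, 10]),
   (7, [2, 0, 6, 0, 0, 0, 0, 0, 1, 0, 0, 10]), (3, [10, 0, 4, 0, 0, 0, 0, 0, 1, 0, 0, 10]),
   (6, [14, 0, 3, 0, 0, 0, 0, 0, 1, 0, 0, 10]), (3, [22, 0, 1, 0, 0, 0, 0, 0, 1, 0, 0, 10]),
   (6, [5, 0, 3, 0, 1, 0, 0, 0, 0, 0, 0, 10]), (6, [17, 0, 0, 0, 1, 0, 0, 0, 0, 0, 0, 10]),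
   (3, [2, 0, 7, 0, 0, 0, 0, 0, 0, 0, 0, 10]), (3, [6, 0, 6, 0, 0, 0, 0, 0, 0, 0, 0, 10]),
   (3, [14, 0, 4, 0, 0, 0, 0, 0, 0, 0, 0, 10]), (3, [26, 0, 1, 0, 0, 0, 0, 0, 0, 0, 0, 10]),
   (3, [1, 0, 1, 0, 0, 0, 0, 0, 0, 2, 0, 9]), (4, [5, 0, 0, 0, 0, 0, 0, 0, 0, 2, 0, 9]),
   (2, [2, 0, 0, 0, 0, 0, 0, 0, 4, 1, 0, 9]), (3, [2, 0, 1, 0, 0, 0, 0, 0, 3, 1, 0, 9]),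
   (1, [6, 0, 0, 0, 0, 0, 0, 0, 3, 1, 0, 9]), (6, [10, 0, 0, 0, 0, 0, 0, 0, 2, 1, 0, 9]),
   (5, [2, 0, 3, 0, 0, 0, 0, 0, 1, 1, 0, 9]), (6, [10, 0, 1, 0, 0, 0, 0, 0, 1, 1, 0, 9]),
   (6, [14, 0, 0, 0, 0, 0, 0, 0, 1, 1, 0, 9]), (6, [5, 0, 0, 0, 1, 0, 0, 0, 0, 1, 0, 9]),
   (6, [2, 0, 4, 0, 0, 0, 0, 0, 0, 1, 0, 9]), (3, [14, 0, 1, 0, 0, 0, 0, 0, 0, 1, 0, 9]),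
   (3, [18, 0, 0, 0, 0, 0, 0, 0, 0, 1, 0, 9]), (8, [3, 0, 0, 0, 0, 0, 0, 0, 7, 0, 0, 9]),
   (6, [3, 0, 1, 0, 0, 0, 0, 0, 6, 0, 0, 9]), (4, [7, 0, 0, 0, 0, 0, 0, 0, 6, 0, 0, 9]),
   (5, [11, 0, 0, 0, 0, 0, 0, 0, 5, 0, 0, 9]), (6, [2, 0, 0, 0, 1, 0, 0, 0, 4, 0, 0, 9]),
   (1, [3, 0, 3, 0, 0, 0, 0, 0, 4, 0, 0, 9]), (6, [11, 0, 1, 0, 0, 0, 0, 0, 4, 0, 0, 9]),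
   (8, [15, 0, 0, 0, 0, 0, 0, 0, 4, 0, 0, 9]), (3, [6, 0, 0, 0, 1, 0, 0, 0, 3, 0, 0, 9]),
   (3, [3, 0, 4, 0, 0, 0, 0, 0, 3, 0, 0, 9]), (6, [7, 0, 3, 0, 0, 0, 0, 0, 3, 0, 0, 9]),
   (3, [15, 0, 1, 0, 0, 0, 0, 0, 3, 0, 0, 9]), (6, [7, 0, 4, 0, 0, 0, 0, 0, 2, 0, 0, 9]),
   (4, [11, 0, 3, 0, 0, 0, 0, 0, 2, 0, 0, 9]), (3, [19, 0, 1, 0, 0, 0, 0, 0, 2, 0, 0, 9]),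
   (3, [23, 0, 0, 0, 0, 0, 0, 0, 2, 0, 0, 9]), (6, [2, 0, 3, 0, 1, 0, 0, 0, 1, 0, 0, 9]),
   (3, [3, 0, 6, 0, 0, 0, 0, 0, 1, 0, 0, 9]), (6, [27, 0, 0, 0, 0, 0, 0, 0, 1, 0, 0, 9]),
   (5, [7, 0, 6, 0, 0, 0, 0, 0, 0, 0, 0, 9]), (8, [27, 0, 1, 0, 0, 0, 0, 0, 0, 0, 0, 9]),
   (1, [31, 0, 0, 0, 0, 0, 0, 0, 0, 0, 0, 9]), (7, [2, 0, 0, 0, 0, 0, 0, 0, 1, 2, 0, 8]),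
   (3, [2, 0, 1, 0, 0, 0, 0, 0, 0, 2, 0, 8]), (6, [6, 0, 0, 0, 0, 0, 0, 0, 0, 2, 0, 8]),
   (4, [3, 0, 0, 0, 0, 0, 0, 0, 4, 1, 0, 8]), (3, [3, 0, 1, 0, 0, 0, 0, 0, 3, 1, 0, 8]),
   (3, [7, 0, 0, 0, 0, 0, 0, 0, 3, 1, 0, 8]), (6, [7, 0, 1, 0, 0, 0, 0, 0, 2, 1, 0, 8]),
   (4, [11, 0, 0, 0, 0, 0, 0, 0, 2, 1, 0, 8]), (6, [2, 0, 0, 0, 1, 0, 0, 0, 1, 1, 0, 8]),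
   (1, [7, 0, 3, 0, 0, 0, 0, 0, 0, 1, 0, 8]), (3, [4, 0, 0, 0, 0, 0, 0, 0, 7, 0, 0, 8]),
   (3, [4, 0, 1, 0, 0, 0, 0, 0, 6, 0, 0, 8]), (3, [8, 0, 0, 0, 0, 0, 0, 0, 6, 0, 0, 8]),
   (3, [8, 0, 1, 0, 0, 0, 0, 0, 5, 0, 0, 8]), (1, [12, 0, 0, 0, 0, 0, 0, 0, 5, 0, 0, 8]),
   (3, [3, 0, 0, 0, 1, 0, 0, 0, 4, 0, 0, 8]), (8, [4, 0, 3, 0, 0, 0, 0, 0, 4, 0, 0, 8]),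
   (6, [12, 0, 1, 0, 0, 0, 0, 0, 4, 0, 0, 8]), (1, [16, 0, 0, 0, 0, 0, 0, 0, 4, 0, 0, 8]),
   (8, [8, 0, 3, 0, 0, 0, 0, 0, 3, 0, 0, 8]), (6, [16, 0, 1, 0, 0, 0, 0, 0, 3, 0, 0, 8]),
   (6, [20, 0, 0, 0, 0, 0, 0, 0, 3, 0, 0, 8]), (3, [11, 0, 0, 0, 1, 0, 0, 0, 2, 0, 0, 8]),
   (8, [12, 0, 3, 0, 0, 0, 0, 0, 2, 0, 0, 8]), (3, [24, 0, 0, 0, 0, 0, 0, 0, 2, 0, 0, 8]),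
   (1, [4, 0, 6, 0, 0, 0, 0, 0, 1, 0, 0, 8]), (3, [12, 0, 4, 0, 0, 0, 0, 0, 1, 0, 0, 8]),
   (8, [16, 0, 3, 0, 0, 0, 0, 0, 1, 0, 0, 8]), (3, [7, 0, 3, 0, 1, 0, 0, 0, 0, 0, 0, 8]),
   (3, [4, 0, 7, 0, 0, 0, 0, 0, 0, 0, 0, 8]), (6, [8, 0, 6, 0, 0, 0, 0, 0, 0, 0, 0, 8]),
   (3, [16, 0, 4, 0, 0, 0, 0, 0, 0, 0, 0, 8]), (8, [20, 0, 3, 0, 0, 0, 0, 0, 0, 0, 0, 8]),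
   (6, [3, 0, 0, 0, 0, 0, 0, 0, 1, 2, 0, 7]), (5, [7, 0, 0, 0, 0, 0, 0, 0, 0, 2, 0, 7]),
   (5, [4, 0, 0, 0, 0, 0, 0, 0, 4, 1, 0, 7]), (8, [8, 0, 0, 0, 0, 0, 0, 0, 3, 1, 0, 7]),
   (5, [12, 0, 0, 0, 0, 0, 0, 0, 2, 1, 0, 7]), (2, [4, 0, 3, 0, 0, 0, 0, 0, 1, 1, 0, 7]),
   (3, [12, 0, 1, 0, 0, 0, 0, 0, 1, 1, 0, 7]), (8, [16, 0, 0, 0, 0, 0, 0, 0, 1, 1, 0, 7]),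
   (3, [7, 0, 0, 0, 1, 0, 0, 0, 0, 1, 0, 7]), (6, [4, 0, 4, 0, 0, 0, 0, 0, 0, 1, 0, 7]),
   (3, [16, 0, 1, 0, 0, 0, 0, 0, 0, 1, 0, 7]), (8, [20, 0, 0, 0, 0, 0, 0, 0, 0, 1, 0, 7]),
   (4, [1, 0, 0, 0, 0, 0, 0, 0, 8, 0, 0, 7]), (6, [1, 0, 1, 0, 0, 0, 0, 0, 7, 0, 0, 7]),
   (1, [5, 0, 0, 0, 0, 0, 0, 0, 7, 0, 0, 7]), (5, [9, 0, 0, 0, 0, 0, 0, 0, 6, 0, 0, 7]),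
   (6, [9, 0, 1, 0, 0, 0, 0, 0, 5, 0, 0, 7]), (6, [13, 0, 0, 0, 0, 0, 0, 0, 5, 0, 0, 7]),
   (6, [4, 0, 0, 0, 1, 0, 0, 0, 4, 0, 0, 7]), (6, [1, 0, 4, 0, 0, 0, 0, 0, 4, 0, 0, 7]),
   (4, [5, 0, 3, 0, 0, 0, 0, 0, 4, 0, 0, 7]), (3, [13, 0, 1, 0, 0, 0, 0, 0, 4, 0, 0, 7]),
   (1, [17, 0, 0, 0, 0, 0, 0, 0, 4, 0, 0, 7]), (6, [8, 0, 0, 0, 1, 0, 0, 0, 3, 0, 0, 7]),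
   (3, [5, 0, 4, 0, 0, 0, 0, 0, 3, 0, 0, 7]), (7, [9, 0, 3, 0, 0, 0, 0, 0, 3, 0, 0, 7]),
   (6, [17, 0, 1, 0, 0, 0, 0, 0, 3, 0, 0, 7]), (5, [21, 0, 0, 0, 0, 0, 0, 0, 3, 0, 0, 7]),
   (6, [12, 0, 0, 0, 1, 0, 0, 0, 2, 0, 0, 7]), (5, [1, 0, 6, 0, 0, 0, 0, 0, 2, 0, 0, 7]),
   (6, [13, 0, 3, 0, 0, 0, 0, 0, 2, 0, 0, 7]), (3, [21, 0, 1, 0, 0, 0, 0, 0, 2, 0, 0, 7]),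
   (3, [25, 0, 0, 0, 0, 0, 0, 0, 2, 0, 0, 7]), (6, [4, 0, 3, 0, 1, 0, 0, 0, 1, 0, 0, 7]),
   (6, [16, 0, 0, 0, 1, 0, 0, 0, 1, 0, 0, 7]), (3, [1, 0, 7, 0, 0, 0, 0, 0, 1, 0, 0, 7]),
   (3, [5, 0, 6, 0, 0, 0, 0, 0, 1, 0, 0, 7]), (3, [13, 0, 4, 0, 0, 0, 0, 0, 1, 0, 0, 7]),
   (3, [25, 0, 1, 0, 0, 0, 0, 0, 1, 0, 0, 7]), (8, [29, 0, 0, 0, 0, 0, 0, 0, 1, 0, 0, 7]),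
   (6, [20, 0, 0, 0, 1, 0, 0, 0, 0, 0, 0, 7]), (3, [21, 0, 3, 0, 0, 0, 0, 0, 0, 0, 0, 7]),
   (1, [4, 0, 0, 0, 0, 0, 0, 0, 1, 2, 0, 6]), (3, [4, 0, 1, 0, 0, 0, 0, 0, 0, 2, 0, 6]),
   (3, [8, 0, 0, 0, 0, 0, 0, 0, 0, 2, 0, 6]), (6, [1, 0, 1, 0, 0, 0, 0, 0, 4, 1, 0, 6]),
   (7, [5, 0, 0, 0, 0, 0, 0, 0, 4, 1, 0, 6]), (3, [5, 0, 1, 0, 0, 0, 0, 0, 3, 1, 0, 6]),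
   (1, [9, 0, 0, 0, 0, 0, 0, 0, 3, 1, 0, 6]), (1, [1, 0, 3, 0, 0, 0, 0, 0, 2, 1, 0, 6]),
   (6, [4, 0, 0, 0, 1, 0, 0, 0, 1, 1, 0, 6]), (6, [1, 0, 4, 0, 0, 0, 0, 0, 1, 1, 0, 6]),
   (3, [13, 0, 1, 0, 0, 0, 0, 0, 1, 1, 0, 6]), (3, [17, 0, 0, 0, 0, 0, 0, 0, 1, 1, 0, 6]),
   (6, [21, 0, 0, 0, 0, 0, 0, 0, 0, 1, 0, 6]), (6, [2, 0, 0, 0, 0, 0, 0, 0, 8, 0, 0, 6]),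
   (3, [2, 0, 1, 0, 0, 0, 0, 0, 7, 0, 0, 6]), (6, [6, 0, 0, 0, 0, 0, 0, 0, 7, 0, 0, 6]),
   (3, [6, 0, 1, 0, 0, 0, 0, 0, 6, 0, 0, 6]), (8, [2, 0, 3, 0, 0, 0, 0, 0, 5, 0, 0, 6]),
   (6, [10, 0, 1, 0, 0, 0, 0, 0, 5, 0, 0, 6]), (3, [5, 0, 0, 0, 1, 0, 0, 0, 4, 0, 0, 6]),
   (3, [2, 0, 4, 0, 0, 0, 0, 0, 4, 0, 0, 6]), (8, [6, 0, 3, 0, 0, 0, 0, 0, 4, 0, 0, 6]),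
   (6, [14, 0, 1, 0, 0, 0, 0, 0, 4, 0, 0, 6]), (6, [18, 0, 0, 0, 0, 0, 0, 0, 4, 0, 0, 6]),
   (3, [9, 0, 0, 0, 1, 0, 0, 0, 3, 0, 0, 6]), (4, [10, 0, 3, 0, 0, 0, 0, 0, 3, 0, 0, 6]),
   (6, [18, 0, 1, 0, 0, 0, 0, 0, 3, 0, 0, 6]), (2, [22, 0, 0, 0, 0, 0, 0, 0, 3, 0, 0, 6]),
   (3, [1, 0, 3, 0, 1, 0, 0, 0, 2, 0, 0, 6]), (6, [2, 0, 6, 0, 0, 0, 0, 0, 2, 0, 0, 6]),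
   (1, [6, 0, 6, 0, 0, 0, 0, 0, 1, 0, 0, 6]), (6, [30, 0, 0, 0, 0, 0, 0, 0, 1, 0, 0, 6]),
   (3, [6, 0, 7, 0, 0, 0, 0, 0, 0, 0, 0, 6]), (1, [10, 0, 6, 0, 0, 0, 0, 0, 0, 0, 0, 6]),
   (5, [1, 0, 0, 0, 0, 0, 0, 0, 2, 2, 0, 5]), (3, [1, 0, 1, 0, 0, 0, 0, 0, 1, 2, 0, 5]),
   (6, [5, 0, 0, 0, 0, 0, 0, 0, 1, 2, 0, 5]), (8, [2, 0, 0, 0, 0, 0, 0, 0, 5, 1, 0, 5]),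
   (3, [2, 0, 1, 0, 0, 0, 0, 0, 4, 1, 0, 5]), (5, [6, 0, 0, 0, 0, 0, 0, 0, 4, 1, 0, 5]),
   (1, [10, 0, 0, 0, 0, 0, 0, 0, 3, 1, 0, 5]), (3, [1, 0, 0, 0, 1, 0, 0, 0, 2, 1, 0, 5]),
   (2, [6, 0, 3, 0, 0, 0, 0, 0, 1, 1, 0, 5]), (6, [6, 0, 4, 0, 0, 0, 0, 0, 0, 1, 0, 5]),
   (2, [10, 0, 3, 0, 0, 0, 0, 0, 0, 1, 0, 5]), (4, [3, 0, 0, 0, 0, 0, 0, 0, 8, 0, 0, 5]),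
   (6, [3, 0, 1, 0, 0, 0, 0, 0, 7, 0, 0, 5]), (7, [7, 0, 0, 0, 0, 0, 0, 0, 7, 0, 0, 5]),
   (8, [11, 0, 0, 0, 0, 0, 0, 0, 6, 0, 0, 5]), (6, [2, 0, 0, 0, 1, 0, 0, 0, 5, 0, 0, 5]),
   (5, [15, 0, 0, 0, 0, 0, 0, 0, 5, 0, 0, 5]), (6, [6, 0, 0, 0, 1, 0, 0, 0, 4, 0, 0, 5]),
   (3, [3, 0, 4, 0, 0, 0, 0, 0, 4, 0, 0, 5]), (4, [7, 0, 3, 0, 0, 0, 0, 0, 4, 0, 0, 5]),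
   (5, [19, 0, 0, 0, 0, 0, 0, 0, 4, 0, 0, 5]), (3, [10, 0, 0, 0, 1, 0, 0, 0, 3, 0, 0, 5]),
   (3, [7, 0, 4, 0, 0, 0, 0, 0, 3, 0, 0, 5]), (7, [11, 0, 3, 0, 0, 0, 0, 0, 3, 0, 0, 5]),
   (6, [19, 0, 1, 0, 0, 0, 0, 0, 3, 0, 0, 5]), (3, [23, 0, 0, 0, 0, 0, 0, 0, 3, 0, 0, 5]),
   (1, [3, 0, 6, 0, 0, 0, 0, 0, 2, 0, 0, 5]), (2, [15, 0, 3, 0, 0, 0, 0, 0, 2, 0, 0, 5]),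
   (6, [6, 0, 3, 0, 1, 0, 0, 0, 1, 0, 0, 5]), (6, [3, 0, 7, 0, 0, 0, 0, 0, 1, 0, 0, 5]),
   (3, [7, 0, 6, 0, 0, 0, 0, 0, 1, 0, 0, 5]), (6, [15, 0, 4, 0, 0, 0, 0, 0, 1, 0, 0, 5]),
   (2, [19, 0, 3, 0, 0, 0, 0, 0, 1, 0, 0, 5]), (6, [10, 0, 3, 0, 1, 0, 0, 0, 0, 0, 0, 5]),
   (3, [2, 0, 0, 0, 0, 0, 0, 0, 2, 2, 0, 4]), (1, [6, 0, 0, 0, 0, 0, 0, 0, 1, 2, 0, 4]),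
   (3, [6, 0, 1, 0, 0, 0, 0, 0, 0, 2, 0, 4]), (1, [10, 0, 0, 0, 0, 0, 0, 0, 0, 2, 0, 4]),
   (3, [3, 0, 0, 0, 0, 0, 0, 0, 5, 1, 0, 4]), (3, [3, 0, 1, 0, 0, 0, 0, 0, 4, 1, 0, 4]),
   (7, [7, 0, 0, 0, 0, 0, 0, 0, 4, 1, 0, 4]), (3, [7, 0, 1, 0, 0, 0, 0, 0, 3, 1, 0, 4]),
   (4, [11, 0, 0, 0, 0, 0, 0, 0, 3, 1, 0, 4]), (2, [3, 0, 3, 0, 0, 0, 0, 0, 2, 1, 0, 4]),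
   (2, [15, 0, 0, 0, 0, 0, 0, 0, 2, 1, 0, 4]), (6, [6, 0, 0, 0, 1, 0, 0, 0, 1, 1, 0, 4]),
   (3, [3, 0, 4, 0, 0, 0, 0, 0, 1, 1, 0, 4]), (6, [15, 0, 1, 0, 0, 0, 0, 0, 1, 1, 0, 4]),
   (2, [19, 0, 0, 0, 0, 0, 0, 0, 1, 1, 0, 4]), (6, [10, 0, 0, 0, 1, 0, 0, 0, 0, 1, 0, 4]),
   (3, [11, 0, 3, 0, 0, 0, 0, 0, 0, 1, 0, 4]), (6, [0, 0, 1, 0, 0, 0, 0, 0, 8, 0, 0, 4]),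
   (3, [4, 0, 0, 0, 0, 0, 0, 0, 8, 0, 0, 4]), (6, [4, 0, 1, 0, 0, 0, 0, 0, 7, 0, 0, 4]),
   (1, [8, 0, 0, 0, 0, 0, 0, 0, 7, 0, 0, 4]), (3, [8, 0, 1, 0, 0, 0, 0, 0, 6, 0, 0, 4]),
   (6, [12, 0, 0, 0, 0, 0, 0, 0, 6, 0, 0, 4]), (7, [4, 0, 3, 0, 0, 0, 0, 0, 5, 0, 0, 4]),
   (3, [12, 0, 1, 0, 0, 0, 0, 0, 5, 0, 0, 4]), (7, [16, 0, 0, 0, 0, 0, 0, 0, 5, 0, 0, 4]),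
   (3, [7, 0, 0, 0, 1, 0, 0, 0, 4, 0, 0, 4]), (6, [4, 0, 4, 0, 0, 0, 0, 0, 4, 0, 0, 4]),
   (3, [16, 0, 1, 0, 0, 0, 0, 0, 4, 0, 0, 4]), (1, [20, 0, 0, 0, 0, 0, 0, 0, 4, 0, 0, 4]),
   (3, [11, 0, 0, 0, 1, 0, 0, 0, 3, 0, 0, 4]), (8, [12, 0, 3, 0, 0, 0, 0, 0, 3, 0, 0, 4]),
   (1, [24, 0, 0, 0, 0, 0, 0, 0, 3, 0, 0, 4]), (6, [3, 0, 3, 0, 1, 0, 0, 0, 2, 0, 0, 4]),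
   (6, [15, 0, 0, 0, 1, 0, 0, 0, 2, 0, 0, 4]), (3, [0, 0, 7, 0, 0, 0, 0, 0, 2, 0, 0, 4]),
   (3, [4, 0, 6, 0, 0, 0, 0, 0, 2, 0, 0, 4]), (3, [12, 0, 4, 0, 0, 0, 0, 0, 2, 0, 0, 4]),
   (3, [24, 0, 1, 0, 0, 0, 0, 0, 2, 0, 0, 4]), (1, [28, 0, 0, 0, 0, 0, 0, 0, 2, 0, 0, 4]),
   (6, [19, 0, 0, 0, 1, 0, 0, 0, 1, 0, 0, 4]), (3, [20, 0, 3, 0, 0, 0, 0, 0, 1, 0, 0, 4]),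
   (1, [3, 0, 0, 0, 0, 0, 0, 0, 2, 2, 0, 3]), (6, [3, 0, 1, 0, 0, 0, 0, 0, 1, 2, 0, 3]),
   (6, [7, 0, 0, 0, 0, 0, 0, 0, 1, 2, 0, 3]), (3, [11, 0, 0, 0, 0, 0, 0, 0, 0, 2, 0, 3]),
   (7, [4, 0, 0, 0, 0, 0, 0, 0, 5, 1, 0, 3]), (6, [4, 0, 1, 0, 0, 0, 0, 0, 4, 1, 0, 3]),
   (6, [8, 0, 0, 0, 0, 0, 0, 0, 4, 1, 0, 3]), (5, [12, 0, 0, 0, 0, 0, 0, 0, 3, 1, 0, 3]),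
   (6, [3, 0, 0, 0, 1, 0, 0, 0, 2, 1, 0, 3]), (6, [0, 0, 4, 0, 0, 0, 0, 0, 2, 1, 0, 3]),
   (3, [12, 0, 1, 0, 0, 0, 0, 0, 2, 1, 0, 3]), (3, [16, 0, 0, 0, 0, 0, 0, 0, 2, 1, 0, 3]),
   (6, [20, 0, 0, 0, 0, 0, 0, 0, 1, 1, 0, 3]), (8, [0, 0, 6, 0, 0, 0, 0, 0, 0, 1, 0, 3]),
   (3, [1, 0, 0, 0, 0, 0, 0, 0, 9, 0, 0, 3]), (1, [5, 0, 0, 0, 0, 0, 0, 0, 8, 0, 0, 3]),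
   (6, [5, 0, 1, 0, 0, 0, 0, 0, 7, 0, 0, 3]), (2, [9, 0, 0, 0, 0, 0, 0, 0, 7, 0, 0, 3]),
   (6, [9, 0, 1, 0, 0, 0, 0, 0, 6, 0, 0, 3]), (1, [13, 0, 0, 0, 0, 0, 0, 0, 6, 0, 0, 3]),
   (3, [4, 0, 0, 0, 1, 0, 0, 0, 5, 0, 0, 3]), (3, [1, 0, 4, 0, 0, 0, 0, 0, 5, 0, 0, 3]),
   (6, [13, 0, 1, 0, 0, 0, 0, 0, 5, 0, 0, 3]), (6, [17, 0, 0, 0, 0, 0, 0, 0, 5, 0, 0, 3]),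
   (4, [21, 0, 0, 0, 0, 0, 0, 0, 4, 0, 0, 3]), (6, [12, 0, 0, 0, 1, 0, 0, 0, 3, 0, 0, 3]),
   (1, [1, 0, 6, 0, 0, 0, 0, 0, 3, 0, 0, 3]), (6, [9, 0, 4, 0, 0, 0, 0, 0, 3, 0, 0, 3]),
   (6, [21, 0, 1, 0, 0, 0, 0, 0, 3, 0, 0, 3]), (6, [25, 0, 0, 0, 0, 0, 0, 0, 3, 0, 0, 3]),
   (3, [29, 0, 0, 0, 0, 0, 0, 0, 2, 0, 0, 3]), (8, [9, 0, 6, 0, 0, 0, 0, 0, 1, 0, 0, 3]),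
   (6, [0, 0, 6, 0, 1, 0, 0, 0, 0, 0, 0, 3]), (5, [1, 0, 9, 0, 0, 0, 0, 0, 0, 0, 0, 3]),
   (3, [0, 0, 1, 0, 0, 0, 0, 0, 2, 2, 0, 2]), (6, [4, 0, 0, 0, 0, 0, 0, 0, 2, 2, 0, 2]),
   (8, [0, 0, 3, 0, 0, 0, 0, 0, 0, 2, 0, 2]), (3, [1, 0, 1, 0, 0, 0, 0, 0, 5, 1, 0, 2]),
   (6, [5, 0, 0, 0, 0, 0, 0, 0, 5, 1, 0, 2]), (2, [1, 0, 3, 0, 0, 0, 0, 0, 3, 1, 0, 2]),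
   (6, [9, 0, 1, 0, 0, 0, 0, 0, 3, 1, 0, 2]), (3, [13, 0, 0, 0, 0, 0, 0, 0, 3, 1, 0, 2]),
   (7, [9, 0, 3, 0, 0, 0, 0, 0, 1, 1, 0, 2]), (3, [0, 0, 3, 0, 1, 0, 0, 0, 0, 1, 0, 2]),
   (3, [2, 0, 1, 0, 0, 0, 0, 0, 8, 0, 0, 2]), (8, [2, 0, 3, 0, 0, 0, 0, 0, 6, 0, 0, 2]),
   (3, [10, 0, 1, 0, 0, 0, 0, 0, 6, 0, 0, 2]), (6, [14, 0, 0, 0, 0, 0, 0, 0, 6, 0, 0, 2]),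
   (2, [10, 0, 3, 0, 0, 0, 0, 0, 4, 0, 0, 2]), (3, [18, 0, 1, 0, 0, 0, 0, 0, 4, 0, 0, 2]),
   (6, [22, 0, 0, 0, 0, 0, 0, 0, 4, 0, 0, 2]), (6, [1, 0, 3, 0, 1, 0, 0, 0, 3, 0, 0, 2]),
   (8, [18, 0, 3, 0, 0, 0, 0, 0, 2, 0, 0, 2]), (3, [9, 0, 3, 0, 1, 0, 0, 0, 1, 0, 0, 2]),
   (1, [1, 0, 0, 0, 0, 0, 0, 0, 3, 2, 0, 1]), (8, [9, 0, 0, 0, 0, 0, 0, 0, 1, 2, 0, 1]),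
   (6, [0, 0, 0, 0, 1, 0, 0, 0, 0, 2, 0, 1]), (3, [1, 0, 3, 0, 0, 0, 0, 0, 0, 2, 0, 1]),
   (8, [2, 0, 0, 0, 0, 0, 0, 0, 6, 1, 0, 1]), (2, [10, 0, 0, 0, 0, 0, 0, 0, 4, 1, 0, 1]),
   (6, [1, 0, 0, 0, 1, 0, 0, 0, 3, 1, 0, 1]), (3, [2, 0, 3, 0, 0, 0, 0, 0, 3, 1, 0, 1]),
   (8, [18, 0, 0, 0, 0, 0, 0, 0, 2, 1, 0, 1]), (3, [9, 0, 0, 0, 1, 0, 0, 0, 1, 1, 0, 1]),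
   (6, [10, 0, 3, 0, 0, 0, 0, 0, 1, 1, 0, 1]), (6, [3, 0, 0, 0, 0, 0, 0, 0, 9, 0, 0, 1]),
   (8, [11, 0, 0, 0, 0, 0, 0, 0, 7, 0, 0, 1]), (6, [2, 0, 0, 0, 1, 0, 0, 0, 6, 0, 0, 1]),
   (3, [3, 0, 3, 0, 0, 0, 0, 0, 6, 0, 0, 1]), (1, [19, 0, 0, 0, 0, 0, 0, 0, 5, 0, 0, 1]),
   (6, [10, 0, 0, 0, 1, 0, 0, 0, 4, 0, 0, 1]), (3, [11, 0, 3, 0, 0, 0, 0, 0, 4, 0, 0, 1]),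
   (6, [18, 0, 0, 0, 1, 0, 0, 0, 2, 0, 0, 1]), (3, [19, 0, 3, 0, 0, 0, 0, 0, 2, 0, 0, 1]),
   (1, [0, 0, 0, 0, 3, 0, 0, 0, 0, 0, 0, 1]), (1, [3, 0, 9, 0, 0, 0, 0, 0, 0, 0, 0, 1]),
   (1, [0, 0, 0, 0, 0, 0, 0, 0, 0, 0, 1]), (8, [1, 0, 0, 0, 0, 0, 0, 0, 0, 3]),
   (3, [2, 0, 0, 0, 0, 0, 0, 0, 3, 2]), (6, [10, 0, 0, 0, 0, 0, 0, 0, 1, 2]),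
   (6, [3, 0, 0, 0, 0, 0, 0, 0, 6, 1]), (6, [11, 0, 0, 0, 0, 0, 0, 0, 4, 1]),
   (6, [19, 0, 0, 0, 0, 0, 0, 0, 2, 1]), (1, [27, 0, 0, 0, 0, 0, 0, 0, 0, 1]),
   (8, [0, 0, 1, 0, 0, 0, 0, 0, 9]), (1, [4, 0, 0, 0, 0, 0, 0, 0, 9]),
   (6, [12, 0, 0, 0, 0, 0, 0, 0, 7]), (3, [20, 0, 0, 0, 0, 0, 0, 0, 5]),
   (8, [28, 0, 0, 0, 0, 0, 0, 0, 3]), (1, [0, 0, 9, 0, 0, 0, 0, 0, 1]),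
   (3, [0, 0, 0, 0, 0, 0, 1]), (3, [1, 0, 0, 0, 3])]

/-- data -/
def bL1_0 : List Tm :=
  [(1, [0, 1])]

/-- data -/
def bL1_1 : List Tm :=
  [(1, [0, 0, 0, 1]), (1, [0, 0, 1])]

/-- data -/
def bL1_2 : List Tm :=
  [(8, [0, 0, 1, 2, 0, 0, 0, 0, 0, 0, 0, 1]), (8, [0, 0, 2, 1, 0, 0, 0, 0, 0, 0, 0, 1]),
   (1, [0, 0, 0, 0, 0, 1]), (6, [1, 0, 1, 2]), (6, [1, 0, 2, 1]), (1, [0, 9, 1])]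

/-- data -/
def bL1_3 : List Tm :=
  [(8, [0, 0, 1, 8, 0, 0, 0, 0, 0, 0, 0, 4]), (5, [0, 0, 2, 7, 0, 0, 0, 0, 0, 0, 0, 4]),
   (5, [0, 0, 4, 5, 0, 0, 0, 0, 0, 0, 0, 4]), (5, [0, 0, 5, 4, 0, 0, 0, 0, 0, 0, 0, 4]),
   (5, [0, 0, 7, 2, 0, 0, 0, 0, 0, 0, 0, 4]), (8, [0, 0, 8, 1, 0, 0, 0, 0, 0, 0, 0, 4]),
   (8, [0, 0, 2, 4, 0, 1, 0, 0, 0, 0, 0, 3]), (7, [0, 0, 3, 3, 0, 1, 0, 0, 0, 0, 0, 3]),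
   (8, [0, 0, 4, 2, 0, 1, 0, 0, 0, 0, 0, 3]), (4, [1, 0, 3, 6, 0, 0, 0, 0, 0, 0, 0, 3]),
   (3, [1, 0, 4, 5, 0, 0, 0, 0, 0, 0, 0, 3]), (3, [1, 0, 5, 4, 0, 0, 0, 0, 0, 0, 0, 3]),
   (8, [0, 9, 3, 4, 0, 0, 0, 0, 0, 0, 0, 3]), (4, [1, 0, 6, 3, 0, 0, 0, 0, 0, 0, 0, 3]),
   (7, [0, 9, 4, 3, 0, 0, 0, 0, 0, 0, 0, 3]), (8, [0, 9, 5, 2, 0, 0, 0, 0, 0, 0, 0, 3]),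
   (1, [0, 0, 1, 2, 0, 2, 0, 0, 0, 0, 0, 2]), (1, [0, 0, 2, 1, 0, 2, 0, 0, 0, 0, 0, 2]),
   (2, [0, 9, 2, 2, 0, 1, 0, 0, 0, 0, 0, 2]), (2, [0, 9, 3, 1, 0, 1, 0, 0, 0, 0, 0, 2]),
   (1, [0, 18, 3, 2, 0, 0, 0, 0, 0, 0, 0, 2]), (1, [0, 18, 4, 1, 0, 0, 0, 0, 0, 0, 0, 2]),
   (6, [1, 0, 1, 2, 0, 2, 0, 0, 0, 0, 0, 1]), (6, [1, 0, 2, 1, 0, 2, 0, 0, 0, 0, 0, 1]),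
   (8, [0, 9, 1, 0, 0, 2, 0, 0, 0, 0, 0, 1]), (3, [1, 9, 2, 2, 0, 1, 0, 0, 0, 0, 0, 1]),
   (3, [1, 9, 3, 1, 0, 1, 0, 0, 0, 0, 0, 1]), (8, [0, 18, 2, 0, 0, 1, 0, 0, 0, 0, 0, 1]),
   (6, [3, 0, 1, 8, 0, 0, 0, 0, 0, 0, 0, 1]), (6, [3, 0, 2, 7, 0, 0, 0, 0, 0, 0, 0, 1]),
   (8, [3, 0, 3, 6, 0, 0, 0, 0, 0, 0, 0, 1]), (3, [3, 0, 4, 5, 0, 0, 0, 0, 0, 0, 0, 1]),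
   (3, [3, 0, 5, 4, 0, 0, 0, 0, 0, 0, 0, 1]), (8, [3, 0, 6, 3, 0, 0, 0, 0, 0, 0, 0, 1]),
   (6, [3, 0, 7, 2, 0, 0, 0, 0, 0, 0, 0, 1]), (6, [1, 18, 3, 2, 0, 0, 0, 0, 0, 0, 0, 1]),
   (6, [3, 0, 8, 1, 0, 0, 0, 0, 0, 0, 0, 1]), (6, [1, 18, 4, 1, 0, 0, 0, 0, 0, 0, 0, 1]),
   (6, [0, 0, 1, 8, 0, 0, 0, 0, 1]), (6, [0, 0, 2, 7, 0, 0, 0, 0, 1]),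
   (8, [0, 0, 3, 6, 0, 0, 0, 0, 1]), (3, [0, 0, 4, 5, 0, 0, 0, 0, 1]),
   (3, [0, 0, 5, 4, 0, 0, 0, 0, 1]), (8, [0, 0, 6, 3, 0, 0, 0, 0, 1]),
   (6, [0, 0, 7, 2, 0, 0, 0, 0, 1]), (6, [0, 0, 8, 1, 0, 0, 0, 0, 1]),
   (1, [0, 0, 0, 0, 0, 0, 0, 1]), (6, [1, 9, 1, 0, 0, 2]), (6, [1, 18, 2, 0, 0, 1]),
   (1, [0, 0, 1, 9])]

/-- data -/
def bL2_0 : List Tm :=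
  [(1, [0, 1])]

/-- data -/
def bL2_1 : List Tm :=
  [(1, [0, 0, 0, 1])]

/-- data -/
def bL2_2 : List Tm :=
  [(1, [0, 0, 0, 0, 0, 1]), (1, [0, 0, 0, 0, 1])]

/-- data -/
def bL2_3 : List Tm :=
  [(8, [0, 0, 0, 0, 1, 2, 0, 0, 0, 0, 0, 1]), (8, [0, 0, 0, 0, 2, 1, 0, 0, 0, 0, 0, 1]),
   (1, [0, 0, 0, 0, 0, 0, 0, 1]), (6, [1, 0, 0, 0, 1, 2]), (6, [1, 0, 0, 0, 2, 1]),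
   (1, [0, 27, 0, 0, 1])]

/-- data -/
def bL3_0 : List Tm :=
  [(1, [0, 1])]

/-- data -/
def bL3_1 : List Tm :=
  [(1, [0, 0, 0, 1])]

/-- data -/
def bL3_2 : List Tm :=
  [(1, [0, 0, 0, 0, 0, 1])]

/-- data -/
def bL3_3 : List Tm :=
  [(1, [0, 0, 0, 0, 0, 0, 0, 1]), (1, [0, 0, 0, 0, 0, 0, 1])]

/-- data -/
def uL2_0 : List Tm :=
  []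

/-- data -/
def uL2_1 : List Tm :=
  []

/-- data -/
def uL2_2 : List Tm :=
  [(1, [0, 0, 0, 0, 1])]

/-- data -/
def uL2_3 : List Tm :=
  [(1, [0, 0, 0, 0, 0, 0, 1])]

/-- data -/
def uL1_0 : List Tm :=
  []

/-- data -/
def uL1_1 : List Tm :=
  [(1, [0, 0, 1])]

/-- data -/
def uL1_2 : List Tm :=
  [(1, [0, 0, 0, 0, 1])]

/-- data -/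
def uL1_3 : List Tm :=
  [(1, [0, 0, 0, 0, 0, 0, 1])]

/-- data -/
def uL0_0 : List Tm :=
  [(1, [1])]

/-- data -/
def uL0_1 : List Tm :=
  [(1, [0, 0, 1])]

/-- data -/
def uL0_2 : List Tm :=
  [(1, [0, 0, 0, 0, 1]), (1, [1, 0, 3])]

/-- data -/
def uL0_3 : List Tm :=
  [(8, [1, 0, 3, 0, 2, 0, 0, 0, 0, 0, 0, 1]), (8, [2, 0, 6, 0, 1, 0, 0, 0, 0, 0, 0, 1]),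
   (1, [0, 0, 0, 0, 0, 0, 1]), (1, [1, 0, 0, 0, 3])]

/-- the exponents in the order of the twelve variables -/
def prm (e : List ℕ) : List ℕ :=
  [e.getD 1 0, e.getD 0 0, 0, e.getD 4 0, 0, e.getD 6 0, 0, e.getD 7 0, e.getD 3 0, e.getD 5 0,
    e.getD 8 0, e.getD 2 0]

/-- renaming the variables -/
def prmL (l : List Tm) : List Tm := l.map fun s => (s.1, prm s.2)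

/-- `v_{k+1}` at the vertex number `n` -/
def vL : ℕ → ℕ → List Tm
  | 0, 0 => [(1, [0, 0, 0, 0, 0, 0, 0, 0, 0, 0, 0, 1])]
  | 0, 1 => [(1, [0, 0, 0, 0, 0, 0, 0, 0, 1])]
  | 0, 2 => [(1, [0, 0, 0, 0, 0, 0, 0, 0, 0, 1])]
  | 0, 3 => [(1, [0, 0, 0, 0, 0, 0, 0, 0, 0, 0, 1])]
  | 1, k => prmL (eX 0 k)
  | 2, 0 => vL2_0
  | 2, 1 => vL2_1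
  | 2, 2 => vL2_2
  | 2, 3 => vL2_3
  | 3, 0 => vL3_0
  | 3, 1 => vL3_1
  | 3, 2 => vL3_2
  | 3, 3 => vL3_3
  | 4, 0 => vL4_0
  | 4, 1 => vL4_1
  | 4, 2 => vL4_2
  | 4, 3 => vL4_3
  | _, _ => []

/-- `Δ t_{k+1}` at `(y_{n+1} e_n, a)` over the vertex number `n` -/
def bL : ℕ → ℕ → List Tm
  | 0, k => prmL (dL 0 k)
  | 1, 0 => bL1_0
  | 1, 1 => bL1_1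
  | 1, 2 => bL1_2
  | 1, 3 => bL1_3
  | 2, 0 => bL2_0
  | 2, 1 => bL2_1
  | 2, 2 => bL2_2
  | 2, 3 => bL2_3
  | 3, 0 => bL3_0
  | 3, 1 => bL3_1
  | 3, 2 => bL3_2
  | 3, 3 => bL3_3
  | _, _ => []

/-- the coordinates of the composite of the arrows number `n, …, 3` -/
def uL : ℕ → ℕ → List Tm
  | 0, 0 => uL0_0
  | 0, 1 => uL0_1
  | 0, 2 => uL0_2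
  | 0, 3 => uL0_3
  | 1, 0 => uL1_0
  | 1, 1 => uL1_1
  | 1, 2 => uL1_2
  | 1, 3 => uL1_3
  | 2, 0 => uL2_0
  | 2, 1 => uL2_1
  | 2, 2 => uL2_2
  | 2, 3 => uL2_3
  | 3, 3 => [(1, [0, 0, 0, 0, 0, 0, 1])]
  | _, _ => []

end Vale.Agent.P236B
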