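import Vale.Agent.P236B.Kr3
import Vale.Agent.P236B.PolD

/-!
# P236 / B : the composite of four one parameter arrows modulo `9` (tests)
-/

namespace Vale.Agent.P236B

/-- the weights -/
def w12 : ℕ → ℕ := gt [1, 1, 4, 4, 13, 13, 40, 40, 4, 13, 40, 1]

/-- the variables `y_{i+1}` -/
def yE (i : ℕ) : Ex := varE (2 * i)

/-- the variables `a_{i+1}` -/
def aE (i : ℕ) : Ex := varE (2 * i + 1)

/-- zero -/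
def zE (_ : ℕ) : Ex := .tl []

theorem c_vL2_0 : chk 11 1 (gt [1, 1, 1, 1, 1, 1, 1, 1, 1, 1, 2]) w12
    (gt [0, 1, 1, 1, 1, 1, 1, 1, 1, 1, 1, 1]) 6 2 9 1
    (.tl vL2_0) (subE (ptE (tlE (vL 1)) zE (yE 1)) (eX 1 0)) = true := by decide +kernel

theorem c_vL2_1 : chk 11 4 (gt [1, 2, 1, 1, 1, 1, 1, 2, 1, 1, 4]) w12
    (gt [0, 1, 1, 2, 2, 2, 2, 2, 2, 4, 4, 4]) 7 3 9 2
    (.tl vL2_1) (subE (ptE (tlE (vL 1)) zE (yE 1)) (eX 1 1)) = true := by decide +kernel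

theorem c_vL2_2 : chk 11 13 (gt [1, 4, 1, 1, 1, 1, 1, 4, 2, 1, 13]) w12
    (gt [0, 1, 1, 4, 4, 4, 4, 4, 4, 16, 32, 32]) 22 18 9 233160
    (.tl vL2_2) (subE (ptE (tlE (vL 1)) zE (yE 1)) (eX 1 2)) = true := by decide +kernel

theorem c_vL2_3 : chk 11 40 (gt [1, 10, 1, 1, 1, 1, 1, 10, 4, 2, 40]) w12
    (gt [0, 1, 1, 10, 10, 10, 10, 10, 10, 100, 400, 800]) 50 46 9 43379032901413
    (.tl vL2_3) (subE (ptE (tlE (vL 1)) zE (yE 1)) (eX 1 3)) = true := by decide +kernel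

theorem c_vL3_0 : chk 11 1 (gt [1, 1, 1, 1, 1, 1, 1, 1, 1, 1, 2]) w12
    (gt [0, 1, 1, 1, 1, 1, 1, 1, 1, 1, 1, 1]) 6 2 9 1
    (.tl vL3_0) (subE (ptE (tlE (vL 2)) zE (yE 2)) (eX 2 0)) = true := by decide +kernel

theorem c_vL3_1 : chk 11 4 (gt [1, 2, 1, 1, 1, 1, 1, 2, 1, 1, 4]) w12
    (gt [0, 1, 1, 2, 2, 2, 2, 2, 2, 4, 4, 4]) 7 3 9 2
    (.tl vL3_1) (subE (ptE (tlE (vL 2)) zE (yE 2)) (eX 2 1)) = true := by decide +kernel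

theorem c_vL3_2 : chk 11 13 (gt [1, 4, 1, 2, 1, 1, 1, 4, 2, 1, 13]) w12
    (gt [0, 1, 1, 4, 4, 8, 8, 8, 8, 32, 64, 64]) 10 6 9 17
    (.tl vL3_2) (subE (ptE (tlE (vL 2)) zE (yE 2)) (eX 2 2)) = true := by decide +kernel

theorem c_vL3_3 : chk 11 40 (gt [1, 10, 1, 4, 1, 1, 1, 10, 4, 2, 40]) w12
    (gt [0, 1, 1, 10, 10, 40, 40, 40, 40, 400, 1600, 3200]) 58 54 9 16012798675151464
    (.tl vL3_3) (subE (ptE (tlE (vL 2)) zE (yE 2)) (eX 2 3)) = true := by decide +kernel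

theorem c_vL4_0 : chk 11 1 (gt [1, 1, 1, 1, 1, 1, 1, 1, 1, 1, 2]) w12
    (gt [0, 1, 1, 1, 1, 1, 1, 1, 1, 1, 1, 1]) 6 2 9 1
    (.tl vL4_0) (subE (ptE (tlE (vL 3)) zE (yE 3)) (eX 3 0)) = true := by decide +kernel

theorem c_vL4_1 : chk 11 4 (gt [1, 2, 1, 1, 1, 1, 1, 2, 1, 1, 4]) w12
    (gt [0, 1, 1, 2, 2, 2, 2, 2, 2, 4, 4, 4]) 7 3 9 2
    (.tl vL4_1) (subE (ptE (tlE (vL 3)) zE (yE 3)) (eX 3 1)) = true := by decide +kernel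

theorem c_vL4_2 : chk 11 13 (gt [1, 4, 1, 2, 1, 1, 1, 4, 2, 1, 13]) w12
    (gt [0, 1, 1, 4, 4, 8, 8, 8, 8, 32, 64, 64]) 10 6 9 17
    (.tl vL4_2) (subE (ptE (tlE (vL 3)) zE (yE 3)) (eX 3 2)) = true := by decide +kernel

theorem c_vL4_3 : chk 11 40 (gt [1, 10, 1, 4, 1, 2, 1, 10, 4, 2, 40]) w12
    (gt [0, 1, 1, 10, 10, 40, 40, 80, 80, 800, 3200, 6400]) 14 10 9 346
    (.tl vL4_3) (subE (ptE (tlE (vL 3)) zE (yE 3)) (eX 3 3)) = true := by decide +kernel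

theorem c_bL1_0 : chk 11 1 (gt [2, 1, 1, 1, 1, 1, 1, 1, 1, 1, 1]) w12
    (gt [0, 1, 2, 2, 2, 2, 2, 2, 2, 2, 2, 2]) 6 2 9 1
    (.tl bL1_0) (subE (ptE (tlE (vL 1)) aE (yE 1)) (dL 1 0)) = true := by decide +kernel

theorem c_bL1_1 : chk 11 4 (gt [1, 2, 2, 1, 1, 1, 1, 1, 1, 1, 1]) w12
    (gt [0, 1, 1, 2, 4, 4, 4, 4, 4, 4, 4, 4]) 6 2 9 1
    (.tl bL1_1) (subE (ptE (tlE (vL 1)) aE (yE 1)) (dL 1 1)) = true := by decide +kernel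

theorem c_bL1_2 : chk 11 13 (gt [10, 3, 3, 1, 2, 1, 1, 1, 1, 1, 2]) w12
    (gt [0, 1, 10, 30, 90, 90, 180, 180, 180, 180, 180, 180]) 8 4 9 8
    (.tl bL1_2) (subE (ptE (tlE (vL 1)) aE (yE 1)) (dL 1 2)) = true := by decide +kernel

theorem c_bL1_3 : chk 11 40 (gt [19, 9, 10, 1, 3, 1, 2, 2, 1, 1, 5]) w12
    (gt [0, 1, 19, 171, 1710, 1710, 5130, 5130, 10260, 20520, 20520, 20520]) 15 11 9 1409
    (.tl bL1_3) (subE (ptE (tlE (vL 1)) aE (yE 1)) (dL 1 3)) = true := by decide +kernel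

theorem c_bL2_0 : chk 11 1 (gt [2, 1, 1, 1, 1, 1, 1, 1, 1, 1, 1]) w12
    (gt [0, 1, 2, 2, 2, 2, 2, 2, 2, 2, 2, 2]) 6 2 9 1
    (.tl bL2_0) (subE (ptE (tlE (vL 2)) aE (yE 2)) (dL 2 0)) = true := by decide +kernel

theorem c_bL2_1 : chk 11 4 (gt [1, 1, 2, 1, 1, 1, 1, 1, 1, 1, 1]) w12
    (gt [0, 1, 1, 1, 2, 2, 2, 2, 2, 2, 2, 2]) 6 2 9 1
    (.tl bL2_1) (subE (ptE (tlE (vL 2)) aE (yE 2)) (dL 2 1)) = true := by decide +kernel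

theorem c_bL2_2 : chk 11 13 (gt [1, 1, 1, 2, 2, 1, 1, 1, 1, 1, 1]) w12
    (gt [0, 1, 1, 1, 1, 2, 4, 4, 4, 4, 4, 4]) 6 2 9 1
    (.tl bL2_2) (subE (ptE (tlE (vL 2)) aE (yE 2)) (dL 2 2)) = true := by decide +kernel

theorem c_bL2_3 : chk 11 40 (gt [28, 1, 1, 3, 3, 1, 2, 1, 1, 1, 2]) w12
    (gt [0, 1, 28, 28, 28, 84, 252, 252, 504, 504, 504, 504]) 8 4 9 8
    (.tl bL2_3) (subE (ptE (tlE (vL 2)) aE (yE 2)) (dL 2 3)) = true := by decide +kernel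

theorem c_bL3_0 : chk 11 1 (gt [2, 1, 1, 1, 1, 1, 1, 1, 1, 1, 1]) w12
    (gt [0, 1, 2, 2, 2, 2, 2, 2, 2, 2, 2, 2]) 6 2 9 1
    (.tl bL3_0) (subE (ptE (tlE (vL 3)) aE (yE 3)) (dL 3 0)) = true := by decide +kernel

theorem c_bL3_1 : chk 11 4 (gt [1, 1, 2, 1, 1, 1, 1, 1, 1, 1, 1]) w12
    (gt [0, 1, 1, 1, 2, 2, 2, 2, 2, 2, 2, 2]) 6 2 9 1
    (.tl bL3_1) (subE (ptE (tlE (vL 3)) aE (yE 3)) (dL 3 1)) = true := by decide +kernel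

theorem c_bL3_2 : chk 11 13 (gt [1, 1, 1, 1, 2, 1, 1, 1, 1, 1, 1]) w12
    (gt [0, 1, 1, 1, 1, 1, 2, 2, 2, 2, 2, 2]) 6 2 9 1
    (.tl bL3_2) (subE (ptE (tlE (vL 3)) aE (yE 3)) (dL 3 2)) = true := by decide +kernel

theorem c_bL3_3 : chk 11 40 (gt [1, 1, 1, 1, 1, 2, 2, 1, 1, 1, 1]) w12
    (gt [0, 1, 1, 1, 1, 1, 1, 2, 4, 4, 4, 4]) 6 2 9 1
    (.tl bL3_3) (subE (ptE (tlE (vL 3)) aE (yE 3)) (dL 3 3)) = true := by decide +kernel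

theorem c_uL2_0 : chk 11 1 (gt [1, 1, 1, 1, 1, 1, 1, 1, 1, 1, 1]) w12
    (gt [0, 1, 1, 1, 1, 1, 1, 1, 1, 1, 1, 1]) 6 2 9 1
    (.tl uL2_0) (subE (ptE (tlE (vL 2)) (tlE (uL 3)) (yE 2)) (dL 2 0)) = true := by decide +kernel

theorem c_uL2_1 : chk 11 4 (gt [1, 1, 1, 1, 1, 1, 1, 1, 1, 1, 1]) w12
    (gt [0, 1, 1, 1, 1, 1, 1, 1, 1, 1, 1, 1]) 6 2 9 1
    (.tl uL2_1) (subE (ptE (tlE (vL 2)) (tlE (uL 3)) (yE 2)) (dL 2 1)) = true := by decide +kernel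

theorem c_uL2_2 : chk 11 13 (gt [1, 1, 1, 2, 1, 1, 1, 1, 1, 1, 1]) w12
    (gt [0, 1, 1, 1, 1, 2, 2, 2, 2, 2, 2, 2]) 6 2 9 1
    (.tl uL2_2) (subE (ptE (tlE (vL 2)) (tlE (uL 3)) (yE 2)) (dL 2 2)) = true := by decide +kernel

theorem c_uL2_3 : chk 11 40 (gt [1, 1, 1, 3, 1, 2, 1, 1, 1, 1, 2]) w12
    (gt [0, 1, 1, 1, 1, 3, 3, 6, 6, 6, 6, 6]) 6 2 9 1
    (.tl uL2_3) (subE (ptE (tlE (vL 2)) (tlE (uL 3)) (yE 2)) (dL 2 3)) = true := by decide +kernel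

theorem c_uL1_0 : chk 11 1 (gt [1, 1, 1, 1, 1, 1, 1, 1, 1, 1, 1]) w12
    (gt [0, 1, 1, 1, 1, 1, 1, 1, 1, 1, 1, 1]) 6 2 9 1
    (.tl uL1_0) (subE (ptE (tlE (vL 1)) (tlE (uL 2)) (yE 1)) (dL 1 0)) = true := by decide +kernel

theorem c_uL1_1 : chk 11 4 (gt [1, 2, 1, 1, 1, 1, 1, 1, 1, 1, 1]) w12
    (gt [0, 1, 1, 2, 2, 2, 2, 2, 2, 2, 2, 2]) 6 2 9 1
    (.tl uL1_1) (subE (ptE (tlE (vL 1)) (tlE (uL 2)) (yE 1)) (dL 1 1)) = true := by decide +kernel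

theorem c_uL1_2 : chk 11 13 (gt [1, 3, 1, 2, 1, 1, 1, 1, 1, 1, 2]) w12
    (gt [0, 1, 1, 3, 3, 6, 6, 6, 6, 6, 6, 6]) 6 2 9 1
    (.tl uL1_2) (subE (ptE (tlE (vL 1)) (tlE (uL 2)) (yE 1)) (dL 1 2)) = true := by decide +kernel

theorem c_uL1_3 : chk 11 40 (gt [1, 9, 1, 3, 1, 2, 1, 2, 1, 1, 5]) w12
    (gt [0, 1, 1, 9, 9, 27, 27, 54, 54, 108, 108, 108]) 6 2 9 1
    (.tl uL1_3) (subE (ptE (tlE (vL 1)) (tlE (uL 2)) (yE 1)) (dL 1 3)) = true := by decide +kernel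

theorem c_uL0_0 : chk 11 1 (gt [1, 1, 1, 1, 1, 1, 1, 1, 1, 1, 1]) w12
    (gt [0, 1, 1, 1, 1, 1, 1, 1, 1, 1, 1, 1]) 6 2 9 1
    (.tl uL0_0) (subE (ptE (tlE (vL 0)) (tlE (uL 1)) (yE 0)) (dL 0 0)) = true := by decide +kernel

theorem c_uL0_1 : chk 11 4 (gt [1, 2, 1, 1, 1, 1, 1, 1, 1, 1, 2]) w12
    (gt [0, 1, 1, 2, 2, 2, 2, 2, 2, 2, 2, 2]) 6 2 9 1
    (.tl uL0_1) (subE (ptE (tlE (vL 0)) (tlE (uL 1)) (yE 0)) (dL 0 1)) = true := by decide +kernel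

theorem c_uL0_2 : chk 11 13 (gt [1, 4, 1, 2, 1, 1, 1, 2, 1, 1, 5]) w12
    (gt [0, 1, 1, 4, 4, 8, 8, 8, 8, 16, 16, 16]) 6 2 9 1
    (.tl uL0_2) (subE (ptE (tlE (vL 0)) (tlE (uL 1)) (yE 0)) (dL 0 2)) = true := by decide +kernel

theorem c_uL0_3 : chk 11 40 (gt [1, 9, 1, 4, 1, 2, 1, 4, 2, 1, 14]) w12
    (gt [0, 1, 1, 9, 9, 36, 36, 72, 72, 288, 576, 576]) 7 3 9 3
    (.tl uL0_3) (subE (ptE (tlE (vL 0)) (tlE (uL 1)) (yE 0)) (dL 0 3)) = true := by decide +kernel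

end Vale.Agent.P236B
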