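import Vale.Agent.P236B.PgA
import Vale.Agent.P236B.PgB
import Vale.Agent.P236B.Pg13
import Vale.Agent.P236B.Pg10
import Vale.Agent.P236B.Pg5
import Vale.Agent.P236B.Pg4

/-!
# P236 / B : the programs
-/

noncomputable section

namespace Vale.Agent.P236B

open Vale.Agent.P236X

/-- the programs for `N = 13`, `a = 2` -/
def B13 : Prg where
  g3 := g3c
  g4 := g4c
  w4 := w4_13
  w3 := w3_13
  w2 := w2c
  w1 := w1_13
  b44 := b44
  b34 := b34c
  b33 := b33
  b24 := b24_13
  b23 := b23c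
  b22 := b22
  b14 := b14_13
  b13 := b13_13
  b12 := b12c
  b11 := b11

/-- the programs for `N = 10`, `a = 2` -/
def B10 : Prg where
  g3 := g3c
  g4 := g4c
  w4 := w4_10
  w3 := w3_13
  w2 := w2c
  w1 := w1_10
  b44 := b44
  b34 := b34c
  b33 := b33
  b24 := b24_13
  b23 := b23c
  b22 := b22
  b14 := b14_10
  b13 := b13_13
  b12 := b12c
  b11 := b11

/-- the programs for `N = 5`, `a = 2` -/
def B5 : Prg where
  g3 := g3c
  g4 := g4c
  w4 := w4_5
  w3 := w3_5
  w2 := w2c
  w1 := w1_5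
  b44 := b44
  b34 := b34c
  b33 := b33
  b24 := b24_13
  b23 := b23c
  b22 := b22
  b14 := b14_5
  b13 := b13_13
  b12 := b12c
  b11 := b11

/-- the programs for `N = 4`, `a = 2` -/
def B4 : Prg where
  g3 := g3c
  g4 := g4c
  w4 := w4_4
  w3 := w3_4
  w2 := w2c
  w1 := w1_4
  b44 := b44
  b34 := b34c
  b33 := b33
  b24 := b24_4
  b23 := b23c
  b22 := b22
  b14 := b14_4
  b13 := b13_4
  b12 := b12c
  b11 := b11

end Vale.Agent.P236B
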