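import Vale.Agent.P236B.Prg
import Vale.Agent.P236B.PgAT
import Vale.Agent.P236B.PgBT
import Vale.Agent.P236B.Pg13T
import Vale.Agent.P236B.Pg10T
import Vale.Agent.P236B.Pg5T
import Vale.Agent.P236B.Pg4T

/-!
# P236 / B : the programs are correct
-/

namespace Vale.Agent.P236B

open Vale.Agent.P236X

theorem prgOK13 : PrgOK 2 13 B13 where
  g3 := g3c_ok (by omega) (by omega)
  g4 := g4c_ok (by omega) (by omega)
  w4 := w4_13_ok (by omega) (by omega)
  w3 := w3_13_ok (by omega) (by omega)
  w2 := w2c_ok (by omega) (by omega)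
  w1 := w1_13_ok (by omega) (by omega)
  b44 := b44_ok _ _
  b34 := b34c_ok (by omega) (by omega)
  b33 := b33_ok _ _
  b24 := b24_13_ok (by omega) (by omega)
  b23 := b23c_ok (by omega) (by omega)
  b22 := b22_ok _ _
  b14 := b14_13_ok (by omega) (by omega)
  b13 := b13_13_ok (by omega) (by omega)
  b12 := b12c_ok (by omega) (by omega)
  b11 := b11_ok _ _

theorem prgOK10 : PrgOK 2 10 B10 where
  g3 := g3c_ok (by omega) (by omega)
  g4 := g4c_ok (by omega) (by omega)
  w4 := w4_10_ok (by omega) (by omega)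
  w3 := w3_13_ok (by omega) (by omega)
  w2 := w2c_ok (by omega) (by omega)
  w1 := w1_10_ok (by omega) (by omega)
  b44 := b44_ok _ _
  b34 := b34c_ok (by omega) (by omega)
  b33 := b33_ok _ _
  b24 := b24_13_ok (by omega) (by omega)
  b23 := b23c_ok (by omega) (by omega)
  b22 := b22_ok _ _
  b14 := b14_10_ok (by omega) (by omega)
  b13 := b13_13_ok (by omega) (by omega)
  b12 := b12c_ok (by omega) (by omega)
  b11 := b11_ok _ _

theorem prgOK5 : PrgOK 2 5 B5 where
  g3 := g3c_ok (by omega) (by omega)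
  g4 := g4c_ok (by omega) (by omega)
  w4 := w4_5_ok (by omega) (by omega)
  w3 := w3_5_ok (by omega) (by omega)
  w2 := w2c_ok (by omega) (by omega)
  w1 := w1_5_ok (by omega) (by omega)
  b44 := b44_ok _ _
  b34 := b34c_ok (by omega) (by omega)
  b33 := b33_ok _ _
  b24 := b24_13_ok (by omega) (by omega)
  b23 := b23c_ok (by omega) (by omega)
  b22 := b22_ok _ _
  b14 := b14_5_ok (by omega) (by omega)
  b13 := b13_13_ok (by omega) (by omega)
  b12 := b12c_ok (by omega) (by omega)
  b11 := b11_ok _ _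

theorem prgOK4 : PrgOK 2 4 B4 where
  g3 := g3c_ok (by omega) (by omega)
  g4 := g4c_ok (by omega) (by omega)
  w4 := w4_4_ok (by omega) (by omega)
  w3 := w3_4_ok (by omega) (by omega)
  w2 := w2c_ok (by omega) (by omega)
  w1 := w1_4_ok (by omega) (by omega)
  b44 := b44_ok _ _
  b34 := b34c_ok (by omega) (by omega)
  b33 := b33_ok _ _
  b24 := b24_4_ok (by omega) (by omega)
  b23 := b23c_ok (by omega) (by omega)
  b22 := b22_ok _ _
  b14 := b14_4_ok (by omega) (by omega)
  b13 := b13_4_ok (by omega) (by omega)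
  b12 := b12c_ok (by omega) (by omega)
  b11 := b11_ok _ _

end Vale.Agent.P236B
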