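import Vale.Agent.P236X.Q
import Vale.Agent.P236B.Prg

/-!
# P236 / B : the compiled programs with two keys
-/

namespace Vale.Agent.P236B

open Vale.Agent.P236X

theorem cg2 {α β γ : Type} (f : α → β → γ) {a a' : α} {b b' : β} (h : a = a') (h' : b = b') :
    f a b = f a' b' := h ▸ h' ▸ rfl

theorem b11_1q_run : b11_1q = run2 b11_1P :=
  (congrArg (fun K => fun Y Z d a x => (K x).1 (b11_1b Y Z d a x))
    (funext fun c => bx4_eq _ c .. : b11k4X = _)).trans (by eq_refl)

theorem b11_2q_run : b11_2q = run2 b11_2P :=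
  (congrArg (fun K => fun Y Z d a x => (K x).1 (b11_2b Y Z d a x))
    (funext fun c => bx4_eq _ c .. : b11k4X = _)).trans (by eq_refl)

theorem b11_3q_run : b11_3q = run2 b11_3P :=
  (congrArg (fun K => fun Y Z d a x => (K x).1 (b11_3b Y Z d a x))
    (funext fun c => bx4_eq _ c .. : b11k4X = _)).trans (by eq_refl)

theorem b11_4q_run : b11_4q = run2 b11_4P :=
  (congrArg (fun K => fun Y Z d a x => (K x).1 (b11_4b Y Z d a x))
    (funext fun c => bx4_eq _ c .. : b11k4X = _)).trans (by eq_refl)

theorem b11_5q_run : b11_5q = run2 b11_5P :=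
  (congrArg (fun K => fun Y Z d a x => (K x).1 (b11_5b Y Z d a x))
    (funext fun c => bx8_eq _ c .. : b11k8X = _)).trans (by eq_refl)

theorem b11_6q_run : b11_6q = run2 b11_6P :=
  (congrArg (fun K => fun Y Z d a x => (K x).1 (b11_6b Y Z d a x))
    (funext fun c => bx8_eq _ c .. : b11k8X = _)).trans (by eq_refl)

theorem b11_7q_run : b11_7q = run2 b11_7P :=
  (congrArg (fun K => fun Y Z d a x => (K x).1 (b11_7b Y Z d a x))
    (funext fun c => bx8_eq _ c .. : b11k8X = _)).trans (by eq_refl)

theorem b11_8q_run : b11_8q = run2 b11_8P :=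
  (congrArg (fun K => fun Y Z d a x => (K x).1 (b11_8b Y Z d a x))
    (funext fun c => bx8_eq _ c .. : b11k8X = _)).trans (by eq_refl)

theorem b11_9q_run : b11_9q = run2 b11_9P :=
  (congrArg (fun K => fun Y Z d a x => (K x).1 (b11_9b Y Z d a x))
    (funext fun c => bx16_eq _ c .. : b11k16X = _)).trans (by eq_refl)

theorem b11_10q_run : b11_10q = run2 b11_10P :=
  (congrArg (fun K => fun Y Z d a x => (K x).1 (b11_10b Y Z d a x))
    (funext fun c => bx16_eq _ c .. : b11k16X = _)).trans (by eq_refl)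

theorem b11_11q_run : b11_11q = run2 b11_11P :=
  (congrArg (fun K => fun Y Z d a x => (K x).1 (b11_11b Y Z d a x))
    (funext fun c => bx16_eq _ c .. : b11k16X = _)).trans (by eq_refl)

theorem b11_12q_run : b11_12q = run2 b11_12P :=
  (congrArg (fun K => fun Y Z d a x => (K x).1 (b11_12b Y Z d a x))
    (funext fun c => bx16_eq _ c .. : b11k16X = _)).trans (by eq_refl)

theorem b11_13q_run : b11_13q = run2 b11_13P :=
  (congrArg (fun K => fun Y Z d a x => (K x).1 (b11_13b Y Z d a x))
    (funext fun c => bx16_eq _ c .. : b11k16X = _)).trans (by eq_refl)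

theorem b11_14q_run : b11_14q = run2 b11_14P :=
  (congrArg (fun K => fun Y Z d a x => (K x).1 (b11_14b Y Z d a x))
    (funext fun c => bx16_eq _ c .. : b11k16X = _)).trans (by eq_refl)

theorem b11_15q_run : b11_15q = run2 b11_15P :=
  (congrArg (fun K => fun Y Z d a x => (K x).1 (b11_15b Y Z d a x))
    (funext fun c => bx16_eq _ c .. : b11k16X = _)).trans (by eq_refl)

theorem b11_16q_run : b11_16q = run2 b11_16P :=
  (congrArg (fun K => fun Y Z d a x => (K x).1 (b11_16b Y Z d a x))
    (funext fun c => bx16_eq _ c .. : b11k16X = _)).trans (by eq_refl)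

theorem b11_17q_run : b11_17q = run2 b11_17P :=
  (congrArg (fun K => fun Y Z d a x => (K x).1 (b11_17b Y Z d a x))
    (funext fun c => bx24_eq _ c .. : b11k24X = _)).trans (by eq_refl)

theorem b11_18q_run : b11_18q = run2 b11_18P :=
  (congrArg (fun K => fun Y Z d a x => (K x).1 (b11_18b Y Z d a x))
    (funext fun c => bx24_eq _ c .. : b11k24X = _)).trans (by eq_refl)

theorem b11_19q_run : b11_19q = run2 b11_19P :=
  (congrArg (fun K => fun Y Z d a x => (K x).1 (b11_19b Y Z d a x))
    (funext fun c => bx24_eq _ c .. : b11k24X = _)).trans (by eq_refl)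

theorem b11_20q_run : b11_20q = run2 b11_20P :=
  (congrArg (fun K => fun Y Z d a x => (K x).1 (b11_20b Y Z d a x))
    (funext fun c => bx24_eq _ c .. : b11k24X = _)).trans (by eq_refl)

theorem b11_21q_run : b11_21q = run2 b11_21P :=
  (congrArg (fun K => fun Y Z d a x => (K x).1 (b11_21b Y Z d a x))
    (funext fun c => bx24_eq _ c .. : b11k24X = _)).trans (by eq_refl)

theorem b11_22q_run : b11_22q = run2 b11_22P :=
  (congrArg (fun K => fun Y Z d a x => (K x).1 (b11_22b Y Z d a x))
    (funext fun c => bx24_eq _ c .. : b11k24X = _)).trans (by eq_refl)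

theorem b11_23q_run : b11_23q = run2 b11_23P :=
  (congrArg (fun K => fun Y Z d a x => (K x).1 (b11_23b Y Z d a x))
    (funext fun c => bx24_eq _ c .. : b11k24X = _)).trans (by eq_refl)

theorem b11_24q_run : b11_24q = run2 b11_24P :=
  (congrArg (fun K => fun Y Z d a x => (K x).1 (b11_24b Y Z d a x))
    (funext fun c => bx24_eq _ c .. : b11k24X = _)).trans (by eq_refl)

theorem b11_25q_run : b11_25q = run2 b11_25P :=
  (congrArg (fun K => fun Y Z d a x => (K x).1 (b11_25b Y Z d a x))
    (funext fun c => bx32_eq _ c .. : b11k32X = _)).trans (by eq_refl)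

theorem b11_26q_run : b11_26q = run2 b11_26P :=
  (congrArg (fun K => fun Y Z d a x => (K x).1 (b11_26b Y Z d a x))
    (funext fun c => bx32_eq _ c .. : b11k32X = _)).trans (by eq_refl)

theorem b11_27q_run : b11_27q = run2 b11_27P :=
  (congrArg (fun K => fun Y Z d a x => (K x).1 (b11_27b Y Z d a x))
    (funext fun c => bx32_eq _ c .. : b11k32X = _)).trans (by eq_refl)

theorem b11_28q_run : b11_28q = run2 b11_28P :=
  (congrArg (fun K => fun Y Z d a x => (K x).1 (b11_28b Y Z d a x))
    (funext fun c => bx32_eq _ c .. : b11k32X = _)).trans (by eq_refl)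

theorem b11_29q_run : b11_29q = run2 b11_29P :=
  (congrArg (fun K => fun Y Z d a x => (K x).1 (b11_29b Y Z d a x))
    (funext fun c => bx32_eq _ c .. : b11k32X = _)).trans (by eq_refl)

theorem b11_30q_run : b11_30q = run2 b11_30P :=
  (congrArg (fun K => fun Y Z d a x => (K x).1 (b11_30b Y Z d a x))
    (funext fun c => bx32_eq _ c .. : b11k32X = _)).trans (by eq_refl)

theorem b11_31q_run : b11_31q = run2 b11_31P :=
  (congrArg (fun K => fun Y Z d a x => (K x).1 (b11_31b Y Z d a x))
    (funext fun c => bx32_eq _ c .. : b11k32X = _)).trans (by eq_refl)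

theorem b11_32q_run : b11_32q = run2 b11_32P :=
  (congrArg (fun K => fun Y Z d a x => (K x).1 (b11_32b Y Z d a x))
    (funext fun c => bx32_eq _ c .. : b11k32X = _)).trans (by eq_refl)

theorem b11_33q_run : b11_33q = run2 b11_33P :=
  (congrArg (fun K => fun Y Z d a x => (K x).1 (b11_33b Y Z d a x))
    (funext fun c => bx48_eq _ c .. : b11k48X = _)).trans (by eq_refl)

theorem b11_34q_run : b11_34q = run2 b11_34P :=
  (congrArg (fun K => fun Y Z d a x => (K x).1 (b11_34b Y Z d a x))
    (funext fun c => bx48_eq _ c .. : b11k48X = _)).trans (by eq_refl)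

theorem b11_35q_run : b11_35q = run2 b11_35P :=
  (congrArg (fun K => fun Y Z d a x => (K x).1 (b11_35b Y Z d a x))
    (funext fun c => bx48_eq _ c .. : b11k48X = _)).trans (by eq_refl)

theorem b11_36q_run : b11_36q = run2 b11_36P :=
  (congrArg (fun K => fun Y Z d a x => (K x).1 (b11_36b Y Z d a x))
    (funext fun c => bx48_eq _ c .. : b11k48X = _)).trans (by eq_refl)

theorem b11_37q_run : b11_37q = run2 b11_37P :=
  (congrArg (fun K => fun Y Z d a x => (K x).1 (b11_37b Y Z d a x))
    (funext fun c => bx48_eq _ c .. : b11k48X = _)).trans (by eq_refl)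

theorem b11_38q_run : b11_38q = run2 b11_38P :=
  (congrArg (fun K => fun Y Z d a x => (K x).1 (b11_38b Y Z d a x))
    (funext fun c => bx48_eq _ c .. : b11k48X = _)).trans (by eq_refl)

theorem b11_39q_run : b11_39q = run2 b11_39P :=
  (congrArg (fun K => fun Y Z d a x => (K x).1 (b11_39b Y Z d a x))
    (funext fun c => bx48_eq _ c .. : b11k48X = _)).trans (by eq_refl)

theorem b11_40q_run : b11_40q = run2 b11_40P :=
  (congrArg (fun K => fun Y Z d a x => (K x).1 (b11_40b Y Z d a x))
    (funext fun c => bx48_eq _ c .. : b11k48X = _)).trans (by eq_refl)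

theorem b11_41q_run : b11_41q = run2 b11_41P :=
  (congrArg (fun K => fun Y Z d a x => (K x).1 (b11_41b Y Z d a x))
    (funext fun c => bx48_eq _ c .. : b11k48X = _)).trans (by eq_refl)

theorem b11_42q_run : b11_42q = run2 b11_42P :=
  (congrArg (fun K => fun Y Z d a x => (K x).1 (b11_42b Y Z d a x))
    (funext fun c => bx48_eq _ c .. : b11k48X = _)).trans (by eq_refl)

theorem b11_43q_run : b11_43q = run2 b11_43P :=
  (congrArg (fun K => fun Y Z d a x => (K x).1 (b11_43b Y Z d a x))
    (funext fun c => bx48_eq _ c .. : b11k48X = _)).trans (by eq_refl)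

theorem b11_44q_run : b11_44q = run2 b11_44P :=
  (congrArg (fun K => fun Y Z d a x => (K x).1 (b11_44b Y Z d a x))
    (funext fun c => bx48_eq _ c .. : b11k48X = _)).trans (by eq_refl)

theorem b11_45q_run : b11_45q = run2 b11_45P :=
  (congrArg (fun K => fun Y Z d a x => (K x).1 (b11_45b Y Z d a x))
    (funext fun c => bx48_eq _ c .. : b11k48X = _)).trans (by eq_refl)

theorem b11_46q_run : b11_46q = run2 b11_46P :=
  (congrArg (fun K => fun Y Z d a x => (K x).1 (b11_46b Y Z d a x))
    (funext fun c => bx48_eq _ c .. : b11k48X = _)).trans (by eq_refl)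

theorem b11_47q_run : b11_47q = run2 b11_47P :=
  (congrArg (fun K => fun Y Z d a x => (K x).1 (b11_47b Y Z d a x))
    (funext fun c => bx48_eq _ c .. : b11k48X = _)).trans (by eq_refl)

theorem b11_48q_run : b11_48q = run2 b11_48P :=
  (congrArg (fun K => fun Y Z d a x => (K x).1 (b11_48b Y Z d a x))
    (funext fun c => bx48_eq _ c .. : b11k48X = _)).trans (by eq_refl)

theorem b11_49q_run : b11_49q = run2 b11_49P :=
  (congrArg (fun K => fun Y Z d a x => (K x).1 (b11_49b Y Z d a x))
    (funext fun c => bx64_eq _ c .. : b11k64X = _)).trans (by eq_refl)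

theorem b11_50q_run : b11_50q = run2 b11_50P :=
  (congrArg (fun K => fun Y Z d a x => (K x).1 (b11_50b Y Z d a x))
    (funext fun c => bx64_eq _ c .. : b11k64X = _)).trans (by eq_refl)

theorem b11_51q_run : b11_51q = run2 b11_51P :=
  (congrArg (fun K => fun Y Z d a x => (K x).1 (b11_51b Y Z d a x))
    (funext fun c => bx64_eq _ c .. : b11k64X = _)).trans (by eq_refl)

theorem b11_52q_run : b11_52q = run2 b11_52P :=
  (congrArg (fun K => fun Y Z d a x => (K x).1 (b11_52b Y Z d a x))
    (funext fun c => bx64_eq _ c .. : b11k64X = _)).trans (by eq_refl)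

theorem b11_53q_run : b11_53q = run2 b11_53P :=
  (congrArg (fun K => fun Y Z d a x => (K x).1 (b11_53b Y Z d a x))
    (funext fun c => bx64_eq _ c .. : b11k64X = _)).trans (by eq_refl)

theorem b11_54q_run : b11_54q = run2 b11_54P :=
  (congrArg (fun K => fun Y Z d a x => (K x).1 (b11_54b Y Z d a x))
    (funext fun c => bx64_eq _ c .. : b11k64X = _)).trans (by eq_refl)

theorem b11_55q_run : b11_55q = run2 b11_55P :=
  (congrArg (fun K => fun Y Z d a x => (K x).1 (b11_55b Y Z d a x))
    (funext fun c => bx64_eq _ c .. : b11k64X = _)).trans (by eq_refl)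

theorem b11_56q_run : b11_56q = run2 b11_56P :=
  (congrArg (fun K => fun Y Z d a x => (K x).1 (b11_56b Y Z d a x))
    (funext fun c => bx64_eq _ c .. : b11k64X = _)).trans (by eq_refl)

theorem b11_57q_run : b11_57q = run2 b11_57P :=
  (congrArg (fun K => fun Y Z d a x => (K x).1 (b11_57b Y Z d a x))
    (funext fun c => bx64_eq _ c .. : b11k64X = _)).trans (by eq_refl)

theorem b11_58q_run : b11_58q = run2 b11_58P :=
  (congrArg (fun K => fun Y Z d a x => (K x).1 (b11_58b Y Z d a x))
    (funext fun c => bx64_eq _ c .. : b11k64X = _)).trans (by eq_refl)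

theorem b11_59q_run : b11_59q = run2 b11_59P :=
  (congrArg (fun K => fun Y Z d a x => (K x).1 (b11_59b Y Z d a x))
    (funext fun c => bx64_eq _ c .. : b11k64X = _)).trans (by eq_refl)

theorem b11_60q_run : b11_60q = run2 b11_60P :=
  (congrArg (fun K => fun Y Z d a x => (K x).1 (b11_60b Y Z d a x))
    (funext fun c => bx64_eq _ c .. : b11k64X = _)).trans (by eq_refl)

theorem b11_61q_run : b11_61q = run2 b11_61P :=
  (congrArg (fun K => fun Y Z d a x => (K x).1 (b11_61b Y Z d a x))
    (funext fun c => bx64_eq _ c .. : b11k64X = _)).trans (by eq_refl)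

theorem b11_62q_run : b11_62q = run2 b11_62P :=
  (congrArg (fun K => fun Y Z d a x => (K x).1 (b11_62b Y Z d a x))
    (funext fun c => bx64_eq _ c .. : b11k64X = _)).trans (by eq_refl)

theorem b11_63q_run : b11_63q = run2 b11_63P :=
  (congrArg (fun K => fun Y Z d a x => (K x).1 (b11_63b Y Z d a x))
    (funext fun c => bx64_eq _ c .. : b11k64X = _)).trans (by eq_refl)

theorem b11_64q_run : b11_64q = run2 b11_64P :=
  (congrArg (fun K => fun Y Z d a x => (K x).1 (b11_64b Y Z d a x))
    (funext fun c => bx64_eq _ c .. : b11k64X = _)).trans (by eq_refl)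

theorem b11_65q_run : b11_65q = run2 b11_65P :=
  (congrArg (fun K => fun Y Z d a x => (K x).1 (b11_65b Y Z d a x))
    (funext fun c => bx94_eq _ c .. : b11k96X = _)).trans (by eq_refl)

theorem b11_66q_run : b11_66q = run2 b11_66P :=
  (congrArg (fun K => fun Y Z d a x => (K x).1 (b11_66b Y Z d a x))
    (funext fun c => bx94_eq _ c .. : b11k96X = _)).trans (by eq_refl)

theorem b11_67q_run : b11_67q = run2 b11_67P :=
  (congrArg (fun K => fun Y Z d a x => (K x).1 (b11_67b Y Z d a x))
    (funext fun c => bx94_eq _ c .. : b11k96X = _)).trans (by eq_refl)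

theorem b11_68q_run : b11_68q = run2 b11_68P :=
  (congrArg (fun K => fun Y Z d a x => (K x).1 (b11_68b Y Z d a x))
    (funext fun c => bx94_eq _ c .. : b11k96X = _)).trans (by eq_refl)

theorem b11_69q_run : b11_69q = run2 b11_69P :=
  (congrArg (fun K => fun Y Z d a x => (K x).1 (b11_69b Y Z d a x))
    (funext fun c => bx94_eq _ c .. : b11k96X = _)).trans (by eq_refl)

theorem b11_70q_run : b11_70q = run2 b11_70P :=
  (congrArg (fun K => fun Y Z d a x => (K x).1 (b11_70b Y Z d a x))
    (funext fun c => bx94_eq _ c .. : b11k96X = _)).trans (by eq_refl)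

theorem b11_71q_run : b11_71q = run2 b11_71P :=
  (congrArg (fun K => fun Y Z d a x => (K x).1 (b11_71b Y Z d a x))
    (funext fun c => bx94_eq _ c .. : b11k96X = _)).trans (by eq_refl)

theorem b11_72q_run : b11_72q = run2 b11_72P :=
  (congrArg (fun K => fun Y Z d a x => (K x).1 (b11_72b Y Z d a x))
    (funext fun c => bx94_eq _ c .. : b11k96X = _)).trans (by eq_refl)

theorem b11_73q_run : b11_73q = run2 b11_73P :=
  (congrArg (fun K => fun Y Z d a x => (K x).1 (b11_73b Y Z d a x))
    (funext fun c => bx94_eq _ c .. : b11k96X = _)).trans (by eq_refl)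

theorem b11_74q_run : b11_74q = run2 b11_74P :=
  (congrArg (fun K => fun Y Z d a x => (K x).1 (b11_74b Y Z d a x))
    (funext fun c => bx94_eq _ c .. : b11k96X = _)).trans (by eq_refl)

theorem b11_75q_run : b11_75q = run2 b11_75P :=
  (congrArg (fun K => fun Y Z d a x => (K x).1 (b11_75b Y Z d a x))
    (funext fun c => bx94_eq _ c .. : b11k96X = _)).trans (by eq_refl)

theorem b11_76q_run : b11_76q = run2 b11_76P :=
  (congrArg (fun K => fun Y Z d a x => (K x).1 (b11_76b Y Z d a x))
    (funext fun c => bx94_eq _ c .. : b11k96X = _)).trans (by eq_refl)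

theorem b11_77q_run : b11_77q = run2 b11_77P :=
  (congrArg (fun K => fun Y Z d a x => (K x).1 (b11_77b Y Z d a x))
    (funext fun c => bx94_eq _ c .. : b11k96X = _)).trans (by eq_refl)

theorem b11_78q_run : b11_78q = run2 b11_78P :=
  (congrArg (fun K => fun Y Z d a x => (K x).1 (b11_78b Y Z d a x))
    (funext fun c => bx94_eq _ c .. : b11k96X = _)).trans (by eq_refl)

theorem b11_79q_run : b11_79q = run2 b11_79P :=
  (congrArg (fun K => fun Y Z d a x => (K x).1 (b11_79b Y Z d a x))
    (funext fun c => bx94_eq _ c .. : b11k96X = _)).trans (by eq_refl)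

theorem b11_80q_run : b11_80q = run2 b11_80P :=
  (congrArg (fun K => fun Y Z d a x => (K x).1 (b11_80b Y Z d a x))
    (funext fun c => bx94_eq _ c .. : b11k96X = _)).trans (by eq_refl)

theorem b11_81q_run : b11_81q = run2 b11_81P :=
  (congrArg (fun K => fun Y Z d a x => (K x).1 (b11_81b Y Z d a x))
    (funext fun c => bx94_eq _ c .. : b11k96X = _)).trans (by eq_refl)

theorem b11_82q_run : b11_82q = run2 b11_82P :=
  (congrArg (fun K => fun Y Z d a x => (K x).1 (b11_82b Y Z d a x))
    (funext fun c => bx94_eq _ c .. : b11k96X = _)).trans (by eq_refl)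

theorem b11_83q_run : b11_83q = run2 b11_83P :=
  (congrArg (fun K => fun Y Z d a x => (K x).1 (b11_83b Y Z d a x))
    (funext fun c => bx94_eq _ c .. : b11k96X = _)).trans (by eq_refl)

theorem b11_84q_run : b11_84q = run2 b11_84P :=
  (congrArg (fun K => fun Y Z d a x => (K x).1 (b11_84b Y Z d a x))
    (funext fun c => bx94_eq _ c .. : b11k96X = _)).trans (by eq_refl)

theorem b11_85q_run : b11_85q = run2 b11_85P :=
  (congrArg (fun K => fun Y Z d a x => (K x).1 (b11_85b Y Z d a x))
    (funext fun c => bx94_eq _ c .. : b11k96X = _)).trans (by eq_refl)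

theorem b11_86q_run : b11_86q = run2 b11_86P :=
  (congrArg (fun K => fun Y Z d a x => (K x).1 (b11_86b Y Z d a x))
    (funext fun c => bx94_eq _ c .. : b11k96X = _)).trans (by eq_refl)

theorem b11_87q_run : b11_87q = run2 b11_87P :=
  (congrArg (fun K => fun Y Z d a x => (K x).1 (b11_87b Y Z d a x))
    (funext fun c => bx94_eq _ c .. : b11k96X = _)).trans (by eq_refl)

theorem b11_88q_run : b11_88q = run2 b11_88P :=
  (congrArg (fun K => fun Y Z d a x => (K x).1 (b11_88b Y Z d a x))
    (funext fun c => bx94_eq _ c .. : b11k96X = _)).trans (by eq_refl)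

theorem b11_89q_run : b11_89q = run2 b11_89P :=
  (congrArg (fun K => fun Y Z d a x => (K x).1 (b11_89b Y Z d a x))
    (funext fun c => bx94_eq _ c .. : b11k96X = _)).trans (by eq_refl)

theorem b11_90q_run : b11_90q = run2 b11_90P :=
  (congrArg (fun K => fun Y Z d a x => (K x).1 (b11_90b Y Z d a x))
    (funext fun c => bx94_eq _ c .. : b11k96X = _)).trans (by eq_refl)

theorem b11_91q_run : b11_91q = run2 b11_91P :=
  (congrArg (fun K => fun Y Z d a x => (K x).1 (b11_91b Y Z d a x))
    (funext fun c => bx94_eq _ c .. : b11k96X = _)).trans (by eq_refl)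

theorem b11_92q_run : b11_92q = run2 b11_92P :=
  (congrArg (fun K => fun Y Z d a x => (K x).1 (b11_92b Y Z d a x))
    (funext fun c => bx94_eq _ c .. : b11k96X = _)).trans (by eq_refl)

theorem b11_93q_run : b11_93q = run2 b11_93P :=
  (congrArg (fun K => fun Y Z d a x => (K x).1 (b11_93b Y Z d a x))
    (funext fun c => bx94_eq _ c .. : b11k96X = _)).trans (by eq_refl)

theorem b11_94q_run : b11_94q = run2 b11_94P :=
  (congrArg (fun K => fun Y Z d a x => (K x).1 (b11_94b Y Z d a x))
    (funext fun c => bx94_eq _ c .. : b11k96X = _)).trans (by eq_refl)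

theorem b11q_run : b11q = b11P.map run2 :=
  (cg2 List.cons rfl
    (cg2 List.cons b11_1q_run
    (cg2 List.cons b11_2q_run
    (cg2 List.cons b11_3q_run
    (cg2 List.cons b11_4q_run
    (cg2 List.cons b11_5q_run
    (cg2 List.cons b11_6q_run
    (cg2 List.cons b11_7q_run
    (cg2 List.cons b11_8q_run
    (cg2 List.cons b11_9q_run
    (cg2 List.cons b11_10q_run
    (cg2 List.cons b11_11q_run
    (cg2 List.cons b11_12q_run
    (cg2 List.cons b11_13q_run
    (cg2 List.cons b11_14q_run
    (cg2 List.cons b11_15q_run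
    (cg2 List.cons b11_16q_run
    (cg2 List.cons b11_17q_run
    (cg2 List.cons b11_18q_run
    (cg2 List.cons b11_19q_run
    (cg2 List.cons b11_20q_run
    (cg2 List.cons b11_21q_run
    (cg2 List.cons b11_22q_run
    (cg2 List.cons b11_23q_run
    (cg2 List.cons b11_24q_run
    (cg2 List.cons b11_25q_run
    (cg2 List.cons b11_26q_run
    (cg2 List.cons b11_27q_run
    (cg2 List.cons b11_28q_run
    (cg2 List.cons b11_29q_run
    (cg2 List.cons b11_30q_run
    (cg2 List.cons b11_31q_run
    (cg2 List.cons b11_32q_run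
    (cg2 List.cons b11_33q_run
    (cg2 List.cons b11_34q_run
    (cg2 List.cons b11_35q_run
    (cg2 List.cons b11_36q_run
    (cg2 List.cons b11_37q_run
    (cg2 List.cons b11_38q_run
    (cg2 List.cons b11_39q_run
    (cg2 List.cons b11_40q_run
    (cg2 List.cons b11_41q_run
    (cg2 List.cons b11_42q_run
    (cg2 List.cons b11_43q_run
    (cg2 List.cons b11_44q_run
    (cg2 List.cons b11_45q_run
    (cg2 List.cons b11_46q_run
    (cg2 List.cons b11_47q_run
    (cg2 List.cons b11_48q_run
    (cg2 List.cons b11_49q_run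
    (cg2 List.cons b11_50q_run
    (cg2 List.cons b11_51q_run
    (cg2 List.cons b11_52q_run
    (cg2 List.cons b11_53q_run
    (cg2 List.cons b11_54q_run
    (cg2 List.cons b11_55q_run
    (cg2 List.cons b11_56q_run
    (cg2 List.cons b11_57q_run
    (cg2 List.cons b11_58q_run
    (cg2 List.cons b11_59q_run
    (cg2 List.cons b11_60q_run
    (cg2 List.cons b11_61q_run
    (cg2 List.cons b11_62q_run
    (cg2 List.cons b11_63q_run
    (cg2 List.cons b11_64q_run
    (cg2 List.cons b11_65q_run
    (cg2 List.cons b11_66q_run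
    (cg2 List.cons b11_67q_run
    (cg2 List.cons b11_68q_run
    (cg2 List.cons b11_69q_run
    (cg2 List.cons b11_70q_run
    (cg2 List.cons b11_71q_run
    (cg2 List.cons b11_72q_run
    (cg2 List.cons b11_73q_run
    (cg2 List.cons b11_74q_run
    (cg2 List.cons b11_75q_run
    (cg2 List.cons b11_76q_run
    (cg2 List.cons b11_77q_run
    (cg2 List.cons b11_78q_run
    (cg2 List.cons b11_79q_run
    (cg2 List.cons b11_80q_run
    (cg2 List.cons b11_81q_run
    (cg2 List.cons b11_82q_run
    (cg2 List.cons b11_83q_run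
    (cg2 List.cons b11_84q_run
    (cg2 List.cons b11_85q_run
    (cg2 List.cons b11_86q_run
    (cg2 List.cons b11_87q_run
    (cg2 List.cons b11_88q_run
    (cg2 List.cons b11_89q_run
    (cg2 List.cons b11_90q_run
    (cg2 List.cons b11_91q_run
    (cg2 List.cons b11_92q_run
    (cg2 List.cons b11_93q_run
    (cg2 List.cons b11_94q_run
    rfl)))))))))))))))))))))))))))))))))))))))))))))))))))))))))))))))))))))))))))))))))))))))))))))))

theorem g3cq_run : g3cq = run2 g3cP :=
  (congrArg (fun K => fun Y Z d a x => (K a).1 (g3cb Y Z d a x))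
    (funext fun c => bx2_eq _ c .. : g3ckI = _)).trans (by eq_refl)

theorem g4cq_run : g4cq = run2 g4cP :=
  (congrArg (fun K => fun Y Z d a x => (K a).1 (g4cb Y Z d a x))
    (funext fun c => bx4_eq _ c .. : g4ckI = _)).trans (by eq_refl)

theorem w2cq_run : w2cq = run2 w2cP :=
  (congrArg (fun K => fun Y Z d a x => (K a).1 (w2cb Y Z d a x))
    (funext fun c => bx1_eq _ c .. : w2ckI = _)).trans (by eq_refl)

theorem b34cq_run : b34cq = run2 b34cP :=
  (cg2 (fun K L => fun Y Z d a x => (K a).1 ((L x).1 (b34cb Y Z d a x)))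
    (funext fun c => bx2_eq _ c .. : b34ckI = _)
    (funext fun c => bx4_eq _ c .. : b34ckX = _)).trans (by eq_refl)

theorem b23cq_run : b23cq = run2 b23cP :=
  (cg2 (fun K L => fun Y Z d a x => (K a).1 ((L x).1 (b23cb Y Z d a x)))
    (funext fun c => bx2_eq _ c .. : b23ckI = _)
    (funext fun c => bx4_eq _ c .. : b23ckX = _)).trans (by eq_refl)

theorem b12cq_run : b12cq = run2 b12cP :=
  (congrArg (fun K => fun Y Z d a x => (K x).1 (b12cb Y Z d a x))
    (funext fun c => bx4_eq _ c .. : b12ckX = _)).trans (by eq_refl)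

theorem b13_13q_run : b13_13q = run2 b13_13P :=
  (congrArg (fun K => fun Y Z d a x => (K x).1 (b13_13b Y Z d a x))
    (funext fun c => bx18_eq _ c .. : b13_13kX = _)).trans (by eq_refl)

theorem b13_4q_run : b13_4q = run2 b13_4P :=
  (congrArg (fun K => fun Y Z d a x => (K x).1 (b13_4b Y Z d a x))
    (funext fun c => bx18_eq _ c .. : b13_4kX = _)).trans (by eq_refl)

theorem b24_13q_run : b24_13q = run2 b24_13P :=
  (cg2 (fun K L => fun Y Z d a x => (K a).1 ((L x).1 (b24_13b Y Z d a x)))
    (funext fun c => bx8_eq _ c .. : b24_13kI = _)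
    (funext fun c => bx24_eq _ c .. : b24_13kX = _)).trans (by eq_refl)

theorem b24_4q_run : b24_4q = run2 b24_4P :=
  (cg2 (fun K L => fun Y Z d a x => (K a).1 ((L x).1 (b24_4b Y Z d a x)))
    (funext fun c => bx8_eq _ c .. : b24_4kI = _)
    (funext fun c => bx24_eq _ c .. : b24_4kX = _)).trans (by eq_refl)

theorem w3_13q_run : w3_13q = run2 w3_13P :=
  (congrArg (fun K => fun Y Z d a x => (K a).1 (w3_13b Y Z d a x))
    (funext fun c => bx3_eq _ c .. : w3_13kI = _)).trans (by eq_refl)

theorem w3_5q_run : w3_5q = run2 w3_5P :=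
  (congrArg (fun K => fun Y Z d a x => (K a).1 (w3_5b Y Z d a x))
    (funext fun c => bx3_eq _ c .. : w3_5kI = _)).trans (by eq_refl)

theorem w3_4q_run : w3_4q = run2 w3_4P :=
  (congrArg (fun K => fun Y Z d a x => (K a).1 (w3_4b Y Z d a x))
    (funext fun c => bx3_eq _ c .. : w3_4kI = _)).trans (by eq_refl)

theorem b22_1q_run : b22_1q = run2 b22_1P :=
  (cg2 (fun K L => fun Y Z d a x => (K a).1 ((L x).1 (b22_1b Y Z d a x)))
    (funext fun c => bx2_eq _ c .. : b22k2I = _)
    (funext fun c => bx2_eq _ c .. : b22k2X = _)).trans (by eq_refl)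

theorem b22_2q_run : b22_2q = run2 b22_2P :=
  (cg2 (fun K L => fun Y Z d a x => (K a).1 ((L x).1 (b22_2b Y Z d a x)))
    (funext fun c => bx2_eq _ c .. : b22k2I = _)
    (funext fun c => bx2_eq _ c .. : b22k2X = _)).trans (by eq_refl)

theorem b22_3q_run : b22_3q = run2 b22_3P :=
  (cg2 (fun K L => fun Y Z d a x => (K a).1 ((L x).1 (b22_3b Y Z d a x)))
    (funext fun c => bx4_eq _ c .. : b22k4I = _)
    (funext fun c => bx4_eq _ c .. : b22k4X = _)).trans (by eq_refl)

theorem b22_4q_run : b22_4q = run2 b22_4P :=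
  (cg2 (fun K L => fun Y Z d a x => (K a).1 ((L x).1 (b22_4b Y Z d a x)))
    (funext fun c => bx4_eq _ c .. : b22k4I = _)
    (funext fun c => bx4_eq _ c .. : b22k4X = _)).trans (by eq_refl)

theorem b22_5q_run : b22_5q = run2 b22_5P :=
  (cg2 (fun K L => fun Y Z d a x => (K a).1 ((L x).1 (b22_5b Y Z d a x)))
    (funext fun c => bx8_eq _ c .. : b22k8I = _)
    (funext fun c => bx8_eq _ c .. : b22k8X = _)).trans (by eq_refl)

theorem b22_6q_run : b22_6q = run2 b22_6P :=
  (cg2 (fun K L => fun Y Z d a x => (K a).1 ((L x).1 (b22_6b Y Z d a x)))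
    (funext fun c => bx8_eq _ c .. : b22k8I = _)
    (funext fun c => bx8_eq _ c .. : b22k8X = _)).trans (by eq_refl)

theorem b22_7q_run : b22_7q = run2 b22_7P :=
  (cg2 (fun K L => fun Y Z d a x => (K a).1 ((L x).1 (b22_7b Y Z d a x)))
    (funext fun c => bx8_eq _ c .. : b22k8I = _)
    (funext fun c => bx8_eq _ c .. : b22k8X = _)).trans (by eq_refl)

theorem b22_8q_run : b22_8q = run2 b22_8P :=
  (cg2 (fun K L => fun Y Z d a x => (K a).1 ((L x).1 (b22_8b Y Z d a x)))
    (funext fun c => bx8_eq _ c .. : b22k8I = _)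
    (funext fun c => bx8_eq _ c .. : b22k8X = _)).trans (by eq_refl)

theorem b22_9q_run : b22_9q = run2 b22_9P :=
  (cg2 (fun K L => fun Y Z d a x => (K a).1 ((L x).1 (b22_9b Y Z d a x)))
    (funext fun c => bx16_eq _ c .. : b22k16I = _)
    (funext fun c => bx16_eq _ c .. : b22k16X = _)).trans (by eq_refl)

theorem b22_10q_run : b22_10q = run2 b22_10P :=
  (cg2 (fun K L => fun Y Z d a x => (K a).1 ((L x).1 (b22_10b Y Z d a x)))
    (funext fun c => bx16_eq _ c .. : b22k16I = _)
    (funext fun c => bx16_eq _ c .. : b22k16X = _)).trans (by eq_refl)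

theorem b22_11q_run : b22_11q = run2 b22_11P :=
  (cg2 (fun K L => fun Y Z d a x => (K a).1 ((L x).1 (b22_11b Y Z d a x)))
    (funext fun c => bx16_eq _ c .. : b22k16I = _)
    (funext fun c => bx16_eq _ c .. : b22k16X = _)).trans (by eq_refl)

theorem b22_12q_run : b22_12q = run2 b22_12P :=
  (cg2 (fun K L => fun Y Z d a x => (K a).1 ((L x).1 (b22_12b Y Z d a x)))
    (funext fun c => bx16_eq _ c .. : b22k16I = _)
    (funext fun c => bx16_eq _ c .. : b22k16X = _)).trans (by eq_refl)

theorem b22_13q_run : b22_13q = run2 b22_13P :=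
  (cg2 (fun K L => fun Y Z d a x => (K a).1 ((L x).1 (b22_13b Y Z d a x)))
    (funext fun c => bx16_eq _ c .. : b22k16I = _)
    (funext fun c => bx16_eq _ c .. : b22k16X = _)).trans (by eq_refl)

theorem b22_14q_run : b22_14q = run2 b22_14P :=
  (cg2 (fun K L => fun Y Z d a x => (K a).1 ((L x).1 (b22_14b Y Z d a x)))
    (funext fun c => bx16_eq _ c .. : b22k16I = _)
    (funext fun c => bx16_eq _ c .. : b22k16X = _)).trans (by eq_refl)

theorem b22_15q_run : b22_15q = run2 b22_15P :=
  (cg2 (fun K L => fun Y Z d a x => (K a).1 ((L x).1 (b22_15b Y Z d a x)))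
    (funext fun c => bx16_eq _ c .. : b22k16I = _)
    (funext fun c => bx16_eq _ c .. : b22k16X = _)).trans (by eq_refl)

theorem b22_16q_run : b22_16q = run2 b22_16P :=
  (cg2 (fun K L => fun Y Z d a x => (K a).1 ((L x).1 (b22_16b Y Z d a x)))
    (funext fun c => bx16_eq _ c .. : b22k16I = _)
    (funext fun c => bx16_eq _ c .. : b22k16X = _)).trans (by eq_refl)

theorem b22_17q_run : b22_17q = run2 b22_17P :=
  (cg2 (fun K L => fun Y Z d a x => (K a).1 ((L x).1 (b22_17b Y Z d a x)))
    (funext fun c => bx23_eq _ c .. : b22k24I = _)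
    (funext fun c => bx23_eq _ c .. : b22k24X = _)).trans (by eq_refl)

theorem b22_18q_run : b22_18q = run2 b22_18P :=
  (cg2 (fun K L => fun Y Z d a x => (K a).1 ((L x).1 (b22_18b Y Z d a x)))
    (funext fun c => bx23_eq _ c .. : b22k24I = _)
    (funext fun c => bx23_eq _ c .. : b22k24X = _)).trans (by eq_refl)

theorem b22_19q_run : b22_19q = run2 b22_19P :=
  (cg2 (fun K L => fun Y Z d a x => (K a).1 ((L x).1 (b22_19b Y Z d a x)))
    (funext fun c => bx23_eq _ c .. : b22k24I = _)
    (funext fun c => bx23_eq _ c .. : b22k24X = _)).trans (by eq_refl)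

theorem b22_20q_run : b22_20q = run2 b22_20P :=
  (cg2 (fun K L => fun Y Z d a x => (K a).1 ((L x).1 (b22_20b Y Z d a x)))
    (funext fun c => bx23_eq _ c .. : b22k24I = _)
    (funext fun c => bx23_eq _ c .. : b22k24X = _)).trans (by eq_refl)

theorem b22_21q_run : b22_21q = run2 b22_21P :=
  (cg2 (fun K L => fun Y Z d a x => (K a).1 ((L x).1 (b22_21b Y Z d a x)))
    (funext fun c => bx23_eq _ c .. : b22k24I = _)
    (funext fun c => bx23_eq _ c .. : b22k24X = _)).trans (by eq_refl)

theorem b22_22q_run : b22_22q = run2 b22_22P :=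
  (cg2 (fun K L => fun Y Z d a x => (K a).1 ((L x).1 (b22_22b Y Z d a x)))
    (funext fun c => bx23_eq _ c .. : b22k24I = _)
    (funext fun c => bx23_eq _ c .. : b22k24X = _)).trans (by eq_refl)

theorem b22_23q_run : b22_23q = run2 b22_23P :=
  (cg2 (fun K L => fun Y Z d a x => (K a).1 ((L x).1 (b22_23b Y Z d a x)))
    (funext fun c => bx23_eq _ c .. : b22k24I = _)
    (funext fun c => bx23_eq _ c .. : b22k24X = _)).trans (by eq_refl)

theorem b33_1q_run : b33_1q = run2 b33_1P :=
  (cg2 (fun K L => fun Y Z d a x => (K a).1 ((L x).1 (b33_1b Y Z d a x)))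
    (funext fun c => bx1_eq _ c .. : b33k1I = _)
    (funext fun c => bx1_eq _ c .. : b33k1X = _)).trans (by eq_refl)

theorem b33_2q_run : b33_2q = run2 b33_2P :=
  (cg2 (fun K L => fun Y Z d a x => (K a).1 ((L x).1 (b33_2b Y Z d a x)))
    (funext fun c => bx2_eq _ c .. : b33k2I = _)
    (funext fun c => bx2_eq _ c .. : b33k2X = _)).trans (by eq_refl)

theorem b33_3q_run : b33_3q = run2 b33_3P :=
  (cg2 (fun K L => fun Y Z d a x => (K a).1 ((L x).1 (b33_3b Y Z d a x)))
    (funext fun c => bx4_eq _ c .. : b33k4I = _)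
    (funext fun c => bx4_eq _ c .. : b33k4X = _)).trans (by eq_refl)

theorem b33_4q_run : b33_4q = run2 b33_4P :=
  (cg2 (fun K L => fun Y Z d a x => (K a).1 ((L x).1 (b33_4b Y Z d a x)))
    (funext fun c => bx4_eq _ c .. : b33k4I = _)
    (funext fun c => bx4_eq _ c .. : b33k4X = _)).trans (by eq_refl)

theorem b33_5q_run : b33_5q = run2 b33_5P :=
  (cg2 (fun K L => fun Y Z d a x => (K a).1 ((L x).1 (b33_5b Y Z d a x)))
    (funext fun c => bx7_eq _ c .. : b33k8I = _)
    (funext fun c => bx7_eq _ c .. : b33k8X = _)).trans (by eq_refl)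

theorem b33_6q_run : b33_6q = run2 b33_6P :=
  (cg2 (fun K L => fun Y Z d a x => (K a).1 ((L x).1 (b33_6b Y Z d a x)))
    (funext fun c => bx7_eq _ c .. : b33k8I = _)
    (funext fun c => bx7_eq _ c .. : b33k8X = _)).trans (by eq_refl)

theorem b33_7q_run : b33_7q = run2 b33_7P :=
  (cg2 (fun K L => fun Y Z d a x => (K a).1 ((L x).1 (b33_7b Y Z d a x)))
    (funext fun c => bx7_eq _ c .. : b33k8I = _)
    (funext fun c => bx7_eq _ c .. : b33k8X = _)).trans (by eq_refl)

theorem b44_1q_run : b44_1q = run2 b44_1P :=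
  (cg2 (fun K L => fun Y Z d a x => (K a).1 ((L x).1 (b44_1b Y Z d a x)))
    (funext fun c => bx1_eq _ c .. : b44k1I = _)
    (funext fun c => bx1_eq _ c .. : b44k1X = _)).trans (by eq_refl)

theorem b44_2q_run : b44_2q = run2 b44_2P :=
  (cg2 (fun K L => fun Y Z d a x => (K a).1 ((L x).1 (b44_2b Y Z d a x)))
    (funext fun c => bx2_eq _ c .. : b44k2I = _)
    (funext fun c => bx2_eq _ c .. : b44k2X = _)).trans (by eq_refl)

theorem b22q_run : b22q = b22P.map run2 :=
  (cg2 List.cons rfl
    (cg2 List.cons b22_1q_run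
    (cg2 List.cons b22_2q_run
    (cg2 List.cons b22_3q_run
    (cg2 List.cons b22_4q_run
    (cg2 List.cons b22_5q_run
    (cg2 List.cons b22_6q_run
    (cg2 List.cons b22_7q_run
    (cg2 List.cons b22_8q_run
    (cg2 List.cons b22_9q_run
    (cg2 List.cons b22_10q_run
    (cg2 List.cons b22_11q_run
    (cg2 List.cons b22_12q_run
    (cg2 List.cons b22_13q_run
    (cg2 List.cons b22_14q_run
    (cg2 List.cons b22_15q_run
    (cg2 List.cons b22_16q_run
    (cg2 List.cons b22_17q_run
    (cg2 List.cons b22_18q_run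
    (cg2 List.cons b22_19q_run
    (cg2 List.cons b22_20q_run
    (cg2 List.cons b22_21q_run
    (cg2 List.cons b22_22q_run
    (cg2 List.cons b22_23q_run
    rfl))))))))))))))))))))))))

theorem b33q_run : b33q = b33P.map run2 :=
  (cg2 List.cons rfl
    (cg2 List.cons b33_1q_run
    (cg2 List.cons b33_2q_run
    (cg2 List.cons b33_3q_run
    (cg2 List.cons b33_4q_run
    (cg2 List.cons b33_5q_run
    (cg2 List.cons b33_6q_run
    (cg2 List.cons b33_7q_run
    rfl))))))))

theorem b44q_run : b44q = b44P.map run2 :=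
  (cg2 List.cons rfl
    (cg2 List.cons b44_1q_run
    (cg2 List.cons b44_2q_run
    rfl)))

theorem w4_13q_run : w4_13q = run2 w4_13P :=
  (congrArg (fun K => fun Y Z d a x => (K a).1 (w4_13b Y Z d a x))
    (funext fun c => bx9_eq _ c .. : w4_13kI = _)).trans (by eq_refl)

theorem b14_13q_run : b14_13q = run2 b14_13P :=
  (congrArg (fun K => fun Y Z d a x => (K x).1 (b14_13b Y Z d a x))
    (funext fun c => bx195_eq _ c .. : b14_13kX = _)).trans (by eq_refl)

theorem w1_13_1q_run : w1_13_1q = run2 w1_13_1P :=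
  by eq_refl

theorem w1_13_2q_run : w1_13_2q = run2 w1_13_2P :=
  by eq_refl

theorem w1_13_3q_run : w1_13_3q = run2 w1_13_3P :=
  by eq_refl

theorem w1_13_4q_run : w1_13_4q = run2 w1_13_4P :=
  by eq_refl

theorem w1_13_5q_run : w1_13_5q = run2 w1_13_5P :=
  by eq_refl

theorem w1_13_6q_run : w1_13_6q = run2 w1_13_6P :=
  by eq_refl

theorem w1_13_7q_run : w1_13_7q = run2 w1_13_7P :=
  by eq_refl

theorem w1_13_8q_run : w1_13_8q = run2 w1_13_8P :=
  by eq_refl

theorem w1_13_9q_run : w1_13_9q = run2 w1_13_9P :=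
  by eq_refl

theorem w1_13_10q_run : w1_13_10q = run2 w1_13_10P :=
  by eq_refl

theorem w1_13_11q_run : w1_13_11q = run2 w1_13_11P :=
  by eq_refl

theorem w1_13_12q_run : w1_13_12q = run2 w1_13_12P :=
  by eq_refl

theorem w1_13q_run : w1_13q = w1_13P.map run2 :=
  (cg2 List.cons rfl
    (cg2 List.cons w1_13_1q_run
    (cg2 List.cons w1_13_2q_run
    (cg2 List.cons w1_13_3q_run
    (cg2 List.cons w1_13_4q_run
    (cg2 List.cons w1_13_5q_run
    (cg2 List.cons w1_13_6q_run
    (cg2 List.cons w1_13_7q_run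
    (cg2 List.cons w1_13_8q_run
    (cg2 List.cons w1_13_9q_run
    (cg2 List.cons w1_13_10q_run
    (cg2 List.cons w1_13_11q_run
    (cg2 List.cons w1_13_12q_run
    rfl)))))))))))))

theorem w4_10q_run : w4_10q = run2 w4_10P :=
  (congrArg (fun K => fun Y Z d a x => (K a).1 (w4_10b Y Z d a x))
    (funext fun c => bx7_eq _ c .. : w4_10kI = _)).trans (by eq_refl)

theorem b14_10q_run : b14_10q = run2 b14_10P :=
  (congrArg (fun K => fun Y Z d a x => (K x).1 (b14_10b Y Z d a x))
    (funext fun c => bx192_eq _ c .. : b14_10kX = _)).trans (by eq_refl)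

theorem w1_10_1q_run : w1_10_1q = run2 w1_10_1P :=
  by eq_refl

theorem w1_10_2q_run : w1_10_2q = run2 w1_10_2P :=
  by eq_refl

theorem w1_10_3q_run : w1_10_3q = run2 w1_10_3P :=
  by eq_refl

theorem w1_10_4q_run : w1_10_4q = run2 w1_10_4P :=
  by eq_refl

theorem w1_10_5q_run : w1_10_5q = run2 w1_10_5P :=
  by eq_refl

theorem w1_10_6q_run : w1_10_6q = run2 w1_10_6P :=
  by eq_refl

theorem w1_10_7q_run : w1_10_7q = run2 w1_10_7P :=
  by eq_refl

theorem w1_10_8q_run : w1_10_8q = run2 w1_10_8P :=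
  by eq_refl

theorem w1_10_9q_run : w1_10_9q = run2 w1_10_9P :=
  by eq_refl

theorem w1_10q_run : w1_10q = w1_10P.map run2 :=
  (cg2 List.cons rfl
    (cg2 List.cons w1_10_1q_run
    (cg2 List.cons w1_10_2q_run
    (cg2 List.cons w1_10_3q_run
    (cg2 List.cons w1_10_4q_run
    (cg2 List.cons w1_10_5q_run
    (cg2 List.cons w1_10_6q_run
    (cg2 List.cons w1_10_7q_run
    (cg2 List.cons w1_10_8q_run
    (cg2 List.cons w1_10_9q_run
    rfl))))))))))

theorem w4_5q_run : w4_5q = run2 w4_5P :=
  (congrArg (fun K => fun Y Z d a x => (K a).1 (w4_5b Y Z d a x))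
    (funext fun c => bx7_eq _ c .. : w4_5kI = _)).trans (by eq_refl)

theorem b14_5q_run : b14_5q = run2 b14_5P :=
  (congrArg (fun K => fun Y Z d a x => (K x).1 (b14_5b Y Z d a x))
    (funext fun c => bx168_eq _ c .. : b14_5kX = _)).trans (by eq_refl)

theorem w1_5_1q_run : w1_5_1q = run2 w1_5_1P :=
  by eq_refl

theorem w1_5_2q_run : w1_5_2q = run2 w1_5_2P :=
  by eq_refl

theorem w1_5_3q_run : w1_5_3q = run2 w1_5_3P :=
  by eq_refl

theorem w1_5_4q_run : w1_5_4q = run2 w1_5_4P :=
  by eq_refl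

theorem w1_5q_run : w1_5q = w1_5P.map run2 :=
  (cg2 List.cons rfl
    (cg2 List.cons w1_5_1q_run
    (cg2 List.cons w1_5_2q_run
    (cg2 List.cons w1_5_3q_run
    (cg2 List.cons w1_5_4q_run
    rfl)))))

theorem w4_4q_run : w4_4q = run2 w4_4P :=
  (congrArg (fun K => fun Y Z d a x => (K a).1 (w4_4b Y Z d a x))
    (funext fun c => bx7_eq _ c .. : w4_4kI = _)).trans (by eq_refl)

theorem b14_4q_run : b14_4q = run2 b14_4P :=
  (congrArg (fun K => fun Y Z d a x => (K x).1 (b14_4b Y Z d a x))
    (funext fun c => bx150_eq _ c .. : b14_4kX = _)).trans (by eq_refl)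

theorem w1_4_1q_run : w1_4_1q = run2 w1_4_1P :=
  by eq_refl

theorem w1_4_2q_run : w1_4_2q = run2 w1_4_2P :=
  by eq_refl

theorem w1_4_3q_run : w1_4_3q = run2 w1_4_3P :=
  by eq_refl

theorem w1_4q_run : w1_4q = w1_4P.map run2 :=
  (cg2 List.cons rfl
    (cg2 List.cons w1_4_1q_run
    (cg2 List.cons w1_4_2q_run
    (cg2 List.cons w1_4_3q_run
    rfl))))

end Vale.Agent.P236B
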