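import Vale.Agent.P236B.QR
import Vale.Agent.P236B.PrgT
import Vale.Agent.P236X.PrgOK2

/-!
# P236 / B : the programs with two keys are correct
-/

namespace Vale.Agent.P236B

open Vale.Agent.P236M Vale.Agent.P236X

theorem itOK2_of {D K : List ℕ} {b c a N a' N' w : ℕ} {p : Pg} {l : List Tm} {β : Prog2}
    {z : P236X.Pb a N} (h : itT D K b c a' N' w p l = true) (hβ : β = run2 p) (ha : a ≤ a')
    (hN : N ≤ N') (hz : z = evL (q12 (vx (xq a N))) l) : ItOK2 a N β w z := by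
  simp only [itT, Bool.and_eq_true, Nat.ble_eq] at h
  exact ⟨p, hβ, h.1.1, h.1.2, (den_eq _ p).trans ((eq_Ab h.2 ha hN).trans
    ((evL_cut _ (pow_Ab hN) l).trans hz.symm))⟩

theorem gOK2_of {D K : List ℕ} {b c a N a' N' w i : ℕ} {p : Pg} {l : List Tm} {β : Prog2}
    {z : P236X.Pb a N} (h : gT D K b c a' N' w i p l = true) (hβ : β = run2 p) (ha : a ≤ a')
    (hN : N ≤ N') (hi : i < 4) (hz : z = evL (q12 (vx (xq a N))) l) :
    ItOK2 a N β w (MvPolynomial.X i - (z - MvPolynomial.X i)) := by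
  simp only [gT, Bool.and_eq_true, Nat.ble_eq] at h
  refine ⟨p, hβ, h.1.1, h.1.2, (den_eq _ p).trans ?_⟩
  have h1 := eq_Ab h.2 ha hN
  rw [Ex.ev, Ex.ev, Ex.ev, ev_yE _ hi, ← hz] at h1
  push_cast at h1
  linear_combination h1

theorem diOK2_of {n w J a N : ℕ} {l : List Tm} {ps : List Pg} {βs : List Prog2}
    {z : P236X.Pb a N} (h : allP (pwT n w l) ps J = true) (hβ : βs = ps.map run2)
    (hJ : 94 < (J + 1) * w) (hz : z = evL (q12 (vx (xq a N))) l) : DiOK2 a N βs w 126 z := by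
  refine ⟨ps, hβ, fun j h1 h2 => ?_⟩
  have h3 := allP_spec h h1 (by
    by_contra h3
    have := Nat.mul_le_mul_right w (show J + 1 ≤ j by omega)
    omega)
  simp only [pwT, Bool.and_eq_true, Nat.ble_eq] at h3
  refine ⟨h3.1.1, h3.1.2, (den_eq _ _).trans ?_⟩
  rw [← eq_of_chk9 h3.2 (nine_Pb (nine_Ab a N)), hz]
  rfl

theorem w1OK2_of {a N a' N' : ℕ} {ps : List Pg} {βs : List Prog2}
    (h : allP (w1T a' N') ps 94 = true) (hβ : βs = ps.map run2) (ha : a ≤ a') (hN : N ≤ N') :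
    DiOK2 a N βs 1 10 (VV 3 (xq a N) 4 0) := by
  refine ⟨ps, hβ, fun j h1 h2 => ?_⟩
  have h3 := allP_spec h h1 (by omega)
  simp only [w1T, Bool.and_eq_true, Nat.ble_eq] at h3
  refine ⟨h3.1.1, h3.1.2, (den_eq _ _).trans ?_⟩
  rw [eq_Ab h3.2 ha hN, VV_four _ (nine_Ab a N) 0 (by omega)]
  rfl

theorem prgOK2_13 : PrgOK2 2 13 C13 where
  g3 := gOK2_of g3c_t g3cq_run (by omega) (by omega) (by omega) (tt_eq _ (nine_Ab 2 13) _ (by omega))
  g4 := gOK2_of g4c_t g4cq_run (by omega) (by omega) (by omega) (tt_eq _ (nine_Ab 2 13) _ (by omega))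
  w4 := itOK2_of w4_13_t w4_13q_run (by omega) (by omega) (VV_four _ (nine_Ab 2 13) _ (by omega))
  w3 := itOK2_of w3_13_t w3_13q_run (by omega) (by omega) (VV_four _ (nine_Ab 2 13) _ (by omega))
  w2 := itOK2_of w2c_t w2cq_run (by omega) (by omega) (VV_four _ (nine_Ab 2 13) _ (by omega))
  w1 := w1OK2_of w1_13_t w1_13q_run (by omega) (by omega)
  b44 := diOK2_of b44_t b44q_run (by omega) (bb_three _ (nine_Ab 2 13) _ (by omega))
  b34 := itOK2_of b34c_t b34cq_run (by omega) (by omega) (bb_two _ (nine_Ab 2 13) _ (by omega))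
  b33 := diOK2_of b33_t b33q_run (by omega) (bb_two _ (nine_Ab 2 13) _ (by omega))
  b24 := itOK2_of b24_13_t b24_13q_run (by omega) (by omega) (bb_one _ (nine_Ab 2 13) _ (by omega))
  b23 := itOK2_of b23c_t b23cq_run (by omega) (by omega) (bb_one _ (nine_Ab 2 13) _ (by omega))
  b22 := diOK2_of b22_t b22q_run (by omega) (bb_one _ (nine_Ab 2 13) _ (by omega))
  b14 := itOK2_of b14_13_t b14_13q_run (by omega) (by omega) (bb_zero _ (nine_Ab 2 13) _ (by omega))
  b13 := itOK2_of b13_13_t b13_13q_run (by omega) (by omega) (bb_zero _ (nine_Ab 2 13) _ (by omega))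
  b12 := itOK2_of b12c_t b12cq_run (by omega) (by omega) (bb_zero _ (nine_Ab 2 13) _ (by omega))
  b11 := diOK2_of b11_t b11q_run (by omega) (bb_zero _ (nine_Ab 2 13) _ (by omega))

theorem prgOK2_10 : PrgOK2 2 10 C10 where
  g3 := gOK2_of g3c_t g3cq_run (by omega) (by omega) (by omega) (tt_eq _ (nine_Ab 2 10) _ (by omega))
  g4 := gOK2_of g4c_t g4cq_run (by omega) (by omega) (by omega) (tt_eq _ (nine_Ab 2 10) _ (by omega))
  w4 := itOK2_of w4_10_t w4_10q_run (by omega) (by omega) (VV_four _ (nine_Ab 2 10) _ (by omega))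
  w3 := itOK2_of w3_13_t w3_13q_run (by omega) (by omega) (VV_four _ (nine_Ab 2 10) _ (by omega))
  w2 := itOK2_of w2c_t w2cq_run (by omega) (by omega) (VV_four _ (nine_Ab 2 10) _ (by omega))
  w1 := w1OK2_of w1_10_t w1_10q_run (by omega) (by omega)
  b44 := diOK2_of b44_t b44q_run (by omega) (bb_three _ (nine_Ab 2 10) _ (by omega))
  b34 := itOK2_of b34c_t b34cq_run (by omega) (by omega) (bb_two _ (nine_Ab 2 10) _ (by omega))
  b33 := diOK2_of b33_t b33q_run (by omega) (bb_two _ (nine_Ab 2 10) _ (by omega))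
  b24 := itOK2_of b24_13_t b24_13q_run (by omega) (by omega) (bb_one _ (nine_Ab 2 10) _ (by omega))
  b23 := itOK2_of b23c_t b23cq_run (by omega) (by omega) (bb_one _ (nine_Ab 2 10) _ (by omega))
  b22 := diOK2_of b22_t b22q_run (by omega) (bb_one _ (nine_Ab 2 10) _ (by omega))
  b14 := itOK2_of b14_10_t b14_10q_run (by omega) (by omega) (bb_zero _ (nine_Ab 2 10) _ (by omega))
  b13 := itOK2_of b13_13_t b13_13q_run (by omega) (by omega) (bb_zero _ (nine_Ab 2 10) _ (by omega))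
  b12 := itOK2_of b12c_t b12cq_run (by omega) (by omega) (bb_zero _ (nine_Ab 2 10) _ (by omega))
  b11 := diOK2_of b11_t b11q_run (by omega) (bb_zero _ (nine_Ab 2 10) _ (by omega))

theorem prgOK2_5 : PrgOK2 2 5 C5 where
  g3 := gOK2_of g3c_t g3cq_run (by omega) (by omega) (by omega) (tt_eq _ (nine_Ab 2 5) _ (by omega))
  g4 := gOK2_of g4c_t g4cq_run (by omega) (by omega) (by omega) (tt_eq _ (nine_Ab 2 5) _ (by omega))
  w4 := itOK2_of w4_5_t w4_5q_run (by omega) (by omega) (VV_four _ (nine_Ab 2 5) _ (by omega))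
  w3 := itOK2_of w3_5_t w3_5q_run (by omega) (by omega) (VV_four _ (nine_Ab 2 5) _ (by omega))
  w2 := itOK2_of w2c_t w2cq_run (by omega) (by omega) (VV_four _ (nine_Ab 2 5) _ (by omega))
  w1 := w1OK2_of w1_5_t w1_5q_run (by omega) (by omega)
  b44 := diOK2_of b44_t b44q_run (by omega) (bb_three _ (nine_Ab 2 5) _ (by omega))
  b34 := itOK2_of b34c_t b34cq_run (by omega) (by omega) (bb_two _ (nine_Ab 2 5) _ (by omega))
  b33 := diOK2_of b33_t b33q_run (by omega) (bb_two _ (nine_Ab 2 5) _ (by omega))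
  b24 := itOK2_of b24_13_t b24_13q_run (by omega) (by omega) (bb_one _ (nine_Ab 2 5) _ (by omega))
  b23 := itOK2_of b23c_t b23cq_run (by omega) (by omega) (bb_one _ (nine_Ab 2 5) _ (by omega))
  b22 := diOK2_of b22_t b22q_run (by omega) (bb_one _ (nine_Ab 2 5) _ (by omega))
  b14 := itOK2_of b14_5_t b14_5q_run (by omega) (by omega) (bb_zero _ (nine_Ab 2 5) _ (by omega))
  b13 := itOK2_of b13_13_t b13_13q_run (by omega) (by omega) (bb_zero _ (nine_Ab 2 5) _ (by omega))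
  b12 := itOK2_of b12c_t b12cq_run (by omega) (by omega) (bb_zero _ (nine_Ab 2 5) _ (by omega))
  b11 := diOK2_of b11_t b11q_run (by omega) (bb_zero _ (nine_Ab 2 5) _ (by omega))

theorem prgOK2_4 : PrgOK2 2 4 C4 where
  g3 := gOK2_of g3c_t g3cq_run (by omega) (by omega) (by omega) (tt_eq _ (nine_Ab 2 4) _ (by omega))
  g4 := gOK2_of g4c_t g4cq_run (by omega) (by omega) (by omega) (tt_eq _ (nine_Ab 2 4) _ (by omega))
  w4 := itOK2_of w4_4_t w4_4q_run (by omega) (by omega) (VV_four _ (nine_Ab 2 4) _ (by omega))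
  w3 := itOK2_of w3_4_t w3_4q_run (by omega) (by omega) (VV_four _ (nine_Ab 2 4) _ (by omega))
  w2 := itOK2_of w2c_t w2cq_run (by omega) (by omega) (VV_four _ (nine_Ab 2 4) _ (by omega))
  w1 := w1OK2_of w1_4_t w1_4q_run (by omega) (by omega)
  b44 := diOK2_of b44_t b44q_run (by omega) (bb_three _ (nine_Ab 2 4) _ (by omega))
  b34 := itOK2_of b34c_t b34cq_run (by omega) (by omega) (bb_two _ (nine_Ab 2 4) _ (by omega))
  b33 := diOK2_of b33_t b33q_run (by omega) (bb_two _ (nine_Ab 2 4) _ (by omega))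
  b24 := itOK2_of b24_4_t b24_4q_run (by omega) (by omega) (bb_one _ (nine_Ab 2 4) _ (by omega))
  b23 := itOK2_of b23c_t b23cq_run (by omega) (by omega) (bb_one _ (nine_Ab 2 4) _ (by omega))
  b22 := diOK2_of b22_t b22q_run (by omega) (bb_one _ (nine_Ab 2 4) _ (by omega))
  b14 := itOK2_of b14_4_t b14_4q_run (by omega) (by omega) (bb_zero _ (nine_Ab 2 4) _ (by omega))
  b13 := itOK2_of b13_4_t b13_4q_run (by omega) (by omega) (bb_zero _ (nine_Ab 2 4) _ (by omega))
  b12 := itOK2_of b12c_t b12cq_run (by omega) (by omega) (bb_zero _ (nine_Ab 2 4) _ (by omega))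
  b11 := diOK2_of b11_t b11q_run (by omega) (bb_zero _ (nine_Ab 2 4) _ (by omega))

end Vale.Agent.P236B
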