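import Vale.Agent.P236X.T
import Vale.Agent.P236B.QR

/-!
# P236 / B : the compiled programs with three keys
-/

namespace Vale.Agent.P236B

open Vale.Agent.P236X

theorem cg3 {α β γ δ : Type} (f : α → β → γ → δ) {a a' : α} {b b' : β} {c c' : γ} (h : a = a')
    (h' : b = b') (h'' : c = c') : f a b c = f a' b' c' := h ▸ h' ▸ h'' ▸ rfl

theorem zero3_eq (W : Nat) : zero3 = run3 W .zero := rfl

/-- the values of the programs of a list; the degree of the program number `j` is `j * w` -/
noncomputable def mapW (w : Nat) (ps : List Pg) : Nat → List Prog3 :=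
  List.rec (motive := fun _ => Nat → List Prog3) (fun _ => [])
    (fun p _ ih j => run3 (Nat.mul j w) p :: ih (Nat.succ j)) ps

theorem b11_1r_run : b11_1r = run3 1 b11_1P :=
  (congrArg (fun K => fun Y Z => Bx.mk fun a x d => (K d).1 ((b11_1e Y Z).1 a x d))
    (funext fun c => bs4_eq _ c .. : b11m4D = _)).trans (by eq_refl)

theorem b11_2r_run : b11_2r = run3 2 b11_2P :=
  (congrArg (fun K => fun Y Z => Bx.mk fun a x d => (K d).1 ((b11_2e Y Z).1 a x d))
    (funext fun c => bs4_eq _ c .. : b11m4D = _)).trans (by eq_refl)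

theorem b11_3r_run : b11_3r = run3 3 b11_3P :=
  (congrArg (fun K => fun Y Z => Bx.mk fun a x d => (K d).1 ((b11_3e Y Z).1 a x d))
    (funext fun c => bs4_eq _ c .. : b11m4D = _)).trans (by eq_refl)

theorem b11_4r_run : b11_4r = run3 4 b11_4P :=
  (congrArg (fun K => fun Y Z => Bx.mk fun a x d => (K d).1 ((b11_4e Y Z).1 a x d))
    (funext fun c => bs4_eq _ c .. : b11m4D = _)).trans (by eq_refl)

theorem b11_5r_run : b11_5r = run3 5 b11_5P :=
  (congrArg (fun K => fun Y Z => Bx.mk fun a x d => (K d).1 ((b11_5e Y Z).1 a x d))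
    (funext fun c => bs8_eq _ c .. : b11m8D = _)).trans (by eq_refl)

theorem b11_6r_run : b11_6r = run3 6 b11_6P :=
  (congrArg (fun K => fun Y Z => Bx.mk fun a x d => (K d).1 ((b11_6e Y Z).1 a x d))
    (funext fun c => bs8_eq _ c .. : b11m8D = _)).trans (by eq_refl)

theorem b11_7r_run : b11_7r = run3 7 b11_7P :=
  (congrArg (fun K => fun Y Z => Bx.mk fun a x d => (K d).1 ((b11_7e Y Z).1 a x d))
    (funext fun c => bs8_eq _ c .. : b11m8D = _)).trans (by eq_refl)

theorem b11_8r_run : b11_8r = run3 8 b11_8P :=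
  (congrArg (fun K => fun Y Z => Bx.mk fun a x d => (K d).1 ((b11_8e Y Z).1 a x d))
    (funext fun c => bs8_eq _ c .. : b11m8D = _)).trans (by eq_refl)

theorem b11_9r_run : b11_9r = run3 9 b11_9P :=
  (congrArg (fun K => fun Y Z => Bx.mk fun a x d => (K d).1 ((b11_9e Y Z).1 a x d))
    (funext fun c => bs16_eq _ c .. : b11m16D = _)).trans (by eq_refl)

theorem b11_10r_run : b11_10r = run3 10 b11_10P :=
  (congrArg (fun K => fun Y Z => Bx.mk fun a x d => (K d).1 ((b11_10e Y Z).1 a x d))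
    (funext fun c => bs16_eq _ c .. : b11m16D = _)).trans (by eq_refl)

theorem b11_11r_run : b11_11r = run3 11 b11_11P :=
  (congrArg (fun K => fun Y Z => Bx.mk fun a x d => (K d).1 ((b11_11e Y Z).1 a x d))
    (funext fun c => bs16_eq _ c .. : b11m16D = _)).trans (by eq_refl)

theorem b11_12r_run : b11_12r = run3 12 b11_12P :=
  (congrArg (fun K => fun Y Z => Bx.mk fun a x d => (K d).1 ((b11_12e Y Z).1 a x d))
    (funext fun c => bs16_eq _ c .. : b11m16D = _)).trans (by eq_refl)

theorem b11_13r_run : b11_13r = run3 13 b11_13P :=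
  (congrArg (fun K => fun Y Z => Bx.mk fun a x d => (K d).1 ((b11_13e Y Z).1 a x d))
    (funext fun c => bs16_eq _ c .. : b11m16D = _)).trans (by eq_refl)

theorem b11_14r_run : b11_14r = run3 14 b11_14P :=
  (congrArg (fun K => fun Y Z => Bx.mk fun a x d => (K d).1 ((b11_14e Y Z).1 a x d))
    (funext fun c => bs16_eq _ c .. : b11m16D = _)).trans (by eq_refl)

theorem b11_15r_run : b11_15r = run3 15 b11_15P :=
  (congrArg (fun K => fun Y Z => Bx.mk fun a x d => (K d).1 ((b11_15e Y Z).1 a x d))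
    (funext fun c => bs16_eq _ c .. : b11m16D = _)).trans (by eq_refl)

theorem b11_16r_run : b11_16r = run3 16 b11_16P :=
  (congrArg (fun K => fun Y Z => Bx.mk fun a x d => (K d).1 ((b11_16e Y Z).1 a x d))
    (funext fun c => bs16_eq _ c .. : b11m16D = _)).trans (by eq_refl)

theorem b11_17r_run : b11_17r = run3 17 b11_17P :=
  (congrArg (fun K => fun Y Z => Bx.mk fun a x d => (K d).1 ((b11_17e Y Z).1 a x d))
    (funext fun c => bs24_eq _ c .. : b11m24D = _)).trans (by eq_refl)

theorem b11_18r_run : b11_18r = run3 18 b11_18P :=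
  (congrArg (fun K => fun Y Z => Bx.mk fun a x d => (K d).1 ((b11_18e Y Z).1 a x d))
    (funext fun c => bs24_eq _ c .. : b11m24D = _)).trans (by eq_refl)

theorem b11_19r_run : b11_19r = run3 19 b11_19P :=
  (congrArg (fun K => fun Y Z => Bx.mk fun a x d => (K d).1 ((b11_19e Y Z).1 a x d))
    (funext fun c => bs24_eq _ c .. : b11m24D = _)).trans (by eq_refl)

theorem b11_20r_run : b11_20r = run3 20 b11_20P :=
  (congrArg (fun K => fun Y Z => Bx.mk fun a x d => (K d).1 ((b11_20e Y Z).1 a x d))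
    (funext fun c => bs24_eq _ c .. : b11m24D = _)).trans (by eq_refl)

theorem b11_21r_run : b11_21r = run3 21 b11_21P :=
  (congrArg (fun K => fun Y Z => Bx.mk fun a x d => (K d).1 ((b11_21e Y Z).1 a x d))
    (funext fun c => bs24_eq _ c .. : b11m24D = _)).trans (by eq_refl)

theorem b11_22r_run : b11_22r = run3 22 b11_22P :=
  (congrArg (fun K => fun Y Z => Bx.mk fun a x d => (K d).1 ((b11_22e Y Z).1 a x d))
    (funext fun c => bs24_eq _ c .. : b11m24D = _)).trans (by eq_refl)

theorem b11_23r_run : b11_23r = run3 23 b11_23P :=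
  (congrArg (fun K => fun Y Z => Bx.mk fun a x d => (K d).1 ((b11_23e Y Z).1 a x d))
    (funext fun c => bs24_eq _ c .. : b11m24D = _)).trans (by eq_refl)

theorem b11_24r_run : b11_24r = run3 24 b11_24P :=
  (congrArg (fun K => fun Y Z => Bx.mk fun a x d => (K d).1 ((b11_24e Y Z).1 a x d))
    (funext fun c => bs24_eq _ c .. : b11m24D = _)).trans (by eq_refl)

theorem b11_25r_run : b11_25r = run3 25 b11_25P :=
  (congrArg (fun K => fun Y Z => Bx.mk fun a x d => (K d).1 ((b11_25e Y Z).1 a x d))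
    (funext fun c => bs32_eq _ c .. : b11m32D = _)).trans (by eq_refl)

theorem b11_26r_run : b11_26r = run3 26 b11_26P :=
  (congrArg (fun K => fun Y Z => Bx.mk fun a x d => (K d).1 ((b11_26e Y Z).1 a x d))
    (funext fun c => bs32_eq _ c .. : b11m32D = _)).trans (by eq_refl)

theorem b11_27r_run : b11_27r = run3 27 b11_27P :=
  (congrArg (fun K => fun Y Z => Bx.mk fun a x d => (K d).1 ((b11_27e Y Z).1 a x d))
    (funext fun c => bs32_eq _ c .. : b11m32D = _)).trans (by eq_refl)

theorem b11_28r_run : b11_28r = run3 28 b11_28P :=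
  (congrArg (fun K => fun Y Z => Bx.mk fun a x d => (K d).1 ((b11_28e Y Z).1 a x d))
    (funext fun c => bs32_eq _ c .. : b11m32D = _)).trans (by eq_refl)

theorem b11_29r_run : b11_29r = run3 29 b11_29P :=
  (congrArg (fun K => fun Y Z => Bx.mk fun a x d => (K d).1 ((b11_29e Y Z).1 a x d))
    (funext fun c => bs32_eq _ c .. : b11m32D = _)).trans (by eq_refl)

theorem b11_30r_run : b11_30r = run3 30 b11_30P :=
  (congrArg (fun K => fun Y Z => Bx.mk fun a x d => (K d).1 ((b11_30e Y Z).1 a x d))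
    (funext fun c => bs32_eq _ c .. : b11m32D = _)).trans (by eq_refl)

theorem b11_31r_run : b11_31r = run3 31 b11_31P :=
  (congrArg (fun K => fun Y Z => Bx.mk fun a x d => (K d).1 ((b11_31e Y Z).1 a x d))
    (funext fun c => bs32_eq _ c .. : b11m32D = _)).trans (by eq_refl)

theorem b11_32r_run : b11_32r = run3 32 b11_32P :=
  (congrArg (fun K => fun Y Z => Bx.mk fun a x d => (K d).1 ((b11_32e Y Z).1 a x d))
    (funext fun c => bs32_eq _ c .. : b11m32D = _)).trans (by eq_refl)

theorem b11_33r_run : b11_33r = run3 33 b11_33P :=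
  (congrArg (fun K => fun Y Z => Bx.mk fun a x d => (K d).1 ((b11_33e Y Z).1 a x d))
    (funext fun c => bs48_eq _ c .. : b11m48D = _)).trans (by eq_refl)

theorem b11_34r_run : b11_34r = run3 34 b11_34P :=
  (congrArg (fun K => fun Y Z => Bx.mk fun a x d => (K d).1 ((b11_34e Y Z).1 a x d))
    (funext fun c => bs48_eq _ c .. : b11m48D = _)).trans (by eq_refl)

theorem b11_35r_run : b11_35r = run3 35 b11_35P :=
  (congrArg (fun K => fun Y Z => Bx.mk fun a x d => (K d).1 ((b11_35e Y Z).1 a x d))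
    (funext fun c => bs48_eq _ c .. : b11m48D = _)).trans (by eq_refl)

theorem b11_36r_run : b11_36r = run3 36 b11_36P :=
  (congrArg (fun K => fun Y Z => Bx.mk fun a x d => (K d).1 ((b11_36e Y Z).1 a x d))
    (funext fun c => bs48_eq _ c .. : b11m48D = _)).trans (by eq_refl)

theorem b11_37r_run : b11_37r = run3 37 b11_37P :=
  (congrArg (fun K => fun Y Z => Bx.mk fun a x d => (K d).1 ((b11_37e Y Z).1 a x d))
    (funext fun c => bs48_eq _ c .. : b11m48D = _)).trans (by eq_refl)

theorem b11_38r_run : b11_38r = run3 38 b11_38P :=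
  (congrArg (fun K => fun Y Z => Bx.mk fun a x d => (K d).1 ((b11_38e Y Z).1 a x d))
    (funext fun c => bs48_eq _ c .. : b11m48D = _)).trans (by eq_refl)

theorem b11_39r_run : b11_39r = run3 39 b11_39P :=
  (congrArg (fun K => fun Y Z => Bx.mk fun a x d => (K d).1 ((b11_39e Y Z).1 a x d))
    (funext fun c => bs48_eq _ c .. : b11m48D = _)).trans (by eq_refl)

theorem b11_40r_run : b11_40r = run3 40 b11_40P :=
  (congrArg (fun K => fun Y Z => Bx.mk fun a x d => (K d).1 ((b11_40e Y Z).1 a x d))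
    (funext fun c => bs48_eq _ c .. : b11m48D = _)).trans (by eq_refl)

theorem b11_41r_run : b11_41r = run3 41 b11_41P :=
  (congrArg (fun K => fun Y Z => Bx.mk fun a x d => (K d).1 ((b11_41e Y Z).1 a x d))
    (funext fun c => bs48_eq _ c .. : b11m48D = _)).trans (by eq_refl)

theorem b11_42r_run : b11_42r = run3 42 b11_42P :=
  (congrArg (fun K => fun Y Z => Bx.mk fun a x d => (K d).1 ((b11_42e Y Z).1 a x d))
    (funext fun c => bs48_eq _ c .. : b11m48D = _)).trans (by eq_refl)

theorem b11_43r_run : b11_43r = run3 43 b11_43P :=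
  (congrArg (fun K => fun Y Z => Bx.mk fun a x d => (K d).1 ((b11_43e Y Z).1 a x d))
    (funext fun c => bs48_eq _ c .. : b11m48D = _)).trans (by eq_refl)

theorem b11_44r_run : b11_44r = run3 44 b11_44P :=
  (congrArg (fun K => fun Y Z => Bx.mk fun a x d => (K d).1 ((b11_44e Y Z).1 a x d))
    (funext fun c => bs48_eq _ c .. : b11m48D = _)).trans (by eq_refl)

theorem b11_45r_run : b11_45r = run3 45 b11_45P :=
  (congrArg (fun K => fun Y Z => Bx.mk fun a x d => (K d).1 ((b11_45e Y Z).1 a x d))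
    (funext fun c => bs48_eq _ c .. : b11m48D = _)).trans (by eq_refl)

theorem b11_46r_run : b11_46r = run3 46 b11_46P :=
  (congrArg (fun K => fun Y Z => Bx.mk fun a x d => (K d).1 ((b11_46e Y Z).1 a x d))
    (funext fun c => bs48_eq _ c .. : b11m48D = _)).trans (by eq_refl)

theorem b11_47r_run : b11_47r = run3 47 b11_47P :=
  (congrArg (fun K => fun Y Z => Bx.mk fun a x d => (K d).1 ((b11_47e Y Z).1 a x d))
    (funext fun c => bs48_eq _ c .. : b11m48D = _)).trans (by eq_refl)

theorem b11_48r_run : b11_48r = run3 48 b11_48P :=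
  (congrArg (fun K => fun Y Z => Bx.mk fun a x d => (K d).1 ((b11_48e Y Z).1 a x d))
    (funext fun c => bs48_eq _ c .. : b11m48D = _)).trans (by eq_refl)

theorem b11_49r_run : b11_49r = run3 49 b11_49P :=
  (congrArg (fun K => fun Y Z => Bx.mk fun a x d => (K d).1 ((b11_49e Y Z).1 a x d))
    (funext fun c => bs64_eq _ c .. : b11m64D = _)).trans (by eq_refl)

theorem b11_50r_run : b11_50r = run3 50 b11_50P :=
  (congrArg (fun K => fun Y Z => Bx.mk fun a x d => (K d).1 ((b11_50e Y Z).1 a x d))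
    (funext fun c => bs64_eq _ c .. : b11m64D = _)).trans (by eq_refl)

theorem b11_51r_run : b11_51r = run3 51 b11_51P :=
  (congrArg (fun K => fun Y Z => Bx.mk fun a x d => (K d).1 ((b11_51e Y Z).1 a x d))
    (funext fun c => bs64_eq _ c .. : b11m64D = _)).trans (by eq_refl)

theorem b11_52r_run : b11_52r = run3 52 b11_52P :=
  (congrArg (fun K => fun Y Z => Bx.mk fun a x d => (K d).1 ((b11_52e Y Z).1 a x d))
    (funext fun c => bs64_eq _ c .. : b11m64D = _)).trans (by eq_refl)

theorem b11_53r_run : b11_53r = run3 53 b11_53P :=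
  (congrArg (fun K => fun Y Z => Bx.mk fun a x d => (K d).1 ((b11_53e Y Z).1 a x d))
    (funext fun c => bs64_eq _ c .. : b11m64D = _)).trans (by eq_refl)

theorem b11_54r_run : b11_54r = run3 54 b11_54P :=
  (congrArg (fun K => fun Y Z => Bx.mk fun a x d => (K d).1 ((b11_54e Y Z).1 a x d))
    (funext fun c => bs64_eq _ c .. : b11m64D = _)).trans (by eq_refl)

theorem b11_55r_run : b11_55r = run3 55 b11_55P :=
  (congrArg (fun K => fun Y Z => Bx.mk fun a x d => (K d).1 ((b11_55e Y Z).1 a x d))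
    (funext fun c => bs64_eq _ c .. : b11m64D = _)).trans (by eq_refl)

theorem b11_56r_run : b11_56r = run3 56 b11_56P :=
  (congrArg (fun K => fun Y Z => Bx.mk fun a x d => (K d).1 ((b11_56e Y Z).1 a x d))
    (funext fun c => bs64_eq _ c .. : b11m64D = _)).trans (by eq_refl)

theorem b11_57r_run : b11_57r = run3 57 b11_57P :=
  (congrArg (fun K => fun Y Z => Bx.mk fun a x d => (K d).1 ((b11_57e Y Z).1 a x d))
    (funext fun c => bs64_eq _ c .. : b11m64D = _)).trans (by eq_refl)

theorem b11_58r_run : b11_58r = run3 58 b11_58P :=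
  (congrArg (fun K => fun Y Z => Bx.mk fun a x d => (K d).1 ((b11_58e Y Z).1 a x d))
    (funext fun c => bs64_eq _ c .. : b11m64D = _)).trans (by eq_refl)

theorem b11_59r_run : b11_59r = run3 59 b11_59P :=
  (congrArg (fun K => fun Y Z => Bx.mk fun a x d => (K d).1 ((b11_59e Y Z).1 a x d))
    (funext fun c => bs64_eq _ c .. : b11m64D = _)).trans (by eq_refl)

theorem b11_60r_run : b11_60r = run3 60 b11_60P :=
  (congrArg (fun K => fun Y Z => Bx.mk fun a x d => (K d).1 ((b11_60e Y Z).1 a x d))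
    (funext fun c => bs64_eq _ c .. : b11m64D = _)).trans (by eq_refl)

theorem b11_61r_run : b11_61r = run3 61 b11_61P :=
  (congrArg (fun K => fun Y Z => Bx.mk fun a x d => (K d).1 ((b11_61e Y Z).1 a x d))
    (funext fun c => bs64_eq _ c .. : b11m64D = _)).trans (by eq_refl)

theorem b11_62r_run : b11_62r = run3 62 b11_62P :=
  (congrArg (fun K => fun Y Z => Bx.mk fun a x d => (K d).1 ((b11_62e Y Z).1 a x d))
    (funext fun c => bs64_eq _ c .. : b11m64D = _)).trans (by eq_refl)

theorem b11_63r_run : b11_63r = run3 63 b11_63P :=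
  (congrArg (fun K => fun Y Z => Bx.mk fun a x d => (K d).1 ((b11_63e Y Z).1 a x d))
    (funext fun c => bs64_eq _ c .. : b11m64D = _)).trans (by eq_refl)

theorem b11_64r_run : b11_64r = run3 64 b11_64P :=
  (congrArg (fun K => fun Y Z => Bx.mk fun a x d => (K d).1 ((b11_64e Y Z).1 a x d))
    (funext fun c => bs64_eq _ c .. : b11m64D = _)).trans (by eq_refl)

theorem b11_65r_run : b11_65r = run3 65 b11_65P :=
  (congrArg (fun K => fun Y Z => Bx.mk fun a x d => (K d).1 ((b11_65e Y Z).1 a x d))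
    (funext fun c => bs94_eq _ c .. : b11m96D = _)).trans (by eq_refl)

theorem b11_66r_run : b11_66r = run3 66 b11_66P :=
  (congrArg (fun K => fun Y Z => Bx.mk fun a x d => (K d).1 ((b11_66e Y Z).1 a x d))
    (funext fun c => bs94_eq _ c .. : b11m96D = _)).trans (by eq_refl)

theorem b11_67r_run : b11_67r = run3 67 b11_67P :=
  (congrArg (fun K => fun Y Z => Bx.mk fun a x d => (K d).1 ((b11_67e Y Z).1 a x d))
    (funext fun c => bs94_eq _ c .. : b11m96D = _)).trans (by eq_refl)

theorem b11_68r_run : b11_68r = run3 68 b11_68P :=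
  (congrArg (fun K => fun Y Z => Bx.mk fun a x d => (K d).1 ((b11_68e Y Z).1 a x d))
    (funext fun c => bs94_eq _ c .. : b11m96D = _)).trans (by eq_refl)

theorem b11_69r_run : b11_69r = run3 69 b11_69P :=
  (congrArg (fun K => fun Y Z => Bx.mk fun a x d => (K d).1 ((b11_69e Y Z).1 a x d))
    (funext fun c => bs94_eq _ c .. : b11m96D = _)).trans (by eq_refl)

theorem b11_70r_run : b11_70r = run3 70 b11_70P :=
  (congrArg (fun K => fun Y Z => Bx.mk fun a x d => (K d).1 ((b11_70e Y Z).1 a x d))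
    (funext fun c => bs94_eq _ c .. : b11m96D = _)).trans (by eq_refl)

theorem b11_71r_run : b11_71r = run3 71 b11_71P :=
  (congrArg (fun K => fun Y Z => Bx.mk fun a x d => (K d).1 ((b11_71e Y Z).1 a x d))
    (funext fun c => bs94_eq _ c .. : b11m96D = _)).trans (by eq_refl)

theorem b11_72r_run : b11_72r = run3 72 b11_72P :=
  (congrArg (fun K => fun Y Z => Bx.mk fun a x d => (K d).1 ((b11_72e Y Z).1 a x d))
    (funext fun c => bs94_eq _ c .. : b11m96D = _)).trans (by eq_refl)

theorem b11_73r_run : b11_73r = run3 73 b11_73P :=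
  (congrArg (fun K => fun Y Z => Bx.mk fun a x d => (K d).1 ((b11_73e Y Z).1 a x d))
    (funext fun c => bs94_eq _ c .. : b11m96D = _)).trans (by eq_refl)

theorem b11_74r_run : b11_74r = run3 74 b11_74P :=
  (congrArg (fun K => fun Y Z => Bx.mk fun a x d => (K d).1 ((b11_74e Y Z).1 a x d))
    (funext fun c => bs94_eq _ c .. : b11m96D = _)).trans (by eq_refl)

theorem b11_75r_run : b11_75r = run3 75 b11_75P :=
  (congrArg (fun K => fun Y Z => Bx.mk fun a x d => (K d).1 ((b11_75e Y Z).1 a x d))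
    (funext fun c => bs94_eq _ c .. : b11m96D = _)).trans (by eq_refl)

theorem b11_76r_run : b11_76r = run3 76 b11_76P :=
  (congrArg (fun K => fun Y Z => Bx.mk fun a x d => (K d).1 ((b11_76e Y Z).1 a x d))
    (funext fun c => bs94_eq _ c .. : b11m96D = _)).trans (by eq_refl)

theorem b11_77r_run : b11_77r = run3 77 b11_77P :=
  (congrArg (fun K => fun Y Z => Bx.mk fun a x d => (K d).1 ((b11_77e Y Z).1 a x d))
    (funext fun c => bs94_eq _ c .. : b11m96D = _)).trans (by eq_refl)

theorem b11_78r_run : b11_78r = run3 78 b11_78P :=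
  (congrArg (fun K => fun Y Z => Bx.mk fun a x d => (K d).1 ((b11_78e Y Z).1 a x d))
    (funext fun c => bs94_eq _ c .. : b11m96D = _)).trans (by eq_refl)

theorem b11_79r_run : b11_79r = run3 79 b11_79P :=
  (congrArg (fun K => fun Y Z => Bx.mk fun a x d => (K d).1 ((b11_79e Y Z).1 a x d))
    (funext fun c => bs94_eq _ c .. : b11m96D = _)).trans (by eq_refl)

theorem b11_80r_run : b11_80r = run3 80 b11_80P :=
  (congrArg (fun K => fun Y Z => Bx.mk fun a x d => (K d).1 ((b11_80e Y Z).1 a x d))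
    (funext fun c => bs94_eq _ c .. : b11m96D = _)).trans (by eq_refl)

theorem b11_81r_run : b11_81r = run3 81 b11_81P :=
  (congrArg (fun K => fun Y Z => Bx.mk fun a x d => (K d).1 ((b11_81e Y Z).1 a x d))
    (funext fun c => bs94_eq _ c .. : b11m96D = _)).trans (by eq_refl)

theorem b11_82r_run : b11_82r = run3 82 b11_82P :=
  (congrArg (fun K => fun Y Z => Bx.mk fun a x d => (K d).1 ((b11_82e Y Z).1 a x d))
    (funext fun c => bs94_eq _ c .. : b11m96D = _)).trans (by eq_refl)

theorem b11_83r_run : b11_83r = run3 83 b11_83P :=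
  (congrArg (fun K => fun Y Z => Bx.mk fun a x d => (K d).1 ((b11_83e Y Z).1 a x d))
    (funext fun c => bs94_eq _ c .. : b11m96D = _)).trans (by eq_refl)

theorem b11_84r_run : b11_84r = run3 84 b11_84P :=
  (congrArg (fun K => fun Y Z => Bx.mk fun a x d => (K d).1 ((b11_84e Y Z).1 a x d))
    (funext fun c => bs94_eq _ c .. : b11m96D = _)).trans (by eq_refl)

theorem b11_85r_run : b11_85r = run3 85 b11_85P :=
  (congrArg (fun K => fun Y Z => Bx.mk fun a x d => (K d).1 ((b11_85e Y Z).1 a x d))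
    (funext fun c => bs94_eq _ c .. : b11m96D = _)).trans (by eq_refl)

theorem b11_86r_run : b11_86r = run3 86 b11_86P :=
  (congrArg (fun K => fun Y Z => Bx.mk fun a x d => (K d).1 ((b11_86e Y Z).1 a x d))
    (funext fun c => bs94_eq _ c .. : b11m96D = _)).trans (by eq_refl)

theorem b11_87r_run : b11_87r = run3 87 b11_87P :=
  (congrArg (fun K => fun Y Z => Bx.mk fun a x d => (K d).1 ((b11_87e Y Z).1 a x d))
    (funext fun c => bs94_eq _ c .. : b11m96D = _)).trans (by eq_refl)

theorem b11_88r_run : b11_88r = run3 88 b11_88P :=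
  (congrArg (fun K => fun Y Z => Bx.mk fun a x d => (K d).1 ((b11_88e Y Z).1 a x d))
    (funext fun c => bs94_eq _ c .. : b11m96D = _)).trans (by eq_refl)

theorem b11_89r_run : b11_89r = run3 89 b11_89P :=
  (congrArg (fun K => fun Y Z => Bx.mk fun a x d => (K d).1 ((b11_89e Y Z).1 a x d))
    (funext fun c => bs94_eq _ c .. : b11m96D = _)).trans (by eq_refl)

theorem b11_90r_run : b11_90r = run3 90 b11_90P :=
  (congrArg (fun K => fun Y Z => Bx.mk fun a x d => (K d).1 ((b11_90e Y Z).1 a x d))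
    (funext fun c => bs94_eq _ c .. : b11m96D = _)).trans (by eq_refl)

theorem b11_91r_run : b11_91r = run3 91 b11_91P :=
  (congrArg (fun K => fun Y Z => Bx.mk fun a x d => (K d).1 ((b11_91e Y Z).1 a x d))
    (funext fun c => bs94_eq _ c .. : b11m96D = _)).trans (by eq_refl)

theorem b11_92r_run : b11_92r = run3 92 b11_92P :=
  (congrArg (fun K => fun Y Z => Bx.mk fun a x d => (K d).1 ((b11_92e Y Z).1 a x d))
    (funext fun c => bs94_eq _ c .. : b11m96D = _)).trans (by eq_refl)

theorem b11_93r_run : b11_93r = run3 93 b11_93P :=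
  (congrArg (fun K => fun Y Z => Bx.mk fun a x d => (K d).1 ((b11_93e Y Z).1 a x d))
    (funext fun c => bs94_eq _ c .. : b11m96D = _)).trans (by eq_refl)

theorem b11_94r_run : b11_94r = run3 94 b11_94P :=
  (congrArg (fun K => fun Y Z => Bx.mk fun a x d => (K d).1 ((b11_94e Y Z).1 a x d))
    (funext fun c => bs94_eq _ c .. : b11m96D = _)).trans (by eq_refl)

theorem b11r_run : b11r = mapW 1 b11P 0 :=
  (cg2 List.cons (zero3_eq 0)
    (cg2 List.cons b11_1r_run
    (cg2 List.cons b11_2r_run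
    (cg2 List.cons b11_3r_run
    (cg2 List.cons b11_4r_run
    (cg2 List.cons b11_5r_run
    (cg2 List.cons b11_6r_run
    (cg2 List.cons b11_7r_run
    (cg2 List.cons b11_8r_run
    (cg2 List.cons b11_9r_run
    (cg2 List.cons b11_10r_run
    (cg2 List.cons b11_11r_run
    (cg2 List.cons b11_12r_run
    (cg2 List.cons b11_13r_run
    (cg2 List.cons b11_14r_run
    (cg2 List.cons b11_15r_run
    (cg2 List.cons b11_16r_run
    (cg2 List.cons b11_17r_run
    (cg2 List.cons b11_18r_run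
    (cg2 List.cons b11_19r_run
    (cg2 List.cons b11_20r_run
    (cg2 List.cons b11_21r_run
    (cg2 List.cons b11_22r_run
    (cg2 List.cons b11_23r_run
    (cg2 List.cons b11_24r_run
    (cg2 List.cons b11_25r_run
    (cg2 List.cons b11_26r_run
    (cg2 List.cons b11_27r_run
    (cg2 List.cons b11_28r_run
    (cg2 List.cons b11_29r_run
    (cg2 List.cons b11_30r_run
    (cg2 List.cons b11_31r_run
    (cg2 List.cons b11_32r_run
    (cg2 List.cons b11_33r_run
    (cg2 List.cons b11_34r_run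
    (cg2 List.cons b11_35r_run
    (cg2 List.cons b11_36r_run
    (cg2 List.cons b11_37r_run
    (cg2 List.cons b11_38r_run
    (cg2 List.cons b11_39r_run
    (cg2 List.cons b11_40r_run
    (cg2 List.cons b11_41r_run
    (cg2 List.cons b11_42r_run
    (cg2 List.cons b11_43r_run
    (cg2 List.cons b11_44r_run
    (cg2 List.cons b11_45r_run
    (cg2 List.cons b11_46r_run
    (cg2 List.cons b11_47r_run
    (cg2 List.cons b11_48r_run
    (cg2 List.cons b11_49r_run
    (cg2 List.cons b11_50r_run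
    (cg2 List.cons b11_51r_run
    (cg2 List.cons b11_52r_run
    (cg2 List.cons b11_53r_run
    (cg2 List.cons b11_54r_run
    (cg2 List.cons b11_55r_run
    (cg2 List.cons b11_56r_run
    (cg2 List.cons b11_57r_run
    (cg2 List.cons b11_58r_run
    (cg2 List.cons b11_59r_run
    (cg2 List.cons b11_60r_run
    (cg2 List.cons b11_61r_run
    (cg2 List.cons b11_62r_run
    (cg2 List.cons b11_63r_run
    (cg2 List.cons b11_64r_run
    (cg2 List.cons b11_65r_run
    (cg2 List.cons b11_66r_run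
    (cg2 List.cons b11_67r_run
    (cg2 List.cons b11_68r_run
    (cg2 List.cons b11_69r_run
    (cg2 List.cons b11_70r_run
    (cg2 List.cons b11_71r_run
    (cg2 List.cons b11_72r_run
    (cg2 List.cons b11_73r_run
    (cg2 List.cons b11_74r_run
    (cg2 List.cons b11_75r_run
    (cg2 List.cons b11_76r_run
    (cg2 List.cons b11_77r_run
    (cg2 List.cons b11_78r_run
    (cg2 List.cons b11_79r_run
    (cg2 List.cons b11_80r_run
    (cg2 List.cons b11_81r_run
    (cg2 List.cons b11_82r_run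
    (cg2 List.cons b11_83r_run
    (cg2 List.cons b11_84r_run
    (cg2 List.cons b11_85r_run
    (cg2 List.cons b11_86r_run
    (cg2 List.cons b11_87r_run
    (cg2 List.cons b11_88r_run
    (cg2 List.cons b11_89r_run
    (cg2 List.cons b11_90r_run
    (cg2 List.cons b11_91r_run
    (cg2 List.cons b11_92r_run
    (cg2 List.cons b11_93r_run
    (cg2 List.cons b11_94r_run
    rfl))))))))))))))))))))))))))))))))))))))))))))))))))))))))))))))))))))))))))))))))))))))))))))))).trans (by eq_refl)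

theorem g3cr_run : g3cr = run3 13 g3cP :=
  (cg2 (fun K L => fun Y Z => Bx.mk fun a x d => (K d).1 ((L a).1 ((g3ce Y Z).1 a x d)))
    (funext fun c => bs1_eq _ c .. : g3cmD = _)
    (funext fun c => bx2_eq _ c .. : g3cmI = _)).trans (by eq_refl)

theorem g4cr_run : g4cr = run3 40 g4cP :=
  (cg2 (fun K L => fun Y Z => Bx.mk fun a x d => (K d).1 ((L a).1 ((g4ce Y Z).1 a x d)))
    (funext fun c => bs3_eq _ c .. : g4cmD = _)
    (funext fun c => bx4_eq _ c .. : g4cmI = _)).trans (by eq_refl)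

theorem w2cr_run : w2cr = run3 4 w2cP :=
  (cg2 (fun K L => fun Y Z => Bx.mk fun a x d => (K a).1 ((L d).1 ((w2ce Y Z).1 a x d)))
    (funext fun c => bx1_eq _ c .. : w2cmI = _)
    (funext fun c => bs1_eq _ c .. : w2cmD = _)).trans (by eq_refl)

theorem b34cr_run : b34cr = run3 40 b34cP :=
  (cg3 (fun K L M => fun Y Z => Bx.mk fun a x d => (K d).1 ((L a).1 ((M x).1 ((b34ce Y Z).1 a x d))))
    (funext fun c => bs1_eq _ c .. : g3cmD = _)
    (funext fun c => bx2_eq _ c .. : b34cmI = _)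
    (funext fun c => bx3_eq _ c .. : b34cmX = _)).trans (by eq_refl)

theorem b23cr_run : b23cr = run3 13 b23cP :=
  (cg3 (fun K L M => fun Y Z => Bx.mk fun a x d => (K d).1 ((L a).1 ((M x).1 ((b23ce Y Z).1 a x d))))
    (funext fun c => bs1_eq _ c .. : g3cmD = _)
    (funext fun c => bx2_eq _ c .. : b23cmI = _)
    (funext fun c => bx3_eq _ c .. : b23cmX = _)).trans (by eq_refl)

theorem b12cr_run : b12cr = run3 4 b12cP :=
  (cg2 (fun K L => fun Y Z => Bx.mk fun a x d => (K x).1 ((L d).1 ((b12ce Y Z).1 a x d)))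
    (funext fun c => bx1_eq _ c .. : b12cmX = _)
    (funext fun c => bs3_eq _ c .. : b12cmD = _)).trans (by eq_refl)

theorem b13_13r_run : b13_13r = run3 13 b13_13P :=
  (cg2 (fun K L => fun Y Z => Bx.mk fun a x d => (K x).1 ((L d).1 ((b13_13e Y Z).1 a x d)))
    (funext fun c => bx4_eq _ c .. : b13_13mX = _)
    (funext fun c => bs12_eq _ c .. : b13_13mD = _)).trans (by eq_refl)

theorem b13_4r_run : b13_4r = run3 13 b13_4P :=
  (cg2 (fun K L => fun Y Z => Bx.mk fun a x d => (K x).1 ((L d).1 ((b13_4e Y Z).1 a x d)))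
    (funext fun c => bx4_eq _ c .. : b13_13mX = _)
    (funext fun c => bs12_eq _ c .. : b13_13mD = _)).trans (by eq_refl)

theorem b24_13r_run : b24_13r = run3 40 b24_13P :=
  (cg3 (fun K L M => fun Y Z => Bx.mk fun a x d => (K d).1 ((L a).1 ((M x).1 ((b24_13e Y Z).1 a x d))))
    (funext fun c => bs4_eq _ c .. : b11m4D = _)
    (funext fun c => bx8_eq _ c .. : b24_13mI = _)
    (funext fun c => bx18_eq _ c .. : b24_13mX = _)).trans (by eq_refl)

theorem b24_4r_run : b24_4r = run3 40 b24_4P :=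
  (cg3 (fun K L M => fun Y Z => Bx.mk fun a x d => (K d).1 ((L a).1 ((M x).1 ((b24_4e Y Z).1 a x d))))
    (funext fun c => bs4_eq _ c .. : b11m4D = _)
    (funext fun c => bx8_eq _ c .. : b24_13mI = _)
    (funext fun c => bx18_eq _ c .. : b24_13mX = _)).trans (by eq_refl)

theorem w3_13r_run : w3_13r = run3 13 w3_13P :=
  (cg2 (fun K L => fun Y Z => Bx.mk fun a x d => (K a).1 ((L d).1 ((w3_13e Y Z).1 a x d)))
    (funext fun c => bx3_eq _ c .. : w3_13mI = _)
    (funext fun c => bs3_eq _ c .. : w3_13mD = _)).trans (by eq_refl)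

theorem w3_5r_run : w3_5r = run3 13 w3_5P :=
  (cg2 (fun K L => fun Y Z => Bx.mk fun a x d => (K a).1 ((L d).1 ((w3_5e Y Z).1 a x d)))
    (funext fun c => bx3_eq _ c .. : w3_13mI = _)
    (funext fun c => bs3_eq _ c .. : w3_13mD = _)).trans (by eq_refl)

theorem w3_4r_run : w3_4r = run3 13 w3_4P :=
  (cg2 (fun K L => fun Y Z => Bx.mk fun a x d => (K a).1 ((L d).1 ((w3_4e Y Z).1 a x d)))
    (funext fun c => bx3_eq _ c .. : w3_13mI = _)
    (funext fun c => bs3_eq _ c .. : w3_13mD = _)).trans (by eq_refl)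

theorem b22_1r_run : b22_1r = run3 4 b22_1P :=
  (cg2 (fun K L => fun Y Z => Bx.mk fun a x d => (K a).1 ((L x).1 ((b22_1e Y Z).1 a x d)))
    (funext fun c => bx2_eq _ c .. : b22m2I = _)
    (funext fun c => bx2_eq _ c .. : b22m2X = _)).trans (by eq_refl)

theorem b22_2r_run : b22_2r = run3 8 b22_2P :=
  (cg2 (fun K L => fun Y Z => Bx.mk fun a x d => (K a).1 ((L x).1 ((b22_2e Y Z).1 a x d)))
    (funext fun c => bx2_eq _ c .. : b22m2I = _)
    (funext fun c => bx2_eq _ c .. : b22m2X = _)).trans (by eq_refl)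

theorem b22_3r_run : b22_3r = run3 12 b22_3P :=
  (cg2 (fun K L => fun Y Z => Bx.mk fun a x d => (K a).1 ((L x).1 ((b22_3e Y Z).1 a x d)))
    (funext fun c => bx4_eq _ c .. : b22m4I = _)
    (funext fun c => bx4_eq _ c .. : b22m4X = _)).trans (by eq_refl)

theorem b22_4r_run : b22_4r = run3 16 b22_4P :=
  (cg2 (fun K L => fun Y Z => Bx.mk fun a x d => (K a).1 ((L x).1 ((b22_4e Y Z).1 a x d)))
    (funext fun c => bx4_eq _ c .. : b22m4I = _)
    (funext fun c => bx4_eq _ c .. : b22m4X = _)).trans (by eq_refl)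

theorem b22_5r_run : b22_5r = run3 20 b22_5P :=
  (cg2 (fun K L => fun Y Z => Bx.mk fun a x d => (K a).1 ((L x).1 ((b22_5e Y Z).1 a x d)))
    (funext fun c => bx8_eq _ c .. : b22m8I = _)
    (funext fun c => bx8_eq _ c .. : b22m8X = _)).trans (by eq_refl)

theorem b22_6r_run : b22_6r = run3 24 b22_6P :=
  (cg2 (fun K L => fun Y Z => Bx.mk fun a x d => (K a).1 ((L x).1 ((b22_6e Y Z).1 a x d)))
    (funext fun c => bx8_eq _ c .. : b22m8I = _)
    (funext fun c => bx8_eq _ c .. : b22m8X = _)).trans (by eq_refl)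

theorem b22_7r_run : b22_7r = run3 28 b22_7P :=
  (cg2 (fun K L => fun Y Z => Bx.mk fun a x d => (K a).1 ((L x).1 ((b22_7e Y Z).1 a x d)))
    (funext fun c => bx8_eq _ c .. : b22m8I = _)
    (funext fun c => bx8_eq _ c .. : b22m8X = _)).trans (by eq_refl)

theorem b22_8r_run : b22_8r = run3 32 b22_8P :=
  (cg2 (fun K L => fun Y Z => Bx.mk fun a x d => (K a).1 ((L x).1 ((b22_8e Y Z).1 a x d)))
    (funext fun c => bx8_eq _ c .. : b22m8I = _)
    (funext fun c => bx8_eq _ c .. : b22m8X = _)).trans (by eq_refl)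

theorem b22_9r_run : b22_9r = run3 36 b22_9P :=
  (cg2 (fun K L => fun Y Z => Bx.mk fun a x d => (K a).1 ((L x).1 ((b22_9e Y Z).1 a x d)))
    (funext fun c => bx16_eq _ c .. : b22m16I = _)
    (funext fun c => bx16_eq _ c .. : b22m16X = _)).trans (by eq_refl)

theorem b22_10r_run : b22_10r = run3 40 b22_10P :=
  (cg2 (fun K L => fun Y Z => Bx.mk fun a x d => (K a).1 ((L x).1 ((b22_10e Y Z).1 a x d)))
    (funext fun c => bx16_eq _ c .. : b22m16I = _)
    (funext fun c => bx16_eq _ c .. : b22m16X = _)).trans (by eq_refl)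

theorem b22_11r_run : b22_11r = run3 44 b22_11P :=
  (cg2 (fun K L => fun Y Z => Bx.mk fun a x d => (K a).1 ((L x).1 ((b22_11e Y Z).1 a x d)))
    (funext fun c => bx16_eq _ c .. : b22m16I = _)
    (funext fun c => bx16_eq _ c .. : b22m16X = _)).trans (by eq_refl)

theorem b22_12r_run : b22_12r = run3 48 b22_12P :=
  (cg2 (fun K L => fun Y Z => Bx.mk fun a x d => (K a).1 ((L x).1 ((b22_12e Y Z).1 a x d)))
    (funext fun c => bx16_eq _ c .. : b22m16I = _)
    (funext fun c => bx16_eq _ c .. : b22m16X = _)).trans (by eq_refl)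

theorem b22_13r_run : b22_13r = run3 52 b22_13P :=
  (cg2 (fun K L => fun Y Z => Bx.mk fun a x d => (K a).1 ((L x).1 ((b22_13e Y Z).1 a x d)))
    (funext fun c => bx16_eq _ c .. : b22m16I = _)
    (funext fun c => bx16_eq _ c .. : b22m16X = _)).trans (by eq_refl)

theorem b22_14r_run : b22_14r = run3 56 b22_14P :=
  (cg2 (fun K L => fun Y Z => Bx.mk fun a x d => (K a).1 ((L x).1 ((b22_14e Y Z).1 a x d)))
    (funext fun c => bx16_eq _ c .. : b22m16I = _)
    (funext fun c => bx16_eq _ c .. : b22m16X = _)).trans (by eq_refl)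

theorem b22_15r_run : b22_15r = run3 60 b22_15P :=
  (cg2 (fun K L => fun Y Z => Bx.mk fun a x d => (K a).1 ((L x).1 ((b22_15e Y Z).1 a x d)))
    (funext fun c => bx16_eq _ c .. : b22m16I = _)
    (funext fun c => bx16_eq _ c .. : b22m16X = _)).trans (by eq_refl)

theorem b22_16r_run : b22_16r = run3 64 b22_16P :=
  (cg2 (fun K L => fun Y Z => Bx.mk fun a x d => (K a).1 ((L x).1 ((b22_16e Y Z).1 a x d)))
    (funext fun c => bx16_eq _ c .. : b22m16I = _)
    (funext fun c => bx16_eq _ c .. : b22m16X = _)).trans (by eq_refl)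

theorem b22_17r_run : b22_17r = run3 68 b22_17P :=
  (cg2 (fun K L => fun Y Z => Bx.mk fun a x d => (K a).1 ((L x).1 ((b22_17e Y Z).1 a x d)))
    (funext fun c => bx23_eq _ c .. : b22m24I = _)
    (funext fun c => bx23_eq _ c .. : b22m24X = _)).trans (by eq_refl)

theorem b22_18r_run : b22_18r = run3 72 b22_18P :=
  (cg2 (fun K L => fun Y Z => Bx.mk fun a x d => (K a).1 ((L x).1 ((b22_18e Y Z).1 a x d)))
    (funext fun c => bx23_eq _ c .. : b22m24I = _)
    (funext fun c => bx23_eq _ c .. : b22m24X = _)).trans (by eq_refl)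

theorem b22_19r_run : b22_19r = run3 76 b22_19P :=
  (cg2 (fun K L => fun Y Z => Bx.mk fun a x d => (K a).1 ((L x).1 ((b22_19e Y Z).1 a x d)))
    (funext fun c => bx23_eq _ c .. : b22m24I = _)
    (funext fun c => bx23_eq _ c .. : b22m24X = _)).trans (by eq_refl)

theorem b22_20r_run : b22_20r = run3 80 b22_20P :=
  (cg2 (fun K L => fun Y Z => Bx.mk fun a x d => (K a).1 ((L x).1 ((b22_20e Y Z).1 a x d)))
    (funext fun c => bx23_eq _ c .. : b22m24I = _)
    (funext fun c => bx23_eq _ c .. : b22m24X = _)).trans (by eq_refl)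

theorem b22_21r_run : b22_21r = run3 84 b22_21P :=
  (cg2 (fun K L => fun Y Z => Bx.mk fun a x d => (K a).1 ((L x).1 ((b22_21e Y Z).1 a x d)))
    (funext fun c => bx23_eq _ c .. : b22m24I = _)
    (funext fun c => bx23_eq _ c .. : b22m24X = _)).trans (by eq_refl)

theorem b22_22r_run : b22_22r = run3 88 b22_22P :=
  (cg2 (fun K L => fun Y Z => Bx.mk fun a x d => (K a).1 ((L x).1 ((b22_22e Y Z).1 a x d)))
    (funext fun c => bx23_eq _ c .. : b22m24I = _)
    (funext fun c => bx23_eq _ c .. : b22m24X = _)).trans (by eq_refl)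

theorem b22_23r_run : b22_23r = run3 92 b22_23P :=
  (cg2 (fun K L => fun Y Z => Bx.mk fun a x d => (K a).1 ((L x).1 ((b22_23e Y Z).1 a x d)))
    (funext fun c => bx23_eq _ c .. : b22m24I = _)
    (funext fun c => bx23_eq _ c .. : b22m24X = _)).trans (by eq_refl)

theorem b33_1r_run : b33_1r = run3 13 b33_1P :=
  (cg2 (fun K L => fun Y Z => Bx.mk fun a x d => (K a).1 ((L x).1 ((b33_1e Y Z).1 a x d)))
    (funext fun c => bx1_eq _ c .. : b33m1I = _)
    (funext fun c => bx1_eq _ c .. : b33m1X = _)).trans (by eq_refl)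

theorem b33_2r_run : b33_2r = run3 26 b33_2P :=
  (cg2 (fun K L => fun Y Z => Bx.mk fun a x d => (K a).1 ((L x).1 ((b33_2e Y Z).1 a x d)))
    (funext fun c => bx2_eq _ c .. : b33m2I = _)
    (funext fun c => bx2_eq _ c .. : b33m2X = _)).trans (by eq_refl)

theorem b33_3r_run : b33_3r = run3 39 b33_3P :=
  (cg2 (fun K L => fun Y Z => Bx.mk fun a x d => (K a).1 ((L x).1 ((b33_3e Y Z).1 a x d)))
    (funext fun c => bx4_eq _ c .. : b33m4I = _)
    (funext fun c => bx4_eq _ c .. : b33m4X = _)).trans (by eq_refl)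

theorem b33_4r_run : b33_4r = run3 52 b33_4P :=
  (cg2 (fun K L => fun Y Z => Bx.mk fun a x d => (K a).1 ((L x).1 ((b33_4e Y Z).1 a x d)))
    (funext fun c => bx4_eq _ c .. : b33m4I = _)
    (funext fun c => bx4_eq _ c .. : b33m4X = _)).trans (by eq_refl)

theorem b33_5r_run : b33_5r = run3 65 b33_5P :=
  (cg2 (fun K L => fun Y Z => Bx.mk fun a x d => (K a).1 ((L x).1 ((b33_5e Y Z).1 a x d)))
    (funext fun c => bx7_eq _ c .. : b33m8I = _)
    (funext fun c => bx7_eq _ c .. : b33m8X = _)).trans (by eq_refl)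

theorem b33_6r_run : b33_6r = run3 78 b33_6P :=
  (cg2 (fun K L => fun Y Z => Bx.mk fun a x d => (K a).1 ((L x).1 ((b33_6e Y Z).1 a x d)))
    (funext fun c => bx7_eq _ c .. : b33m8I = _)
    (funext fun c => bx7_eq _ c .. : b33m8X = _)).trans (by eq_refl)

theorem b33_7r_run : b33_7r = run3 91 b33_7P :=
  (cg2 (fun K L => fun Y Z => Bx.mk fun a x d => (K a).1 ((L x).1 ((b33_7e Y Z).1 a x d)))
    (funext fun c => bx7_eq _ c .. : b33m8I = _)
    (funext fun c => bx7_eq _ c .. : b33m8X = _)).trans (by eq_refl)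

theorem b44_1r_run : b44_1r = run3 40 b44_1P :=
  (cg2 (fun K L => fun Y Z => Bx.mk fun a x d => (K a).1 ((L x).1 ((b44_1e Y Z).1 a x d)))
    (funext fun c => bx1_eq _ c .. : b44m1I = _)
    (funext fun c => bx1_eq _ c .. : b44m1X = _)).trans (by eq_refl)

theorem b44_2r_run : b44_2r = run3 80 b44_2P :=
  (cg2 (fun K L => fun Y Z => Bx.mk fun a x d => (K a).1 ((L x).1 ((b44_2e Y Z).1 a x d)))
    (funext fun c => bx2_eq _ c .. : b44m2I = _)
    (funext fun c => bx2_eq _ c .. : b44m2X = _)).trans (by eq_refl)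

theorem b22r_run : b22r = mapW 4 b22P 0 :=
  (cg2 List.cons (zero3_eq 0)
    (cg2 List.cons b22_1r_run
    (cg2 List.cons b22_2r_run
    (cg2 List.cons b22_3r_run
    (cg2 List.cons b22_4r_run
    (cg2 List.cons b22_5r_run
    (cg2 List.cons b22_6r_run
    (cg2 List.cons b22_7r_run
    (cg2 List.cons b22_8r_run
    (cg2 List.cons b22_9r_run
    (cg2 List.cons b22_10r_run
    (cg2 List.cons b22_11r_run
    (cg2 List.cons b22_12r_run
    (cg2 List.cons b22_13r_run
    (cg2 List.cons b22_14r_run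
    (cg2 List.cons b22_15r_run
    (cg2 List.cons b22_16r_run
    (cg2 List.cons b22_17r_run
    (cg2 List.cons b22_18r_run
    (cg2 List.cons b22_19r_run
    (cg2 List.cons b22_20r_run
    (cg2 List.cons b22_21r_run
    (cg2 List.cons b22_22r_run
    (cg2 List.cons b22_23r_run
    rfl)))))))))))))))))))))))).trans (by eq_refl)

theorem b33r_run : b33r = mapW 13 b33P 0 :=
  (cg2 List.cons (zero3_eq 0)
    (cg2 List.cons b33_1r_run
    (cg2 List.cons b33_2r_run
    (cg2 List.cons b33_3r_run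
    (cg2 List.cons b33_4r_run
    (cg2 List.cons b33_5r_run
    (cg2 List.cons b33_6r_run
    (cg2 List.cons b33_7r_run
    rfl)))))))).trans (by eq_refl)

theorem b44r_run : b44r = mapW 40 b44P 0 :=
  (cg2 List.cons (zero3_eq 0)
    (cg2 List.cons b44_1r_run
    (cg2 List.cons b44_2r_run
    rfl))).trans (by eq_refl)

theorem w4_13r_run : w4_13r = run3 40 w4_13P :=
  (cg2 (fun K L => fun Y Z => Bx.mk fun a x d => (K a).1 ((L d).1 ((w4_13e Y Z).1 a x d)))
    (funext fun c => bx9_eq _ c .. : w4_13mI = _)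
    (funext fun c => bs9_eq _ c .. : w4_13mD = _)).trans (by eq_refl)

theorem b14_13r_run : b14_13r = run3 40 b14_13P :=
  (cg2 (fun K L => fun Y Z => Bx.mk fun a x d => (K x).1 ((L d).1 ((b14_13e Y Z).1 a x d)))
    (funext fun c => bx21_eq _ c .. : b14_13mX = _)
    (funext fun c => bs39_eq _ c .. : b14_13mD = _)).trans (by eq_refl)

theorem w1_13_1r_run : w1_13_1r = run3 1 w1_13_1P :=
  (congrArg (fun K => fun Y Z => Bx.mk fun a x d => (K d).1 ((w1_13_1e Y Z).1 a x d))
    (funext fun c => bs1_eq _ c .. : g3cmD = _)).trans (by eq_refl)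

theorem w1_13_2r_run : w1_13_2r = run3 2 w1_13_2P :=
  (congrArg (fun K => fun Y Z => Bx.mk fun a x d => (K d).1 ((w1_13_2e Y Z).1 a x d))
    (funext fun c => bs1_eq _ c .. : w1_13m2D = _)).trans (by eq_refl)

theorem w1_13_3r_run : w1_13_3r = run3 3 w1_13_3P :=
  (congrArg (fun K => fun Y Z => Bx.mk fun a x d => (K d).1 ((w1_13_3e Y Z).1 a x d))
    (funext fun c => bs1_eq _ c .. : w1_13m3D = _)).trans (by eq_refl)

theorem w1_13_4r_run : w1_13_4r = run3 4 w1_13_4P :=
  (congrArg (fun K => fun Y Z => Bx.mk fun a x d => (K d).1 ((w1_13_4e Y Z).1 a x d))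
    (funext fun c => bs1_eq _ c .. : w1_13m4D = _)).trans (by eq_refl)

theorem w1_13_5r_run : w1_13_5r = run3 5 w1_13_5P :=
  (congrArg (fun K => fun Y Z => Bx.mk fun a x d => (K d).1 ((w1_13_5e Y Z).1 a x d))
    (funext fun c => bs1_eq _ c .. : w1_13m5D = _)).trans (by eq_refl)

theorem w1_13_6r_run : w1_13_6r = run3 6 w1_13_6P :=
  (congrArg (fun K => fun Y Z => Bx.mk fun a x d => (K d).1 ((w1_13_6e Y Z).1 a x d))
    (funext fun c => bs1_eq _ c .. : w1_13m6D = _)).trans (by eq_refl)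

theorem w1_13_7r_run : w1_13_7r = run3 7 w1_13_7P :=
  (congrArg (fun K => fun Y Z => Bx.mk fun a x d => (K d).1 ((w1_13_7e Y Z).1 a x d))
    (funext fun c => bs1_eq _ c .. : w1_13m7D = _)).trans (by eq_refl)

theorem w1_13_8r_run : w1_13_8r = run3 8 w1_13_8P :=
  (congrArg (fun K => fun Y Z => Bx.mk fun a x d => (K d).1 ((w1_13_8e Y Z).1 a x d))
    (funext fun c => bs1_eq _ c .. : w1_13m8D = _)).trans (by eq_refl)

theorem w1_13_9r_run : w1_13_9r = run3 9 w1_13_9P :=
  (congrArg (fun K => fun Y Z => Bx.mk fun a x d => (K d).1 ((w1_13_9e Y Z).1 a x d))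
    (funext fun c => bs1_eq _ c .. : w1_13m9D = _)).trans (by eq_refl)

theorem w1_13_10r_run : w1_13_10r = run3 10 w1_13_10P :=
  (congrArg (fun K => fun Y Z => Bx.mk fun a x d => (K d).1 ((w1_13_10e Y Z).1 a x d))
    (funext fun c => bs1_eq _ c .. : w1_13m10D = _)).trans (by eq_refl)

theorem w1_13_11r_run : w1_13_11r = run3 11 w1_13_11P :=
  (congrArg (fun K => fun Y Z => Bx.mk fun a x d => (K d).1 ((w1_13_11e Y Z).1 a x d))
    (funext fun c => bs1_eq _ c .. : w1_13m11D = _)).trans (by eq_refl)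

theorem w1_13_12r_run : w1_13_12r = run3 12 w1_13_12P :=
  (congrArg (fun K => fun Y Z => Bx.mk fun a x d => (K d).1 ((w1_13_12e Y Z).1 a x d))
    (funext fun c => bs1_eq _ c .. : w1_13m12D = _)).trans (by eq_refl)

theorem w1_13r_run : w1_13r = mapW 1 w1_13P 0 :=
  (cg2 List.cons (zero3_eq 0)
    (cg2 List.cons w1_13_1r_run
    (cg2 List.cons w1_13_2r_run
    (cg2 List.cons w1_13_3r_run
    (cg2 List.cons w1_13_4r_run
    (cg2 List.cons w1_13_5r_run
    (cg2 List.cons w1_13_6r_run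
    (cg2 List.cons w1_13_7r_run
    (cg2 List.cons w1_13_8r_run
    (cg2 List.cons w1_13_9r_run
    (cg2 List.cons w1_13_10r_run
    (cg2 List.cons w1_13_11r_run
    (cg2 List.cons w1_13_12r_run
    rfl))))))))))))).trans (by eq_refl)

theorem w4_10r_run : w4_10r = run3 40 w4_10P :=
  (cg2 (fun K L => fun Y Z => Bx.mk fun a x d => (K a).1 ((L d).1 ((w4_10e Y Z).1 a x d)))
    (funext fun c => bx7_eq _ c .. : w4_10mI = _)
    (funext fun c => bs7_eq _ c .. : w4_10mD = _)).trans (by eq_refl)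

theorem b14_10r_run : b14_10r = run3 40 b14_10P :=
  (cg2 (fun K L => fun Y Z => Bx.mk fun a x d => (K x).1 ((L d).1 ((b14_10e Y Z).1 a x d)))
    (funext fun c => bx21_eq _ c .. : b14_13mX = _)
    (funext fun c => bs39_eq _ c .. : b14_13mD = _)).trans (by eq_refl)

theorem w1_10_1r_run : w1_10_1r = run3 1 w1_10_1P :=
  (congrArg (fun K => fun Y Z => Bx.mk fun a x d => (K d).1 ((w1_10_1e Y Z).1 a x d))
    (funext fun c => bs1_eq _ c .. : g3cmD = _)).trans (by eq_refl)

theorem w1_10_2r_run : w1_10_2r = run3 2 w1_10_2P :=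
  (congrArg (fun K => fun Y Z => Bx.mk fun a x d => (K d).1 ((w1_10_2e Y Z).1 a x d))
    (funext fun c => bs1_eq _ c .. : w1_13m2D = _)).trans (by eq_refl)

theorem w1_10_3r_run : w1_10_3r = run3 3 w1_10_3P :=
  (congrArg (fun K => fun Y Z => Bx.mk fun a x d => (K d).1 ((w1_10_3e Y Z).1 a x d))
    (funext fun c => bs1_eq _ c .. : w1_13m3D = _)).trans (by eq_refl)

theorem w1_10_4r_run : w1_10_4r = run3 4 w1_10_4P :=
  (congrArg (fun K => fun Y Z => Bx.mk fun a x d => (K d).1 ((w1_10_4e Y Z).1 a x d))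
    (funext fun c => bs1_eq _ c .. : w1_13m4D = _)).trans (by eq_refl)

theorem w1_10_5r_run : w1_10_5r = run3 5 w1_10_5P :=
  (congrArg (fun K => fun Y Z => Bx.mk fun a x d => (K d).1 ((w1_10_5e Y Z).1 a x d))
    (funext fun c => bs1_eq _ c .. : w1_13m5D = _)).trans (by eq_refl)

theorem w1_10_6r_run : w1_10_6r = run3 6 w1_10_6P :=
  (congrArg (fun K => fun Y Z => Bx.mk fun a x d => (K d).1 ((w1_10_6e Y Z).1 a x d))
    (funext fun c => bs1_eq _ c .. : w1_13m6D = _)).trans (by eq_refl)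

theorem w1_10_7r_run : w1_10_7r = run3 7 w1_10_7P :=
  (congrArg (fun K => fun Y Z => Bx.mk fun a x d => (K d).1 ((w1_10_7e Y Z).1 a x d))
    (funext fun c => bs1_eq _ c .. : w1_13m7D = _)).trans (by eq_refl)

theorem w1_10_8r_run : w1_10_8r = run3 8 w1_10_8P :=
  (congrArg (fun K => fun Y Z => Bx.mk fun a x d => (K d).1 ((w1_10_8e Y Z).1 a x d))
    (funext fun c => bs1_eq _ c .. : w1_13m8D = _)).trans (by eq_refl)

theorem w1_10_9r_run : w1_10_9r = run3 9 w1_10_9P :=
  (congrArg (fun K => fun Y Z => Bx.mk fun a x d => (K d).1 ((w1_10_9e Y Z).1 a x d))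
    (funext fun c => bs1_eq _ c .. : w1_13m9D = _)).trans (by eq_refl)

theorem w1_10r_run : w1_10r = mapW 1 w1_10P 0 :=
  (cg2 List.cons (zero3_eq 0)
    (cg2 List.cons w1_10_1r_run
    (cg2 List.cons w1_10_2r_run
    (cg2 List.cons w1_10_3r_run
    (cg2 List.cons w1_10_4r_run
    (cg2 List.cons w1_10_5r_run
    (cg2 List.cons w1_10_6r_run
    (cg2 List.cons w1_10_7r_run
    (cg2 List.cons w1_10_8r_run
    (cg2 List.cons w1_10_9r_run
    rfl)))))))))).trans (by eq_refl)

theorem w4_5r_run : w4_5r = run3 40 w4_5P :=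
  (cg2 (fun K L => fun Y Z => Bx.mk fun a x d => (K a).1 ((L d).1 ((w4_5e Y Z).1 a x d)))
    (funext fun c => bx7_eq _ c .. : w4_10mI = _)
    (funext fun c => bs7_eq _ c .. : w4_10mD = _)).trans (by eq_refl)

theorem b14_5r_run : b14_5r = run3 40 b14_5P :=
  (cg2 (fun K L => fun Y Z => Bx.mk fun a x d => (K x).1 ((L d).1 ((b14_5e Y Z).1 a x d)))
    (funext fun c => bx21_eq _ c .. : b14_13mX = _)
    (funext fun c => bs37_eq _ c .. : b14_5mD = _)).trans (by eq_refl)

theorem w1_5_1r_run : w1_5_1r = run3 1 w1_5_1P :=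
  (congrArg (fun K => fun Y Z => Bx.mk fun a x d => (K d).1 ((w1_5_1e Y Z).1 a x d))
    (funext fun c => bs1_eq _ c .. : g3cmD = _)).trans (by eq_refl)

theorem w1_5_2r_run : w1_5_2r = run3 2 w1_5_2P :=
  (congrArg (fun K => fun Y Z => Bx.mk fun a x d => (K d).1 ((w1_5_2e Y Z).1 a x d))
    (funext fun c => bs1_eq _ c .. : w1_13m2D = _)).trans (by eq_refl)

theorem w1_5_3r_run : w1_5_3r = run3 3 w1_5_3P :=
  (congrArg (fun K => fun Y Z => Bx.mk fun a x d => (K d).1 ((w1_5_3e Y Z).1 a x d))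
    (funext fun c => bs1_eq _ c .. : w1_13m3D = _)).trans (by eq_refl)

theorem w1_5_4r_run : w1_5_4r = run3 4 w1_5_4P :=
  (congrArg (fun K => fun Y Z => Bx.mk fun a x d => (K d).1 ((w1_5_4e Y Z).1 a x d))
    (funext fun c => bs1_eq _ c .. : w1_13m4D = _)).trans (by eq_refl)

theorem w1_5r_run : w1_5r = mapW 1 w1_5P 0 :=
  (cg2 List.cons (zero3_eq 0)
    (cg2 List.cons w1_5_1r_run
    (cg2 List.cons w1_5_2r_run
    (cg2 List.cons w1_5_3r_run
    (cg2 List.cons w1_5_4r_run
    rfl))))).trans (by eq_refl)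

theorem w4_4r_run : w4_4r = run3 40 w4_4P :=
  (cg2 (fun K L => fun Y Z => Bx.mk fun a x d => (K a).1 ((L d).1 ((w4_4e Y Z).1 a x d)))
    (funext fun c => bx7_eq _ c .. : w4_10mI = _)
    (funext fun c => bs7_eq _ c .. : w4_10mD = _)).trans (by eq_refl)

theorem b14_4r_run : b14_4r = run3 40 b14_4P :=
  (cg2 (fun K L => fun Y Z => Bx.mk fun a x d => (K x).1 ((L d).1 ((b14_4e Y Z).1 a x d)))
    (funext fun c => bx21_eq _ c .. : b14_13mX = _)
    (funext fun c => bs37_eq _ c .. : b14_5mD = _)).trans (by eq_refl)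

theorem w1_4_1r_run : w1_4_1r = run3 1 w1_4_1P :=
  (congrArg (fun K => fun Y Z => Bx.mk fun a x d => (K d).1 ((w1_4_1e Y Z).1 a x d))
    (funext fun c => bs1_eq _ c .. : g3cmD = _)).trans (by eq_refl)

theorem w1_4_2r_run : w1_4_2r = run3 2 w1_4_2P :=
  (congrArg (fun K => fun Y Z => Bx.mk fun a x d => (K d).1 ((w1_4_2e Y Z).1 a x d))
    (funext fun c => bs1_eq _ c .. : w1_13m2D = _)).trans (by eq_refl)

theorem w1_4_3r_run : w1_4_3r = run3 3 w1_4_3P :=
  (congrArg (fun K => fun Y Z => Bx.mk fun a x d => (K d).1 ((w1_4_3e Y Z).1 a x d))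
    (funext fun c => bs1_eq _ c .. : w1_13m3D = _)).trans (by eq_refl)

theorem w1_4r_run : w1_4r = mapW 1 w1_4P 0 :=
  (cg2 List.cons (zero3_eq 0)
    (cg2 List.cons w1_4_1r_run
    (cg2 List.cons w1_4_2r_run
    (cg2 List.cons w1_4_3r_run
    rfl)))).trans (by eq_refl)

end Vale.Agent.P236B
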