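import Vale.Agent.P236B.TR
import Vale.Agent.P236B.PrgT
import Vale.Agent.P236X.Br

/-!
# P236 / B : the programs with three keys and with two keys correspond
-/

namespace Vale.Agent.P236B

open Vale.Agent.P236X

theorem nth_mapW (w : ℕ) (ps : List Pg) (i j : ℕ) :
    nth zero3 (mapW w ps i) j = run3 ((i + j) * w) (ps.getD j .zero) := by
  induction ps generalizing i j with
  | nil => rfl
  | cons h t ih => cases j with
    | zero => rfl
    | succ j => exact (ih (i + 1) j).trans (by rw [Nat.add_right_comm]; rfl)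

theorem nthB_map (ps : List Pg) (j : ℕ) : (nthB (ps.map run2) j).1 = run2 (ps.getD j .zero) := by
  induction ps generalizing j with
  | nil => rfl
  | cons h t ih => cases j with
    | zero => rfl
    | succ j => exact ih j

theorem itB_of {D K : List ℕ} {b c a N w : ℕ} {p : Pg} {l : List Tm} {b3 : Prog3} {b2 : Prog2}
    (h : itT D K b c a N w p l = true) (h3 : b3 = run3 w p) (h2 : b2 = run2 p) : ItB b3 b2 w := by
  simp only [itT, Bool.and_eq_true] at h
  exact ⟨p, 126, h3, h2, h.1.1⟩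

theorem gB_of {D K : List ℕ} {b c a N w i : ℕ} {p : Pg} {l : List Tm} {b3 : Prog3} {b2 : Prog2}
    (h : gT D K b c a N w i p l = true) (h3 : b3 = run3 w p) (h2 : b2 = run2 p) : ItB b3 b2 w := by
  simp only [gT, Bool.and_eq_true] at h
  exact ⟨p, 126, h3, h2, h.1.1⟩

theorem diB_of {n w J : ℕ} {l : List Tm} {ps : List Pg} {l3 : List Prog3} {l2 : List Prog2}
    (h : allP (pwT n w l) ps J = true) (h3 : l3 = mapW w ps 0) (h2 : l2 = ps.map run2)
    (hJ : 94 < (J + 1) * w) : DiB l3 l2 w := by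
  intro j h1 hj
  have h4 := allP_spec h h1 (by
    by_contra h4
    have := Nat.mul_le_mul_right w (show J + 1 ≤ j by omega)
    omega)
  simp only [pwT, Bool.and_eq_true] at h4
  exact ⟨_, 126, by rw [h3, nth_mapW, Nat.zero_add], by rw [h2, nthB_map], h4.1.1⟩

theorem w1B_of {a N : ℕ} {ps : List Pg} {l3 : List Prog3} {l2 : List Prog2}
    (h : allP (w1T a N) ps 94 = true) (h3 : l3 = mapW 1 ps 0) (h2 : l2 = ps.map run2) :
    DiB l3 l2 1 := by
  intro j h1 hj
  have h4 := allP_spec h h1 (show j ≤ 94 by omega)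
  simp only [w1T, Bool.and_eq_true] at h4
  exact ⟨_, 10, by rw [h3, nth_mapW, Nat.zero_add], by rw [h2, nthB_map], h4.1.1⟩

theorem br13 : Br E13p C13 where
  g3 := gB_of g3c_t g3cr_run g3cq_run
  g4 := gB_of g4c_t g4cr_run g4cq_run
  w4 := itB_of w4_13_t w4_13r_run w4_13q_run
  w3 := itB_of w3_13_t w3_13r_run w3_13q_run
  w2 := itB_of w2c_t w2cr_run w2cq_run
  w1 := w1B_of w1_13_t w1_13r_run w1_13q_run
  b44 := diB_of b44_t b44r_run b44q_run (by omega)
  b34 := itB_of b34c_t b34cr_run b34cq_run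
  b33 := diB_of b33_t b33r_run b33q_run (by omega)
  b24 := itB_of b24_13_t b24_13r_run b24_13q_run
  b23 := itB_of b23c_t b23cr_run b23cq_run
  b22 := diB_of b22_t b22r_run b22q_run (by omega)
  b14 := itB_of b14_13_t b14_13r_run b14_13q_run
  b13 := itB_of b13_13_t b13_13r_run b13_13q_run
  b12 := itB_of b12c_t b12cr_run b12cq_run
  b11 := diB_of b11_t b11r_run b11q_run (by omega)

theorem br10 : Br E10p C10 where
  g3 := gB_of g3c_t g3cr_run g3cq_run
  g4 := gB_of g4c_t g4cr_run g4cq_run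
  w4 := itB_of w4_10_t w4_10r_run w4_10q_run
  w3 := itB_of w3_13_t w3_13r_run w3_13q_run
  w2 := itB_of w2c_t w2cr_run w2cq_run
  w1 := w1B_of w1_10_t w1_10r_run w1_10q_run
  b44 := diB_of b44_t b44r_run b44q_run (by omega)
  b34 := itB_of b34c_t b34cr_run b34cq_run
  b33 := diB_of b33_t b33r_run b33q_run (by omega)
  b24 := itB_of b24_13_t b24_13r_run b24_13q_run
  b23 := itB_of b23c_t b23cr_run b23cq_run
  b22 := diB_of b22_t b22r_run b22q_run (by omega)
  b14 := itB_of b14_10_t b14_10r_run b14_10q_run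
  b13 := itB_of b13_13_t b13_13r_run b13_13q_run
  b12 := itB_of b12c_t b12cr_run b12cq_run
  b11 := diB_of b11_t b11r_run b11q_run (by omega)

theorem br5 : Br E5p C5 where
  g3 := gB_of g3c_t g3cr_run g3cq_run
  g4 := gB_of g4c_t g4cr_run g4cq_run
  w4 := itB_of w4_5_t w4_5r_run w4_5q_run
  w3 := itB_of w3_5_t w3_5r_run w3_5q_run
  w2 := itB_of w2c_t w2cr_run w2cq_run
  w1 := w1B_of w1_5_t w1_5r_run w1_5q_run
  b44 := diB_of b44_t b44r_run b44q_run (by omega)
  b34 := itB_of b34c_t b34cr_run b34cq_run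
  b33 := diB_of b33_t b33r_run b33q_run (by omega)
  b24 := itB_of b24_13_t b24_13r_run b24_13q_run
  b23 := itB_of b23c_t b23cr_run b23cq_run
  b22 := diB_of b22_t b22r_run b22q_run (by omega)
  b14 := itB_of b14_5_t b14_5r_run b14_5q_run
  b13 := itB_of b13_13_t b13_13r_run b13_13q_run
  b12 := itB_of b12c_t b12cr_run b12cq_run
  b11 := diB_of b11_t b11r_run b11q_run (by omega)

theorem br4 : Br E4p C4 where
  g3 := gB_of g3c_t g3cr_run g3cq_run
  g4 := gB_of g4c_t g4cr_run g4cq_run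
  w4 := itB_of w4_4_t w4_4r_run w4_4q_run
  w3 := itB_of w3_4_t w3_4r_run w3_4q_run
  w2 := itB_of w2c_t w2cr_run w2cq_run
  w1 := w1B_of w1_4_t w1_4r_run w1_4q_run
  b44 := diB_of b44_t b44r_run b44q_run (by omega)
  b34 := itB_of b34c_t b34cr_run b34cq_run
  b33 := diB_of b33_t b33r_run b33q_run (by omega)
  b24 := itB_of b24_4_t b24_4r_run b24_4q_run
  b23 := itB_of b23c_t b23cr_run b23cq_run
  b22 := diB_of b22_t b22r_run b22q_run (by omega)
  b14 := itB_of b14_4_t b14_4r_run b14_4q_run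
  b13 := itB_of b13_4_t b13_4r_run b13_4q_run
  b12 := itB_of b12c_t b12cr_run b12cq_run
  b11 := diB_of b11_t b11r_run b11q_run (by omega)

end Vale.Agent.P236B
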