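import Vale.Agent.P236B.FSum
import Vale.Agent.P257.H80.HazVV
import Vale.Agent.P257.H134.AddAut

/-!
# P236 / B : the groupoid of Hazewinkel laws

For `v t : ℕ → B` (`v i = v_{i+1}`, `t i = t_{i+1}`), `B` any commutative ring:

* `hz p v` : Hazewinkel's law; `fT p v t = ∑^F t_i x^{p^i}`, `F = hz p v`;
* `eta p v t` (the right unit) : `(fT p v t)⁻¹ • hz p v = hz p (eta p v t)`;
* `del p v t t'` (the coproduct) : `fT p v t * fT p (eta p v t) t' = fT p v (del p v t t')`;
* both are evaluations of universal integral polynomials `etaU`, `delU`.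
-/

noncomputable section

namespace Vale.Agent.P236B

open MvPowerSeries Vale.Agent.P217 Vale.Agent.P251.F Vale.Agent.P257.H80
open Vale.Agent.P257.H93 (addMk IsAdd tc)
open Vale.Agent.P257.H134 (comp)

variable {A B : Type} [CommRing A] [CommRing B] (p : ℕ)

/-- the sequence `1, t 0, t 1, …` -/
def hat (t : ℕ → B) : ℕ → B
  | 0 => 1
  | j + 1 => t j

@[simp] theorem hat_zero (t : ℕ → B) : hat t 0 = 1 := rfl
@[simp] theorem hat_succ (t : ℕ → B) (j : ℕ) : hat t (j + 1) = t j := rfl

theorem map_hat (φ : A →+* B) (t : ℕ → A) (j : ℕ) : φ (hat t j) = hat (fun i => φ (t i)) j := by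
  cases j with
  | zero => exact map_one φ
  | succ j => rfl

theorem map_comp (φ : A →+* B) (g h : ℕ → A) (n : ℕ) :
    φ (comp p g h n) = comp p (fun i => φ (g i)) (fun i => φ (h i)) n := by
  simp only [comp, map_sum, map_mul, map_pow]

theorem comp_range (g h : ℕ → B) (n : ℕ) :
    comp p g h n = ∑ i ∈ Finset.range (n + 1), g i * h (n - i) ^ p ^ i := by
  rw [comp, Finset.Nat.sum_antidiagonal_eq_sum_range_succ_mk]

theorem comp_zero (g h : ℕ → B) : comp p g h 0 = g 0 * h 0 := by simp [comp]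

/-- the point of `ℤ[v_1, v_2, …]` -/
def vH (v : ℕ → B) : MvPolynomial ℕ ℤ →+* B := MvPolynomial.eval₂Hom (Int.castRingHom B) v

@[simp] theorem vH_X (v : ℕ → B) (i : ℕ) : vH v (MvPolynomial.X i) = v i := by simp [vH]

theorem comp_vH (φ : A →+* B) (v : ℕ → A) : φ.comp (vH v) = vH fun i => φ (v i) := by
  apply MvPolynomial.ringHom_ext
  · intro r
    simp
  · intro i
    simp

theorem vH_eq (φ : MvPolynomial ℕ ℤ →+* B) : vH (fun i => φ (MvPolynomial.X i)) = φ := by
  apply MvPolynomial.ringHom_ext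
  · intro r
    simp
  · intro i
    simp

variable [hp : Fact p.Prime]

/-- Hazewinkel's law with parameters `v` -/
def hz (v : ℕ → B) : Law B := (haz p).map (vH v)

theorem map_hz (φ : A →+* B) (v : ℕ → A) : (hz p v).map φ = hz p fun i => φ (v i) := by
  rw [hz, Law.map_map, comp_vH, hz]

theorem hz_xC {v v' : ℕ → B} {k : ℕ} (h : ∀ j < k, v j = v' j) :
    xC (hz p v) (p ^ (k + 1) - 2) - xC (hz p v') (p ^ (k + 1) - 2) = -(v k - v' k) := by
  have h1 := (haz_compare p (φ := vH v) (φ' := vH v') (k := k)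
    (fun j hj => by rw [vH_X, vH_X, h j hj])).2
  rwa [vH_X, vH_X] at h1

theorem hz_injective : Function.Injective (hz p : (ℕ → B) → Law B) := by
  intro v v' h
  funext k
  induction k using Nat.strong_induction_on with
  | _ k ih =>
    have h1 := hz_xC p ih
    rw [h, sub_self] at h1
    exact sub_eq_zero.1 (neg_eq_zero.1 h1.symm)

theorem hz_zero : hz p (fun _ => (0 : B)) = addLaw B := haz_spZ p B

theorem hz_scale (u : Bˣ) (v : ℕ → B) :
    hz p (fun k => (u : B) ^ (p ^ (k + 1) - 1) * v k) = (InvSeries.lin u)⁻¹ • hz p v :=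
  haz_lin p u fun k => by rw [vH_X, vH_X]

/-- `∑^F t_i x^{p^i}` for `F = hz p v` -/
def fT (v t : ℕ → B) : InvSeries B := fS p (hz p v) t

theorem fT_mem (v t : ℕ → B) : fT p v t ∈ strict B := fS_mem p _ _

theorem map_fT (φ : A →+* B) (v t : ℕ → A) :
    InvSeries.map φ (fT p v t) = fT p (fun i => φ (v i)) fun i => φ (t i) := by
  rw [fT, map_fS, map_hz, fT]

theorem fT_injective (v : ℕ → B) : Function.Injective (fT p v) := fS_injective p _

theorem fT_zero (v : ℕ → B) : fT p v (fun _ => 0) = 1 := fS_zero p _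

theorem fT_scale (u : Bˣ) (v t : ℕ → B) :
    fT p (fun k => (u : B) ^ (p ^ (k + 1) - 1) * v k) (fun k => (u : B) ^ (p ^ (k + 1) - 1) * t k) =
      (InvSeries.lin u)⁻¹ * fT p v t * InvSeries.lin u := by
  rw [fT, fT, fS_scale, hz_scale]

/-! ### laws with a `p`-typical logarithm -/

theorem coeff_log_fS {F : Law B} {L : InvSeries B} (hL : L • F = addLaw B) (t : ℕ → B) (k : ℕ) :
    PowerSeries.coeff k (L * fS p F t).val = PowerSeries.coeff k L.val +
      ∑ j ∈ Finset.range k, if p ^ (j + 1) ∣ k then t j ^ (k / p ^ (j + 1)) *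
        PowerSeries.coeff (k / p ^ (j + 1)) L.val else 0 := by
  have h := mem_ordI_unit.1 (log_fS_sub p hL t k) k (by have := lt_pp p k; omega)
  rw [map_sub, sub_eq_zero, map_add, map_sum] at h
  rw [h]
  congr 1
  exact Finset.sum_congr rfl fun j _ => coeff_subst_tm p _ _ _ _ (pow_ne_zero _ hp.out.ne_zero)

theorem isAdd_log_fS {F : Law B} {L : InvSeries B} (hL : L • F = addLaw B) (hA : IsAdd p L)
    (t : ℕ → B) : IsAdd p (L * fS p F t) := by
  intro n hn
  rw [InvSeries.c, coeff_log_fS p hL, hA.coeff hn, zero_add]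
  refine Finset.sum_eq_zero fun j _ => ?_
  split_ifs with hd
  · rw [hA.coeff, mul_zero]
    rintro ⟨k, hk⟩
    refine hn ⟨j + 1 + k, ?_⟩
    rw [pow_add, ← hk, Nat.mul_div_cancel' hd]
  · rfl

theorem tc_log_fS {F : Law B} {L : InvSeries B} (hL : L • F = addLaw B)
    (t : ℕ → B) (n : ℕ) : tc p n (L * fS p F t) = comp p (fun i => tc p i L) (hat t) n := by
  have h0 : comp p (fun i => tc p i L) (hat t) n =
      ∑ j ∈ Finset.range (n + 1), tc p (n - j) L * hat t j ^ p ^ (n - j) := by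
    rw [comp, ← Finset.Nat.sum_antidiagonal_swap,
      Finset.Nat.sum_antidiagonal_eq_sum_range_succ_mk]
    rfl
  rw [h0, tc, coeff_log_fS p hL, Finset.sum_range_succ', Nat.sub_zero, hat_zero, one_pow, mul_one,
    add_comm]
  congr 1
  have hle : n ≤ p ^ n := (Nat.lt_pow_self hp.out.one_lt).le
  rw [← Finset.sum_subset (Finset.range_subset_range.2 hle)]
  · refine Finset.sum_congr rfl fun j hj => ?_
    rw [Finset.mem_range] at hj
    rw [if_pos (pow_dvd_pow p (by omega)), Nat.pow_div (by omega) hp.out.pos, hat_succ, mul_comm]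
    rfl
  · intro j _ hj
    rw [Finset.mem_range] at hj
    rw [if_neg]
    intro hd
    have := (Nat.pow_dvd_pow_iff_le_right hp.out.one_lt).1 hd
    omega

/-! ### `ℚ`-algebras -/

section Q

variable {K : Type} [CommRing K] [Algebra ℚ K]

/-- the coefficients of the logarithm -/
def lq (v : ℕ → K) (n : ℕ) : K := MvPolynomial.aeval v (ell p n)

omit hp in
theorem lq_zero (v : ℕ → K) : lq p v 0 = 1 := by rw [lq, ell_zero, map_one]

theorem lq_succ (v : ℕ → K) (n : ℕ) : (p : K) * lq p v (n + 1) =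
    ∑ i ∈ Finset.range (n + 1), lq p v i * v (n - i) ^ p ^ i := by
  rw [lq, ell_succ, map_mul, map_sum, MvPolynomial.aeval_C, ← mul_assoc,
    ← map_natCast (algebraMap ℚ K), ← map_mul,
    mul_one_div_cancel (by exact_mod_cast hp.out.ne_zero), map_one, one_mul]
  refine Finset.sum_congr rfl fun i _ => ?_
  rw [map_mul, map_pow, MvPolynomial.aeval_X, lq]

theorem p_cancel {a b : K} (h : (p : K) * a = p * b) : a = b := by
  have hu : IsUnit (p : K) := by
    rw [← map_natCast (algebraMap ℚ K)]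
    exact (IsUnit.mk0 _ (by exact_mod_cast hp.out.ne_zero)).map _
  exact hu.mul_left_cancel h

/-- the logarithm -/
def LQ (v : ℕ → K) : InvSeries K :=
  InvSeries.map (MvPolynomial.aeval v : MvPolynomial ℕ ℚ →ₐ[ℚ] K).toRingHom (hazInv p)

theorem hz_eq (v : ℕ → K) : hz p v = (LQ p v)⁻¹ • addLaw K := by
  have h1 : (MvPolynomial.aeval v : MvPolynomial ℕ ℚ →ₐ[ℚ] K).toRingHom.comp hzI = vH v := by
    apply MvPolynomial.ringHom_ext
    · intro r
      simp
    · intro i
      simp
  rw [hz, ← h1, ← Law.map_map, haz_map, hazQ, InvSeries.map_smul, map_inv, map_addLaw, LQ]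

theorem LQ_smul (v : ℕ → K) : LQ p v • hz p v = addLaw K := by rw [hz_eq, smul_inv_smul]

theorem isAdd_LQ (v : ℕ → K) : IsAdd p (LQ p v) := by
  intro n hn
  rw [LQ, InvSeries.c_map, hazInv_c, hazLog_coeff_of_ne p fun m hm => hn ⟨m, hm⟩, map_zero]

theorem tc_LQ (v : ℕ → K) (n : ℕ) : tc p n (LQ p v) = lq p v n := by
  rw [tc, LQ, InvSeries.map_val, PowerSeries.coeff_map]
  change MvPolynomial.aeval v (PowerSeries.coeff (p ^ n) (hazLog p)) = _
  rw [hazLog_coeff_pow, lq]

theorem tc_LQ_fT (v t : ℕ → K) (n : ℕ) :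
    tc p n (LQ p v * fT p v t) = comp p (lq p v) (hat t) n := by
  rw [fT, tc_log_fS p (LQ_smul p v)]
  congr 1
  funext i
  exact tc_LQ p v i

theorem isAdd_LQ_fT (v t : ℕ → K) : IsAdd p (LQ p v * fT p v t) :=
  isAdd_log_fS p (LQ_smul p v) (isAdd_LQ p v) t

theorem exists_lq (g : ℕ → K) (hg : g 0 = 1) : ∃ w : ℕ → K, ∀ n, lq p w n = g n := by
  obtain ⟨w, hw, -⟩ := exists_unique_triangular (B := K) (fun c n => (p : K) * g (n + 1) -
      ∑ i ∈ Finset.range (n + 1), g i * c (n - i) ^ p ^ i) (fun _ => -1)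
      (fun _ => isUnit_one.neg) (by
    intro n c c' h
    rw [Finset.sum_range_succ', Finset.sum_range_succ', Finset.sum_congr rfl
      (g := fun i => g (i + 1) * c' (n - (i + 1)) ^ p ^ (i + 1)) fun i hi => by
        rw [Finset.mem_range] at hi
        rw [h _ (by omega)]]
    simp only [hg, Nat.sub_zero, pow_zero, pow_one]
    ring)
  refine ⟨w, fun n => ?_⟩
  induction n using Nat.strong_induction_on with
  | _ n ih =>
    rcases n with _ | n
    · rw [lq_zero, hg]
    · apply p_cancel p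
      rw [lq_succ, sub_eq_zero.1 (hw n)]
      refine Finset.sum_congr rfl fun i hi => ?_
      rw [Finset.mem_range] at hi
      rw [ih i hi]

/-- the target of `fT` over a `ℚ`-algebra -/
theorem fT_smul_Q (v t w : ℕ → K) (h : ∀ n, lq p w n = comp p (lq p v) (hat t) n) :
    LQ p v * fT p v t = LQ p w :=
  IsAdd.ext (isAdd_LQ_fT p v t) (isAdd_LQ p w) fun n => by rw [tc_LQ_fT, tc_LQ, h]

theorem lq_of_smul {v t w : ℕ → K} (h : (fT p v t)⁻¹ • hz p v = hz p w) (n : ℕ) :
    lq p w n = comp p (lq p v) (hat t) n := by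
  obtain ⟨w', hw'⟩ := exists_lq p (comp p (lq p v) (hat t)) (by
    rw [comp_zero, lq_zero, hat_zero, mul_one])
  have h1 : hz p w' = hz p w := by
    rw [← h, hz_eq p w', ← fT_smul_Q p v t w' hw', mul_inv_rev, mul_smul, ← hz_eq]
  rw [← hz_injective p h1, hw']

theorem exists_eta_Q (v t : ℕ → K) : ∃ w, (fT p v t)⁻¹ • hz p v = hz p w := by
  obtain ⟨w, hw⟩ := exists_lq p (comp p (lq p v) (hat t)) (by
    rw [comp_zero, lq_zero, hat_zero, mul_one])
  exact ⟨w, by rw [hz_eq p w, ← fT_smul_Q p v t w hw, mul_inv_rev, mul_smul, ← hz_eq]⟩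

end Q

omit hp in
theorem comp_hat_sub {l : ℕ → B} (hl : l 0 = 1) {c c' : ℕ → B} {n : ℕ}
    (h : ∀ k < n, c k = c' k) :
    comp p l (hat c) (n + 1) - comp p l (hat c') (n + 1) = c n - c' n := by
  rw [comp_range, comp_range, Finset.sum_range_succ', Finset.sum_range_succ' _ (n + 1),
    Finset.sum_congr rfl (g := fun i => l (i + 1) * hat c' (n + 1 - (i + 1)) ^ p ^ (i + 1))]
  · simp only [hl, Nat.sub_zero, pow_zero, pow_one, hat_succ]
    ring
  · intro i hi
    rw [Finset.mem_range] at hi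
    congr 2
    rcases hk : n + 1 - (i + 1) with _ | k
    · rfl
    · exact h k (by omega)

omit hp in
theorem exists_comp_hat {l : ℕ → B} (hl : l 0 = 1) (g : ℕ → B) (hg : g 0 = 1) :
    ∃ T : ℕ → B, ∀ n, comp p l (hat T) n = g n := by
  obtain ⟨T, hT, -⟩ := exists_unique_triangular (B := B)
    (fun c n => comp p l (hat c) (n + 1) - g (n + 1)) (fun _ => 1) (fun _ => isUnit_one) (by
      intro n c c' h
      rw [one_mul, ← comp_hat_sub p hl h]
      ring)
  refine ⟨T, fun n => ?_⟩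
  rcases n with _ | n
  · rw [comp_zero, hl, hat_zero, hg, mul_one]
  · exact sub_eq_zero.1 (hT n)

section Q

variable {K : Type} [CommRing K] [Algebra ℚ K]

theorem exists_del_Q {v t w : ℕ → K} (h : (fT p v t)⁻¹ • hz p v = hz p w) (t' : ℕ → K) :
    ∃ T, fT p v t * fT p w t' = fT p v T := by
  obtain ⟨T, hT⟩ := exists_comp_hat p (lq_zero p v) (comp p (lq p w) (hat t')) (by
    rw [comp_zero, lq_zero, hat_zero, mul_one])
  refine ⟨T, ?_⟩
  have h1 := fT_smul_Q p v t w (lq_of_smul p h)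
  have h2 : LQ p w * fT p w t' = LQ p v * fT p v T :=
    IsAdd.ext (isAdd_LQ_fT p _ _) (isAdd_LQ_fT p _ _) fun n => by rw [tc_LQ_fT, tc_LQ_fT, hT]
  rw [← h1, mul_assoc] at h2
  exact mul_left_cancel h2

theorem comp_of_mul {v t w t' T : ℕ → K} (h : (fT p v t)⁻¹ • hz p v = hz p w)
    (hT : fT p v t * fT p w t' = fT p v T) (n : ℕ) :
    comp p (lq p v) (hat T) n = comp p (lq p w) (hat t') n := by
  rw [← tc_LQ_fT, ← tc_LQ_fT, ← hT, ← mul_assoc, fT_smul_Q p v t w (lq_of_smul p h)]

end Q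

/-! ### integrality -/

omit hp in
theorem law_map_injective {ι : A →+* B} (hι : Function.Injective ι) {F G : Law A}
    (h : F.map ι = G.map ι) : F = G := by
  apply Law.ext_ps
  ext d
  apply hι
  have h1 := congrArg (fun H : Law B => coeff d H.ps) h
  simpa only [Law.map_ps, coeff_map] using h1

omit hp in
theorem ser_map_injective {ι : A →+* B} (hι : Function.Injective ι) {f g : InvSeries A}
    (h : InvSeries.map ι f = InvSeries.map ι g) : f = g := by
  apply InvSeries.ext_c
  intro n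
  apply hι
  rw [← InvSeries.c_map, ← InvSeries.c_map, h]

omit hp in
theorem exists_lift_seq {ι : A →+* B} (w : ℕ → B)
    (h : ∀ (k : ℕ) (v : ℕ → A), (∀ j < k, ι (v j) = w j) → ∃ a, ι a = w k) :
    ∃ v : ℕ → A, ∀ j, ι (v j) = w j := by
  classical
  have h1 : ∀ k, ∃ a, ι a = w k := by
    intro k
    induction k using Nat.strong_induction_on with
    | _ k ih =>
      refine h k (fun j => if hj : j < k then (ih j hj).choose else 0) fun j hj => ?_
      rw [dif_pos hj]
      exact (ih j hj).choose_spec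
  choose v hv using h1
  exact ⟨v, hv⟩

theorem descend_hz {ι : A →+* B} (hι : Function.Injective ι) {G : Law A} {w : ℕ → B}
    (h : G.map ι = hz p w) : ∃ v, G = hz p v := by
  obtain ⟨v, hv⟩ := exists_lift_seq (ι := ι) w fun k v hv => by
    have h1 := hz_xC p (v := w) (v' := fun j => ι (v j)) (k := k) fun j hj => (hv j hj).symm
    rw [← h, ← map_hz, ← map_xC, ← map_xC] at h1
    refine ⟨v k - (xC G (p ^ (k + 1) - 2) - xC (hz p v) (p ^ (k + 1) - 2)), ?_⟩
    rw [map_sub, map_sub, h1]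
    ring
  refine ⟨v, law_map_injective hι ?_⟩
  rw [h, map_hz, funext hv]

theorem descend_fS {ι : A →+* B} (hι : Function.Injective ι) {F : Law A} {g : InvSeries A}
    {T : ℕ → B} (h : InvSeries.map ι g = fS p (F.map ι) T) : ∃ t, g = fS p F t := by
  obtain ⟨t, ht⟩ := exists_lift_seq (ι := ι) T fun k t ht => by
    have h1 := fS_coeff_sub p (F.map ι) (t := T) (t' := fun j => ι (t j)) (k := k)
      fun j hj => (ht j hj).symm
    rw [← h, ← map_fS, InvSeries.map_val, InvSeries.map_val, PowerSeries.coeff_map,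
      PowerSeries.coeff_map] at h1
    refine ⟨t k + (PowerSeries.coeff (p ^ (k + 1)) g.val -
      PowerSeries.coeff (p ^ (k + 1)) (fS p F t).val), ?_⟩
    rw [map_add, map_sub, h1]
    ring
  refine ⟨t, ser_map_injective hι ?_⟩
  rw [h, map_fS, funext ht]

/-- `ℤ[x] → ℚ[x]` -/
def toQ (τ : Type) : MvPolynomial τ ℤ →+* MvPolynomial τ ℚ := MvPolynomial.map (Int.castRingHom ℚ)

omit hp in
theorem toQ_injective (τ : Type) : Function.Injective (toQ τ) :=
  MvPolynomial.map_injective _ Int.cast_injective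

theorem exists_eta_poly {τ : Type} (v t : ℕ → MvPolynomial τ ℤ) :
    ∃ w, (fT p v t)⁻¹ • hz p v = hz p w := by
  obtain ⟨w, hw⟩ := exists_eta_Q p (fun i => toQ τ (v i)) fun i => toQ τ (t i)
  refine descend_hz p (toQ_injective τ) (w := w) ?_
  rw [InvSeries.map_smul, map_inv, map_fT, map_hz, hw]

theorem exists_del_poly {τ : Type} {v t w : ℕ → MvPolynomial τ ℤ}
    (h : (fT p v t)⁻¹ • hz p v = hz p w) (t' : ℕ → MvPolynomial τ ℤ) :
    ∃ T, fT p v t * fT p w t' = fT p v T := by
  have h1 := congrArg (Law.map (toQ τ)) h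
  rw [InvSeries.map_smul, map_inv, map_fT, map_hz, map_hz] at h1
  obtain ⟨T, hT⟩ := exists_del_Q p h1 fun i => toQ τ (t' i)
  refine descend_fS p (toQ_injective τ) (T := T) ?_
  rw [map_mul, map_fT, map_fT, hT, map_hz, fT]

/-! ### the right unit -/

/-- the universal right unit; `inl i = v_{i+1}`, `inr i = t_{i+1}` -/
def etaU : ℕ → MvPolynomial (ℕ ⊕ ℕ) ℤ :=
  (exists_eta_poly p (fun i => MvPolynomial.X (Sum.inl i))
    fun i => MvPolynomial.X (Sum.inr i)).choose

/-- evaluation at `v`, `t` -/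
def ev2 (v t : ℕ → B) : MvPolynomial (ℕ ⊕ ℕ) ℤ →+* B :=
  MvPolynomial.eval₂Hom (Int.castRingHom B) (Sum.elim v t)

omit hp in
@[simp] theorem ev2_inl (v t : ℕ → B) (i : ℕ) : ev2 v t (MvPolynomial.X (Sum.inl i)) = v i := by
  simp [ev2]

omit hp in
@[simp] theorem ev2_inr (v t : ℕ → B) (i : ℕ) : ev2 v t (MvPolynomial.X (Sum.inr i)) = t i := by
  simp [ev2]

/-- the right unit `η_R (v_{i+1})` -/
def eta (v t : ℕ → B) (i : ℕ) : B := ev2 v t (etaU p i)

/-- **the target of the isomorphism** -/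
theorem eta_spec (v t : ℕ → B) : (fT p v t)⁻¹ • hz p v = hz p (eta p v t) := by
  have h := congrArg (Law.map (ev2 v t)) (exists_eta_poly p
    (fun i => MvPolynomial.X (Sum.inl i)) fun i => MvPolynomial.X (Sum.inr i)).choose_spec
  rw [InvSeries.map_smul, map_inv, map_fT, map_hz, map_hz] at h
  simp only [ev2_inl, ev2_inr] at h
  exact h

theorem fT_smul (v t : ℕ → B) : fT p v t • hz p (eta p v t) = hz p v := by
  rw [← eta_spec, smul_inv_smul]

theorem eq_eta {v t w : ℕ → B} (h : (fT p v t)⁻¹ • hz p v = hz p w) : w = eta p v t :=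
  hz_injective p (h.symm.trans (eta_spec p v t))

theorem map_eta (φ : A →+* B) (v t : ℕ → A) (i : ℕ) :
    φ (eta p v t i) = eta p (fun j => φ (v j)) (fun j => φ (t j)) i := by
  have h := congrArg (Law.map φ) (eta_spec p v t)
  rw [InvSeries.map_smul, map_inv, map_fT, map_hz, map_hz] at h
  exact congrFun (eq_eta p h) i

theorem eta_zero (v : ℕ → B) : eta p v (fun _ => 0) = v :=
  (eq_eta p (by rw [fT_zero, inv_one, one_smul])).symm

theorem eta_scale (u : Bˣ) (v t : ℕ → B) :
    eta p (fun k => (u : B) ^ (p ^ (k + 1) - 1) * v k)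
      (fun k => (u : B) ^ (p ^ (k + 1) - 1) * t k) =
      fun k => (u : B) ^ (p ^ (k + 1) - 1) * eta p v t k := by
  refine (eq_eta p ?_).symm
  rw [fT_scale, hz_scale, hz_scale, ← eta_spec, mul_inv_rev, mul_inv_rev, inv_inv, mul_smul,
    mul_smul, smul_inv_smul]

/-! ### the coproduct -/

/-- the universal coproduct; `inl (inl i) = v_{i+1}`, `inl (inr i) = t_{i+1}`, `inr i = t'_{i+1}` -/
def delU : ℕ → MvPolynomial ((ℕ ⊕ ℕ) ⊕ ℕ) ℤ :=
  (exists_del_poly p (eta_spec p (fun i => MvPolynomial.X (Sum.inl (Sum.inl i)))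
    fun i => MvPolynomial.X (Sum.inl (Sum.inr i))) fun i => MvPolynomial.X (Sum.inr i)).choose

/-- evaluation at `v`, `t`, `t'` -/
def ev3 (v t t' : ℕ → B) : MvPolynomial ((ℕ ⊕ ℕ) ⊕ ℕ) ℤ →+* B :=
  MvPolynomial.eval₂Hom (Int.castRingHom B) (Sum.elim (Sum.elim v t) t')

omit hp in
@[simp] theorem ev3_v (v t t' : ℕ → B) (i : ℕ) :
    ev3 v t t' (MvPolynomial.X (Sum.inl (Sum.inl i))) = v i := by simp [ev3]

omit hp in
@[simp] theorem ev3_t (v t t' : ℕ → B) (i : ℕ) :
    ev3 v t t' (MvPolynomial.X (Sum.inl (Sum.inr i))) = t i := by simp [ev3]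

omit hp in
@[simp] theorem ev3_t' (v t t' : ℕ → B) (i : ℕ) :
    ev3 v t t' (MvPolynomial.X (Sum.inr i)) = t' i := by simp [ev3]

/-- the coproduct `Δ (t_{i+1})` -/
def del (v t t' : ℕ → B) (i : ℕ) : B := ev3 v t t' (delU p i)

/-- **the composition of two isomorphisms** -/
theorem del_spec (v t t' : ℕ → B) :
    fT p v t * fT p (eta p v t) t' = fT p v (del p v t t') := by
  have h := congrArg (InvSeries.map (ev3 v t t')) (exists_del_poly p
    (eta_spec p (fun i => MvPolynomial.X (Sum.inl (Sum.inl i)))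
    fun i => MvPolynomial.X (Sum.inl (Sum.inr i))) fun i => MvPolynomial.X (Sum.inr i)).choose_spec
  rw [map_mul, map_fT, map_fT, map_fT] at h
  simp only [map_eta, ev3_v, ev3_t, ev3_t'] at h
  exact h

theorem eq_del {v t t' T : ℕ → B} (h : fT p v t * fT p (eta p v t) t' = fT p v T) :
    T = del p v t t' := fT_injective p v (h.symm.trans (del_spec p v t t'))

theorem map_del (φ : A →+* B) (v t t' : ℕ → A) (i : ℕ) :
    φ (del p v t t' i) = del p (fun j => φ (v j)) (fun j => φ (t j)) (fun j => φ (t' j)) i := by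
  have h := congrArg (InvSeries.map φ) (del_spec p v t t')
  rw [map_mul, map_fT, map_fT, map_fT] at h
  simp only [map_eta] at h
  exact congrFun (eq_del p h) i

theorem eta_del (v t t' : ℕ → B) : eta p v (del p v t t') = eta p (eta p v t) t' := by
  refine (eq_eta p ?_).symm
  rw [← del_spec, mul_inv_rev, mul_smul, eta_spec, eta_spec]

theorem del_assoc (v t t' t'' : ℕ → B) :
    del p v (del p v t t') t'' = del p v t (del p (eta p v t) t' t'') := by
  apply eq_del
  rw [← del_spec, ← del_spec, ← del_spec, eta_del, mul_assoc]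

theorem del_zero_left (v t : ℕ → B) : del p v (fun _ => 0) t = t :=
  (eq_del p (by rw [fT_zero, one_mul, eta_zero])).symm

theorem del_zero_right (v t : ℕ → B) : del p v t (fun _ => 0) = t :=
  (eq_del p (by rw [fT_zero, mul_one])).symm

theorem del_scale (u : Bˣ) (v t t' : ℕ → B) :
    del p (fun k => (u : B) ^ (p ^ (k + 1) - 1) * v k)
      (fun k => (u : B) ^ (p ^ (k + 1) - 1) * t k) (fun k => (u : B) ^ (p ^ (k + 1) - 1) * t' k) =
      fun k => (u : B) ^ (p ^ (k + 1) - 1) * del p v t t' k := by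
  refine (eq_del p ?_).symm
  rw [eta_scale, fT_scale, fT_scale, fT_scale, ← del_spec]
  group

end Vale.Agent.P236B

end
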